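import Vale.Agent.P370.DensA

/-!
The infimum over the core equals the infimum over the form domain.
-/

namespace Vale.Agent.P370

open MeasureTheory Function Set Filter Topology

variable {N : ℕ}

lemma sq_diff_le (a b : ℂ) {t : ℝ} (ht : 0 < t) :
    |‖b‖ ^ 2 - ‖a‖ ^ 2| ≤ t * ‖a‖ ^ 2 + (1 + 1 / t) * ‖b - a‖ ^ 2 := by
  have h1 := abs_le.1 (abs_norm_sub_norm_le b a)
  have h2 : 2 * ‖a‖ * ‖b - a‖ ≤ t * ‖a‖ ^ 2 + 1 / t * ‖b - a‖ ^ 2 := by
    have : 0 ≤ (t * ‖a‖ - ‖b - a‖) ^ 2 / t := by positivity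
    have e : (t * ‖a‖ - ‖b - a‖) ^ 2 / t =
      t * ‖a‖ ^ 2 + 1 / t * ‖b - a‖ ^ 2 - 2 * ‖a‖ * ‖b - a‖ := by field_simp; ring
    linarith
  have ha := norm_nonneg a
  have hb := norm_nonneg b
  have hd := norm_nonneg (b - a)
  rw [abs_le]
  constructor <;> nlinarith

lemma tendsto_w {w : (Fin N → Pt) → ℝ} (hw : ∀ x, 0 ≤ w x) {a : (Fin N → Pt) → ℂ}
    {b : ℕ → (Fin N → Pt) → ℂ} (ha : Integrable fun x => w x * ‖a x‖ ^ 2)
    (hb : ∀ n, Integrable fun x => w x * ‖b n x‖ ^ 2)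
    (hd : ∀ n, Integrable fun x => w x * ‖b n x - a x‖ ^ 2)
    (h : Tendsto (fun n => ∫ x, w x * ‖b n x - a x‖ ^ 2) atTop (𝓝 0)) :
    Tendsto (fun n => ∫ x, w x * ‖b n x‖ ^ 2) atTop (𝓝 (∫ x, w x * ‖a x‖ ^ 2)) := by
  refine Metric.tendsto_nhds.2 fun δ hδ => ?_
  have hA : 0 ≤ ∫ x, w x * ‖a x‖ ^ 2 := integral_nonneg fun x => mul_nonneg (hw x) (sq_nonneg _)
  have ht : 0 < δ / 2 / ((∫ x, w x * ‖a x‖ ^ 2) + 1) := by positivity
  have e : δ / 2 / ((∫ x, w x * ‖a x‖ ^ 2) + 1) * ((∫ x, w x * ‖a x‖ ^ 2) + 1) = δ / 2 :=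
    div_mul_cancel₀ _ (by positivity)
  generalize δ / 2 / ((∫ x, w x * ‖a x‖ ^ 2) + 1) = t at ht e
  have h2 := h.const_mul (1 + 1 / t)
  rw [mul_zero] at h2
  filter_upwards [h2.eventually (gt_mem_nhds (half_pos hδ))] with n hn
  have i1 := ha.const_mul t
  have i2 := (hd n).const_mul (1 + 1 / t)
  rw [Real.dist_eq, ← integral_sub (hb n) ha]
  refine (abs_integral_le_integral_abs.trans (integral_mono ((hb n).sub ha).abs (i1.add i2)
    fun x => ?_)).trans_lt ?_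
  · have := mul_le_mul_of_nonneg_left (sq_diff_le (a x) (b n x) ht) (hw x)
    simp only [Pi.add_apply, Pi.sub_apply]
    rw [← mul_sub, abs_mul, abs_of_nonneg (hw x)]
    linarith
  · rw [integral_add' i1 i2, integral_const_mul, integral_const_mul]
    linarith

lemma tendsto_sq {a : (Fin N → Pt) → ℂ} {b : ℕ → (Fin N → Pt) → ℂ} (ha : MemLp a 2)
    (hb : ∀ n, MemLp (b n) 2) (h : Tendsto (fun n => ∫ x, ‖b n x - a x‖ ^ 2) atTop (𝓝 0)) :
    Tendsto (fun n => ∫ x, ‖b n x‖ ^ 2) atTop (𝓝 (∫ x, ‖a x‖ ^ 2)) := by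
  simpa using tendsto_w (w := fun _ => 1) (fun _ => zero_le_one) (by simpa using MemLp.isq ha)
    (fun n => by simpa using MemLp.isq (hb n))
    (fun n => by simpa using MemLp.isq ((hb n).sub ha)) (by simpa using h)

lemma Hd.tendsto {w : (Fin N → Pt) → ℝ} {C : ℝ} (h : Hd w C) (hC : 0 ≤ C)
    {a : (Fin N → Pt) → ℂ} {A : Fin N → Fin 3 → (Fin N → Pt) → ℂ} {b : ℕ → (Fin N → Pt) → ℂ}
    {B : ℕ → Fin N → Fin 3 → (Fin N → Pt) → ℂ} (ha : InH1 a A) (hb : ∀ n, InH1 (b n) (B n))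
    (h1 : Tendsto (fun n => ∫ x, ‖b n x - a x‖ ^ 2) atTop (𝓝 0))
    (h2 : ∀ i k, Tendsto (fun n => ∫ x, ‖B n i k x - A i k x‖ ^ 2) atTop (𝓝 0)) :
    Tendsto (fun n => ∫ x, ‖b n x‖ ^ 2 / (w x)⁻¹) atTop (𝓝 (∫ x, ‖a x‖ ^ 2 / (w x)⁻¹)) := by
  simp only [div_inv_eq_mul, mul_comm _ (w _)]
  refine tendsto_w h.2.1 (h.h1 hC ha).1 (fun n => (h.h1 hC (hb n)).1)
    (fun n => (h.h1 hC ((hb n).sub ha)).1) (squeeze_zero (fun n => integral_nonneg fun x =>
      mul_nonneg (h.2.1 x) (sq_nonneg _)) (fun n => (h.h1 hC ((hb n).sub ha)).2) ?_)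
  simpa using (h1.add (tendsto_finset_sum Finset.univ fun i _ =>
    tendsto_finset_sum Finset.univ fun k _ => h2 i k)).const_mul (4 * C)

lemma core_scale (nuc : List (Pt × ℝ)) {Φ : Wave N} (h : Core Φ) (t : ℝ) :
    Core (fun s x => (t : ℂ) * Φ s x) ∧ normSq (fun s x => (t : ℂ) * Φ s x) = t ^ 2 * normSq Φ ∧
      energy nuc (fun s x => (t : ℂ) * Φ s x) = t ^ 2 * energy nuc Φ := by
  have e : ∀ z : ℂ, ‖(t : ℂ) * z‖ ^ 2 = t ^ 2 * ‖z‖ ^ 2 := fun z => by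
    rw [norm_mul, mul_pow, Complex.norm_real, Real.norm_eq_abs, sq_abs]
  refine ⟨⟨fun s => ⟨contDiff_const.mul (h.1 s).1, (h.1 s).2.mul_left⟩, fun π s x => ?_⟩, ?_, ?_⟩
  · simp only [h.2 π s x]; ring
  · simp only [normSq, e, integral_const_mul, Finset.mul_sum]
  · have d : ∀ s x v, fderiv ℝ (fun x => (t : ℂ) * Φ s x) x v = t * fderiv ℝ (Φ s) x v :=
      fun s x v => by
        rw [fderiv_const_mul ((h.1 s).1.differentiable one_ne_zero x)]; rfl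
    simp only [energy, d, e, mul_div_assoc, integral_const_mul, Finset.mul_sum, mul_add, mul_sub,
      mul_ite, mul_zero, ← List.sum_map_mul_left, mul_left_comm (t ^ 2)]

lemma ground_le_div (nuc : List (Pt × ℝ)) {Φ : Wave N} (h : Core Φ) (h0 : 0 < normSq Φ) :
    ground N nuc ≤ ((energy nuc Φ / normSq Φ : ℝ) : EReal) := by
  obtain ⟨h1, h2, h3⟩ := core_scale nuc h (√(normSq Φ))⁻¹
  rw [inv_pow, Real.sq_sqrt h0.le] at h2 h3
  rw [inv_mul_cancel₀ h0.ne'] at h2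
  rw [div_eq_inv_mul, ← h3]
  exact iInf_le_of_le ⟨_, h1, h2⟩ le_rfl

theorem groundH_eq (N : ℕ) (nuc : List (Pt × ℝ)) : groundH N nuc = ground N nuc := by
  refine le_antisymm (le_iInf fun Ψ => iInf_le_of_le ⟨(Ψ.1, fun s i k x =>
    fderiv ℝ (Ψ.1 s) x (dirn i k)), ⟨fun s => inH1_of_c1 (Ψ.2.1.1 s).1 (Ψ.2.1.1 s).2,
      fun π s => ae_of_all _ fun x => Ψ.2.1.2 π s x⟩, Ψ.2.2⟩ le_rfl) (le_iInf ?_)
  rintro ⟨⟨Ψ, G⟩, hD, h1⟩
  obtain ⟨C, hC, hd⟩ := hd_coulomb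
  choose Φ c1 c2 using fun n : ℕ => hD.approx (Nat.one_div_pos_of_nat (α := ℝ) (n := n))
  have hH := fun n s => inH1_of_c1 ((c1 n).1 s).1 ((c1 n).1 s).2
  have z := tendsto_one_div_add_atTop_nhds_zero_nat (𝕜 := ℝ)
  have t1 := fun s => squeeze_zero (fun n => integral_nonneg fun x => sq_nonneg _)
    (fun n => (c2 n s).1) z
  have t2 := fun s i k => squeeze_zero (fun n => integral_nonneg fun x => sq_nonneg _)
    (fun n => (c2 n s).2 i k) z
  have tn : Tendsto (fun n => normSq (Φ n)) atTop (𝓝 1) := by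
    rw [← h1]
    exact tendsto_finset_sum _ fun s _ => tendsto_sq (hD.1 s).1 (fun n => (hH n s).1) (t1 s)
  have te : Tendsto (fun n => energy nuc (Φ n)) atTop (𝓝 (form nuc Ψ G)) := by
    refine tendsto_finset_sum _ fun s _ => Tendsto.add (Tendsto.sub (Tendsto.const_mul _
      (tendsto_finset_sum _ fun i _ => tendsto_finset_sum _ fun k _ =>
        tendsto_sq ((hD.1 s).2 i k).1 (fun n => ((hH n s).2 i k).1) (t2 s i k)))
      (tendsto_finset_sum _ fun i _ => tendsto_list_sum _ fun p _ => Tendsto.const_mul _ ?_))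
      (tendsto_finset_sum _ fun i _ => tendsto_finset_sum _ fun j _ => ?_)
    · simpa only [ker, inv_inv] using
        ((hd N).1 i p.1).tendsto hC (hD.1 s) (fun n => hH n s) (t1 s) (t2 s)
    · split_ifs with hij
      · simpa only [ker, inv_inv] using
          ((hd N).2 i j hij.ne).tendsto hC (hD.1 s) (fun n => hH n s) (t1 s) (t2 s)
      · exact tendsto_const_nhds
  have tq := te.div tn one_ne_zero
  rw [div_one] at tq
  refine ge_of_tendsto (continuous_coe_real_ereal.continuousAt.tendsto.comp tq) ?_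
  filter_upwards [tn.eventually (lt_mem_nhds one_pos)] with n hn
  exact ground_le_div nuc (c1 n) hn

theorem Inst.ground_eq (I : Inst) : I.ground = I.E0 := groundH_eq _ _

end Vale.Agent.P370
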