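import Vale.Agent.P370.OB

/-!
The geometry of the reduction: rectangular features, the weight `m`, the planar potential `v`,
the smooth correction `F`, and the orbitals. All lengths are powers of the size parameter `n`.
-/

namespace Vale.Agent.P370

open MeasureTheory

/-- A feature: weight, centre and half-size in `x`, centre and half-size in `y`. -/
abbrev Feat := ℚ × ℚ × ℚ × ℚ × ℚ

section Field

variable (K : Type) [Field K] [CharZero K]

/-- The plateau function. -/
def pp (k : ℕ) (t : K) : K := 1 / (1 + t ^ (2 * k))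

/-- Its first derivative. -/
def pp1 (k : ℕ) (t : K) : K := -(2 * k * t ^ (2 * k - 1) * pp K k t ^ 2)

/-- Its second derivative. -/
def pp2 (k : ℕ) (t : K) : K :=
  -(2 * k * (2 * k - 1) * t ^ (2 * k - 2) * pp K k t ^ 2) +
    8 * k ^ 2 * t ^ (4 * k - 2) * pp K k t ^ 3

/-- Sum over features of products of one-variable functions. -/
def fsum (fs : List Feat) (P Q : K → K → K) (x y : K) : K :=
  (fs.map fun f => (f.1 : K) * P ((x - f.2.1) / f.2.2.1) f.2.2.1 *
    Q ((y - f.2.2.2.1) / f.2.2.2.2) f.2.2.2.2).sum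

/-- The weight. -/
def mK (k : ℕ) (fs : List Feat) (x y : K) : K :=
  fsum K fs (fun t _ => pp K k t) (fun t _ => pp K k t) x y

/-- The planar potential `Δ √m / (2 √m)`. -/
def vK (k : ℕ) (fs : List Feat) (x y : K) : K :=
  (fsum K fs (fun t h => pp2 K k t / h ^ 2) (fun t _ => pp K k t) x y +
      fsum K fs (fun t _ => pp K k t) (fun t h => pp2 K k t / h ^ 2) x y) / (4 * mK K k fs x y) -
    (fsum K fs (fun t h => pp1 K k t / h) (fun t _ => pp K k t) x y ^ 2 +
      fsum K fs (fun t _ => pp K k t) (fun t h => pp1 K k t / h) x y ^ 2) / (8 * mK K k fs x y ^ 2)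

/-- The correction of the potential before the final cutoff. -/
def FK (k : ℕ) (fs : List Feat) (κ l : ℕ) (x y z : K) : K :=
  (vK K k fs x y - κ) * (pp K k (x / l) * pp K k (y / l) * pp K k (z / 4))

end Field

/-- Design data: size parameter, number of molecules, stations (pairs of rows), link weight. -/
structure Geo where
  /-- size parameter -/
  n : ℕ
  /-- molecules -/
  M : ℕ
  /-- stations -/
  st : List (ℕ × ℕ)
  /-- weight of the weak links -/
  w : ℚ

namespace Geo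

variable (G : Geo)

/-- Wells per arm. -/
def J : ℕ := G.n ^ 4
/-- Row spacing. -/
def d : ℕ := G.n ^ 6
/-- Station spacing. -/
def D : ℕ := G.n ^ 18
/-- Link length. -/
def Lk : ℕ := G.n ^ 5
/-- Core size. -/
def l : ℕ := G.n ^ 26
/-- Exponent of the plateau function. -/
def k : ℕ := G.n ^ 50
/-- Square root of the background density. -/
def om : ℕ := G.n ^ 110
/-- Length of the wires. -/
def X : ℕ := G.D * (G.st.length + 1)

/-- A well. -/
def well (s a : ℕ) : Feat := (1, (G.D * (s + 1) : ℕ), 1, (G.d * a : ℕ), 1)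
/-- A wire. -/
def wire (a : ℕ) : Feat := (1 / (G.n : ℚ) ^ 50, G.X / 2, G.X / 2, (G.d * a : ℕ), 1)
/-- A weak link. -/
def link (a : ℕ) : Feat := (G.w, -(G.Lk / 2), G.Lk / 2 + 1, (G.d * a : ℕ), 1)
/-- A hub. -/
def hub (m : ℕ) : Feat :=
  (G.w * (G.n : ℚ) ^ 60, -(G.Lk + 1), 1, (G.d * (3 * m + 1) : ℕ), G.d + 1)

/-- The wells: station `s` with rows `(a, b)` has a well in row `a` and, if `b ≠ a`, in row `b`. -/
def wells : List Feat :=
  (List.range G.st.length).flatMap fun s =>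
    bif (G.st.getD s (0, 0)).1 == (G.st.getD s (0, 0)).2 then [G.well s (G.st.getD s (0, 0)).1]
    else [G.well s (G.st.getD s (0, 0)).1, G.well s (G.st.getD s (0, 0)).2]

/-- All features. -/
def feats : List Feat :=
  G.wells ++ (List.range (3 * G.M)).map G.wire ++ (List.range (3 * G.M)).map G.link ++
    (List.range G.M).map G.hub

/-- Standing hypotheses; `V` is the table of couplings between rows. -/
structure OK (V : ℕ → ℕ → ℕ) : Prop where
  M_pos : 1 ≤ G.M
  M_le : G.M ≤ G.n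
  len : G.st.length ≤ G.n ^ 6
  mem : ∀ p ∈ G.st, p.1 ≤ p.2 ∧ p.2 < 3 * G.M
  wells_eq : ∀ a < 3 * G.M, G.st.countP (fun p => p.1 == a || p.2 == a) = G.J
  pair_eq : ∀ a b, a < b → b < 3 * G.M → G.st.count (a, b) = V a b * (b - a)
  symm : ∀ a b, V a b = V b a
  V_le : ∀ a b, V a b ≤ G.n
  w_ge : (G.n : ℚ) ^ 300 / 2 ^ G.n ≤ G.w
  w_le : G.w ≤ 1 / (G.n : ℚ) ^ 300

/-- The weight on space. -/
noncomputable def m (x : Pt) : ℝ := mK ℝ G.k G.feats (x 0) (x 1)
/-- The planar potential on space. -/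
noncomputable def v (x : Pt) : ℝ := vK ℝ G.k G.feats (x 0) (x 1)
/-- Depth of the core. -/
def κ : ℕ := 5 * G.om
/-- Background density. -/
def ρ : ℕ := G.om ^ 2
/-- Confinement frequency: `Ω ^ 2 = 4 π ρ`. -/
noncomputable def Ω : ℝ := 2 * √Real.pi * G.om
/-- The correction before the cutoff. -/
noncomputable def F0 (x : Pt) : ℝ := FK ℝ G.k G.feats G.κ G.l (x 0) (x 1) (x 2)

end Geo

/-- Smooth plateau: one for `|t| ≤ a`, zero for `a + 1 ≤ |t|`. -/
noncomputable def bmp (a t : ℝ) : ℝ :=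
  Real.smoothTransition (a + 1 - t) * Real.smoothTransition (a + 1 + t)

/-- Truncated identity. -/
noncomputable def tau (z : ℝ) : ℝ := ∫ t in (0 : ℝ)..z, bmp 8 t

/-- Truncated square. -/
noncomputable def Tau (z : ℝ) : ℝ := ∫ t in (0 : ℝ)..z, tau t

namespace Geo

variable (G : Geo)

/-- The correction of the potential. -/
noncomputable def F (x : Pt) : ℝ :=
  G.F0 x * (bmp (2 * G.l + 1) (x 0) * bmp (2 * G.l + 1) (x 1) * bmp 8 (x 2))

/-- The reference state. -/
noncomputable def φ0 (x : Pt) : ℝ := √(G.m x) * Real.exp (-(G.Ω * Tau (x 2)))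

/-- The reference potential `Δ φ0 / (2 φ0)`. -/
noncomputable def Vref (x : Pt) : ℝ :=
  G.v x + (G.Ω ^ 2 * tau (x 2) ^ 2 - G.Ω * bmp 8 (x 2)) / 2

/-- The region of row `r`. -/
def A (r : ℕ) : Set Pt :=
  {x | -1 ≤ x 0 ∧ x 0 ≤ G.l / 4 ∧ |x 1 - G.d * r| ≤ G.d / 4 ∧ |x 2| ≤ 1}

/-- Mass of row `r`. -/
noncomputable def mass (r : ℕ) : ℝ := ∫ x in G.A r, G.φ0 x ^ 2

/-- Sharp orbitals. -/
noncomputable def φ (a : Arm G.M) : Pt → ℝ :=
  (G.A (row a)).indicator fun x => G.φ0 x / √(G.mass (row a))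

/-- Linear ramp along the links, zero left of `1 - Lk` and one right of `-1`. -/
noncomputable def ramp (t : ℝ) : ℝ :=
  (∫ u in (1 - G.Lk : ℝ)..t, bmp (G.Lk / 2 - 2) (u + G.Lk / 2)) /
    ∫ u in (1 - G.Lk : ℝ)..(-1), bmp (G.Lk / 2 - 2) (u + G.Lk / 2)

/-- Profile of the smooth orbitals. -/
noncomputable def θ (a : Arm G.M) (x : Pt) : ℝ :=
  bmp (G.l / 4) (x 0) * bmp 1 (x 2) *
    (G.ramp (x 0) * bmp (G.d / 4) (x 1 - G.d * row a) +
      (1 - G.ramp (x 0)) / 3 * bmp (5 * G.d / 4) (x 1 - G.d * (3 * a.1.val + 1)))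

/-- Smooth orbitals. -/
noncomputable def η (a : Arm G.M) (x : Pt) : ℝ := G.φ0 x * G.θ a x / √(G.mass (row a))

/-- Hopping amplitude. -/
noncomputable def T : ℝ := G.w / (4 * G.Lk * G.J)

/-- Target Coulomb matrix. -/
noncomputable def Vm (V : ℕ → ℕ → ℕ) (a b : Arm G.M) : ℝ :=
  if a = b then cU / G.J else V (row a) (row b) / (G.J ^ 2 * G.d)

/-- A potential that is close to the reference potential in the core and larger outside. -/
structure Near (U : Pt → ℝ) (E e : ℝ) : Prop where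
  meas : Measurable U
  bdd : ∃ C, ∀ x, |U x| ≤ C
  ge : ∀ x, E + G.Vref x - e ≤ U x
  out : ∀ x, x ∉ box G.l G.l 4 → E + G.Vref x + 1 / 2 ≤ U x
  le : ∀ x ∈ box (G.l / 2) (G.l / 2) 2, U x ≤ E + G.Vref x + e

end Geo

end Vale.Agent.P370
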