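import Vale.Agent.P370.Ev

/-!
Plateau functions and truncated powers.
-/

namespace Vale.Agent.P370

open MeasureTheory Set
open scoped ContDiff

lemma ma_den (k : ℕ) (t : ℝ) : 0 < 1 + t ^ (2 * k) := by rw [pow_mul]; positivity
lemma ma_abs (k : ℕ) (t : ℝ) : t ^ (2 * k) = |t| ^ (2 * k) := by rw [pow_mul, pow_mul, sq_abs]
lemma pp_pos (k : ℕ) (t : ℝ) : 0 < pp ℝ k t := one_div_pos.2 (ma_den k t)
lemma pp_le_one (k : ℕ) (t : ℝ) : pp ℝ k t ≤ 1 := by
  rw [pp, div_le_one (ma_den k t), pow_mul]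
  have : 0 ≤ (t ^ 2) ^ k := by positivity
  linarith
lemma pp_neg (k : ℕ) (t : ℝ) : pp ℝ k (-t) = pp ℝ k t := by
  rw [pp, pp, ma_abs, abs_neg, ← ma_abs]
lemma pp_anti (k : ℕ) {s t : ℝ} (h : |s| ≤ |t|) : pp ℝ k t ≤ pp ℝ k s := by
  refine one_div_le_one_div_of_le (ma_den k s) ?_
  rw [ma_abs k s, ma_abs k t]
  gcongr
lemma ma_pp_one (k : ℕ) : pp ℝ k 1 = 1 / 2 := by rw [pp, one_pow]; norm_num
lemma half_le_pp (k : ℕ) {t : ℝ} (h : |t| ≤ 1) : 1 / 2 ≤ pp ℝ k t :=
  ma_pp_one k ▸ pp_anti k (by simpa using h)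
lemma pp_le_half (k : ℕ) {t : ℝ} (h : 1 ≤ |t|) : pp ℝ k t ≤ 1 / 2 :=
  ma_pp_one k ▸ pp_anti k (by simpa using h)
lemma ma_two_pow {k j : ℕ} {u : ℝ} (hu : 0 < u) (hu1 : u ≤ 1) (hk : j ≤ k * u) :
    (2 : ℝ) ^ j ≤ (1 + u) ^ (2 * k) := by
  have h1 := rpow_one_add_le_one_add_mul_self (s := 1) (by norm_num) hu.le hu1
  rw [one_add_one_eq_two, mul_one] at h1
  calc (2 : ℝ) ^ j = (2 : ℝ) ^ (j : ℝ) := (Real.rpow_natCast _ _).symm
    _ ≤ (2 : ℝ) ^ (u * (2 * k : ℕ)) := by
        refine Real.rpow_le_rpow_of_exponent_le one_le_two ?_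
        push_cast
        nlinarith [mul_nonneg (Nat.cast_nonneg (α := ℝ) k) hu.le]
    _ = ((2 : ℝ) ^ u) ^ (2 * k) := Real.rpow_mul_natCast (by norm_num) _ _
    _ ≤ _ := by gcongr
lemma pp_out {k j : ℕ} {u t : ℝ} (hu : 0 < u) (hu1 : u ≤ 1) (hk : j ≤ k * u) (h : 1 + u ≤ |t|) :
    pp ℝ k t ≤ 1 / 2 ^ j := by
  refine one_div_le_one_div_of_le (by positivity) ?_
  have h1 : (1 + u) ^ (2 * k) ≤ |t| ^ (2 * k) := by gcongr
  rw [ma_abs]
  linarith [ma_two_pow hu hu1 hk]
lemma pp_in {k j : ℕ} {u t : ℝ} (hu : 0 < u) (hu1 : u ≤ 1) (hk : j ≤ k * u) (h : |t| ≤ 1 - u) :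
    1 - 1 / 2 ^ j ≤ pp ℝ k t := by
  have h1 : |t| ^ (2 * k) * 2 ^ j ≤ 1 := by
    calc |t| ^ (2 * k) * 2 ^ j ≤ (1 - u) ^ (2 * k) * (1 + u) ^ (2 * k) := by
          gcongr
          exact ma_two_pow hu hu1 hk
      _ = ((1 - u) * (1 + u)) ^ (2 * k) := (mul_pow _ _ _).symm
      _ ≤ 1 := pow_le_one₀ (by nlinarith) (by nlinarith)
  have h2 : |t| ^ (2 * k) ≤ 1 / 2 ^ j := by rwa [le_div_iff₀ (by positivity)]
  have h3 : 0 ≤ |t| ^ (2 * k) := by positivity
  rw [pp, ma_abs, le_div_iff₀ (by positivity)]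
  nlinarith
lemma contDiff_pp (k : ℕ) : ContDiff ℝ ∞ (pp ℝ k) :=
  contDiff_const.div (contDiff_const.add (contDiff_id.pow _)) fun t => (ma_den k t).ne'

lemma bmp_nonneg (a t : ℝ) : 0 ≤ bmp a t :=
  mul_nonneg (Real.smoothTransition.nonneg _) (Real.smoothTransition.nonneg _)
lemma bmp_le_one (a t : ℝ) : bmp a t ≤ 1 :=
  mul_le_one₀ (Real.smoothTransition.le_one _) (Real.smoothTransition.nonneg _)
    (Real.smoothTransition.le_one _)
lemma bmp_one {a t : ℝ} (h : |t| ≤ a) : bmp a t = 1 := by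
  have := abs_le.1 h
  rw [bmp, Real.smoothTransition.one_of_one_le (by linarith),
    Real.smoothTransition.one_of_one_le (by linarith), one_mul]
lemma bmp_zero {a t : ℝ} (h : a + 1 ≤ |t|) : bmp a t = 0 := by
  rcases le_abs.1 h with h | h
  · rw [bmp, Real.smoothTransition.zero_of_nonpos (by linarith), zero_mul]
  · rw [bmp, Real.smoothTransition.zero_of_nonpos (x := a + 1 + t) (by linarith), mul_zero]
lemma contDiff_bmp (a : ℝ) : ContDiff ℝ ∞ (bmp a) :=
  (Real.smoothTransition.contDiff.comp (contDiff_const.sub contDiff_id)).mul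
    (Real.smoothTransition.contDiff.comp (contDiff_const.add contDiff_id))
lemma deriv_bmp_eq_zero {a t : ℝ} (h : |t| < a ∨ a + 1 < |t|) : deriv (bmp a) t = 0 := by
  rcases h with h | h
  · have : bmp a =ᶠ[nhds t] fun _ => 1 :=
      (continuous_abs.continuousAt.eventually_lt continuousAt_const h).mono fun s hs =>
        bmp_one hs.le
    rw [this.deriv_eq, deriv_const]
  · have : bmp a =ᶠ[nhds t] fun _ => 0 :=
      (continuousAt_const.eventually_lt continuous_abs.continuousAt h).mono fun s hs =>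
        bmp_zero hs.le
    rw [this.deriv_eq, deriv_const]
lemma ma_st (j : ℕ) : ∃ B : ℝ, ∀ t, |iteratedDeriv j Real.smoothTransition t| ≤ B := by
  obtain ⟨B, hB⟩ := (isCompact_Icc (a := (0 : ℝ)) (b := 1)).exists_bound_of_continuousOn
    ((Real.smoothTransition.contDiff (n := j)).continuous_iteratedDeriv' j).continuousOn
  refine ⟨max B 1, fun t => ?_⟩
  by_cases h0 : t < 0
  · have : Real.smoothTransition =ᶠ[nhds t] fun _ => 0 :=
      (gt_mem_nhds h0).mono fun s hs => Real.smoothTransition.zero_of_nonpos hs.le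
    rw [this.iteratedDeriv_eq, iteratedDeriv_const]
    simp
  by_cases h1 : 1 < t
  · have : Real.smoothTransition =ᶠ[nhds t] fun _ => 1 :=
      (lt_mem_nhds h1).mono fun s hs => Real.smoothTransition.one_of_one_le hs.le
    rw [this.iteratedDeriv_eq, iteratedDeriv_const]
    split_ifs <;> simp
  exact (hB t ⟨not_lt.1 h0, not_lt.1 h1⟩).trans (le_max_left _ _)
lemma bmp_deriv : ∃ C : ℝ, 1 ≤ C ∧ ∀ j ≤ 8, ∀ a t, |iteratedDeriv j (bmp a) t| ≤ C := by
  choose B hB using ma_st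
  have hB0 : ∀ j, 0 ≤ B j := fun j => (abs_nonneg _).trans (hB j 0)
  refine ⟨1 + ∑ j ∈ Finset.range 9, ∑ i ∈ Finset.range (j + 1),
    (j.choose i : ℝ) * B i * B (j - i), ?_, fun j hj a t => ?_⟩
  · have := hB0
    refine le_add_of_nonneg_right (Finset.sum_nonneg fun j _ => Finset.sum_nonneg fun i _ => ?_)
    exact mul_nonneg (mul_nonneg (Nat.cast_nonneg _) (hB0 _)) (hB0 _)
  · have h := norm_iteratedFDeriv_mul_le (𝕜 := ℝ) (N := ∞)
      (f := fun t => Real.smoothTransition (a + 1 - t))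
      (g := fun t => Real.smoothTransition (a + 1 + t))
      (Real.smoothTransition.contDiff.comp (contDiff_const.sub contDiff_id))
      (Real.smoothTransition.contDiff.comp (contDiff_const.add contDiff_id)) t (n := j)
      (by exact_mod_cast le_top)
    simp only [norm_iteratedFDeriv_eq_norm_iteratedDeriv, iteratedDeriv_comp_const_sub,
      iteratedDeriv_comp_const_add, norm_smul, norm_pow, norm_neg, norm_one, one_pow, one_mul,
      Real.norm_eq_abs] at h
    refine h.trans (le_trans ?_ (le_add_of_nonneg_left zero_le_one))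
    refine le_trans ?_ (Finset.single_le_sum (f := fun j => ∑ i ∈ Finset.range (j + 1),
      (j.choose i : ℝ) * B i * B (j - i)) (fun j _ => Finset.sum_nonneg fun i _ =>
        mul_nonneg (mul_nonneg (Nat.cast_nonneg _) (hB0 _)) (hB0 _))
      (Finset.mem_range.2 (Nat.lt_succ_of_le hj)))
    refine Finset.sum_le_sum fun i _ => ?_
    exact mul_le_mul (mul_le_mul_of_nonneg_left (hB _ _) (Nat.cast_nonneg _)) (hB _ _)
      (abs_nonneg _) (mul_nonneg (Nat.cast_nonneg _) (hB0 _))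

lemma ma_prim {f : ℝ → ℝ} (hf : ContDiff ℝ ∞ f) (a : ℝ) :
    ContDiff ℝ ∞ fun z => ∫ t in a..z, f t := by
  have h : ∀ z, HasDerivAt (fun z => ∫ t in a..z, f t) (f z) z := fun z =>
    (hf.continuous.integral_hasStrictDerivAt a z).hasDerivAt
  refine contDiff_infty_iff_deriv.2 ⟨fun z => (h z).differentiableAt, ?_⟩
  rwa [show deriv (fun z => ∫ t in a..z, f t) = f from funext fun z => (h z).deriv]
lemma contDiff_tau : ContDiff ℝ ∞ tau := ma_prim (contDiff_bmp 8) 0
lemma contDiff_Tau : ContDiff ℝ ∞ Tau := ma_prim contDiff_tau 0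
lemma hasDerivAt_tau (z : ℝ) : HasDerivAt tau (bmp 8 z) z :=
  ((contDiff_bmp 8).continuous.integral_hasStrictDerivAt 0 z).hasDerivAt
lemma hasDerivAt_Tau (z : ℝ) : HasDerivAt Tau (tau z) z :=
  (contDiff_tau.continuous.integral_hasStrictDerivAt 0 z).hasDerivAt
lemma ma_uIcc {z t : ℝ} (h : t ∈ uIcc 0 z) : |t| ≤ |z| := by
  simpa using abs_sub_left_of_mem_uIcc h
lemma tau_eq {z : ℝ} (h : |z| ≤ 8) : tau z = z := by
  rw [tau, intervalIntegral.integral_congr (g := fun _ => 1) fun t ht =>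
    bmp_one ((ma_uIcc ht).trans h)]
  simp
lemma Tau_eq {z : ℝ} (h : |z| ≤ 8) : Tau z = z ^ 2 / 2 := by
  rw [Tau, intervalIntegral.integral_congr (g := fun t => t) fun t ht =>
    tau_eq ((ma_uIcc ht).trans h)]
  simp
lemma ma_tau_le (z : ℝ) : |tau z| ≤ |z| := by
  have := intervalIntegral.norm_integral_le_of_norm_le_const (a := 0) (b := z) (f := bmp 8) (C := 1)
    fun t _ => by rw [Real.norm_of_nonneg (bmp_nonneg _ _)]; exact bmp_le_one _ _
  simpa [tau] using this
lemma ma_tau_eq {a z : ℝ} (h : ∀ t ∈ uIcc a z, 9 ≤ |t|) : tau z = tau a := by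
  have hc := (contDiff_bmp 8).continuous
  rw [tau, ← intervalIntegral.integral_add_adjacent_intervals (hc.intervalIntegrable 0 a)
    (hc.intervalIntegrable a z), intervalIntegral.integral_congr (a := a) (g := fun _ => 0)
    fun t ht => bmp_zero (by linarith [h t ht]), tau]
  simp
lemma abs_tau_le (z : ℝ) : |tau z| ≤ min |z| 9 := by
  refine le_min (ma_tau_le z) ?_
  rcases le_total z 9 with h1 | h1
  · rcases le_total (-9) z with h2 | h2
    · exact (ma_tau_le z).trans (abs_le.2 ⟨h2, h1⟩)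
    · rw [ma_tau_eq (a := -9) fun t ht => ?_]
      · exact (ma_tau_le _).trans (by norm_num)
      · rw [uIcc_of_ge h2] at ht
        exact le_abs.2 (Or.inr (by linarith [ht.2]))
  · rw [ma_tau_eq (a := 9) fun t ht => ?_]
    · exact (ma_tau_le _).trans (by norm_num)
    · rw [uIcc_of_le h1] at ht
      exact le_abs.2 (Or.inl ht.1)
lemma Tau_nonneg (z : ℝ) : 0 ≤ Tau z := by
  rcases le_total 0 z with h | h
  · exact intervalIntegral.integral_nonneg h fun t ht =>
      intervalIntegral.integral_nonneg ht.1 fun u _ => bmp_nonneg _ _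
  · rw [Tau, intervalIntegral.integral_symm, ← intervalIntegral.integral_neg]
    refine intervalIntegral.integral_nonneg h fun t ht => ?_
    rw [tau, ← intervalIntegral.integral_symm]
    exact intervalIntegral.integral_nonneg ht.2 fun u _ => bmp_nonneg _ _

end Vale.Agent.P370
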