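import Vale.Agent.P370.Radial

/-!
Integration by parts, the Newton potential, derivatives of the Coulomb kernel, a local Hardy
inequality.
-/

namespace Vale.Agent.P370

open MeasureTheory Set

lemma nw_cont_pd {f : Pt → ℝ} (hf : ContDiff ℝ 1 f) (k : Fin 3) : Continuous (pd k f) :=
  (hf.continuous_fderiv one_ne_zero).clm_apply continuous_const

lemma nw_supp_pd {f : Pt → ℝ} (hc : HasCompactSupport f) (k : Fin 3) :
    HasCompactSupport (pd k f) := hc.fderiv_apply ℝ (ek k)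

lemma nw_contDiff_pd {f : Pt → ℝ} {m n : WithTop ℕ∞} (hf : ContDiff ℝ n f) (h : m + 1 ≤ n)
    (k : Fin 3) : ContDiff ℝ m (pd k f) :=
  (hf.fderiv_right h).clm_apply contDiff_const

theorem integral_mul_pd {f g : Pt → ℝ} (hf : C1c f) (hg : ContDiff ℝ 1 g) (k : Fin 3) :
    ∫ x, f x * pd k g x = -∫ x, pd k f x * g x := by
  refine integral_mul_fderiv_eq_neg_fderiv_mul_of_integrable ?_ ?_ ?_
    (fun x _ => hf.1.differentiable one_ne_zero x) (fun x _ => hg.differentiable one_ne_zero x)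
  · exact ((nw_cont_pd hf.1 k).mul hg.continuous).integrable_of_hasCompactSupport
      (nw_supp_pd hf.2 k).mul_right
  · exact (hf.1.continuous.mul (nw_cont_pd hg k)).integrable_of_hasCompactSupport hf.2.mul_right
  · exact (hf.1.continuous.mul hg.continuous).integrable_of_hasCompactSupport hf.2.mul_right

lemma nw_C1c_pd {f : Pt → ℝ} (hf : ContDiff ℝ 2 f) (hc : HasCompactSupport f) (k : Fin 3) :
    C1c (pd k f) := ⟨nw_contDiff_pd hf (by norm_num) k, nw_supp_pd hc k⟩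

lemma nw_int_pd {f : Pt → ℝ} (hf : C1c f) (k : Fin 3) : Integrable (pd k f) :=
  (nw_cont_pd hf.1 k).integrable_of_hasCompactSupport (nw_supp_pd hf.2 k)

theorem integral_lap {f : Pt → ℝ} (hf : ContDiff ℝ 2 f) (hc : HasCompactSupport f) :
    ∫ x, lap f x = 0 := by
  unfold lap
  rw [integral_finsetSum _ fun k _ => nw_int_pd (nw_C1c_pd hf hc k) k]
  refine Finset.sum_eq_zero fun k _ => ?_
  have := integral_mul_pd (nw_C1c_pd hf hc k) (g := fun _ => 1) contDiff_const k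
  simpa [pd] using this

lemma continuous_lap {f : Pt → ℝ} (hf : ContDiff ℝ 2 f) : Continuous (lap f) :=
  continuous_finsetSum _ fun k _ => nw_cont_pd (nw_contDiff_pd hf (by norm_num) k) k

lemma tsupport_lap (f : Pt → ℝ) : tsupport (lap f) ⊆ tsupport f := by
  refine closure_minimal (fun x hx => ?_) (isClosed_tsupport f)
  by_contra h
  refine hx (Finset.sum_eq_zero fun k _ => ?_)
  refine image_eq_zero_of_notMem_tsupport (f := pd k (pd k f)) fun h' => h ?_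
  exact tsupport_fderiv_apply_subset ℝ (ek k) (tsupport_fderiv_apply_subset ℝ (ek k) h')

lemma C1c.continuous_gsq {f : Pt → ℝ} (hf : C1c f) : Continuous (gsq f) :=
  continuous_finsetSum _ fun k _ => (nw_cont_pd hf.1 k).pow 2

lemma C1c.integrable_gsq {f : Pt → ℝ} (hf : C1c f) : Integrable (gsq f) := by
  unfold gsq
  refine integrable_finsetSum _ fun k _ => ?_
  have h1 : Continuous fun x => pd k f x ^ 2 := (nw_cont_pd hf.1 k).fun_pow 2
  have h2 : HasCompactSupport fun x => pd k f x ^ 2 :=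
    (nw_supp_pd hf.2 k).comp_left (g := fun t : ℝ => t ^ 2) (by simp)
  exact h1.integrable_of_hasCompactSupport h2

lemma lap_eq_iterated {f : Pt → ℝ} {x : Pt} (hf : ContDiffAt ℝ 2 f x) :
    lap f x = ∑ k, iteratedFDeriv ℝ 2 f x ![ek k, ek k] := by
  refine Finset.sum_congr rfl fun k _ => ?_
  have h1 : DifferentiableAt ℝ (fderiv ℝ f) x :=
    (hf.fderiv_right (m := 1) (by norm_num)).differentiableAt one_ne_zero
  rw [iteratedFDeriv_two_apply]
  unfold pd
  rw [fderiv_clm_apply h1 (differentiableAt_const _)]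
  simp

lemma nw_pd_congr {f g : Pt → ℝ} {x : Pt} (h : f =ᶠ[nhds x] g) (k : Fin 3) :
    pd k f =ᶠ[nhds x] pd k g :=
  (h.fderiv (𝕜 := ℝ)).mono fun y hy => by simp only [pd, hy]

lemma lap_congr {f g : Pt → ℝ} {x : Pt} (h : f =ᶠ[nhds x] g) : lap f x = lap g x :=
  Finset.sum_congr rfl fun k _ => (nw_pd_congr (nw_pd_congr h k) k).self_of_nhds

lemma nw_pd_translate (f : Pt → ℝ) (w : Pt) (k : Fin 3) :
    pd k (fun y => f (y - w)) = fun y => pd k f (y - w) := by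
  funext y
  simp only [pd, fderiv_comp_sub]

lemma lap_translate (f : Pt → ℝ) (w x : Pt) : lap (fun y => f (y - w)) x = lap f (x - w) := by
  refine Finset.sum_congr rfl fun k _ => ?_
  rw [nw_pd_translate, nw_pd_translate]

lemma nw_norm_ek (k : Fin 3) : ‖ek k‖ = 1 := by simp [ek, Pi.norm_single]

lemma DB.pd {r : ℕ} {f : Pt → ℝ} {B : ℝ} (h : DB (r + 1) f B) (k : Fin 3) : DB r (pd k f) B := by
  refine ⟨nw_contDiff_pd h.1 (by simp) k, fun j hj x => ?_⟩
  have h1 : ContDiff ℝ (⊤ : ℕ∞) (fderiv ℝ f) := h.1.fderiv_right (by simp)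
  have := norm_iteratedFDeriv_clm_apply_const (c := ek k) (n := j) (x := x) h1.contDiffAt
    (by exact_mod_cast le_top)
  rw [nw_norm_ek, one_mul, norm_iteratedFDeriv_fderiv] at this
  exact this.trans (h.2 _ (by omega) x)

/-- Derivatives of the Laplacian. -/
lemma DB.lap {r : ℕ} {f : Pt → ℝ} {B : ℝ} (h : DB (r + 2) f B) : DB r (lap f) (3 * B) := by
  have h2 : ∀ k, DB r (P370.pd k (P370.pd k f)) B := fun k => (DB.pd (r := r + 1) h k).pd k
  refine ⟨ContDiff.sum fun k _ => (h2 k).1, fun j hj x => ?_⟩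
  unfold P370.lap
  rw [iteratedFDeriv_fun_sum_apply fun k _ =>
    ((h2 k).1.of_le (by exact_mod_cast le_top)).contDiffAt]
  refine (norm_sum_le _ _).trans ?_
  refine (Finset.sum_le_sum fun k _ => (h2 k).2 j hj x).trans ?_
  simp

/-- Products. -/
lemma DB.mul {r : ℕ} {f g : Pt → ℝ} {A B : ℝ} (hf : DB r f A) (hg : DB r g B) :
    DB r (fun x => f x * g x) (2 ^ r * A * B) := by
  refine ⟨hf.1.mul hg.1, fun j hj x => ?_⟩
  have hA : 0 ≤ A := (norm_nonneg _).trans (hf.2 0 (Nat.zero_le _) x)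
  have hB : 0 ≤ B := (norm_nonneg _).trans (hg.2 0 (Nat.zero_le _) x)
  refine (norm_iteratedFDeriv_mul_le hf.1 hg.1 x (by exact_mod_cast le_top)).trans ?_
  calc ∑ i ∈ Finset.range (j + 1),
        (j.choose i : ℝ) * ‖iteratedFDeriv ℝ i f x‖ * ‖iteratedFDeriv ℝ (j - i) g x‖
      ≤ ∑ i ∈ Finset.range (j + 1), (j.choose i : ℝ) * A * B := by
        refine Finset.sum_le_sum fun i hi => ?_
        have hi' : i ≤ r := by have := Finset.mem_range.1 hi; omega
        exact mul_le_mul (mul_le_mul_of_nonneg_left (hf.2 i hi' x) (Nat.cast_nonneg _))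
          (hg.2 _ (by omega) x) (norm_nonneg _) (by positivity)
    _ = 2 ^ j * A * B := by
        rw [← Finset.sum_mul, ← Finset.sum_mul, ← Nat.cast_sum, Nat.sum_range_choose]
        push_cast
        rfl
    _ ≤ 2 ^ r * A * B := by
        gcongr
        norm_num

lemma DB.translate {r : ℕ} {f : Pt → ℝ} {B : ℝ} (h : DB r f B) (w : Pt) :
    DB r (fun y => f (y - w)) B := by
  refine ⟨h.1.comp (contDiff_id.sub contDiff_const), fun j hj x => ?_⟩
  rw [iteratedFDeriv_comp_sub]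
  exact h.2 j hj _

/-! ### The regularised kernel -/

/-- Regularised squared distance. -/
noncomputable def nwQ (e : ℝ) (x y : Pt) : ℝ := ∑ k, (x k - y k) ^ 2 + e

lemma nwQ_eq (e : ℝ) (x y : Pt) : nwQ e x y = nrm (x - y) ^ 2 + e := by
  rw [nrm, Real.sq_sqrt (Finset.sum_nonneg fun k _ => sq_nonneg _)]
  rfl

lemma nwQ_smooth (e : ℝ) (x : Pt) {n : WithTop ℕ∞} : ContDiff ℝ n (nwQ e x) := by
  unfold nwQ
  fun_prop

lemma nwQ_pos {e : ℝ} (he : 0 < e) (x y : Pt) : 0 < nwQ e x y := by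
  rw [nwQ_eq]
  positivity

lemma nwQ_pos' {e : ℝ} (he : 0 ≤ e) {x y : Pt} (h : y ≠ x) : 0 < nwQ e x y := by
  rw [nwQ_eq]
  have := nrm_pos (sub_ne_zero.2 h.symm)
  positivity

lemma nw_ker_eq (x y : Pt) : ker (x - y) = nwQ 0 x y ^ (-(1 / 2) : ℝ) := by
  rw [nwQ_eq, add_zero, Real.rpow_neg (sq_nonneg _), ← Real.sqrt_eq_rpow,
    Real.sqrt_sq (nrm_nonneg _), ker]

lemma nw_hasFDerivAt_coord (c : ℝ) (j : Fin 3) (y : Pt) :
    HasFDerivAt (fun y : Pt => c - y j)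
      (-(ContinuousLinearMap.proj j : Pt →L[ℝ] ℝ)) y :=
  (hasFDerivAt_apply j y).const_sub c

lemma nwQ_hasFDerivAt (e : ℝ) (x y : Pt) : ∃ L : Pt →L[ℝ] ℝ, HasFDerivAt (nwQ e x) L y ∧
    ∀ k, L (ek k) = -2 * (x k - y k) := by
  refine ⟨_, (HasFDerivAt.fun_sum fun j _ => (nw_hasFDerivAt_coord (x j) j y).pow 2).add_const e,
    fun k => ?_⟩
  simp [ek, Pi.single_apply, Finset.sum_ite_eq']

lemma nw_pd_rpow {e : ℝ} {x y : Pt} (h : 0 < nwQ e x y) (p : ℝ) (k : Fin 3) :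
    pd k (fun y => nwQ e x y ^ p) y = -2 * p * (x k - y k) * nwQ e x y ^ (p - 1) := by
  obtain ⟨L, hL, hL'⟩ := nwQ_hasFDerivAt e x y
  rw [pd, (hL.rpow_const (Or.inl h.ne')).fderiv]
  simp only [smul_apply, hL', smul_eq_mul]
  ring

lemma nw_pd_field {e : ℝ} {x y : Pt} (h : 0 < nwQ e x y) (p : ℝ) (k : Fin 3) :
    pd k (fun y => (x k - y k) * nwQ e x y ^ p) y =
      -nwQ e x y ^ p - 2 * p * (x k - y k) ^ 2 * nwQ e x y ^ (p - 1) := by
  obtain ⟨L, hL, hL'⟩ := nwQ_hasFDerivAt e x y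
  rw [pd, ((nw_hasFDerivAt_coord (x k) k y).fun_mul (hL.rpow_const (Or.inl h.ne'))).fderiv]
  have e1 : ek k k = 1 := Pi.single_eq_same _ _
  simp only [add_apply, smul_apply, hL', smul_eq_mul, neg_apply, ContinuousLinearMap.proj_apply,
    e1]
  ring

lemma nw_div_field {e : ℝ} {x y : Pt} (h : 0 < nwQ e x y) (p : ℝ) :
    ∑ k, pd k (fun y => (x k - y k) * nwQ e x y ^ p) y =
      -(3 + 2 * p) * nwQ e x y ^ p + 2 * p * e * nwQ e x y ^ (p - 1) := by
  simp only [nw_pd_field h]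
  have e1 : nwQ e x y ^ p = nwQ e x y * nwQ e x y ^ (p - 1) := by
    rw [Real.rpow_sub_one h.ne']
    field_simp
  rw [e1]
  generalize nwQ e x y ^ (p - 1) = A
  simp only [nwQ, Fin.sum_univ_three]
  ring

lemma nw_lap {e : ℝ} {x y : Pt} (h : 0 < nwQ e x y) :
    lap (fun y => nwQ e x y ^ (-(1 / 2) : ℝ)) y = -3 * e * nwQ e x y ^ (-(5 / 2) : ℝ) := by
  have hev : ∀ᶠ z in nhds y, 0 < nwQ e x z :=
    (nwQ_smooth e x (n := 0)).continuous.continuousAt.eventually (lt_mem_nhds h)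
  have h1 : ∀ k, pd k (pd k fun y => nwQ e x y ^ (-(1 / 2) : ℝ)) y =
      pd k (fun y => (x k - y k) * nwQ e x y ^ (-(3 / 2) : ℝ)) y := fun k => by
    refine (nw_pd_congr (hev.mono fun z hz => ?_) k).self_of_nhds
    rw [nw_pd_rpow hz, show (-(1 / 2) - 1 : ℝ) = -(3 / 2) by norm_num]
    ring
  unfold lap
  simp only [h1]
  rw [nw_div_field h, show (-(3 / 2) - 1 : ℝ) = -(5 / 2) by norm_num]
  ring

theorem contDiffAt_ker {x y : Pt} (h : y ≠ x) (r : ℕ) :
    ContDiffAt ℝ r (fun y => ker (x - y)) y := by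
  simp only [nw_ker_eq]
  exact (nwQ_smooth 0 x).contDiffAt.rpow_const_of_ne (nwQ_pos' le_rfl h).ne'

theorem lap_ker {x y : Pt} (h : y ≠ x) : lap (fun y => ker (x - y)) y = 0 := by
  simp only [nw_ker_eq]
  rw [nw_lap (nwQ_pos' le_rfl h)]
  ring

lemma nw_reg_le {ε : ℝ} {x y : Pt} (h : y ≠ x) :
    nwQ (ε ^ 2) x y ^ (-(1 / 2) : ℝ) ≤ ker (x - y) := by
  rw [nw_ker_eq]
  refine Real.rpow_le_rpow_of_nonpos (nwQ_pos' le_rfl h) ?_ (by norm_num)
  simp only [nwQ]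
  nlinarith [sq_nonneg ε]

lemma nw_ae_ne (x : Pt) : ∀ᵐ y : Pt, y ≠ x := by
  rw [ae_iff]
  simp

lemma nw_cont_reg {f : Pt → ℝ} (hf : Continuous f) (hc : HasCompactSupport f) (x : Pt) :
    ContinuousAt (fun ε : ℝ => ∫ y, nwQ (ε ^ 2) x y ^ (-(1 / 2) : ℝ) * f y) 0 := by
  have hi : Integrable fun y => ker (x - y) * |f y| := by
    simp only [ker_sub_comm x]
    exact integrable_ker_mul_cc hf.abs hc.abs x
  refine continuousAt_of_dominated (bound := fun y => ker (x - y) * |f y|)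
    (Filter.Eventually.of_forall fun ε => ?_) (Filter.Eventually.of_forall fun ε => ?_) hi ?_
  · exact (((nwQ_smooth (ε ^ 2) x (n := 0)).continuous.measurable.pow_const _).mul
      hf.measurable).aestronglyMeasurable
  · filter_upwards [nw_ae_ne x] with y hy
    rw [norm_mul, Real.norm_eq_abs, Real.norm_eq_abs,
      abs_of_nonneg (Real.rpow_nonneg (nwQ_pos' (sq_nonneg ε) hy).le _)]
    exact mul_le_mul_of_nonneg_right (nw_reg_le hy) (abs_nonneg _)
  · filter_upwards [nw_ae_ne x] with y hy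
    refine ContinuousAt.mul (ContinuousAt.rpow_const ?_ (Or.inl ?_)) continuousAt_const
    · unfold nwQ
      fun_prop
    · exact (nwQ_pos' (sq_nonneg _) hy).ne'

lemma nw_radial_deriv (r : ℝ) : HasDerivAt (fun r : ℝ => r ^ 3 * (r ^ 2 + 1) ^ (-(3 / 2) : ℝ) / 3)
    (r ^ 2 * (r ^ 2 + 1) ^ (-(5 / 2) : ℝ)) r := by
  have h0 : 0 < r ^ 2 + 1 := by positivity
  have h1 := ((hasDerivAt_pow 2 r).add_const 1).rpow_const (p := -(3 / 2)) (Or.inl h0.ne')
  refine (((hasDerivAt_pow 3 r).fun_mul h1).div_const 3).congr_deriv ?_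
  have e1 : (r ^ 2 + 1) ^ (-(3 / 2) : ℝ) = (r ^ 2 + 1) * (r ^ 2 + 1) ^ (-(5 / 2) : ℝ) := by
    rw [show (-(5 / 2) : ℝ) = -(3 / 2) - 1 by norm_num, Real.rpow_sub_one h0.ne']
    field_simp
  rw [show (-(3 / 2) - 1 : ℝ) = -(5 / 2) by norm_num, e1]
  norm_num
  ring

lemma nw_radial_lim : Filter.Tendsto (fun r : ℝ => r ^ 3 * (r ^ 2 + 1) ^ (-(3 / 2) : ℝ) / 3)
    Filter.atTop (nhds (1 / 3)) := by
  have h1 : Filter.Tendsto (fun r : ℝ => (1 + r⁻¹ ^ 2) ^ (-(3 / 2) : ℝ) / 3) Filter.atTop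
      (nhds ((1 + 0 ^ 2) ^ (-(3 / 2) : ℝ) / 3)) :=
    (((tendsto_inv_atTop_zero.pow 2).const_add 1).rpow_const (Or.inl (by norm_num))).div_const 3
  simp only [ne_eq, OfNat.ofNat_ne_zero, not_false_eq_true, zero_pow, add_zero,
    Real.one_rpow] at h1
  refine h1.congr' ?_
  filter_upwards [Filter.eventually_gt_atTop 0] with r hr
  have e1 : r ^ 2 + 1 = r ^ 2 * (1 + r⁻¹ ^ 2) := by field_simp
  have e2 : (r ^ 2) ^ (-(3 / 2) : ℝ) = (r ^ 3)⁻¹ := by
    rw [← Real.rpow_natCast, ← Real.rpow_mul hr.le, ← Real.rpow_natCast, ← Real.rpow_neg hr.le]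
    norm_num
  rw [e1, Real.mul_rpow (by positivity) (by positivity), e2]
  field_simp

lemma nw_profile : Integrable (fun w : Pt => (nrm w ^ 2 + 1) ^ (-(5 / 2) : ℝ)) ∧
    ∫ w : Pt, (nrm w ^ 2 + 1) ^ (-(5 / 2) : ℝ) = 4 * Real.pi / 3 := by
  have hc : ContinuousWithinAt (fun r : ℝ => r ^ 3 * (r ^ 2 + 1) ^ (-(3 / 2) : ℝ) / 3) (Ici 0) 0 :=
    (nw_radial_deriv 0).continuousAt.continuousWithinAt
  constructor
  · refine integrable_radial (f := fun r => (r ^ 2 + 1) ^ (-(5 / 2) : ℝ)) (by fun_prop) ?_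
    exact integrableOn_Ioi_deriv_of_nonneg hc (fun r _ => nw_radial_deriv r)
      (fun r _ => by positivity) nw_radial_lim
  · rw [integral_radial (fun r => (r ^ 2 + 1) ^ (-(5 / 2) : ℝ)),
      integral_Ioi_of_hasDerivAt_of_nonneg hc (fun r _ => nw_radial_deriv r)
      (fun r _ => by positivity) nw_radial_lim]
    norm_num
    ring

lemma nw_green {F K : Pt → ℝ} (hF : ContDiff ℝ 2 F) (hc : HasCompactSupport F)
    (hK : ContDiff ℝ 2 K) : ∫ y, K y * lap F y = ∫ y, lap K y * F y := by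
  have hK1 : ∀ k, ContDiff ℝ 1 (pd k K) := fun k => nw_contDiff_pd hK (by norm_num) k
  have hF1 : C1c F := ⟨hF.of_le (by norm_num), hc⟩
  simp only [lap, Finset.mul_sum, Finset.sum_mul]
  rw [integral_finsetSum, integral_finsetSum]
  · refine Finset.sum_congr rfl fun k _ => ?_
    have h1 := integral_mul_pd (nw_C1c_pd hF hc k) (hK.of_le (by norm_num)) k
    have h2 := integral_mul_pd hF1 (hK1 k) k
    simp only [mul_comm (K _), mul_comm _ (F _)]
    linarith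
  · exact fun k _ => ((nw_cont_pd (hK1 k) k).mul hF.continuous).integrable_of_hasCompactSupport
      hc.mul_left
  · exact fun k _ => (hK.continuous.mul
      (nw_cont_pd (nw_C1c_pd hF hc k).1 k)).integrable_of_hasCompactSupport
      (nw_supp_pd (nw_supp_pd hc k) k).mul_left

lemma nw_scale (F : Pt → ℝ) (x : Pt) {ε : ℝ} (hε : 0 < ε) :
    ∫ y, -3 * ε ^ 2 * nwQ (ε ^ 2) x y ^ (-(5 / 2) : ℝ) * F y =
      -3 * ∫ w : Pt, (nrm w ^ 2 + 1) ^ (-(5 / 2) : ℝ) * F (x - ε • w) := by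
  rw [← integral_sub_left_eq_self _ volume x]
  have h := Measure.integral_comp_smul (volume : Measure Pt)
    (fun z => -3 * ε ^ 2 * nwQ (ε ^ 2) x (x - z) ^ (-(5 / 2) : ℝ) * F (x - z)) ε
  have e : ∀ w : Pt, -3 * ε ^ 2 * nwQ (ε ^ 2) x (x - ε • w) ^ (-(5 / 2) : ℝ) * F (x - ε • w) =
      (ε ^ 3)⁻¹ * (-3 * ((nrm w ^ 2 + 1) ^ (-(5 / 2) : ℝ) * F (x - ε • w))) := by
    intro w
    have e1 : nwQ (ε ^ 2) x (x - ε • w) = ε ^ 2 * (nrm w ^ 2 + 1) := by
      rw [nwQ_eq, sub_sub_cancel, nrm_smul, abs_of_pos hε]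
      ring
    have e2 : (ε ^ 2) ^ (-(5 / 2) : ℝ) = (ε ^ 5)⁻¹ := by
      rw [← Real.rpow_natCast, ← Real.rpow_mul hε.le, ← Real.rpow_natCast, ← Real.rpow_neg hε.le]
      norm_num
    rw [e1, Real.mul_rpow (by positivity) (by positivity), e2]
    field_simp
  simp only [e, integral_const_mul, Module.finrank_fin_fun, smul_eq_mul] at h
  rw [abs_of_pos (by positivity)] at h
  exact (mul_left_cancel₀ (by positivity) h).symm

/-- The Newton potential inverts the Laplacian. -/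
theorem newton {F : Pt → ℝ} (hF : ContDiff ℝ 2 F) (hc : HasCompactSupport F) (x : Pt) :
    ∫ y, ker (x - y) * lap F y = -(4 * Real.pi * F x) := by
  have hcl : HasCompactSupport (lap F) := hc.of_isClosed_subset (isClosed_tsupport _)
    (tsupport_lap F)
  have h1 := nw_cont_reg (continuous_lap hF) hcl x
  obtain ⟨C, hC⟩ := hF.continuous.bounded_above_of_compact_support hc
  have h2 : Continuous fun ε : ℝ =>
      -3 * ∫ w : Pt, (nrm w ^ 2 + 1) ^ (-(5 / 2) : ℝ) * F (x - ε • w) := by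
    have hFc := hF.continuous
    refine continuous_const.mul (continuous_of_dominated
      (bound := fun w => (nrm w ^ 2 + 1) ^ (-(5 / 2) : ℝ) * C) (fun ε => ?_) (fun ε => ?_)
      (nw_profile.1.mul_const C) ?_)
    · exact nw_profile.1.aestronglyMeasurable.mul
        (by fun_prop : Continuous fun w : Pt => F (x - ε • w)).aestronglyMeasurable
    · refine Filter.Eventually.of_forall fun w => ?_
      rw [norm_mul, Real.norm_eq_abs, abs_of_nonneg (by positivity)]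
      exact mul_le_mul_of_nonneg_left (hC _) (by positivity)
    · exact Filter.Eventually.of_forall fun w => by fun_prop
  have h3 : ∀ ε : ℝ, 0 < ε → ∫ y, nwQ (ε ^ 2) x y ^ (-(1 / 2) : ℝ) * lap F y =
      -3 * ∫ w : Pt, (nrm w ^ 2 + 1) ^ (-(5 / 2) : ℝ) * F (x - ε • w) := by
    intro ε hε
    have hp := nwQ_pos (pow_pos hε 2) x
    rw [nw_green hF hc ((nwQ_smooth _ x).rpow_const_of_ne fun y => (hp y).ne'), ← nw_scale F x hε]
    simp only [nw_lap (hp _)]
  have h4 := tendsto_nhds_unique_of_eventuallyEq (l := nhdsWithin (0 : ℝ) (Ioi 0))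
    (h1.tendsto.mono_left nhdsWithin_le_nhds) ((h2.tendsto 0).mono_left nhdsWithin_le_nhds)
    (Filter.mem_of_superset self_mem_nhdsWithin h3)
  simp only [ne_eq, OfNat.ofNat_ne_zero, not_false_eq_true, zero_pow, zero_smul, sub_zero,
    integral_mul_const, nw_profile.2, ← nw_ker_eq] at h4
  rw [h4]
  ring

lemma nw_contDiffAt_ker {z : Pt} (h : z ≠ 0) (r : ℕ) : ContDiffAt ℝ r ker z := by
  have := contDiffAt_ker h r
  simpa only [ker_sub_comm 0, sub_zero] using this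

lemma nw_homog {r : ℝ} (hr : 0 < r) {u : Pt} (hu : u ≠ 0) (j : ℕ) :
    ‖iteratedFDeriv ℝ j ker (r • u)‖ ≤ ‖iteratedFDeriv ℝ j ker u‖ / r ^ (j + 1) := by
  let g : Pt ≃L[ℝ] Pt := ContinuousLinearEquiv.smulLeft (Units.mk0 r⁻¹ (inv_ne_zero hr.ne'))
  have hg : ∀ w, g w = r⁻¹ • w := fun w => rfl
  have e : ker = (fun w => r⁻¹ • ker w) ∘ g := by
    funext w
    simp only [Function.comp_apply, hg, ker, nrm_smul, abs_of_pos (inv_pos.2 hr), smul_eq_mul,
      mul_inv, inv_inv]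
    field_simp
  have h1 := g.iteratedFDerivWithin_comp_right (fun w => r⁻¹ • ker w) uniqueDiffOn_univ
    (x := r • u) (mem_univ _) j
  rw [← e, preimage_univ, iteratedFDerivWithin_univ, iteratedFDerivWithin_univ, hg,
    inv_smul_smul₀ hr.ne', iteratedFDeriv_const_smul_apply' (nw_contDiffAt_ker hu j)] at h1
  have hn : ‖(g : Pt →L[ℝ] Pt)‖ ≤ r⁻¹ := by
    refine ContinuousLinearMap.opNorm_le_bound _ (by positivity) fun w => ?_
    rw [ContinuousLinearEquiv.coe_coe, hg, norm_smul, Real.norm_eq_abs, abs_of_pos (inv_pos.2 hr)]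
  rw [h1]
  refine (ContinuousMultilinearMap.norm_compContinuousLinearMap_le _ _).trans ?_
  rw [norm_smul, Real.norm_eq_abs, abs_of_pos (inv_pos.2 hr), Finset.prod_const, Finset.card_univ,
    Fintype.card_fin]
  calc r⁻¹ * ‖iteratedFDeriv ℝ j ker u‖ * ‖(g : Pt →L[ℝ] Pt)‖ ^ j
      ≤ r⁻¹ * ‖iteratedFDeriv ℝ j ker u‖ * r⁻¹ ^ j := by gcongr
    _ = _ := by
        rw [inv_pow]
        field_simp
        ring

/-- Decay of the derivatives of the kernel. -/
theorem ker_deriv : ∃ C : ℝ, 1 ≤ C ∧ ∀ j ≤ 4, ∀ x y : Pt, y ≠ x →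
    ‖iteratedFDeriv ℝ j (fun y => ker (x - y)) y‖ ≤ C / nrm (x - y) ^ (j + 1) := by
  have hS : IsCompact {u : Pt | nrm u = 1} := by
    refine (isCompact_closedBall (0 : Pt) 1).of_isClosed_subset
      (isClosed_eq continuous_nrm continuous_const) fun u hu => ?_
    rw [mem_closedBall_zero_iff]
    exact (norm_le_nrm u).trans_eq hu
  have hne : ∀ u : Pt, nrm u = 1 → u ≠ 0 := by
    rintro u hu rfl
    simp [nrm] at hu
  obtain ⟨C, hC⟩ := hS.bddAbove_image
    (f := fun u => ∑ j ∈ Finset.range 5, ‖iteratedFDeriv ℝ j ker u‖)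
    (continuousOn_finsetSum _ fun j _ u hu =>
      ((nw_contDiffAt_ker (hne u hu) j).continuousAt_iteratedFDeriv
        le_rfl).norm.continuousWithinAt)
  refine ⟨max 1 C, le_max_left _ _, fun j hj x y h => ?_⟩
  simp only [ker_sub_comm x]
  rw [iteratedFDeriv_comp_sub, nrm_sub_comm]
  have hr := nrm_pos (sub_ne_zero.2 h)
  have hu : nrm ((nrm (y - x))⁻¹ • (y - x)) = 1 := by
    rw [nrm_smul, abs_of_pos (inv_pos.2 hr), inv_mul_cancel₀ hr.ne']
  have h1 := nw_homog hr (hne _ hu) j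
  rw [smul_inv_smul₀ hr.ne'] at h1
  refine h1.trans (div_le_div_of_nonneg_right ?_ (by positivity))
  refine le_trans ?_ ((hC (mem_image_of_mem _ hu)).trans (le_max_right _ _))
  exact Finset.single_le_sum (f := fun j => ‖iteratedFDeriv ℝ j ker _‖)
    (fun i _ => norm_nonneg _) (Finset.mem_range.2 (by omega))

lemma nw_cut : ∃ C : ℝ, 0 ≤ C ∧ ∀ (c : Pt) (r : ℝ), 0 < r → ∃ θ : Pt → ℝ, ContDiff ℝ 1 θ ∧
    (∀ x, 0 ≤ θ x ∧ θ x ≤ 1) ∧ (∀ x, ‖x - c‖ ≤ r → θ x = 1) ∧ (∀ k x, |pd k θ x| ≤ C / r) ∧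
    ∀ x, 2 * r < ‖x - c‖ → θ x = 0 ∧ ∀ k, pd k θ x = 0 := by
  let b : ContDiffBump (0 : Pt) := ⟨1, 2, one_pos, one_lt_two⟩
  have hb : ContDiff ℝ 1 b := b.contDiff
  obtain ⟨C, hC⟩ := (hb.continuous_fderiv one_ne_zero).bounded_above_of_compact_support
    (b.hasCompactSupport.fderiv ℝ)
  refine ⟨C, (norm_nonneg _).trans (hC 0), fun c r hr => ?_⟩
  have hn : ∀ x : Pt, ‖r⁻¹ • (x - c)‖ = ‖x - c‖ / r := fun x => by
    rw [norm_smul, Real.norm_eq_abs, abs_of_pos (inv_pos.2 hr), div_eq_inv_mul]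
  have hd : ∀ k x, pd k (fun x => b (r⁻¹ • (x - c))) x =
      r⁻¹ * fderiv ℝ b (r⁻¹ • (x - c)) (ek k) := fun k x => by
    have h1 : HasFDerivAt (fun x : Pt => r⁻¹ • (x - c)) (r⁻¹ • ContinuousLinearMap.id ℝ Pt) x :=
      ((hasFDerivAt_id x).sub_const c).const_smul r⁻¹
    have h2 := (hb.differentiable one_ne_zero (r⁻¹ • (x - c))).hasFDerivAt.comp x h1
    rw [pd, show (fun x => b (r⁻¹ • (x - c))) = b ∘ fun x => r⁻¹ • (x - c) from rfl, h2.fderiv]
    simp
  refine ⟨fun x => b (r⁻¹ • (x - c)), by fun_prop, fun x => ⟨b.nonneg, b.le_one⟩, fun x hx => ?_,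
    fun k x => ?_, fun x hx => ?_⟩
  · refine b.one_of_mem_closedBall ?_
    rw [mem_closedBall_zero_iff, hn]
    exact (div_le_one hr).2 hx
  · rw [hd, abs_mul, abs_of_pos (inv_pos.2 hr), div_eq_inv_mul]
    refine mul_le_mul_of_nonneg_left ?_ (by positivity)
    have := (fderiv ℝ b (r⁻¹ • (x - c))).le_opNorm (ek k)
    rw [nw_norm_ek, mul_one] at this
    exact this.trans (hC _)
  · have h1 : r⁻¹ • (x - c) ∉ tsupport b := by
      rw [b.tsupport_eq, mem_closedBall_zero_iff, hn, div_le_iff₀ hr, not_le]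
      exact hx
    refine ⟨image_eq_zero_of_notMem_tsupport h1, fun k => ?_⟩
    rw [hd, fderiv_of_notMem_tsupport ℝ h1]
    simp

lemma nw_pd_cut {θ ψ : Pt → ℝ} (hθ : ContDiff ℝ 1 θ) (hψ : ContDiff ℝ 1 ψ) (k : Fin 3) (x : Pt) :
    pd k (fun x => θ x * ψ x ^ 2) x = pd k θ x * ψ x ^ 2 + 2 * θ x * ψ x * pd k ψ x := by
  have h1 := (hθ.differentiable one_ne_zero x).hasFDerivAt
  have h2 := (hψ.differentiable one_ne_zero x).hasFDerivAt
  rw [pd, (h1.fun_mul (h2.pow 2)).fderiv]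
  simp only [pd, add_apply, smul_apply, smul_eq_mul]
  norm_num
  ring

lemma nw_field_le {e : ℝ} (he : 0 < e) (c y : Pt) (k : Fin 3) :
    |(c k - y k) * nwQ e c y ^ (-(1 / 2) : ℝ)| ≤ 1 := by
  have h := nwQ_pos he c y
  rw [Real.rpow_neg h.le, ← Real.sqrt_eq_rpow, ← div_eq_mul_inv, abs_div,
    abs_of_nonneg (Real.sqrt_nonneg _), div_le_one (Real.sqrt_pos.2 h)]
  refine Real.abs_le_sqrt ?_
  have := Finset.single_le_sum (f := fun k => (c k - y k) ^ 2) (fun i _ => sq_nonneg _)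
    (Finset.mem_univ k)
  simp only [nwQ]
  linarith

lemma nw_pt {t d ψ g a D : ℝ} (h0 : 0 ≤ t) (h1 : t ≤ 1) (hd : |d| ≤ D) (ha : |a| ≤ 1) :
    (d * ψ ^ 2 + 2 * t * ψ * g) * a ≤ (D + 1) * ψ ^ 2 + g ^ 2 := by
  have h2 : d * a ≤ D := by
    calc d * a ≤ |d| * |a| := by rw [← abs_mul]; exact le_abs_self _
      _ ≤ D * 1 := mul_le_mul hd ha (abs_nonneg _) ((abs_nonneg _).trans hd)
      _ = D := mul_one _
  have h3 : (t * a) ^ 2 ≤ 1 := by
    rw [mul_pow, ← sq_abs a]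
    exact mul_le_one₀ (pow_le_one₀ h0 h1) (sq_nonneg _) (pow_le_one₀ (abs_nonneg _) ha)
  nlinarith [mul_le_mul_of_nonneg_right h2 (sq_nonneg ψ),
    mul_le_mul_of_nonneg_right h3 (sq_nonneg ψ), sq_nonneg (t * a * ψ - g)]

lemma nw_hardy_reg {f G : Pt → ℝ} (hf : C1c f) (h0 : ∀ y, 0 ≤ f y) (hG : Integrable G) (c : Pt)
    (hle : ∀ (a : Fin 3 → ℝ) (y : Pt), (∀ k, |a k| ≤ 1) → ∑ k, pd k f y * a k ≤ G y) :
    2 * ∫ y, ker (c - y) * f y ≤ ∫ y, G y := by
  have key : ∀ ε : ℝ, 0 < ε →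
      2 * ∫ y, nwQ (ε ^ 2) c y ^ (-(1 / 2) : ℝ) * f y ≤ ∫ y, G y := by
    intro ε hε
    have he := pow_pos hε 2
    have hp := nwQ_pos he c
    have hK : ContDiff ℝ 1 fun y => nwQ (ε ^ 2) c y ^ (-(1 / 2) : ℝ) :=
      (nwQ_smooth _ c).rpow_const_of_ne fun y => (hp y).ne'
    have ha : ∀ k, ContDiff ℝ 1 fun y : Pt => (c k - y k) * nwQ (ε ^ 2) c y ^ (-(1 / 2) : ℝ) :=
      fun k => ContDiff.mul (by fun_prop) hK
    have i1 : ∀ k, Integrable fun y =>
        f y * pd k (fun y : Pt => (c k - y k) * nwQ (ε ^ 2) c y ^ (-(1 / 2) : ℝ)) y := fun k =>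
      (hf.1.continuous.mul (nw_cont_pd (ha k) k)).integrable_of_hasCompactSupport hf.2.mul_right
    have i2 : ∀ k, Integrable fun y =>
        pd k f y * ((c k - y k) * nwQ (ε ^ 2) c y ^ (-(1 / 2) : ℝ)) := fun k =>
      ((nw_cont_pd hf.1 k).mul (ha k).continuous).integrable_of_hasCompactSupport
        (nw_supp_pd hf.2 k).mul_right
    have i3 : Integrable fun y => nwQ (ε ^ 2) c y ^ (-(1 / 2) : ℝ) * f y :=
      (hK.continuous.mul hf.1.continuous).integrable_of_hasCompactSupport hf.2.mul_left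
    calc 2 * ∫ y, nwQ (ε ^ 2) c y ^ (-(1 / 2) : ℝ) * f y
        ≤ ∫ y, -∑ k, f y *
            pd k (fun y : Pt => (c k - y k) * nwQ (ε ^ 2) c y ^ (-(1 / 2) : ℝ)) y := by
          rw [← integral_const_mul]
          refine integral_mono (i3.const_mul 2) (integrable_finsetSum _ fun k _ => i1 k).neg
            fun y => ?_
          simp only
          rw [← Finset.mul_sum, nw_div_field (hp y)]
          have h1 : 0 ≤ f y * (ε ^ 2 * nwQ (ε ^ 2) c y ^ (-(1 / 2) - 1 : ℝ)) :=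
            mul_nonneg (h0 y) (mul_nonneg he.le (Real.rpow_nonneg (hp y).le _))
          linarith
      _ = ∫ y, ∑ k, pd k f y * ((c k - y k) * nwQ (ε ^ 2) c y ^ (-(1 / 2) : ℝ)) := by
          rw [integral_neg, integral_finsetSum _ fun k _ => i1 k,
            integral_finsetSum _ fun k _ => i2 k, ← Finset.sum_neg_distrib]
          exact Finset.sum_congr rfl fun k _ => by rw [integral_mul_pd hf (ha k) k, neg_neg]
      _ ≤ ∫ y, G y := integral_mono (integrable_finsetSum _ fun k _ => i2 k) hG fun y =>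
          hle _ y fun k => nw_field_le he c y k
  have h1 := (continuousAt_const (y := (2 : ℝ))).mul (nw_cont_reg hf.1.continuous hf.2 c)
  have h2 := le_of_tendsto (x := nhdsWithin (0 : ℝ) (Ioi 0))
    (h1.tendsto.mono_left nhdsWithin_le_nhds) (Filter.mem_of_superset self_mem_nhdsWithin key)
  simpa only [Pi.mul_apply, ne_eq, OfNat.ofNat_ne_zero, not_false_eq_true, zero_pow,
    ← nw_ker_eq] using h2

/-- Local Hardy inequality on cubes. -/
theorem hardy : ∃ C : ℝ, 1 ≤ C ∧ ∀ (ψ : Pt → ℝ) (c : Pt) (r : ℝ), C1c ψ → 0 < r → r ≤ 1 →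
    ∫ x in {x | ‖x - c‖ ≤ r}, ker (x - c) * ψ x ^ 2 ≤
      C / r * ∫ x in {x | ‖x - c‖ ≤ 2 * r}, (ψ x ^ 2 + gsq ψ x) := by
  obtain ⟨C, hC, hcut⟩ := nw_cut
  refine ⟨3 * C + 3, by linarith, fun ψ c r hψ hr hr1 => ?_⟩
  obtain ⟨θ, hθ, h01, h1, hd, h2⟩ := hcut c r hr
  have hm : ∀ t : ℝ, MeasurableSet {x : Pt | ‖x - c‖ ≤ t} := fun t =>
    (isClosed_le (by fun_prop) continuous_const).measurableSet
  have hsq : HasCompactSupport fun x => ψ x ^ 2 :=
    hψ.2.comp_left (g := fun t : ℝ => t ^ 2) (by simp)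
  have hf : C1c fun x => θ x * ψ x ^ 2 := ⟨hθ.mul (hψ.1.pow 2), hsq.mul_left⟩
  have h0 : ∀ y, 0 ≤ θ y * ψ y ^ 2 := fun y => mul_nonneg (h01 y).1 (sq_nonneg _)
  have hI : Integrable fun x => ψ x ^ 2 + gsq ψ x :=
    ((hψ.1.continuous.fun_pow 2).integrable_of_hasCompactSupport hsq).add hψ.integrable_gsq
  have hg : ∀ y, 0 ≤ gsq ψ y := fun y => Finset.sum_nonneg fun k _ => sq_nonneg _
  have key := nw_hardy_reg hf h0 (G := indicator {x | ‖x - c‖ ≤ 2 * r}
    fun x => (3 * C + 3) / r * (ψ x ^ 2 + gsq ψ x)) ((hI.const_mul _).indicator (hm _)) c (by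
      intro a y ha
      simp only [nw_pd_cut hθ hψ.1]
      by_cases hy : ‖y - c‖ ≤ 2 * r
      · rw [indicator_of_mem (show y ∈ {x | ‖x - c‖ ≤ 2 * r} from hy)]
        refine (Finset.sum_le_sum fun k _ => nw_pt (h01 y).1 (h01 y).2 (hd k y) (ha k)).trans ?_
        rw [Finset.sum_add_distrib]
        simp only [Finset.sum_const, Finset.card_univ, Fintype.card_fin, nsmul_eq_mul]
        have e1 : (3 * C + 3) / r = 3 * (C / r) + 3 * (1 / r) := by ring
        have e2 : 1 ≤ 1 / r := one_le_one_div hr hr1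
        have e3 : 0 ≤ C / r := by positivity
        have e4 := hg y
        rw [e1]
        change _ + gsq ψ y ≤ _
        push_cast
        nlinarith [mul_le_mul_of_nonneg_right e2 (sq_nonneg (ψ y)),
          mul_le_mul_of_nonneg_right e2 e4, mul_nonneg e3 e4]
      · rw [indicator_of_notMem (show y ∉ {x | ‖x - c‖ ≤ 2 * r} from hy)]
        obtain ⟨h3, h4⟩ := h2 y (not_le.1 hy)
        simp [h3, h4])
  rw [integral_indicator (hm _), integral_const_mul] at key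
  have h3 : ∫ x in {x | ‖x - c‖ ≤ r}, ker (x - c) * ψ x ^ 2 ≤
      ∫ y, ker (c - y) * (θ y * ψ y ^ 2) := by
    simp only [ker_sub_comm c]
    rw [setIntegral_congr_fun (g := fun y => ker (y - c) * (θ y * ψ y ^ 2)) (hm r)
      fun y hy => by simp only [h1 y hy, one_mul]]
    exact setIntegral_le_integral (integrable_ker_mul_cc hf.1.continuous hf.2 c)
      (Filter.Eventually.of_forall fun y => mul_nonneg (ker_nonneg _) (h0 y))
  have h4 : 0 ≤ ∫ y, ker (c - y) * (θ y * ψ y ^ 2) :=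
    integral_nonneg fun y => mul_nonneg (ker_nonneg _) (h0 y)
  linarith

end Vale.Agent.P370
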