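import Vale.Agent.P370.Basic

/-!
The Euclidean norm on `Pt`, radial integrals, integrability of the Coulomb kernel.
-/

namespace Vale.Agent.P370

open MeasureTheory Set

lemma nrm_eq (x : Pt) : nrm x = ‖(WithLp.toLp 2 x : EuclideanSpace ℝ (Fin 3))‖ := by
  rw [EuclideanSpace.norm_eq]
  simp [nrm]

lemma nrm_nonneg (x : Pt) : 0 ≤ nrm x := Real.sqrt_nonneg _
lemma abs_le_nrm' (x : Pt) (k : Fin 3) : |x k| ≤ nrm x :=
  Real.abs_le_sqrt (Finset.single_le_sum (f := fun k => x k ^ 2) (fun _ _ => sq_nonneg _)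
    (Finset.mem_univ k))
lemma norm_le_nrm (x : Pt) : ‖x‖ ≤ nrm x :=
  (pi_norm_le_iff_of_nonneg (nrm_nonneg x)).mpr fun k => abs_le_nrm' x k
lemma nrm_le_norm (x : Pt) : nrm x ≤ 2 * ‖x‖ := by
  have h : ∀ k, x k ^ 2 ≤ ‖x‖ ^ 2 := fun k => by
    rw [← sq_abs]
    exact pow_le_pow_left₀ (abs_nonneg _) (norm_le_pi_norm x k) 2
  refine Real.sqrt_le_iff.mpr ⟨by positivity, ?_⟩
  rw [Fin.sum_univ_three]
  nlinarith [h 0, h 1, h 2, sq_nonneg ‖x‖]
lemma abs_le_nrm (x : Pt) (k : Fin 3) : |x k| ≤ nrm x := abs_le_nrm' x k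
lemma nrm_neg (x : Pt) : nrm (-x) = nrm x := by simp [nrm]
lemma nrm_sub_comm (x y : Pt) : nrm (x - y) = nrm (y - x) := by rw [← nrm_neg, neg_sub]
lemma nrm_add_le (x y : Pt) : nrm (x + y) ≤ nrm x + nrm y := by
  rw [nrm_eq, nrm_eq, nrm_eq, WithLp.toLp_add]
  exact norm_add_le _ _
lemma nrm_smul (c : ℝ) (x : Pt) : nrm (c • x) = |c| * nrm x := by
  rw [nrm_eq, nrm_eq, WithLp.toLp_smul, norm_smul, Real.norm_eq_abs]
lemma nrm_pos {x : Pt} (hx : x ≠ 0) : 0 < nrm x :=
  (norm_pos_iff.mpr hx).trans_le (norm_le_nrm x)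
lemma continuous_nrm : Continuous nrm := by
  unfold nrm
  fun_prop
lemma measurable_ker : Measurable ker := continuous_nrm.measurable.inv
lemma ker_nonneg (x : Pt) : 0 ≤ ker x := inv_nonneg.mpr (nrm_nonneg x)
lemma ker_sub_comm (x y : Pt) : ker (x - y) = ker (y - x) := by rw [ker, ker, nrm_sub_comm]
lemma box_eq (a b c : ℝ) : box a b c = Icc ![-a, -b, -c] ![a, b, c] := by
  ext x
  simp only [box, mem_setOf_eq, mem_Icc, Pi.le_def, Fin.forall_fin_succ, abs_le]
  simp
  tauto
lemma measurableSet_box (a b c : ℝ) : MeasurableSet (box a b c) := by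
  rw [box_eq]; exact measurableSet_Icc
lemma isCompact_box (a b c : ℝ) : IsCompact (box a b c) := by
  rw [box_eq]; exact isCompact_Icc
lemma volume_box {a b c : ℝ} (ha : 0 ≤ a) (hb : 0 ≤ b) (hc : 0 ≤ c) :
    volume.real (box a b c) = 8 * a * b * c := by
  rw [box_eq, Measure.real, Real.volume_Icc_pi_toReal]
  · simp [Fin.prod_univ_three]
    ring
  · intro k
    fin_cases k <;> simp [ha, hb, hc]

lemma emb_toLp (ι : Type) [Fintype ι] :
    MeasurableEmbedding (WithLp.toLp 2 : (ι → ℝ) → EuclideanSpace ℝ ι) :=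
  (MeasurableEquiv.toLp 2 (ι → ℝ)).measurableEmbedding

/-- Radial integration in space. -/
theorem integral_radial (f : ℝ → ℝ) :
    ∫ x : Pt, f (nrm x) = 4 * Real.pi * ∫ r in Ioi (0 : ℝ), r ^ 2 * f r := by
  simp_rw [nrm_eq]
  rw [(PiLp.volume_preserving_toLp (Fin 3)).integral_comp (emb_toLp _) (fun x => f ‖x‖),
    integral_fun_norm_addHaar]
  simp only [finrank_euclideanSpace, Fintype.card_fin, Measure.real,
    EuclideanSpace.volume_ball_fin_three, smul_eq_mul, nsmul_eq_mul]
  rw [ENNReal.ofReal_one, one_pow, one_mul, ENNReal.toReal_ofReal (by positivity)]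
  norm_num
  ring

theorem integrable_radial {f : ℝ → ℝ} (hf : Measurable f)
    (h : IntegrableOn (fun r => r ^ 2 * f r) (Ioi 0)) : Integrable fun x : Pt => f (nrm x) := by
  simp_rw [nrm_eq]
  refine ((PiLp.volume_preserving_toLp (Fin 3)).integrable_comp_emb (emb_toLp _)
    (g := fun x => f ‖x‖)).mpr ?_
  rw [integrable_fun_norm_addHaar]
  simpa using h

/-- The plane as a Euclidean space. -/
def toE2 (p : ℝ × ℝ) : EuclideanSpace ℝ (Fin 2) :=
  WithLp.toLp 2 (MeasurableEquiv.finTwoArrow.symm p)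

lemma norm_toE2 (p : ℝ × ℝ) : √(p.1 ^ 2 + p.2 ^ 2) = ‖toE2 p‖ := by
  rw [EuclideanSpace.norm_eq]
  simp [toE2, MeasurableEquiv.finTwoArrow]

lemma pres_toE2 : MeasurePreserving toE2 volume volume :=
  (PiLp.volume_preserving_toLp (Fin 2)).comp (volume_preserving_finTwoArrow ℝ).symm

lemma emb_toE2 : MeasurableEmbedding toE2 :=
  (emb_toLp _).comp MeasurableEquiv.finTwoArrow.symm.measurableEmbedding

/-- Radial integration in the plane. -/
theorem integral_radial2 (f : ℝ → ℝ) :
    ∫ p : ℝ × ℝ, f (√(p.1 ^ 2 + p.2 ^ 2)) = 2 * Real.pi * ∫ r in Ioi (0 : ℝ), r * f r := by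
  simp_rw [norm_toE2]
  rw [pres_toE2.integral_comp emb_toE2 (fun x => f ‖x‖), integral_fun_norm_addHaar]
  simp only [finrank_euclideanSpace, Fintype.card_fin, Measure.real,
    EuclideanSpace.volume_ball_fin_two, smul_eq_mul, nsmul_eq_mul]
  rw [ENNReal.ofReal_one, one_pow, one_mul, ENNReal.toReal_ofReal (by positivity)]
  norm_num
  ring

theorem integrable_radial2 {f : ℝ → ℝ} (hf : Measurable f)
    (h : IntegrableOn (fun r => r * f r) (Ioi 0)) :
    Integrable fun p : ℝ × ℝ => f (√(p.1 ^ 2 + p.2 ^ 2)) := by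
  simp_rw [norm_toE2]
  refine (pres_toE2.integrable_comp_emb emb_toE2 (g := fun x => f ‖x‖)).mpr ?_
  rw [integrable_fun_norm_addHaar]
  simpa using h

/-- Radial integrals over a shell centred at `x`. -/
lemma shell {T : Set ℝ} (hT : MeasurableSet T) {f : ℝ → ℝ} (hf : Measurable f) (x : Pt)
    (h : IntegrableOn (fun r => r ^ 2 * f r) (Ioi 0 ∩ T)) :
    IntegrableOn (fun y => f (nrm (x - y))) {y | nrm (x - y) ∈ T} ∧
      ∫ y in {y | nrm (x - y) ∈ T}, f (nrm (x - y)) =
        4 * Real.pi * ∫ r in Ioi 0 ∩ T, r ^ 2 * f r := by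
  have hm : MeasurableSet {y | nrm (x - y) ∈ T} :=
    (continuous_nrm.comp (continuous_const.sub continuous_id)).measurable hT
  have e : indicator {y | nrm (x - y) ∈ T} (fun y => f (nrm (x - y))) =
      fun y => T.indicator f (nrm (x - y)) := by
    ext y
    by_cases hy : nrm (x - y) ∈ T <;> simp [hy]
  have e2 : (fun r => r ^ 2 * T.indicator f r) = T.indicator fun r => r ^ 2 * f r := by
    ext r
    by_cases hr : r ∈ T <;> simp [hr]
  constructor
  · rw [← integrable_indicator_iff hm, e]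
    refine (integrable_radial (hf.indicator hT) ?_).comp_sub_left x
    rw [e2, IntegrableOn, integrable_indicator_iff hT, IntegrableOn, Measure.restrict_restrict hT,
      inter_comm]
    exact h
  · rw [← integral_indicator hm, e,
      integral_sub_left_eq_self (fun y => T.indicator f (nrm y)) volume x, integral_radial, e2,
      setIntegral_indicator hT]

lemma sq_mul_rpow {a r : ℝ} (hr : 0 < r) : r ^ 2 * r ^ (-a) = r ^ (2 - a) := by
  rw [sub_eq_add_neg, Real.rpow_add hr, Real.rpow_two]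

/-- Negative powers inside a ball. -/
theorem rpow_in {a b : ℝ} (ha : a < 3) (hb : 0 < b) (x : Pt) :
    IntegrableOn (fun y => nrm (x - y) ^ (-a)) {y | nrm (x - y) ≤ b} ∧
      ∫ y in {y | nrm (x - y) ≤ b}, nrm (x - y) ^ (-a) = 4 * Real.pi * b ^ (3 - a) / (3 - a) := by
  have e : EqOn (fun r : ℝ => r ^ 2 * r ^ (-a)) (fun r => r ^ (2 - a)) (Ioi 0 ∩ Iic b) :=
    fun r hr => sq_mul_rpow hr.1
  have hm : MeasurableSet (Ioi (0 : ℝ) ∩ Iic b) := measurableSet_Ioi.inter measurableSet_Iic
  have h1 : -1 < 2 - a := by linarith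
  obtain ⟨h2, h3⟩ := shell (T := Iic b) measurableSet_Iic (f := fun r => r ^ (-a))
    (measurable_id.pow_const _) x (by
      rw [integrableOn_congr_fun e hm, Ioi_inter_Iic]
      exact (intervalIntegral.intervalIntegrable_rpow' h1 (a := 0) (b := b)).1)
  refine ⟨h2, h3.trans ?_⟩
  rw [setIntegral_congr_fun hm e, Ioi_inter_Iic, ← intervalIntegral.integral_of_le hb.le,
    integral_rpow (Or.inl h1), Real.zero_rpow (by linarith), show 2 - a + 1 = 3 - a by ring]
  ring

/-- Negative powers outside a ball. -/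
theorem rpow_out {a b : ℝ} (ha : 3 < a) (hb : 0 < b) (x : Pt) :
    IntegrableOn (fun y => nrm (x - y) ^ (-a)) {y | b ≤ nrm (x - y)} ∧
      ∫ y in {y | b ≤ nrm (x - y)}, nrm (x - y) ^ (-a) = 4 * Real.pi * b ^ (3 - a) / (a - 3) := by
  have e0 : Ioi (0 : ℝ) ∩ Ici b = Ici b := inter_eq_right.mpr fun r hr => hb.trans_le hr
  have e : EqOn (fun r : ℝ => r ^ 2 * r ^ (-a)) (fun r => r ^ (2 - a)) (Ici b) :=
    fun r hr => sq_mul_rpow (hb.trans_le hr)
  have h1 : 2 - a < -1 := by linarith
  obtain ⟨h2, h3⟩ := shell (T := Ici b) measurableSet_Ici (f := fun r => r ^ (-a))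
    (measurable_id.pow_const _) x (by
      rw [e0, integrableOn_congr_fun e measurableSet_Ici, integrableOn_Ici_iff_integrableOn_Ioi]
      exact integrableOn_Ioi_rpow_of_lt h1 hb)
  refine ⟨h2, h3.trans ?_⟩
  have n1 : a - 3 ≠ 0 := by linarith
  have n2 : 3 - a ≠ 0 := by linarith
  rw [e0, setIntegral_congr_fun measurableSet_Ici e, integral_Ici_eq_integral_Ioi,
    integral_Ioi_rpow_of_lt h1 hb, show 2 - a + 1 = 3 - a by ring]
  field_simp
  ring

lemma ker_eq_rpow (x : Pt) : ker x = nrm x ^ (-1 : ℝ) := (Real.rpow_neg_one _).symm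

lemma ker_sq_eq_rpow (x : Pt) : ker x ^ 2 = nrm x ^ (-2 : ℝ) := by
  rw [Real.rpow_neg (nrm_nonneg x), Real.rpow_two, ker, inv_pow]

lemma measurableSet_nball (x : Pt) (r : ℝ) : MeasurableSet {y | nrm (x - y) ≤ r} :=
  measurableSet_le (continuous_nrm.comp (continuous_const.sub continuous_id)).measurable
    measurable_const

lemma ker_le_inv {z : Pt} {r : ℝ} (hr : 0 < r) (h : r ≤ nrm z) : ker z ≤ r⁻¹ := inv_anti₀ hr h

lemma integrableOn_split {E B : Set Pt} (hE : volume E ≠ ⊤) (hB : MeasurableSet B) {g : Pt → ℝ}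
    (hg : Measurable g) (h1 : IntegrableOn g B) {C : ℝ} (h2 : ∀ y ∉ B, ‖g y‖ ≤ C) :
    IntegrableOn g E := by
  have h3 : IntegrableOn g (E \ B) := by
    refine Measure.integrableOn_of_bounded (M := C)
      ((measure_mono diff_subset).trans_lt hE.lt_top).ne hg.aestronglyMeasurable ?_
    exact ae_restrict_of_ae_restrict_of_subset (t := Bᶜ) (fun y hy => hy.2)
      ((ae_restrict_mem hB.compl).mono fun y hy => h2 y hy)
  exact (h1.union h3).mono_set fun y hy => by
    by_cases h : y ∈ B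
    · exact Or.inl h
    · exact Or.inr ⟨hy, h⟩

lemma measurable_ker_sub (x : Pt) : Measurable fun y => ker (x - y) :=
  measurable_ker.comp (measurable_const.sub measurable_id)

theorem integrableOn_ker {E : Set Pt} (hE : volume E ≠ ⊤) (x : Pt) :
    IntegrableOn (fun y => ker (x - y)) E := by
  refine integrableOn_split hE (measurableSet_nball x 1) (measurable_ker_sub x) ?_ (C := 1⁻¹) ?_
  · simp_rw [ker_eq_rpow]
    exact (rpow_in (a := 1) (by norm_num) one_pos x).1
  · intro y hy
    rw [Real.norm_of_nonneg (ker_nonneg _)]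
    exact ker_le_inv one_pos (not_le.mp hy).le

theorem integrableOn_ker_sq {E : Set Pt} (hE : volume E ≠ ⊤) (x : Pt) :
    IntegrableOn (fun y => ker (x - y) ^ 2) E := by
  refine integrableOn_split hE (measurableSet_nball x 1) ((measurable_ker_sub x).pow_const 2) ?_
    (C := 1⁻¹ ^ 2) ?_
  · simp_rw [ker_sq_eq_rpow]
    exact (rpow_in (a := 2) (by norm_num) one_pos x).1
  · intro y hy
    rw [Real.norm_of_nonneg (sq_nonneg _)]
    exact pow_le_pow_left₀ (ker_nonneg _) (ker_le_inv one_pos (not_le.mp hy).le) 2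

/-- The potential of a set of finite volume. -/
theorem coulomb_le {E : Set Pt} (hm : MeasurableSet E) (hE : volume E ≠ ⊤) (x : Pt) {r : ℝ}
    (hr : 0 < r) : ∫ y in E, ker (x - y) ≤ 7 * r ^ 2 + volume.real E / r := by
  have hB := measurableSet_nball x r
  obtain ⟨h1, h2⟩ := rpow_in (a := 1) (by norm_num) hr x
  simp_rw [← ker_eq_rpow] at h1 h2
  have hfin : volume (E \ {y | nrm (x - y) ≤ r}) ≠ ⊤ :=
    ((measure_mono diff_subset).trans_lt hE.lt_top).ne
  rw [← integral_inter_add_diff hB (integrableOn_ker hE x)]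
  refine add_le_add ?_ ?_
  · refine (setIntegral_mono_set h1 (ae_of_all _ fun y => ker_nonneg _)
      (inter_subset_right (s := E)).eventuallyLE).trans ?_
    rw [h2, show (3 : ℝ) - 1 = 2 by norm_num, Real.rpow_two]
    nlinarith [Real.pi_lt_d2, sq_nonneg r]
  · refine (setIntegral_mono_on (integrableOn_ker hfin x) (integrableOn_const hfin) (hm.diff hB)
      (g := fun _ => r⁻¹) fun y hy => ker_le_inv hr (not_le.mp hy.2).le).trans ?_
    rw [setIntegral_const, smul_eq_mul, div_eq_mul_inv]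
    exact mul_le_mul_of_nonneg_right (measureReal_mono diff_subset hE) (inv_nonneg.mpr hr.le)

/-- Bounded functions vanishing outside a set of finite volume. -/
theorem integrable_ker_mul {f : Pt → ℝ} (hf : AEStronglyMeasurable f) {C : ℝ}
    (hC : ∀ y, |f y| ≤ C) {E : Set Pt} (hE : volume E ≠ ⊤) (h0 : ∀ y ∉ E, f y = 0) (x : Pt) :
    Integrable fun y => ker (x - y) * f y := by
  rw [← integrableOn_iff_integrable_of_support_subset (s := E)]
  · exact Integrable.mul_bdd (integrableOn_ker hE x) hf.restrict (ae_of_all _ hC)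
  · intro y hy
    by_contra h
    exact hy (by simp [h0 y h])

theorem integrable_ker_mul_cc {f : Pt → ℝ} (hf : Continuous f) (hc : HasCompactSupport f)
    (x : Pt) : Integrable fun y => ker (y - x) * f y := by
  obtain ⟨C, hC⟩ := hf.bounded_above_of_compact_support hc
  simp_rw [ker_sub_comm _ x]
  exact integrable_ker_mul hf.aestronglyMeasurable hC hc.isCompact.measure_lt_top.ne
    (fun y hy => image_eq_zero_of_notMem_tsupport hy) x

lemma pot_nil : pot [] = fun _ => 0 := by
  ext y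
  simp [pot]

lemma pot_cons (p : Pt × ℝ) (nuc : List (Pt × ℝ)) :
    pot (p :: nuc) = fun y => -p.2 * ker (y - p.1) + pot nuc y := by
  ext y
  simp only [pot, List.map_cons, List.sum_cons]
  ring

theorem measurable_pot (nuc : List (Pt × ℝ)) : Measurable (pot nuc) := by
  induction nuc with
  | nil => rw [pot_nil]; exact measurable_const
  | cons p nuc ih =>
    rw [pot_cons]
    exact ((measurable_ker.comp (measurable_id.sub measurable_const)).const_mul _).add ih

theorem integrable_pot_mul (nuc : List (Pt × ℝ)) {f : Pt → ℝ} (hf : Continuous f)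
    (hc : HasCompactSupport f) : Integrable fun y => pot nuc y * f y := by
  induction nuc with
  | nil => simp [pot_nil]
  | cons p nuc ih =>
    rw [pot_cons]
    simp_rw [add_mul, mul_assoc]
    exact ((integrable_ker_mul_cc hf hc p.1).const_mul _).add ih

theorem locallyIntegrable_pot (nuc : List (Pt × ℝ)) : LocallyIntegrable (pot nuc) := by
  induction nuc with
  | nil => rw [pot_nil]; exact locallyIntegrable_const 0
  | cons p nuc ih =>
    rw [pot_cons]
    refine LocallyIntegrable.add (f := fun y => -p.2 * ker (y - p.1)) ?_ ih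
    rw [locallyIntegrable_iff]
    intro K hK
    simp_rw [ker_sub_comm _ p.1]
    exact (integrableOn_ker hK.measure_lt_top.ne p.1).const_mul _

/-- Splitting off the last coordinate. -/
def toPt (p : (ℝ × ℝ) × ℝ) : Pt := ![p.1.1, p.1.2, p.2]

/-- `toPt` as a measurable equivalence. -/
def toPtE : (ℝ × ℝ) × ℝ ≃ᵐ Pt :=
  MeasurableEquiv.prodAssoc.trans
    (((MeasurableEquiv.refl ℝ).prodCongr MeasurableEquiv.finTwoArrow.symm).trans
      (MeasurableEquiv.piFinSuccAbove (fun _ : Fin 3 => ℝ) 0).symm)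

lemma toPt_eq : toPt = toPtE := by
  ext p k
  fin_cases k <;> rfl

theorem measurePreserving_toPt : MeasurePreserving toPt volume volume := by
  rw [toPt_eq]
  exact ((volume_preserving_piFinSuccAbove (fun _ : Fin 3 => ℝ) 0).symm.comp
    ((MeasurePreserving.id volume).prod (volume_preserving_finTwoArrow ℝ).symm)).comp
    volume_preserving_prodAssoc

theorem measurableEmbedding_toPt : MeasurableEmbedding toPt := by
  rw [toPt_eq]
  exact toPtE.measurableEmbedding

theorem integral_pt {F : Pt → ℝ} (hF : Integrable F) :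
    ∫ x, F x = ∫ p : ℝ × ℝ, ∫ z, F ![p.1, p.2, z] := by
  rw [← measurePreserving_toPt.integral_comp measurableEmbedding_toPt F]
  exact integral_prod _ ((measurePreserving_toPt.integrable_comp_emb
    measurableEmbedding_toPt).mpr hF)

theorem integral_pt' {F : Pt → ℝ} (hF : Integrable F) :
    ∫ x, F x = ∫ z, ∫ p : ℝ × ℝ, F ![p.1, p.2, z] := by
  rw [← measurePreserving_toPt.integral_comp measurableEmbedding_toPt F]
  exact integral_prod_symm _ ((measurePreserving_toPt.integrable_comp_emb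
    measurableEmbedding_toPt).mpr hF)

theorem integral_pt_prod (f g h : ℝ → ℝ) :
    ∫ x : Pt, f (x 0) * g (x 1) * h (x 2) = (∫ t, f t) * (∫ t, g t) * ∫ t, h t := by
  have := integral_fintype_prod_volume_eq_prod (ι := Fin 3) (E := fun _ => ℝ) ![f, g, h]
  simpa [Fin.prod_univ_three] using this

end Vale.Agent.P370
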