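import Vale.Agent.P370.Box

/-!
Integration tools for the Coulomb matrix elements.
-/

namespace Vale.Agent.P370

open MeasureTheory Set

/-- Planar part of a point. -/
def pl (x : Pt) : ℝ × ℝ := (x 0, x 1)

lemma tb_split (K : ℝ × ℝ → ℝ) (g : ℝ → ℝ) :
    ∫ x : Pt, K (pl x) * g (x 2) = (∫ q, K q) * ∫ z, g z := by
  rw [← measurePreserving_toPt.integral_comp measurableEmbedding_toPt, ← integral_prod_mul]
  rfl

/-- Regrouping of four factors. -/
def tbE (A B : Type) [MeasurableSpace A] [MeasurableSpace B] :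
    (A × A) × (B × B) ≃ᵐ (A × B) × (A × B) :=
  MeasurableEquiv.prodAssoc.trans (((MeasurableEquiv.refl A).prodCongr
    (MeasurableEquiv.prodAssoc.symm.trans ((MeasurableEquiv.prodComm.prodCongr
      (MeasurableEquiv.refl B)).trans MeasurableEquiv.prodAssoc))).trans
    MeasurableEquiv.prodAssoc.symm)

lemma tbE_mp {A B : Type} [MeasurableSpace A] [MeasurableSpace B] (μ : Measure A) (ν : Measure B)
    [SFinite μ] [SFinite ν] :
    MeasurePreserving (tbE A B) ((μ.prod μ).prod (ν.prod ν)) ((μ.prod ν).prod (μ.prod ν)) := by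
  have h1 := measurePreserving_prodAssoc μ μ (ν.prod ν)
  have h2 := (measurePreserving_prodAssoc μ ν ν).symm MeasurableEquiv.prodAssoc
  have h3 := (Measure.measurePreserving_swap (μ := μ) (ν := ν)).prod (MeasurePreserving.id ν)
  have h4 := measurePreserving_prodAssoc ν μ ν
  have h5 := (measurePreserving_prodAssoc μ ν (μ.prod ν)).symm MeasurableEquiv.prodAssoc
  exact h5.comp (((MeasurePreserving.id μ).prod (h4.comp (h3.comp h2))).comp h1)

lemma tb_int {K : (ℝ × ℝ) × (ℝ × ℝ) → ℝ} {g h : ℝ → ℝ} (hK : Integrable K) (hg : Integrable g)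
    (hh : Integrable h) :
    Integrable (fun p : Pt × Pt => K (pl p.1, pl p.2) * (g (p.1 2) * h (p.2 2))) ∧
      ∫ p : Pt × Pt, K (pl p.1, pl p.2) * (g (p.1 2) * h (p.2 2)) =
        (∫ q, K q) * ((∫ z, g z) * ∫ z, h z) := by
  have m1 := (measurePreserving_toPt.prod measurePreserving_toPt).comp
    (tbE_mp (volume : Measure (ℝ × ℝ)) (volume : Measure ℝ))
  have m2 := (measurableEmbedding_toPt.prodMap measurableEmbedding_toPt).comp
    (tbE (ℝ × ℝ) ℝ).measurableEmbedding
  constructor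
  · exact (m1.integrable_comp_emb m2).1 (hK.mul_prod (hg.mul_prod hh))
  · rw [← integral_prod_mul, ← integral_prod_mul]
    exact (m1.integral_comp m2 _).symm

lemma tb_ae : ∀ᵐ p : Pt × Pt, p.1 0 ≠ p.2 0 := by
  refine (Measure.ae_prod_iff_ae_ae (μ := volume) (ν := volume)
    (measurableSet_eq_fun (f := fun p : Pt × Pt => p.1 0) (g := fun p => p.2 0)
      (by fun_prop) (by fun_prop)).compl).2 (Filter.Eventually.of_forall fun x => ?_)
  filter_upwards [Measure.ae_eval_ne (fun _ : Fin 3 => (volume : Measure ℝ)) 0 (x 0)] with y hy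
  exact hy.symm

section Pot

variable {X : Type} [MeasureSpace X] [SFinite (volume : Measure X)]

lemma tb_pot {k : X × X → ℝ} (hk : Measurable k) (k0 : ∀ p, 0 ≤ k p) {f h : X → ℝ}
    (hf : Measurable f) (hh : Measurable h) (f0 : ∀ x, 0 ≤ f x) (h0 : ∀ x, 0 ≤ h x)
    (fi : Integrable f) {P : ℝ}
    (hP : ∀ x, Integrable (fun y => k (x, y) * h y) ∧ ∫ y, k (x, y) * h y ≤ P) :
    Integrable (fun p : X × X => k p * (f p.1 * h p.2)) ∧
      ∫ p : X × X, k p * (f p.1 * h p.2) ≤ P * ∫ x, f x := by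
  have hm : Measurable fun p : X × X => k p * (f p.1 * h p.2) := by fun_prop
  have e : ∀ x y, k (x, y) * (f x * h y) = f x * (k (x, y) * h y) := fun x y => by ring
  have b : ∀ x, ∫ y, k (x, y) * (f x * h y) ≤ P * f x := fun x => by
    simp only [e]
    rw [integral_const_mul, mul_comm]
    exact mul_le_mul_of_nonneg_right (hP x).2 (f0 x)
  have n : ∀ p : X × X, 0 ≤ k p * (f p.1 * h p.2) := fun p =>
    mul_nonneg (k0 p) (mul_nonneg (f0 _) (h0 _))
  have hi : Integrable (fun p : X × X => k p * (f p.1 * h p.2)) (volume.prod volume) := by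
    refine (integrable_prod_iff hm.aestronglyMeasurable).2
      ⟨Filter.Eventually.of_forall fun x => ?_, ?_⟩
    · simp only [e]
      exact (hP x).1.const_mul _
    · refine (fi.const_mul P).mono' hm.norm.stronglyMeasurable.integral_prod_right'.aestronglyMeasurable
        (Filter.Eventually.of_forall fun x => ?_)
      rw [Real.norm_of_nonneg (integral_nonneg fun y => norm_nonneg _)]
      simp only [Real.norm_of_nonneg (n _)]
      exact b x
  refine ⟨hi, ?_⟩
  rw [Measure.volume_eq_prod, integral_prod _ hi, ← integral_const_mul]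
  exact integral_mono hi.integral_prod_left (fi.const_mul P) b

lemma tb_pot' {k : X × X → ℝ} (hk : Measurable k) (k0 : ∀ p, 0 ≤ k p)
    (ks : ∀ x y, k (x, y) = k (y, x)) {f h : X → ℝ}
    (hf : Measurable f) (hh : Measurable h) (f0 : ∀ x, 0 ≤ f x) (h0 : ∀ x, 0 ≤ h x)
    (fi : Integrable f) {P : ℝ}
    (hP : ∀ x, Integrable (fun y => k (x, y) * h y) ∧ ∫ y, k (x, y) * h y ≤ P) :
    Integrable (fun p : X × X => k p * (h p.1 * f p.2)) ∧
      ∫ p : X × X, k p * (h p.1 * f p.2) ≤ P * ∫ x, f x := by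
  obtain ⟨h1, h2⟩ := tb_pot hk k0 hf hh f0 h0 fi hP
  have e : (fun p : X × X => k p * (h p.1 * f p.2)) =
      (fun p : X × X => k p * (f p.1 * h p.2)) ∘ Prod.swap := by
    funext p
    simp only [Function.comp_apply, Prod.fst_swap, Prod.snd_swap]
    rw [mul_comm (h p.1), show k p = k p.swap from ks p.1 p.2]
  rw [e]
  refine ⟨h1.swap, le_trans (le_of_eq ?_) h2⟩
  exact integral_prod_swap (μ := volume) (ν := volume) fun p : X × X => k p * (f p.1 * h p.2)

end Pot

lemma ker2_comm (x y : ℝ × ℝ) : ker2 (x - y) = ker2 (y - x) := by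
  simp only [ker2, Prod.fst_sub, Prod.snd_sub]
  rw [show (x.1 - y.1) ^ 2 + (x.2 - y.2) ^ 2 = (y.1 - x.1) ^ 2 + (y.2 - x.2) ^ 2 by ring]

lemma tb_mk : Measurable fun p : (ℝ × ℝ) × (ℝ × ℝ) => ker2 (p.1 - p.2) :=
  measurable_ker2.comp (measurable_fst.sub measurable_snd)

lemma tb_pot2 {h : ℝ × ℝ → ℝ} (hh : Measurable h) (h0 : ∀ y, 0 ≤ h y) {B : ℝ} (hB : ∀ y, h y ≤ B)
    (hi : Integrable h) (x : ℝ × ℝ) :
    Integrable (fun y => ker2 (x - y) * h y) ∧ ∫ y, ker2 (x - y) * h y ≤ 7 * B + ∫ y, h y := by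
  have hB0 : 0 ≤ B := (h0 0).trans (hB 0)
  obtain ⟨t1, t2⟩ := boxA_tr_int x
  have b : ∀ y, ker2 (x - y) * h y ≤ boxA_tr (√((x - y).1 ^ 2 + (x - y).2 ^ 2)) * B + h y := by
    intro y
    have k1 := mul_le_mul_of_nonneg_right (boxA_ker2_le (x - y)) (h0 y)
    have k2 := mul_le_mul_of_nonneg_left (hB y) (boxA_tr_nonneg (x - y))
    linarith
  have i1 := (t1.mul_const B).add hi
  have i2 : Integrable fun y => ker2 (x - y) * h y :=
    i1.mono' ((measurable_ker2.comp (measurable_const.sub measurable_id)).mul hh).aestronglyMeasurable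
      (Filter.Eventually.of_forall fun y => by
        rw [Real.norm_of_nonneg (mul_nonneg (ker2_nonneg _) (h0 y))]
        exact b y)
  refine ⟨i2, (integral_mono i2 i1 b).trans ?_⟩
  simp only [Pi.add_apply]
  rw [integral_add (t1.mul_const B) hi, integral_mul_const, t2]
  have := Real.pi_lt_d2
  nlinarith

lemma tb_pot3 {h : Pt → ℝ} (hh : Measurable h) (h0 : ∀ y, 0 ≤ h y) {B : ℝ} (hB : ∀ y, h y ≤ B)
    {E : Set Pt} (hm : MeasurableSet E) (hE : volume E ≠ ⊤) (hz : ∀ y ∉ E, h y = 0) (x : Pt) :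
    Integrable (fun y => ker (x - y) * h y) ∧
      ∫ y, ker (x - y) * h y ≤ B * (7 + volume.real E) := by
  have hB0 : 0 ≤ B := (h0 0).trans (hB 0)
  have i1 := integrable_ker_mul hh.aestronglyMeasurable
    (fun y => by rw [abs_of_nonneg (h0 y)]; exact hB y) hE hz x
  refine ⟨i1, ?_⟩
  have k := coulomb_le hm hE x one_pos
  rw [one_pow, mul_one, div_one] at k
  refine le_trans ?_ (mul_le_mul_of_nonneg_left k hB0)
  rw [← integral_indicator hm, ← integral_const_mul]
  refine integral_mono i1 (((integrable_indicator_iff hm).2 (integrableOn_ker hE x)).const_mul B)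
    fun y => ?_
  by_cases hy : y ∈ E
  · simp only [indicator_of_mem hy]
    rw [mul_comm B]
    exact mul_le_mul_of_nonneg_left (hB y) (ker_nonneg _)
  · simp [hz y hy, indicator_of_notMem hy]

lemma ker_le_ker2 {x y : Pt} (h : x 0 ≠ y 0) : ker (x - y) ≤ ker2 (pl x - pl y) := by
  have h1 : 0 < (x 0 - y 0) ^ 2 := by have := sub_ne_zero.2 h; positivity
  simp only [ker, ker2, nrm, pl, Fin.sum_univ_three, Pi.sub_apply, Prod.fst_sub, Prod.snd_sub]
  exact box_anti (by positivity) (le_add_of_nonneg_right (sq_nonneg _))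

/-- The smeared planar kernel. -/
noncomputable def kerE (e : ℝ) (p : ℝ × ℝ) : ℝ := (√(p.1 ^ 2 + p.2 ^ 2 + e ^ 2))⁻¹

lemma kerE_nonneg (e : ℝ) (p : ℝ × ℝ) : 0 ≤ kerE e p := inv_nonneg.2 (Real.sqrt_nonneg _)

lemma kerE_le {e : ℝ} (he : 0 < e) (p : ℝ × ℝ) : kerE e p ≤ e⁻¹ :=
  inv_anti₀ he (Real.le_sqrt_of_sq_le (by nlinarith [sq_nonneg p.1, sq_nonneg p.2]))

lemma measurable_kerE (e : ℝ) : Measurable (kerE e) := by
  unfold kerE
  fun_prop

lemma kerE_le_ker {e : ℝ} {x y : Pt} (h : x 0 ≠ y 0) (hz : |x 2 - y 2| ≤ e) :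
    kerE e (pl x - pl y) ≤ ker (x - y) := by
  have h1 : 0 < (x 0 - y 0) ^ 2 := by have := sub_ne_zero.2 h; positivity
  have h2 : (x 2 - y 2) ^ 2 ≤ e ^ 2 := by
    rw [← sq_abs]
    exact pow_le_pow_left₀ (abs_nonneg _) hz 2
  simp only [ker, kerE, nrm, pl, Fin.sum_univ_three, Pi.sub_apply, Prod.fst_sub, Prod.snd_sub]
  exact box_anti (by positivity) (by linarith)

/-- Indicator of a square. -/
noncomputable def chi (a b r : ℝ) : ℝ × ℝ → ℝ :=
  (Icc (a - r) (a + r) ×ˢ Icc (b - r) (b + r)).indicator 1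

lemma chi_cases (a b r : ℝ) (q : ℝ × ℝ) :
    chi a b r q = 0 ∨ (chi a b r q = 1 ∧ |q.1 - a| ≤ r ∧ |q.2 - b| ≤ r) := by
  by_cases h : q ∈ Icc (a - r) (a + r) ×ˢ Icc (b - r) (b + r)
  · refine Or.inr ⟨indicator_of_mem h _, ?_, ?_⟩
    · rw [abs_le]; constructor <;> linarith [h.1.1, h.1.2]
    · rw [abs_le]; constructor <;> linarith [h.2.1, h.2.2]
  · exact Or.inl (indicator_of_notMem h _)

lemma chi_nonneg (a b r : ℝ) (q : ℝ × ℝ) : 0 ≤ chi a b r q := by
  rcases chi_cases a b r q with h | h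
  · exact h.ge
  · rw [h.1]; exact zero_le_one

lemma chi_le (a b r : ℝ) (q : ℝ × ℝ) : chi a b r q ≤ 1 := by
  rcases chi_cases a b r q with h | h
  · rw [h]; exact zero_le_one
  · exact h.1.le

lemma measurable_chi (a b r : ℝ) : Measurable (chi a b r) :=
  measurable_one.indicator (measurableSet_Icc.prod measurableSet_Icc)

lemma integrable_chi (a b r : ℝ) : Integrable (chi a b r) :=
  (integrable_indicator_iff (measurableSet_Icc.prod measurableSet_Icc)).2
    (integrableOn_const (boxA_sq_ne _ _ _ _))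

lemma integral_chi (a b : ℝ) {r : ℝ} (hr : 0 ≤ r) : ∫ q, chi a b r q = 4 * r ^ 2 := by
  rw [chi, integral_indicator_one (measurableSet_Icc.prod measurableSet_Icc),
    Measure.volume_eq_prod, measureReal_prod_prod, Real.volume_real_Icc_of_le (by linarith),
    Real.volume_real_Icc_of_le (by linarith)]
  ring

lemma integral_chi2 (a b a' b' : ℝ) {r : ℝ} (hr : 0 ≤ r) :
    ∫ p : (ℝ × ℝ) × (ℝ × ℝ), chi a b r p.1 * chi a' b' r p.2 = 16 * r ^ 4 := by
  rw [Measure.volume_eq_prod, integral_prod_mul, integral_chi a b hr, integral_chi a' b' hr]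
  ring

lemma integrable_ker2_chi (a b a' b' r : ℝ) : Integrable fun p : (ℝ × ℝ) × (ℝ × ℝ) =>
    ker2 (p.1 - p.2) * (chi a b r p.1 * chi a' b' r p.2) :=
  (tb_pot tb_mk (fun _ => ker2_nonneg _) (measurable_chi a b r) (measurable_chi a' b' r)
    (chi_nonneg a b r) (chi_nonneg a' b' r) (integrable_chi a b r) fun x =>
      ⟨(tb_pot2 (measurable_chi a' b' r) (chi_nonneg a' b' r) (chi_le a' b' r)
        (integrable_chi a' b' r) x).1, (tb_pot2 (measurable_chi a' b' r) (chi_nonneg a' b' r)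
        (chi_le a' b' r) (integrable_chi a' b' r) x).2⟩).1

lemma integrable_kerE_mul {e : ℝ} (he : 0 < e) {f g : ℝ × ℝ → ℝ} (hf : Integrable f)
    (hg : Integrable g) :
    Integrable fun p : (ℝ × ℝ) × (ℝ × ℝ) => kerE e (p.1 - p.2) * (f p.1 * g p.2) :=
  (hf.mul_prod hg).bdd_mul
    ((measurable_kerE e).comp (measurable_fst.sub measurable_snd)).aestronglyMeasurable
    (Filter.Eventually.of_forall fun p => by
      rw [Real.norm_of_nonneg (kerE_nonneg _ _)]
      exact kerE_le he _)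

lemma chi_self (a b : ℝ) {r : ℝ} (hr : 0 < r) :
    ∫ p : (ℝ × ℝ) × (ℝ × ℝ), ker2 (p.1 - p.2) * (chi a b r p.1 * chi a b r p.2) =
      16 * r ^ 3 * cU := by
  have hm : MeasurableSet (Icc (a - r) (a + r) ×ˢ Icc (b - r) (b + r)) :=
    measurableSet_Icc.prod measurableSet_Icc
  rw [← square_self hr a b, Measure.volume_eq_prod, integral_prod _ (integrable_ker2_chi a b a b r),
    ← integral_indicator hm]
  refine integral_congr_ae (Filter.Eventually.of_forall fun x => ?_)
  by_cases hx : x ∈ Icc (a - r) (a + r) ×ˢ Icc (b - r) (b + r)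
  · simp only [indicator_of_mem hx]
    rw [← integral_indicator hm]
    refine integral_congr_ae (Filter.Eventually.of_forall fun y => ?_)
    by_cases hy : y ∈ Icc (a - r) (a + r) ×ˢ Icc (b - r) (b + r)
    · simp only [chi, indicator_of_mem hx, indicator_of_mem hy, Pi.one_apply, mul_one]
    · simp only [chi, indicator_of_notMem hy, mul_zero]
  · simp only [chi, indicator_of_notMem hx, zero_mul, mul_zero, integral_zero]

lemma chi_self_ge (a b : ℝ) {r e : ℝ} (hr : 0 < r) (he : 0 < e) :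
    16 * r ^ 3 * cU - 2 * Real.pi * e * (4 * r ^ 2) ≤
      ∫ p : (ℝ × ℝ) × (ℝ × ℝ), kerE e (p.1 - p.2) * (chi a b r p.1 * chi a b r p.2) := by
  have hm : Measurable fun p : (ℝ × ℝ) × (ℝ × ℝ) => max (ker2 (p.1 - p.2) - kerE e (p.1 - p.2)) 0 :=
    (tb_mk.sub ((measurable_kerE e).comp (measurable_fst.sub measurable_snd))).max measurable_const
  obtain ⟨i1, i2⟩ := tb_pot hm (fun _ => le_max_right _ _) (measurable_chi a b r)
    (measurable_chi a b r) (chi_nonneg a b r) (chi_nonneg a b r) (integrable_chi a b r)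
    (P := 2 * Real.pi * e) fun x => by
      obtain ⟨s1, s2⟩ := ker2_smear he.le x
      have ae : ∀ᵐ y : ℝ × ℝ, max (ker2 (x - y) - kerE e (x - y)) 0 * chi a b r y ≤
          ker2 (x - y) - (√((x - y).1 ^ 2 + (x - y).2 ^ 2 + e ^ 2))⁻¹ := by
        filter_upwards [Measure.ae_ne volume x] with y hy
        have k0 : 0 < (x - y).1 ^ 2 + (x - y).2 ^ 2 := by
          by_contra k
          refine hy (Prod.ext ?_ ?_)
          · have : (x - y).1 ^ 2 = 0 := by nlinarith [sq_nonneg (x - y).1, sq_nonneg (x - y).2]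
            rw [sq_eq_zero_iff, Prod.fst_sub, sub_eq_zero] at this
            exact this.symm
          · have : (x - y).2 ^ 2 = 0 := by nlinarith [sq_nonneg (x - y).1, sq_nonneg (x - y).2]
            rw [sq_eq_zero_iff, Prod.snd_sub, sub_eq_zero] at this
            exact this.symm
        have k1 : kerE e (x - y) ≤ ker2 (x - y) := box_anti k0 (le_add_of_nonneg_right (sq_nonneg _))
        rw [max_eq_left (sub_nonneg.2 k1)]
        exact mul_le_of_le_one_right (sub_nonneg.2 k1) (chi_le _ _ _ _)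
      have n : ∀ y, 0 ≤ max (ker2 (x - y) - kerE e (x - y)) 0 * chi a b r y := fun y =>
        mul_nonneg (le_max_right _ _) (chi_nonneg _ _ _ _)
      refine ⟨s1.mono' ((hm.comp measurable_prodMk_left).mul
        (measurable_chi a b r)).aestronglyMeasurable ?_, ?_⟩
      · filter_upwards [ae] with y hy
        rwa [Real.norm_of_nonneg (n y)]
      · rw [← s2]
        exact integral_mono_of_nonneg (Filter.Eventually.of_forall n) s1 ae
  have i3 := integrable_kerE_mul he (integrable_chi a b r) (integrable_chi a b r)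
  rw [integral_chi a b hr.le] at i2
  rw [← chi_self a b hr, sub_le_iff_le_add]
  refine le_trans ?_ (add_le_add le_rfl i2)
  rw [← integral_add i3 i1]
  refine integral_mono (integrable_ker2_chi a b a b r) (i3.add i1) fun p => ?_
  simp only [← add_mul]
  refine mul_le_mul_of_nonneg_right ?_ (mul_nonneg (chi_nonneg _ _ _ _) (chi_nonneg _ _ _ _))
  linarith [le_max_left (ker2 (p.1 - p.2) - kerE e (p.1 - p.2)) 0]

lemma chi_far_le {a b a' b' r c : ℝ} (hr : 0 ≤ r) (hc : 0 < c)
    (h : c + 2 * r ≤ |a - a'| ∨ c + 2 * r ≤ |b - b'|) :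
    ∫ p : (ℝ × ℝ) × (ℝ × ℝ), ker2 (p.1 - p.2) * (chi a b r p.1 * chi a' b' r p.2) ≤
      c⁻¹ * (16 * r ^ 4) := by
  rw [← integral_chi2 a b a' b' hr, ← integral_const_mul]
  refine integral_mono (integrable_ker2_chi a b a' b' r)
    (((integrable_chi a b r).mul_prod (integrable_chi a' b' r)).const_mul _) fun p => ?_
  rcases chi_cases a b r p.1 with k | ⟨-, k1, k2⟩
  · simp [k]
  rcases chi_cases a' b' r p.2 with k' | ⟨-, k3, k4⟩
  · simp [k']
  refine mul_le_mul_of_nonneg_right (inv_anti₀ hc (Real.le_sqrt_of_sq_le ?_))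
    (mul_nonneg (chi_nonneg _ _ _ _) (chi_nonneg _ _ _ _))
  have t : ∀ x y u v : ℝ, |x - u| ≤ r → |y - v| ≤ r → c + 2 * r ≤ |u - v| → c ^ 2 ≤ (x - y) ^ 2 := by
    intro x y u v h1 h2 h3
    have h4 : |u - v| ≤ |x - y| + |x - u| + |y - v| := by
      rw [show u - v = (x - y) - (x - u) + (y - v) by ring]
      exact (abs_add_le _ _).trans (add_le_add (abs_sub _ _) le_rfl)
    rw [← sq_abs (x - y)]
    exact pow_le_pow_left₀ hc.le (by linarith) 2
  simp only [Prod.fst_sub, Prod.snd_sub]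
  rcases h with h | h
  · linarith [t _ _ _ _ k1 k3 h, sq_nonneg (p.1.2 - p.2.2)]
  · linarith [t _ _ _ _ k2 k4 h, sq_nonneg (p.1.1 - p.2.1)]

lemma chi_near_ge {a b b' r e : ℝ} (hr : 0 ≤ r) (he : 0 < e) :
    (|b - b'| + 4 * r + e)⁻¹ * (16 * r ^ 4) ≤
      ∫ p : (ℝ × ℝ) × (ℝ × ℝ), kerE e (p.1 - p.2) * (chi a b r p.1 * chi a b' r p.2) := by
  rw [← integral_chi2 a b a b' hr, ← integral_const_mul]
  refine integral_mono (((integrable_chi a b r).mul_prod (integrable_chi a b' r)).const_mul _)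
    (integrable_kerE_mul he (integrable_chi a b r) (integrable_chi a b' r)) fun p => ?_
  rcases chi_cases a b r p.1 with k | ⟨-, k1, k2⟩
  · simp [k]
  rcases chi_cases a b' r p.2 with k' | ⟨-, k3, k4⟩
  · simp [k']
  refine mul_le_mul_of_nonneg_right (inv_anti₀ (Real.sqrt_pos.2 (by positivity))
    (Real.sqrt_le_iff.2 ⟨by positivity, ?_⟩))
    (mul_nonneg (chi_nonneg _ _ _ _) (chi_nonneg _ _ _ _))
  have t1 : |p.1.1 - p.2.1| ≤ 2 * r := by
    rw [show p.1.1 - p.2.1 = (p.1.1 - a) - (p.2.1 - a) by ring]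
    exact (abs_sub _ _).trans (by linarith)
  have t2 : |p.1.2 - p.2.2| ≤ |b - b'| + 2 * r := by
    rw [show p.1.2 - p.2.2 = (b - b') + ((p.1.2 - b) - (p.2.2 - b')) by ring]
    exact (abs_add_le _ _).trans (add_le_add le_rfl ((abs_sub _ _).trans (by linarith)))
  have t3 := pow_le_pow_left₀ (abs_nonneg _) t1 2
  have t4 := pow_le_pow_left₀ (abs_nonneg _) t2 2
  rw [sq_abs] at t3 t4
  simp only [Prod.fst_sub, Prod.snd_sub]
  have := abs_nonneg (b - b')
  nlinarith [mul_nonneg this hr, mul_nonneg this he.le, mul_nonneg hr he.le]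

end Vale.Agent.P370
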