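import Vale.Agent.P370.RegB

/-!
Derivative bounds for the weight, the potential and the orbitals.
-/

namespace Vale.Agent.P370

open MeasureTheory Set
open scoped ContDiff

/-- Smooth, with derivatives up to order `r` dominated by `M ^ j * g`. -/
def LB (r : ℕ) (M : ℝ) (f g : Pt → ℝ) : Prop :=
  ContDiff ℝ ∞ f ∧ ∀ j ≤ r, ∀ x, ‖iteratedFDeriv ℝ j f x‖ ≤ M ^ j * g x

theorem m_lb : Ev fun G _ => LB 8 ((G.n : ℝ) ^ 51) G.m G.m := m_lg

theorem rg_bmp : ∃ C : ℝ, 1 ≤ C ∧ ∀ a, LG 8 1 (bmp a) fun _ => C := by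
  obtain ⟨C, hC, h⟩ := bmp_deriv
  exact ⟨C, hC, fun a => lg_one (contDiff_bmp a) fun j hj t => by simpa using h j hj a t⟩

/-- The product of the three plateau functions. -/
noncomputable def rgPi (G : Geo) (x : Pt) : ℝ :=
  pp ℝ G.k (x 0 / G.l) * pp ℝ G.k (x 1 / G.l) * pp ℝ G.k (x 2 / 4)

theorem rg_F0 (G : Geo) (x : Pt) : G.F0 x = (G.v x - G.κ) * rgPi G x := rfl

theorem rg_l (G : Geo) : (G.l : ℝ) = (G.n : ℝ) ^ 26 := by simp [Geo.l]

theorem rg_kap (G : Geo) : (G.κ : ℝ) = 5 * (G.n : ℝ) ^ 110 := by simp [Geo.κ, Geo.om]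

theorem rg_rho (G : Geo) : (G.ρ : ℝ) = (G.n : ℝ) ^ 220 := by
  simp only [Geo.ρ, Geo.om, Nat.cast_pow]; ring

theorem rgPi_pos (G : Geo) (x : Pt) : 0 < rgPi G x :=
  mul_pos (mul_pos (pp_pos _ _) (pp_pos _ _)) (pp_pos _ _)

theorem rg_three {a b c e : ℝ} (a0 : 0 ≤ a) (b0 : 0 ≤ b) (c0 : 0 ≤ c) (a1 : a ≤ 1) (b1 : b ≤ 1)
    (c1 : c ≤ 1) (h : a ≤ e ∨ b ≤ e ∨ c ≤ e) : a * b * c ≤ e := by
  have := mul_nonneg a0 b0
  have := mul_nonneg a0 c0
  have := mul_nonneg b0 c0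
  rcases h with h | h | h
  · calc a * b * c ≤ a * 1 * 1 := by gcongr
      _ ≤ e := by linarith
  · calc a * b * c ≤ 1 * b * 1 := by gcongr
      _ ≤ e := by linarith
  · calc a * b * c ≤ 1 * 1 * c := by gcongr
      _ ≤ e := by linarith

theorem rgPi_le (G : Geo) (x : Pt) {e : ℝ} (h : pp ℝ G.k (x 0 / G.l) ≤ e ∨
    pp ℝ G.k (x 1 / G.l) ≤ e ∨ pp ℝ G.k (x 2 / 4) ≤ e) : rgPi G x ≤ e :=
  rg_three (pp_pos _ _).le (pp_pos _ _).le (pp_pos _ _).le (pp_le_one _ _) (pp_le_one _ _)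
    (pp_le_one _ _) h

theorem rgPi_le_one (G : Geo) (x : Pt) : rgPi G x ≤ 1 := rgPi_le G x (Or.inl (pp_le_one _ _))

theorem rg_F_lg : Ev fun G _ =>
    LG 6 ((G.n : ℝ) ^ 53) G.F0 (fun x => (G.n : ℝ) ^ 111 * rgPi G x) ∧
    LG 6 ((G.n : ℝ) ^ 53) G.F (fun x => (G.n : ℝ) ^ 111 * rgPi G x) := by
  obtain ⟨C, hC, hb⟩ := rg_bmp
  refine ((Ev.const 40000).and ((Ev.const (7 * C ^ 3)).and v_lg)).mono
    fun G _ _ ⟨hn, hnC, hv⟩ => ?_
  have hp := rg_pp hn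
  have n1 : (1 : ℝ) ≤ G.n := by linarith
  have hl : (1 : ℝ) ≤ G.l := by rw [rg_l]; exact one_le_pow₀ n1
  have h51 : (1 : ℝ) ≤ (G.n : ℝ) ^ 51 := one_le_pow₀ n1
  have e52 : (G.n : ℝ) ^ 52 = (G.n : ℝ) ^ 51 * G.n := pow_succ _ _
  have e53 : (G.n : ℝ) ^ 53 = (G.n : ℝ) ^ 52 * G.n := pow_succ _ _
  have e111 : (G.n : ℝ) ^ 111 = (G.n : ℝ) ^ 110 * G.n := pow_succ _ _
  have h52 : (G.n : ℝ) ^ 51 ≤ (G.n : ℝ) ^ 52 := pow_le_pow_right₀ n1 (by norm_num)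
  have h102 : (G.n : ℝ) ^ 102 ≤ (G.n : ℝ) ^ 110 := pow_le_pow_right₀ n1 (by norm_num)
  have h110 : (0 : ℝ) < (G.n : ℝ) ^ 110 := by positivity
  have hPi : LG 6 ((G.n : ℝ) ^ 51) (rgPi G) (rgPi G) := by
    have := ((hp.coord 0 0 hl).mul (hp.coord 1 0 hl)).mul (hp.coord 2 0 (s := 4) (by norm_num))
    simp only [sub_zero] at this
    exact this.mono (by norm_num) (by positivity) (by linarith) fun _ => le_rfl
  have h0 : LG 6 ((G.n : ℝ) ^ 52 + (G.n : ℝ) ^ 51) G.F0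
      (fun x => 7 * (G.n : ℝ) ^ 110 * rgPi G x) := by
    refine ((hv.sub (lg_const 6 (by positivity) (G.κ : ℝ))).mul hPi).mono le_rfl (by positivity)
      le_rfl fun x => mul_le_mul_of_nonneg_right ?_ (rgPi_pos G x).le
    rw [Real.norm_natCast, rg_kap]
    linarith
  have hcut := (((hb (2 * G.l + 1)).coord0 0).mul ((hb (2 * G.l + 1)).coord0 1)).mul
    ((hb 8).coord0 2)
  have hC3 : 1 ≤ C ^ 3 := one_le_pow₀ hC
  refine ⟨h0.mono le_rfl (by positivity) (by rw [e53]; nlinarith) fun x =>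
    mul_le_mul_of_nonneg_right (by rw [e111]; nlinarith) (rgPi_pos G x).le, ?_⟩
  refine (h0.mul (hcut.mono (by norm_num) (by norm_num) le_rfl fun _ => le_rfl)).mono le_rfl
    (by positivity) (by rw [e53]; nlinarith) fun x => ?_
  have := rgPi_pos G x
  calc 7 * (G.n : ℝ) ^ 110 * rgPi G x * (C * C * C)
      = (G.n : ℝ) ^ 110 * (7 * C ^ 3) * rgPi G x := by ring
    _ ≤ (G.n : ℝ) ^ 110 * G.n * rgPi G x := by gcongr
    _ = _ := by rw [e111]

theorem F_facts : Ev fun G _ => DB 6 G.F ((G.n : ℝ) ^ 600) ∧ DB 4 G.F0 ((G.n : ℝ) ^ 600) ∧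
    tsupport G.F ⊆ box (3 * G.l) (3 * G.l) 9 ∧ (∀ x, |lap G.F x| ≤ 2 * Real.pi * G.ρ) ∧
    (∀ x ∈ box (2 * G.l) (2 * G.l) 7, lap G.F x = lap G.F0 x) ∧
    ∀ x, x ∉ box (2 * G.l) (2 * G.l) 7 → |lap G.F x| ≤ (G.n : ℝ) ^ 600 / 2 ^ G.n := by
  refine ((Ev.const 3).and rg_F_lg).mono fun G _ _ ⟨hn, h0, h1⟩ => ?_
  have n1 : (1 : ℝ) ≤ G.n := by linarith
  have hl : (2 : ℝ) ≤ G.l := by
    rw [rg_l]; exact le_trans (by linarith) (le_self_pow₀ n1 (by norm_num))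
  have hdb : ∀ x, ((G.n : ℝ) ^ 53) ^ 6 * ((G.n : ℝ) ^ 111 * rgPi G x) ≤ (G.n : ℝ) ^ 600 := by
    intro x
    have := rgPi_le_one G x
    calc ((G.n : ℝ) ^ 53) ^ 6 * ((G.n : ℝ) ^ 111 * rgPi G x)
        ≤ ((G.n : ℝ) ^ 53) ^ 6 * ((G.n : ℝ) ^ 111 * 1) := by gcongr
      _ = (G.n : ℝ) ^ 429 := by rw [mul_one, ← pow_mul, ← pow_add]
      _ ≤ _ := pow_le_pow_right₀ n1 (by norm_num)
  have d0 := h0.db (one_le_pow₀ n1) hdb
  have hlap : ∀ x, |lap G.F x| ≤ (G.n : ℝ) ^ 218 * rgPi G x := by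
    intro x
    refine ((h1.lap (r := 4)).norm_le x).trans ?_
    have := rgPi_pos G x
    calc 3 * (((G.n : ℝ) ^ 53) ^ 2 * ((G.n : ℝ) ^ 111 * rgPi G x))
        ≤ G.n * (((G.n : ℝ) ^ 53) ^ 2 * ((G.n : ℝ) ^ 111 * rgPi G x)) := by gcongr
      _ = _ := by ring
  refine ⟨h1.db (one_le_pow₀ n1) hdb, ⟨d0.1, fun j hj => d0.2 j (by omega)⟩, ?_, fun x => ?_,
    fun x hx => ?_, fun x hx => ?_⟩
  · refine closure_minimal (fun x hx => ?_) (isCompact_box _ _ _).isClosed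
    rw [Function.mem_support] at hx
    have a := right_ne_zero_of_mul hx
    have a0 := left_ne_zero_of_mul (left_ne_zero_of_mul a)
    have a1 := right_ne_zero_of_mul (left_ne_zero_of_mul a)
    have a2 := right_ne_zero_of_mul a
    refine ⟨?_, ?_, ?_⟩
    · by_contra h; exact a0 (bmp_zero (by linarith [not_le.1 h]))
    · by_contra h; exact a1 (bmp_zero (by linarith [not_le.1 h]))
    · by_contra h; exact a2 (bmp_zero (by linarith [not_le.1 h]))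
  · refine (hlap x).trans ?_
    have := rgPi_le_one G x
    have := Real.pi_gt_three
    rw [rg_rho]
    calc (G.n : ℝ) ^ 218 * rgPi G x ≤ (G.n : ℝ) ^ 218 * 1 := by gcongr
      _ ≤ 1 * (G.n : ℝ) ^ 220 := by
          rw [mul_one, one_mul]; exact pow_le_pow_right₀ n1 (by norm_num)
      _ ≤ _ := by gcongr; linarith
  · refine lap_congr ?_
    have hk : ∀ (k : Fin 3) (c : ℝ), IsOpen {y : Pt | |y k| < c} := fun k c =>
      isOpen_lt (by fun_prop) continuous_const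
    have ho : IsOpen {y : Pt | |y 0| < 2 * G.l + 1 ∧ |y 1| < 2 * G.l + 1 ∧ |y 2| < 8} :=
      (hk 0 _).inter ((hk 1 _).inter (hk 2 _))
    obtain ⟨x0, x1, x2⟩ := hx
    filter_upwards [ho.mem_nhds ⟨by linarith, by linarith, by linarith⟩] with y hy
    unfold Geo.F
    rw [bmp_one hy.1.le, bmp_one hy.2.1.le, bmp_one hy.2.2.le]
    ring
  · refine (hlap x).trans ?_
    have hk : (G.n : ℝ) ≤ G.k * (3 / 4) := by
      rw [rg_k]
      have : (G.n : ℝ) ^ 2 ≤ (G.n : ℝ) ^ 50 := pow_le_pow_right₀ n1 (by norm_num)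
      nlinarith
    have hPi : rgPi G x ≤ 1 / 2 ^ G.n := by
      refine rgPi_le G x ?_
      simp only [box, mem_ofPred_eq, not_and_or, not_le] at hx
      rcases hx with h | h | h
      · refine Or.inl (pp_out (by norm_num) (by norm_num) hk ?_)
        rw [abs_div, Nat.abs_cast, le_div_iff₀ (by linarith)]; linarith
      · refine Or.inr (Or.inl (pp_out (by norm_num) (by norm_num) hk ?_))
        rw [abs_div, Nat.abs_cast, le_div_iff₀ (by linarith)]; linarith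
      · refine Or.inr (Or.inr (pp_out (by norm_num) (by norm_num) hk ?_))
        rw [abs_div, abs_of_pos (by norm_num : (0 : ℝ) < 4), le_div_iff₀ (by norm_num)]; linarith
    rw [div_eq_mul_one_div]
    exact mul_le_mul (pow_le_pow_right₀ n1 (by norm_num)) hPi (rgPi_pos G x).le (by positivity)

theorem rg_Om (G : Geo) : 0 ≤ G.Ω ∧ G.Ω ≤ 4 * (G.n : ℝ) ^ 110 := by
  have h : √Real.pi ≤ 2 := Real.sqrt_le_iff.2 ⟨by norm_num, by linarith [Real.pi_lt_four]⟩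
  have e : (G.om : ℝ) = (G.n : ℝ) ^ 110 := by simp [Geo.om]
  unfold Geo.Ω
  rw [e]
  refine ⟨by positivity, mul_le_mul_of_nonneg_right (by linarith) (by positivity)⟩

theorem rg_mass : Ev fun G _ => ∀ a : Arm G.M, 1 / (G.n : ℝ) ^ 56 ≤ G.mass (row a) := by
  refine ((Ev.const 1).and (Iz_bounds.and mass_bounds)).mono fun G _ _ ⟨hn, ⟨hI, _⟩, hm⟩ a => ?_
  have hr : row a < 3 * G.M := by
    have := a.1.2
    have := a.2.2
    unfold row
    omega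
  have h1 := (abs_le.1 (hm _ hr)).1
  have hJ : (1 : ℝ) ≤ G.J := by
    simp only [Geo.J, Nat.cast_pow]; exact one_le_pow₀ hn
  have hI0 : 0 < G.Iz := lt_of_lt_of_le (by positivity) hI
  have h2 : G.J * G.Iz / (G.n : ℝ) ^ 18 ≤ G.J * G.Iz :=
    div_le_self (by positivity) (one_le_pow₀ hn)
  nlinarith

theorem rg_theta : Ev fun G _ => ∀ a, LG 4 4 (G.θ a) fun _ => (G.n : ℝ) ^ 2 := by
  obtain ⟨C, hC, hb⟩ := rg_bmp
  refine ((Ev.const 1).and ((Ev.const (2 * C ^ 3)).and ramp_facts)).mono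
    fun G _ _ ⟨hn, hnC, r1, _, _, _, _, _, r2⟩ a => ?_
  have hr : LG 8 1 G.ramp fun _ => (G.n : ℝ) := lg_one r1 fun j hj t => by simpa using r2 j hj t
  have a1 := (hr.coord0 0).mul ((hb (G.d / 4)).coord1 1 (G.d * row a))
  have a2 := (((lg_const 8 zero_le_one (1 : ℝ)).sub (hr.coord0 0)).const_mul (1 / 3)).mul
    ((hb (5 * G.d / 4)).coord1 1 (G.d * (3 * a.1.val + 1)))
  have a3 := (((hb (G.l / 4)).coord0 0).mul ((hb 1).coord0 2)).mul (a1.add a2)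
  refine (a3.mono (by norm_num) (by norm_num) (by norm_num) fun x => ?_).congr fun x => ?_
  · rw [abs_of_pos (by norm_num), norm_one]
    have : 0 ≤ C ^ 3 := by positivity
    calc C * C * (G.n * C + 1 / 3 * (1 + G.n) * C) = C ^ 3 * (G.n + 1 / 3 * (1 + G.n)) := by ring
      _ ≤ C ^ 3 * (2 * G.n) := by gcongr; linarith
      _ = 2 * C ^ 3 * G.n := by ring
      _ ≤ G.n * G.n := by gcongr
      _ = _ := by ring
  · unfold Geo.θ
    ring

theorem rg_exp : Ev fun G _ => LG 4 (4 * (G.n : ℝ) ^ 111)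
    (fun z => Real.exp (-(2 * G.Ω) * Tau z)) fun _ => 1 := by
  obtain ⟨C, hC, hb⟩ := rg_bmp
  refine ((Ev.const 1).and (Ev.const (8 * (9 + C)))).mono fun G _ _ ⟨hn, hnC⟩ => ?_
  obtain ⟨o0, o1⟩ := rg_Om G
  have h1 : (1 : ℝ) ≤ (G.n : ℝ) ^ 111 := one_le_pow₀ hn
  have ht : LG 4 1 tau fun _ => 9 + C :=
    lg_succ1 contDiff_tau hasDerivAt_tau
      (fun t => (abs_tau_le t).trans ((min_le_right _ _).trans (by linarith)))
      ((hb 8).mono (by norm_num) zero_le_one le_rfl fun _ => by linarith)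
  have hW : LG 4 ((G.n : ℝ) ^ 111) (fun z => -(2 * G.Ω) * tau z) fun _ => (G.n : ℝ) ^ 111 := by
    refine (ht.const_mul _).mono le_rfl zero_le_one h1 fun _ => ?_
    rw [abs_neg, abs_of_nonneg (by linarith), pow_succ]
    calc 2 * G.Ω * (9 + C) ≤ 2 * (4 * (G.n : ℝ) ^ 110) * (9 + C) := by gcongr
      _ = (G.n : ℝ) ^ 110 * (8 * (9 + C)) := by ring
      _ ≤ _ := by gcongr
  have := lg_exp (contDiff_const.mul contDiff_Tau)
    (fun t => (hasDerivAt_Tau t).const_mul (-(2 * G.Ω))) (by positivity) hW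
  refine this.mono le_rfl (by positivity) (by norm_num) fun z => Real.exp_le_one_iff.2 ?_
  have := Tau_nonneg z
  nlinarith

theorem η_db : Ev fun G _ => ∀ a b, DB 4 (fun x => G.η a x * G.η b x) ((G.n : ℝ) ^ 600) := by
  refine ((Ev.const 13).and (m_lg.and (m_pos.and (rg_mass.and (rg_theta.and rg_exp))))).mono
    fun G _ _ ⟨hn, hm, ⟨_, hp⟩, hmass, hθ, he⟩ a b => ?_
  have n1 : (1 : ℝ) ≤ G.n := by linarith
  have h56 : (0 : ℝ) < 1 / (G.n : ℝ) ^ 56 := by positivity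
  have ma := h56.trans_le (hmass a)
  have mb := h56.trans_le (hmass b)
  have hc : (√(G.mass (row a)) * √(G.mass (row b)))⁻¹ ≤ (G.n : ℝ) ^ 56 := by
    rw [inv_le_comm₀ (by positivity) (by positivity), ← one_div,
      ← Real.mul_self_sqrt h56.le]
    exact mul_le_mul (Real.sqrt_le_sqrt (hmass a)) (Real.sqrt_le_sqrt (hmass b))
      (Real.sqrt_nonneg _) (Real.sqrt_nonneg _)
  have h1 : (1 : ℝ) ≤ (G.n : ℝ) ^ 111 := one_le_pow₀ n1
  have h51 : (G.n : ℝ) ^ 51 ≤ (G.n : ℝ) ^ 111 := pow_le_pow_right₀ n1 (by norm_num)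
  have a1 := ((((hm.mono (r' := 4) (by norm_num) (by positivity) le_rfl
    fun x => (hp x).2).mul (he.coord0 2)).mul (hθ a)).mul (hθ b)).const_mul
      (√(G.mass (row a)) * √(G.mass (row b)))⁻¹
  have a2 := a1.mono (M' := (G.n : ℝ) ^ 112) (g' := fun _ => (G.n : ℝ) ^ 61) le_rfl
    (by positivity) (by rw [pow_succ (G.n : ℝ) 111]; nlinarith) fun x => by
      rw [abs_of_pos (by positivity)]
      calc (√(G.mass (row a)) * √(G.mass (row b)))⁻¹ * (2 * 1 * (G.n : ℝ) ^ 2 * (G.n : ℝ) ^ 2)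
          ≤ (G.n : ℝ) ^ 56 * (G.n * 1 * (G.n : ℝ) ^ 2 * (G.n : ℝ) ^ 2) := by gcongr; linarith
        _ = _ := by ring
  refine (a2.congr fun x => ?_).db (one_le_pow₀ n1) fun _ => ?_
  · have e1 := Real.mul_self_sqrt (hp x).1.le
    have e2 : Real.exp (-(2 * G.Ω) * Tau (x 2)) =
        Real.exp (-(G.Ω * Tau (x 2))) * Real.exp (-(G.Ω * Tau (x 2))) := by
      rw [← Real.exp_add]; congr 1; ring
    unfold Geo.η Geo.φ0
    rw [e2]
    conv_rhs => rw [← e1]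
    field_simp
  · rw [← pow_mul, ← pow_add]
    exact pow_le_pow_right₀ n1 (by norm_num)

end Vale.Agent.P370
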