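import Mathlib

/-!
Finite-rank projections in one coordinate of a finite product of finite measure spaces.
-/

namespace Vale.Agent.P370

open MeasureTheory Function

/-- Bounded and measurable. -/
def BM {Y : Type} [MeasurableSpace Y] (f : Y → ℝ) : Prop := Measurable f ∧ ∃ C, ∀ y, |f y| ≤ C

variable {ι X A : Type} [Fintype ι] [DecidableEq ι] [MeasurableSpace X] [Fintype A]
  [DecidableEq A] (μ : ι → Measure X) [∀ i, IsFiniteMeasure (μ i)]

lemma tn_prod_ite (T : Finset ι) (r : ℝ) (α β : ι → A) :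
    (∏ l ∈ T, if α l = β l then r else 0) = if ∀ l ∈ T, α l = β l then r ^ T.card else 0 := by
  rw [Finset.prod_ite_zero, Finset.prod_const]
  split_ifs <;> rfl

lemma tn_measurable_swap (i : ι) :
    Measurable fun p : (ι → X) × X => (update p.1 i p.2, p.1 i) :=
  measurable_update'.prodMk ((measurable_pi_apply i).comp measurable_fst)

/-- Exchange of a coordinate with an extra variable. -/
theorem measurePreserving_swap (i : ι) :
    MeasurePreserving (fun p : (ι → X) × X => (update p.1 i p.2, p.1 i))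
      ((Measure.pi μ).prod (μ i)) ((Measure.pi μ).prod (μ i)) := by
  refine ⟨tn_measurable_swap i, (Measure.prod_eq_generateFrom generateFrom_pi
    MeasurableSpace.generateFrom_measurableSet isPiSystem_pi MeasurableSpace.isPiSystem_measurableSet
    ⟨fun _ => Set.univ, fun _ => ⟨fun _ => Set.univ, fun _ _ => MeasurableSet.univ, Set.pi_univ _⟩,
      fun _ => measure_lt_top _ _, Set.iUnion_const _⟩ (μ i).toFiniteSpanningSetsIn ?_).symm⟩
  rintro _ ⟨s, hs, rfl⟩ t ht
  have hs' : MeasurableSet (Set.pi Set.univ s) := MeasurableSet.univ_pi fun l => hs l trivial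
  rw [Measure.map_apply (tn_measurable_swap i) (hs'.prod ht)]
  have : (fun p : (ι → X) × X => (update p.1 i p.2, p.1 i)) ⁻¹' (Set.pi Set.univ s ×ˢ t) =
      Set.pi Set.univ (update s i t) ×ˢ s i := by
    ext ⟨x, y⟩
    simp only [Set.mem_preimage, Set.mem_prod, Set.mem_pi, Set.mem_univ, true_imp_iff]
    constructor
    · rintro ⟨h1, h2⟩
      refine ⟨fun l => ?_, by simpa using h1 i⟩
      by_cases hl : l = i
      · subst hl; simpa using h2
      · simpa [hl] using h1 l
    · rintro ⟨h1, h2⟩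
      refine ⟨fun l => ?_, by simpa using h1 i⟩
      by_cases hl : l = i
      · subst hl; simpa using h2
      · simpa [hl] using h1 l
  rw [this, Measure.prod_prod, Measure.pi_pi, Measure.pi_pi,
    ← Finset.mul_prod_erase _ _ (Finset.mem_univ i),
    ← Finset.mul_prod_erase _ (fun l => μ l (s l)) (Finset.mem_univ i), update_self,
    Finset.prod_congr rfl fun l hl => by rw [update_of_ne (Finset.ne_of_mem_erase hl)]]
  ring

theorem integrable_update (i : ι) {G : (ι → X) → ℝ} (hG : Integrable G (Measure.pi μ)) :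
    Integrable (fun p : (ι → X) × X => G (update p.1 i p.2)) ((Measure.pi μ).prod (μ i)) :=
  (measurePreserving_swap μ i).integrable_comp_of_integrable (hG.comp_fst (μ i))

theorem integral_update (i : ι) {G : (ι → X) → ℝ} (hG : Integrable G (Measure.pi μ)) :
    ∫ x, ∫ y, G (update x i y) ∂μ i ∂Measure.pi μ =
      (μ i).real Set.univ * ∫ x, G x ∂Measure.pi μ := by
  rw [← integral_prod _ (integrable_update μ i hG), ← smul_eq_mul, ← integral_fun_fst]
  have h := measurePreserving_swap μ i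
  have h1 := (hG.comp_fst (μ i)).1
  rw [← h.map_eq] at h1
  conv_rhs => rw [← h.map_eq, integral_map h.measurable.aemeasurable h1]

lemma tn_map_pair {i j : ι} (hij : i ≠ j) :
    (Measure.pi μ).map (fun x : ι → X => (x i, x j)) =
      (∏ l ∈ (Finset.univ.erase i).erase j, μ l Set.univ) • (μ i).prod (μ j) := by
  have hm : Measurable fun x : ι → X => (x i, x j) := by fun_prop
  refine Measure.ext_prod fun {s t} hs ht => ?_
  rw [Measure.map_apply hm (hs.prod ht)]
  have : (fun x : ι → X => (x i, x j)) ⁻¹' (s ×ˢ t) =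
      Set.pi Set.univ (update (update (fun _ => Set.univ) i s) j t) := by
    ext x
    simp only [Set.mem_preimage, Set.mem_prod, Set.mem_pi, Set.mem_univ, true_imp_iff]
    constructor
    · rintro ⟨h1, h2⟩ l
      by_cases hl : l = j
      · subst hl; simpa using h2
      · by_cases hl' : l = i
        · subst hl'; simpa [hl] using h1
        · simp [hl, hl']
    · intro h
      exact ⟨by simpa [hij] using h i, by simpa using h j⟩
  rw [this, Measure.pi_pi, Measure.smul_apply, Measure.prod_prod, smul_eq_mul,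
    ← Finset.mul_prod_erase _ _ (Finset.mem_univ i),
    ← Finset.mul_prod_erase _ _ (Finset.mem_erase.2 ⟨hij.symm, Finset.mem_univ j⟩),
    update_self, update_of_ne hij, update_self,
    Finset.prod_congr rfl fun l hl => by
      rw [update_of_ne (Finset.ne_of_mem_erase hl),
        update_of_ne (Finset.ne_of_mem_erase (Finset.mem_of_mem_erase hl))]]
  ring

/-- Functions of two coordinates. -/
theorem integrable_pair {i j : ι} (hij : i ≠ j) {k : X × X → ℝ}
    (hk : Integrable k ((μ i).prod (μ j))) :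
    Integrable (fun x : ι → X => k (x i, x j)) (Measure.pi μ) := by
  have hm : Measurable fun x : ι → X => (x i, x j) := by fun_prop
  have h : Integrable k ((Measure.pi μ).map fun x : ι → X => (x i, x j)) := by
    rw [tn_map_pair μ hij]
    exact hk.smul_measure (ENNReal.prod_ne_top fun _ _ => measure_ne_top _ _)
  exact h.comp_measurable hm

/-! ### Bounded measurable functions -/

section bm
variable {Y : Type} [MeasurableSpace Y] {f g : Y → ℝ}

lemma BM.tn_const (c : ℝ) : BM fun _ : Y => c := ⟨measurable_const, |c|, fun _ => le_rfl⟩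

lemma BM.tn_add (hf : BM f) (hg : BM g) : BM fun y => f y + g y := by
  obtain ⟨h1, C, hC⟩ := hf
  obtain ⟨h2, D, hD⟩ := hg
  exact ⟨h1.add h2, C + D, fun y => (abs_add_le _ _).trans (add_le_add (hC y) (hD y))⟩

lemma BM.tn_mul (hf : BM f) (hg : BM g) : BM fun y => f y * g y := by
  obtain ⟨h1, C, hC⟩ := hf
  obtain ⟨h2, D, hD⟩ := hg
  refine ⟨h1.mul h2, C * D, fun y => ?_⟩
  rw [abs_mul]
  exact mul_le_mul (hC y) (hD y) (abs_nonneg _) ((abs_nonneg _).trans (hC y))

lemma BM.tn_sub (hf : BM f) (hg : BM g) : BM fun y => f y - g y := by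
  simpa [sub_eq_add_neg] using hf.tn_add ((BM.tn_const (-1)).tn_mul hg)

lemma BM.tn_sq (hf : BM f) : BM fun y => f y ^ 2 := by
  simpa [sq] using hf.tn_mul hf

lemma BM.tn_comp {Z : Type} [MeasurableSpace Z] (hf : BM f) {p : Z → Y} (hp : Measurable p) :
    BM fun z => f (p z) := by
  obtain ⟨h1, C, hC⟩ := hf
  exact ⟨h1.comp hp, C, fun z => hC _⟩

lemma BM.tn_sum {κ : Type} (T : Finset κ) {F : κ → Y → ℝ} (h : ∀ k ∈ T, BM (F k)) :
    BM fun y => ∑ k ∈ T, F k y := by
  classical
  induction T using Finset.induction_on with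
  | empty => simpa using BM.tn_const (Y := Y) 0
  | insert k T hk ih =>
    simp only [Finset.sum_insert hk]
    exact (h k (Finset.mem_insert_self _ _)).tn_add
      (ih fun l hl => h l (Finset.mem_insert_of_mem hl))

lemma BM.tn_prod {κ : Type} (T : Finset κ) {F : κ → Y → ℝ} (h : ∀ k ∈ T, BM (F k)) :
    BM fun y => ∏ k ∈ T, F k y := by
  classical
  induction T using Finset.induction_on with
  | empty => simpa using BM.tn_const (Y := Y) 1
  | insert k T hk ih =>
    simp only [Finset.prod_insert hk]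
    exact (h k (Finset.mem_insert_self _ _)).tn_mul
      (ih fun l hl => h l (Finset.mem_insert_of_mem hl))

lemma BM.tn_int (hf : BM f) (ν : Measure Y) [IsFiniteMeasure ν] : Integrable f ν := by
  obtain ⟨h1, C, hC⟩ := hf
  exact Integrable.of_bound h1.aestronglyMeasurable C (Filter.Eventually.of_forall hC)

lemma BM.tn_integral {Z : Type} [MeasurableSpace Z] {F : Y × Z → ℝ} (hF : BM F) (ν : Measure Z)
    [IsFiniteMeasure ν] : BM fun y => ∫ z, F (y, z) ∂ν := by
  obtain ⟨h1, C, hC⟩ := hF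
  refine ⟨h1.stronglyMeasurable.integral_prod_right'.measurable, C * ν.real Set.univ, fun y => ?_⟩
  exact norm_integral_le_of_norm_le_const (f := fun z => F (y, z))
    (Filter.Eventually.of_forall fun z => hC (y, z))

/-- Distance to a combination of an orthonormal family. -/
lemma tn_on_sq {S : Type} [Fintype S] [DecidableEq S] (ν : Measure Y) [IsFiniteMeasure ν]
    {e : S → Y → ℝ} (he : ∀ a, BM (e a))
    (ho : ∀ a b, ∫ y, e a y * e b y ∂ν = if a = b then 1 else 0) (hf : BM f) (d : S → ℝ) :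
    ∫ y, (f y - ∑ a, d a * e a y) ^ 2 ∂ν = (∫ y, f y ^ 2 ∂ν) - ∑ a, (∫ y, e a y * f y ∂ν) ^ 2 +
      ∑ a, (d a - ∫ y, e a y * f y ∂ν) ^ 2 := by
  have h1 : ∀ y, (f y - ∑ a, d a * e a y) ^ 2 = f y ^ 2 - ∑ a, 2 * d a * (e a y * f y) +
      ∑ a, ∑ b, d a * d b * (e a y * e b y) := by
    intro y
    rw [sub_sq, sq (∑ a, d a * e a y), Finset.sum_mul_sum, Finset.mul_sum]
    congr 1
    · congr 1
      exact Finset.sum_congr rfl fun a _ => by ring
    · exact Finset.sum_congr rfl fun a _ => Finset.sum_congr rfl fun b _ => by ring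
  have i1 : ∀ a, BM fun y => 2 * d a * (e a y * f y) := fun a =>
    (BM.tn_const _).tn_mul ((he a).tn_mul hf)
  have i2 : ∀ a b, BM fun y => d a * d b * (e a y * e b y) := fun a b =>
    (BM.tn_const _).tn_mul ((he a).tn_mul (he b))
  have i3 : ∀ a, BM fun y => ∑ b, d a * d b * (e a y * e b y) := fun a =>
    BM.tn_sum _ fun b _ => i2 a b
  simp only [h1]
  rw [integral_add ((hf.tn_sq.tn_sub (BM.tn_sum _ fun a _ => i1 a)).tn_int ν)
      ((BM.tn_sum _ fun a _ => i3 a).tn_int ν),
    integral_sub (hf.tn_sq.tn_int ν) ((BM.tn_sum _ fun a _ => i1 a).tn_int ν),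
    integral_finsetSum _ fun a _ => (i1 a).tn_int ν,
    integral_finsetSum _ fun a _ => (i3 a).tn_int ν]
  have h2 : ∀ a, ∫ y, ∑ b, d a * d b * (e a y * e b y) ∂ν = d a ^ 2 := by
    intro a
    rw [integral_finsetSum _ fun b _ => (i2 a b).tn_int ν]
    simp only [integral_const_mul, ho, mul_ite, mul_one, mul_zero, Finset.sum_ite_eq,
      Finset.mem_univ, if_true, sq]
  simp only [h2, integral_const_mul, sub_sq, Finset.sum_add_distrib, Finset.sum_sub_distrib]
  ring

end bm

/-- Products with one pair of coordinates coupled. -/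
theorem integral_pair_prod {i j : ι} (hij : i ≠ j) {k : X × X → ℝ}
    (hk : Integrable k ((μ i).prod (μ j))) {g : ι → X → ℝ} (hg : ∀ l, BM (g l)) :
    ∫ x, k (x i, x j) * ∏ l ∈ (Finset.univ.erase i).erase j, g l (x l) ∂Measure.pi μ =
      (∫ p, k p ∂(μ i).prod (μ j)) * ∏ l ∈ (Finset.univ.erase i).erase j, ∫ y, g l y ∂μ l := by
  have hz : ∀ l, (μ l).real Set.univ = 0 → Measure.pi μ = 0 ∧ μ l = 0 := by
    intro l hl
    have h0 : μ l Set.univ = 0 := (measureReal_eq_zero_iff (measure_ne_top _ _)).1 hl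
    refine ⟨Measure.measure_univ_eq_zero.1 ?_, Measure.measure_univ_eq_zero.1 h0⟩
    rw [Measure.pi_univ]
    exact Finset.prod_eq_zero (Finset.mem_univ l) h0
  by_cases hi : (μ i).real Set.univ = 0
  · rw [(hz i hi).1, (hz i hi).2]; simp
  by_cases hj : (μ j).real Set.univ = 0
  · rw [(hz j hj).1, (hz j hj).2]; simp
  set T := (Finset.univ.erase i).erase j with hT
  have hTi : ∀ l ∈ T, l ≠ i := fun l hl => Finset.ne_of_mem_erase (Finset.mem_of_mem_erase hl)
  have hTj : ∀ l ∈ T, l ≠ j := fun l hl => Finset.ne_of_mem_erase hl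
  obtain ⟨hP, C, hC⟩ : BM fun x : ι → X => ∏ l ∈ T, g l (x l) :=
    BM.tn_prod _ fun l _ => (hg l).tn_comp (measurable_pi_apply l)
  have hF : Integrable (fun x : ι → X => k (x i, x j) * ∏ l ∈ T, g l (x l)) (Measure.pi μ) :=
    (integrable_pair μ hij hk).mul_bdd hP.aestronglyMeasurable (Filter.Eventually.of_forall hC)
  have h1 := integral_update μ j hF
  have h2 := integral_update μ i (integrable_update μ j hF).integral_prod_left
  have h3 : ∀ (x : ι → X) (y z : X), k (update (update x i y) j z i, update (update x i y) j z j) *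
      ∏ l ∈ T, g l (update (update x i y) j z l) = k (y, z) * ∏ l ∈ T, g l (x l) := by
    intro x y z
    rw [update_self, update_of_ne hij, update_self]
    congr 1
    exact Finset.prod_congr rfl fun l hl => by
      rw [update_of_ne (hTj l hl), update_of_ne (hTi l hl)]
  have h4 : ∫ x, ∏ l ∈ T, g l (x l) ∂Measure.pi μ =
      (μ i).real Set.univ * ((μ j).real Set.univ * ∏ l ∈ T, ∫ y, g l y ∂μ l) := by
    have h5 := integral_fintype_prod_eq_prod (μ := μ) fun l y => if l ∈ T then g l y else 1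
    simp only [Finset.prod_ite_mem, Finset.univ_inter] at h5
    rw [h5, ← Finset.mul_prod_erase _ _ (Finset.mem_univ i),
      ← Finset.mul_prod_erase _ _ (Finset.mem_erase.2 ⟨hij.symm, Finset.mem_univ j⟩)]
    simp only [if_neg fun h => hTi i h rfl, if_neg fun h => hTj j h rfl, integral_const,
      smul_eq_mul, mul_one]
    congr 2
    exact Finset.prod_congr rfl fun l hl => by simp only [if_pos hl]
  simp only [h3, integral_mul_const, integral_const_mul] at h2
  rw [h1, h4, ← integral_prod _ hk] at h2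
  refine mul_left_cancel₀ hj (mul_left_cancel₀ hi ?_)
  rw [← h2]
  ring

/-- Orthonormal families in every coordinate. -/
def ON (φ : ι → A → X → ℝ) : Prop :=
  (∀ i a, BM (φ i a)) ∧ ∀ i a b, ∫ y, φ i a y * φ i b y ∂μ i = if a = b then 1 else 0

/-- Coefficients in the product family. -/
noncomputable def coef (φ : ι → A → X → ℝ) (Ψ : (ι → X) → ℝ) (α : ι → A) : ℝ :=
  ∫ x, (∏ i, φ i (α i) (x i)) * Ψ x ∂Measure.pi μ

/-- Coefficients in one coordinate. -/
noncomputable def slice (φ : ι → A → X → ℝ) (Ψ : (ι → X) → ℝ) (i : ι) (a : A) (x : ι → X) : ℝ :=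
  ∫ y, φ i a y * Ψ (update x i y) ∂μ i

variable {μ}

theorem BM.slice {φ : ι → A → X → ℝ} (hφ : ON μ φ) {Ψ : (ι → X) → ℝ} (hΨ : BM Ψ) (i : ι) (a : A) :
    BM (slice μ φ Ψ i a) :=
  BM.tn_integral (F := fun p : (ι → X) × X => φ i a p.2 * Ψ (update p.1 i p.2))
    (((hφ.1 i a).tn_comp measurable_snd).tn_mul (hΨ.tn_comp measurable_update')) (μ i)

lemma tn_slice_update (φ : ι → A → X → ℝ) (Ψ : (ι → X) → ℝ) (i : ι) (a : A) (x : ι → X) (y : X) :
    slice μ φ Ψ i a (update x i y) = slice μ φ Ψ i a x := by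
  simp only [slice, update_idem]

lemma tn_e_bm {φ : ι → A → X → ℝ} (hφ : ON μ φ) (α : ι → A) :
    BM fun x : ι → X => ∏ i, φ i (α i) (x i) :=
  BM.tn_prod _ fun i _ => (hφ.1 i (α i)).tn_comp (measurable_pi_apply i)

lemma tn_e_on {φ : ι → A → X → ℝ} (hφ : ON μ φ) (α β : ι → A) :
    ∫ x, (∏ i, φ i (α i) (x i)) * ∏ i, φ i (β i) (x i) ∂Measure.pi μ =
      if α = β then 1 else 0 := by
  simp only [← Finset.prod_mul_distrib]
  rw [integral_fintype_prod_eq_prod (μ := μ) fun i y => φ i (α i) y * φ i (β i) y]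
  simp only [hφ.2]
  rw [tn_prod_ite]
  simp [funext_iff]

lemma tn_best {φ : ι → A → X → ℝ} (hφ : ON μ φ) {Ψ : (ι → X) → ℝ} (hΨ : BM Ψ)
    (d : (ι → A) → ℝ) :
    ∫ x, (Ψ x - ∑ α : ι → A, d α * ∏ i, φ i (α i) (x i)) ^ 2 ∂Measure.pi μ =
      (∫ x, Ψ x ^ 2 ∂Measure.pi μ) - ∑ α, coef μ φ Ψ α ^ 2 + ∑ α, (d α - coef μ φ Ψ α) ^ 2 :=
  tn_on_sq (Measure.pi μ) (e := fun (α : ι → A) (x : ι → X) => ∏ i, φ i (α i) (x i))
    (tn_e_bm hφ) (tn_e_on hφ) hΨ d

/-- Pythagoras for the product family. -/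
theorem proj_sq {φ : ι → A → X → ℝ} (hφ : ON μ φ) {Ψ : (ι → X) → ℝ} (hΨ : BM Ψ) :
    ∫ x, (Ψ x - ∑ α : ι → A, coef μ φ Ψ α * ∏ i, φ i (α i) (x i)) ^ 2 ∂Measure.pi μ =
      (∫ x, Ψ x ^ 2 ∂Measure.pi μ) - ∑ α, coef μ φ Ψ α ^ 2 := by
  rw [tn_best hφ hΨ]
  simp

/-- Distance to a function of product form in one coordinate. -/
lemma tn_one_sq {φ : ι → A → X → ℝ} (hφ : ON μ φ) {Ψ : (ι → X) → ℝ} (hΨ : BM Ψ) (i : ι)
    {D : A → (ι → X) → ℝ} (hD : ∀ a, BM (D a)) (hDi : ∀ a x y, D a (update x i y) = D a x) :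
    (μ i).real Set.univ * ∫ x, (Ψ x - ∑ a, D a x * φ i a (x i)) ^ 2 ∂Measure.pi μ =
      (μ i).real Set.univ * (∫ x, Ψ x ^ 2 ∂Measure.pi μ) -
        ∑ a, (∫ x, slice μ φ Ψ i a x ^ 2 ∂Measure.pi μ) +
        ∑ a, ∫ x, (D a x - slice μ φ Ψ i a x) ^ 2 ∂Measure.pi μ := by
  have hb : BM fun x : ι → X => (Ψ x - ∑ a, D a x * φ i a (x i)) ^ 2 :=
    (hΨ.tn_sub (BM.tn_sum _ fun a _ =>
      (hD a).tn_mul ((hφ.1 i a).tn_comp (measurable_pi_apply i)))).tn_sq
  rw [← integral_update μ i (hb.tn_int _), ← integral_update μ i (hΨ.tn_sq.tn_int _)]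
  simp only [hDi, update_self]
  have h1 : ∀ x : ι → X, ∫ y, (Ψ (update x i y) - ∑ a, D a x * φ i a y) ^ 2 ∂μ i =
      (∫ y, Ψ (update x i y) ^ 2 ∂μ i) - ∑ a, slice μ φ Ψ i a x ^ 2 +
        ∑ a, (D a x - slice μ φ Ψ i a x) ^ 2 := fun x =>
    tn_on_sq (μ i) (hφ.1 i) (hφ.2 i) (hΨ.tn_comp (measurable_update x)) fun a => D a x
  have i0 : BM fun x : ι → X => ∫ y, Ψ (update x i y) ^ 2 ∂μ i :=
    BM.tn_integral (F := fun p : (ι → X) × X => Ψ (update p.1 i p.2) ^ 2)
      (hΨ.tn_comp measurable_update').tn_sq (μ i)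
  have i1 : ∀ a, BM fun x => slice μ φ Ψ i a x ^ 2 := fun a => (hΨ.slice hφ i a).tn_sq
  have i2 : ∀ a, BM fun x => (D a x - slice μ φ Ψ i a x) ^ 2 := fun a =>
    ((hD a).tn_sub (hΨ.slice hφ i a)).tn_sq
  simp only [h1]
  rw [integral_add ((i0.tn_sub (BM.tn_sum _ fun a _ => i1 a)).tn_int _)
      ((BM.tn_sum _ fun a _ => i2 a).tn_int _),
    integral_sub (i0.tn_int _) ((BM.tn_sum _ fun a _ => i1 a).tn_int _),
    integral_finsetSum _ fun a _ => (i1 a).tn_int _,
    integral_finsetSum _ fun a _ => (i2 a).tn_int _]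

lemma tn_slice_sub {φ : ι → A → X → ℝ} (hφ : ON μ φ) {Ψ Θ : (ι → X) → ℝ} (hΨ : BM Ψ) (hΘ : BM Θ)
    (i : ι) (a : A) (x : ι → X) :
    slice μ φ (fun x => Θ x - Ψ x) i a x = slice μ φ Θ i a x - slice μ φ Ψ i a x := by
  simp only [slice, mul_sub]
  exact integral_sub (((hφ.1 i a).tn_mul (hΘ.tn_comp (measurable_update x))).tn_int _)
    (((hφ.1 i a).tn_mul (hΨ.tn_comp (measurable_update x))).tn_int _)

/-- One projection step. -/
lemma tn_step {φ : ι → A → X → ℝ} (hφ : ON μ φ) {i : ι} (hμ : 0 < (μ i).real Set.univ)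
    {Ψ Θ : (ι → X) → ℝ} (hΨ : BM Ψ) (hΘ : BM Θ) :
    ∫ x, (Ψ x - ∑ a, slice μ φ Θ i a x * φ i a (x i)) ^ 2 ∂Measure.pi μ ≤
      ((∫ x, Ψ x ^ 2 ∂Measure.pi μ) -
        (∑ a, ∫ x, slice μ φ Ψ i a x ^ 2 ∂Measure.pi μ) / (μ i).real Set.univ) +
        ∫ x, (Ψ x - Θ x) ^ 2 ∂Measure.pi μ := by
  have h1 := tn_one_sq hφ hΨ i (fun a => hΘ.slice hφ i a) (tn_slice_update φ Θ i)
  have h2 := tn_one_sq hφ (hΘ.tn_sub hΨ) i (fun a => (hΘ.tn_sub hΨ).slice hφ i a)
    (tn_slice_update φ _ i)
  simp only [sub_self, ne_eq, OfNat.ofNat_ne_zero, not_false_eq_true, zero_pow, integral_zero,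
    Finset.sum_const_zero, add_zero] at h2
  have h3 : 0 ≤ (μ i).real Set.univ * ∫ x, (Θ x - Ψ x -
      ∑ a, slice μ φ (fun y => Θ y - Ψ y) i a x * φ i a (x i)) ^ 2 ∂Measure.pi μ :=
    mul_nonneg hμ.le (integral_nonneg fun x => sq_nonneg _)
  rw [h2] at h3
  simp only [tn_slice_sub hφ hΨ hΘ] at h3
  have h4 : ∫ x, (Ψ x - Θ x) ^ 2 ∂Measure.pi μ = ∫ x, (Θ x - Ψ x) ^ 2 ∂Measure.pi μ :=
    integral_congr_ae (Filter.Eventually.of_forall fun x => by ring)
  refine le_of_mul_le_mul_left ?_ hμ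
  rw [h1, h4, mul_add, mul_sub, mul_div_cancel₀ _ hμ.ne']
  linarith

/-- Sums of products of basis functions in the coordinates of `S` and functions of the others. -/
def TnSpan (φ : ι → A → X → ℝ) (S : Finset ι) (Θ : (ι → X) → ℝ) : Prop :=
  ∃ (T : Type) (_ : Fintype T) (f : T → ι → X → ℝ) (g : T → (ι → X) → ℝ),
    (∀ t, ∀ i ∈ S, ∃ a, f t i = φ i a) ∧ (∀ t, BM (g t)) ∧
    (∀ t, ∀ i ∈ S, ∀ x y, g t (update x i y) = g t x) ∧
    ∀ x, Θ x = ∑ t, (∏ i ∈ S, f t i (x i)) * g t x

lemma TnSpan.step {φ : ι → A → X → ℝ} (hφ : ON μ φ) {S : Finset ι} {j : ι} (hj : j ∉ S)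
    {Θ : (ι → X) → ℝ} (h : TnSpan φ S Θ) :
    TnSpan φ (insert j S) fun x => ∑ a, slice μ φ Θ j a x * φ j a (x j) := by
  obtain ⟨T, _, f, g, hf, hg, hgi, hΘ⟩ := h
  have hne : ∀ i ∈ S, i ≠ j := fun i hi h => hj (h ▸ hi)
  refine ⟨A × T, inferInstance, fun p => update (f p.2) j (φ j p.1),
    fun p => slice μ φ (g p.2) j p.1, ?_, fun p => (hg p.2).slice hφ j p.1, ?_, ?_⟩
  · rintro ⟨a, t⟩ i hi
    rcases Finset.mem_insert.1 hi with rfl | hi
    · exact ⟨a, update_self _ _ _⟩
    · simp only [update_of_ne (hne i hi)]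
      exact hf t i hi
  · rintro ⟨a, t⟩ i hi x y
    rcases Finset.mem_insert.1 hi with rfl | hi
    · exact tn_slice_update _ _ _ _ _ _
    · simp only [slice, update_comm (hne i hi), hgi t i hi]
  · intro x
    rw [Fintype.sum_prod_type]
    refine Finset.sum_congr rfl fun a _ => ?_
    have h1 : slice μ φ Θ j a x = ∑ t, (∏ i ∈ S, f t i (x i)) * slice μ φ (g t) j a x := by
      simp only [slice, hΘ, Finset.mul_sum, ← integral_const_mul]
      rw [← integral_finsetSum _ fun t _ => ((BM.tn_const _).tn_mul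
        ((hφ.1 j a).tn_mul ((hg t).tn_comp (measurable_update x)))).tn_int _]
      refine integral_congr_ae (Filter.Eventually.of_forall fun y => ?_)
      refine Finset.sum_congr rfl fun t _ => ?_
      rw [Finset.prod_congr rfl fun i hi => by rw [update_of_ne (hne i hi)]]
      ring
    rw [h1, Finset.sum_mul]
    refine Finset.sum_congr rfl fun t _ => ?_
    dsimp only
    rw [Finset.prod_insert hj, update_self,
      Finset.prod_congr rfl (s₂ := S) (f := fun i => update (f t) j (φ j a) i (x i))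
        fun i hi => by rw [update_of_ne (hne i hi)]]
    ring

lemma tn_const_of_update {g : (ι → X) → ℝ} (h : ∀ i x y, g (update x i y) = g x) (x x' : ι → X) :
    g x = g x' := by
  have : ∀ S : Finset ι, g (fun i => if i ∈ S then x' i else x i) = g x := by
    intro S
    induction S using Finset.induction_on with
    | empty => simp
    | insert j S _ ih =>
      rw [← ih, ← h j (fun i => if i ∈ S then x' i else x i) (x' j)]
      congr 1
      funext i
      by_cases hi : i = j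
      · subst hi; simp
      · simp [hi]
  simpa using (this Finset.univ).symm

lemma TnSpan.final {φ : ι → A → X → ℝ} {Θ : (ι → X) → ℝ} (h : TnSpan φ Finset.univ Θ) :
    ∃ d : (ι → A) → ℝ, ∀ x, Θ x = ∑ α : ι → A, d α * ∏ i, φ i (α i) (x i) := by
  obtain ⟨T, _, f, g, hf, -, hgi, hΘ⟩ := h
  choose a ha using fun t i => hf t i (Finset.mem_univ i)
  rcases isEmpty_or_nonempty (ι → X) with hX | ⟨⟨x0⟩⟩
  · exact ⟨0, fun x => hX.elim x⟩
  refine ⟨fun α => ∑ t ∈ Finset.univ.filter (fun t => a t = α), g t x0, fun x => ?_⟩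
  rw [hΘ, ← Finset.sum_fiberwise Finset.univ a]
  refine Finset.sum_congr rfl fun α _ => ?_
  rw [Finset.sum_mul]
  refine Finset.sum_congr rfl fun t ht => ?_
  rw [← (Finset.mem_filter.1 ht).2, mul_comm,
    tn_const_of_update (fun i => hgi t i (Finset.mem_univ i)) x x0]
  simp only [ha]

/-- The distance to the product space is controlled coordinate by coordinate. -/
theorem efron_stein {φ : ι → A → X → ℝ} (hφ : ON μ φ) (hμ : ∀ i, 0 < (μ i).real Set.univ)
    {Ψ : (ι → X) → ℝ} (hΨ : BM Ψ) :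
    (∫ x, Ψ x ^ 2 ∂Measure.pi μ) - ∑ α, coef μ φ Ψ α ^ 2 ≤
      ∑ i, ((∫ x, Ψ x ^ 2 ∂Measure.pi μ) -
        (∑ a, ∫ x, slice μ φ Ψ i a x ^ 2 ∂Measure.pi μ) / (μ i).real Set.univ) := by
  have key : ∀ S : Finset ι, ∃ Θ, BM Θ ∧ TnSpan φ S Θ ∧ ∫ x, (Ψ x - Θ x) ^ 2 ∂Measure.pi μ ≤
      ∑ i ∈ S, ((∫ x, Ψ x ^ 2 ∂Measure.pi μ) -
        (∑ a, ∫ x, slice μ φ Ψ i a x ^ 2 ∂Measure.pi μ) / (μ i).real Set.univ) := by
    intro S
    induction S using Finset.induction_on with
    | empty =>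
      exact ⟨Ψ, hΨ, ⟨Unit, inferInstance, fun _ _ _ => 0, fun _ => Ψ, by simp, fun _ => hΨ,
        by simp, by simp⟩, by simp⟩
    | insert j S hj ih =>
      obtain ⟨Θ, h1, h2, h3⟩ := ih
      refine ⟨_, BM.tn_sum _ fun a _ => (h1.slice hφ j a).tn_mul
        ((hφ.1 j a).tn_comp (measurable_pi_apply j)), h2.step hφ hj, ?_⟩
      rw [Finset.sum_insert hj]
      exact (tn_step hφ (hμ j) hΨ h1).trans (add_le_add le_rfl h3)
  obtain ⟨Θ, -, h2, h3⟩ := key Finset.univ
  obtain ⟨d, hd⟩ := h2.final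
  simp only [hd] at h3
  rw [tn_best hφ hΨ] at h3
  have : 0 ≤ ∑ α, (d α - coef μ φ Ψ α) ^ 2 := Finset.sum_nonneg fun _ _ => sq_nonneg _
  linarith

lemma tn_coef_eq {φ : ι → A → X → ℝ} (hφ : ON μ φ) {Ψ : (ι → X) → ℝ} (hΨ : BM Ψ) (i : ι)
    (α : ι → A) : (μ i).real Set.univ * coef μ φ Ψ α =
      ∫ x, (∏ l ∈ Finset.univ.erase i, φ l (α l) (x l)) * slice μ φ Ψ i (α i) x ∂Measure.pi μ := by
  rw [coef, ← integral_update μ i (((tn_e_bm hφ α).tn_mul hΨ).tn_int _)]
  refine integral_congr_ae (Filter.Eventually.of_forall fun x => ?_)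
  simp only [slice, ← integral_const_mul]
  refine integral_congr_ae (Filter.Eventually.of_forall fun y => ?_)
  beta_reduce
  rw [← Finset.mul_prod_erase _ _ (Finset.mem_univ i), update_self,
    Finset.prod_congr rfl fun l hl => by rw [update_of_ne (Finset.ne_of_mem_erase hl)]]
  ring

/-- Bessel inequality in the remaining coordinates. -/
theorem bessel_slice {φ : ι → A → X → ℝ} (hφ : ON μ φ) (hμ : ∀ i, 0 < (μ i).real Set.univ)
    {Ψ : (ι → X) → ℝ} (hΨ : BM Ψ) (i : ι) (a₀ : A) (w : A → ℝ) :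
    ∑ α ∈ Finset.univ.filter (fun α : ι → A => α i = a₀),
        (∑ a, w a * coef μ φ Ψ (update α i a)) ^ 2 ≤
      (∫ x, (∑ a, w a * slice μ φ Ψ i a x) ^ 2 ∂Measure.pi μ) / (μ i).real Set.univ := by
  set W : (ι → X) → ℝ := fun x => ∑ a, w a * slice μ φ Ψ i a x with hW
  have hWb : BM W := BM.tn_sum _ fun a _ => (BM.tn_const _).tn_mul (hΨ.slice hφ i a)
  have hWu : ∀ x y, W (update x i y) = W x := fun x y => by simp only [hW, tn_slice_update]
  have hΦ : BM fun x : ι → X => φ i a₀ (x i) * W x :=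
    ((hφ.1 i a₀).tn_comp (measurable_pi_apply i)).tn_mul hWb
  have h1 : ∫ y, φ i a₀ y * φ i a₀ y ∂μ i = 1 := by rw [hφ.2, if_pos rfl]
  have h2 : ∀ x, slice μ φ (fun x => φ i a₀ (x i) * W x) i a₀ x = W x := by
    intro x
    simp only [slice, update_self, hWu, ← mul_assoc, integral_mul_const, h1, one_mul]
  have h3 : ∀ α : ι → A, α i = a₀ → ∑ a, w a * coef μ φ Ψ (update α i a) =
      coef μ φ (fun x => φ i a₀ (x i) * W x) α := by
    intro α hα
    refine mul_left_cancel₀ (hμ i).ne' ?_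
    have hF : BM fun x : ι → X => ∏ l ∈ Finset.univ.erase i, φ l (α l) (x l) :=
      BM.tn_prod _ fun l _ => (hφ.1 l (α l)).tn_comp (measurable_pi_apply l)
    rw [tn_coef_eq hφ hΦ, hα, Finset.mul_sum]
    simp only [h2]
    simp only [hW, Finset.mul_sum]
    rw [integral_finsetSum _ fun a _ =>
      (hF.tn_mul ((BM.tn_const _).tn_mul (hΨ.slice hφ i a))).tn_int _]
    refine Finset.sum_congr rfl fun a _ => ?_
    rw [mul_left_comm, tn_coef_eq hφ hΨ, update_self, ← integral_const_mul]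
    refine integral_congr_ae (Filter.Eventually.of_forall fun x => ?_)
    beta_reduce
    rw [Finset.prod_congr rfl fun l hl => by rw [update_of_ne (Finset.ne_of_mem_erase hl)]]
    ring
  have h4 : (μ i).real Set.univ * ∫ x, (φ i a₀ (x i) * W x) ^ 2 ∂Measure.pi μ =
      ∫ x, W x ^ 2 ∂Measure.pi μ := by
    rw [← integral_update μ i (hΦ.tn_sq.tn_int _)]
    simp only [update_self, hWu, mul_pow, integral_mul_const]
    simp only [sq (φ i a₀ _), h1, one_mul]
  have h5 := proj_sq hφ hΦ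
  have h6 : 0 ≤ ∫ x, (φ i a₀ (x i) * W x - ∑ α : ι → A,
      coef μ φ (fun x => φ i a₀ (x i) * W x) α * ∏ i, φ i (α i) (x i)) ^ 2 ∂Measure.pi μ :=
    integral_nonneg fun x => sq_nonneg _
  rw [le_div_iff₀ (hμ i), ← h4, mul_comm]
  refine mul_le_mul_of_nonneg_left ?_ (hμ i).le
  rw [Finset.sum_congr rfl fun α hα => by rw [h3 α (Finset.mem_filter.1 hα).2]]
  refine (Finset.sum_le_sum_of_subset_of_nonneg (Finset.filter_subset _ _)
    fun _ _ _ => sq_nonneg _).trans ?_
  linarith

/-! ### Tensor products of quadratic forms -/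

/-- The quadratic form of a kernel. -/
def qf {S : Type} [Fintype S] (G : S → S → ℝ) (c : S → ℝ) : ℝ := ∑ a, ∑ b, c a * c b * G a b

/-- Symmetric and nonnegative. -/
def PSD {S : Type} [Fintype S] (G : S → S → ℝ) : Prop := (∀ a b, G a b = G b a) ∧ ∀ c, 0 ≤ qf G c

lemma tn_qf_eq {S : Type} [Fintype S] (G : S → S → ℝ) (c : S → ℝ) :
    qf G c = star c ⬝ᵥ (Matrix.of G).mulVec c := by
  simp only [qf, dotProduct, Matrix.mulVec, Finset.mul_sum, Matrix.of_apply, Pi.star_apply,
    star_trivial]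
  exact Finset.sum_congr rfl fun a _ => Finset.sum_congr rfl fun b _ => by ring

lemma tn_psd_iff {S : Type} [Fintype S] (G : S → S → ℝ) : PSD G ↔ (Matrix.of G).PosSemidef := by
  rw [Matrix.posSemidef_iff_dotProduct_mulVec]
  refine and_congr ⟨fun h => ?_, fun h a b => ?_⟩ (forall_congr' fun c => by rw [tn_qf_eq])
  · ext a b
    simpa using h b a
  · simpa using h.apply b a

lemma PSD.tn_comp {S T : Type} [Fintype S] [Fintype T] {G : S → S → ℝ} (h : PSD G) (p : T → S) :
    PSD fun a b => G (p a) (p b) :=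
  (tn_psd_iff _).2 (((tn_psd_iff G).1 h).submatrix p)

lemma PSD.tn_mul {S : Type} [Fintype S] {G H : S → S → ℝ} (h : PSD G) (h' : PSD H) :
    PSD fun a b => G a b * H a b :=
  (tn_psd_iff _).2 (((tn_psd_iff G).1 h).hadamard ((tn_psd_iff H).1 h'))

lemma PSD.tn_add {S : Type} [Fintype S] {G H : S → S → ℝ} (h : PSD G) (h' : PSD H) :
    PSD fun a b => G a b + H a b :=
  (tn_psd_iff _).2 (((tn_psd_iff G).1 h).add ((tn_psd_iff H).1 h'))

lemma PSD.tn_congr {S : Type} [Fintype S] {G H : S → S → ℝ} (h : PSD G)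
    (e : ∀ a b, G a b = H a b) : PSD H := by
  rwa [show H = G from funext fun a => funext fun b => (e a b).symm]

lemma tn_psd_const {S : Type} [Fintype S] {r : ℝ} (hr : 0 ≤ r) : PSD fun _ _ : S => r := by
  refine ⟨fun _ _ => rfl, fun c => ?_⟩
  have : qf (fun _ _ : S => r) c = (∑ a, c a) * (∑ a, c a) * r := by
    rw [Finset.sum_mul_sum, Finset.sum_mul, qf]
    exact Finset.sum_congr rfl fun a _ => by rw [Finset.sum_mul]
  rw [this]
  exact mul_nonneg (mul_self_nonneg _) hr

lemma tn_psd_finprod {S κ : Type} [Fintype S] (T : Finset κ) {G : κ → S → S → ℝ}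
    (h : ∀ k ∈ T, PSD (G k)) : PSD fun a b => ∏ k ∈ T, G k a b := by
  classical
  induction T using Finset.induction_on with
  | empty => simpa using tn_psd_const (S := S) zero_le_one
  | insert k T hk ih =>
    refine ((h k (Finset.mem_insert_self _ _)).tn_mul
      (ih fun l hl => h l (Finset.mem_insert_of_mem hl))).tn_congr fun a b => ?_
    rw [Finset.prod_insert hk]

lemma tn_psd_finprod_sub {S κ : Type} [Fintype S] (T : Finset κ) {G H : κ → S → S → ℝ}
    (h : ∀ k ∈ T, PSD (G k)) (h' : ∀ k ∈ T, PSD fun a b => H k a b - G k a b) :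
    PSD fun a b => ∏ k ∈ T, H k a b - ∏ k ∈ T, G k a b := by
  classical
  induction T using Finset.induction_on with
  | empty => simpa using tn_psd_const (S := S) le_rfl
  | insert k T hk ih =>
    have h1 := h k (Finset.mem_insert_self _ _)
    have h2 := h' k (Finset.mem_insert_self _ _)
    have h3 := ih (fun l hl => h l (Finset.mem_insert_of_mem hl))
      fun l hl => h' l (Finset.mem_insert_of_mem hl)
    have h4 : PSD fun a b => ∏ k ∈ T, H k a b := tn_psd_finprod T fun l hl =>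
      ((h l (Finset.mem_insert_of_mem hl)).tn_add (h' l (Finset.mem_insert_of_mem hl))).tn_congr
        fun a b => by ring
    refine ((h2.tn_mul h4).tn_add (h1.tn_mul h3)).tn_congr fun a b => ?_
    rw [Finset.prod_insert hk, Finset.prod_insert hk]
    ring

lemma tn_qf_le {S : Type} [Fintype S] {G H : S → S → ℝ} (h : PSD fun a b => H a b - G a b)
    (c : S → ℝ) : qf G c ≤ qf H c := by
  have := h.2 c
  simp only [qf, mul_sub, Finset.sum_sub_distrib] at this ⊢
  linarith

theorem psd_prod {G : ι → A → A → ℝ} (hG : ∀ i, PSD (G i)) :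
    PSD fun α β : ι → A => ∏ i, G i (α i) (β i) :=
  tn_psd_finprod (G := fun i (α β : ι → A) => G i (α i) (β i)) _
    fun i _ => (hG i).tn_comp fun α : ι → A => α i

/-- Monotonicity of tensor products. -/
theorem qf_prod_le {G H : ι → A → A → ℝ} (hG : ∀ i, PSD (G i))
    (hH : ∀ i, PSD fun a b => H i a b - G i a b) (c : (ι → A) → ℝ) :
    qf (fun α β => ∏ i, G i (α i) (β i)) c ≤ qf (fun α β => ∏ i, H i (α i) (β i)) c :=
  tn_qf_le (tn_psd_finprod_sub (G := fun i (α β : ι → A) => G i (α i) (β i))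
    (H := fun i (α β : ι → A) => H i (α i) (β i)) _
    (fun i _ => (hG i).tn_comp fun α : ι → A => α i)
    fun i _ => (hH i).tn_comp fun α : ι → A => α i) c

/-- Replacing a distinguished factor and the remaining ones. -/
lemma tn_two_step (T : Finset ι) {K K' : (ι → A) → (ι → A) → ℝ} (hK' : PSD K')
    (hK : PSD fun a b => K' a b - K a b) {G : A → A → ℝ} (hG : PSD G) {r : ℝ}
    (hGr : PSD fun a b => (if a = b then r else 0) - G a b) (c : (ι → A) → ℝ) :
    qf (fun α β => K α β * ∏ l ∈ T, G (α l) (β l)) c ≤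
      qf (fun α β => K' α β * ∏ l ∈ T, if α l = β l then r else 0) c := by
  have h1 : PSD fun α β : ι → A => ∏ l ∈ T, G (α l) (β l) :=
    tn_psd_finprod (G := fun l (α β : ι → A) => G (α l) (β l)) _
      fun l _ => hG.tn_comp fun α : ι → A => α l
  have h2 := tn_psd_finprod_sub (G := fun l (α β : ι → A) => G (α l) (β l))
    (H := fun l (α β : ι → A) => if α l = β l then r else 0) T
    (fun l _ => hG.tn_comp fun α : ι → A => α l) fun l _ => hGr.tn_comp fun α : ι → A => α l
  refine tn_qf_le (((hK.tn_mul h1).tn_add (hK'.tn_mul h2)).tn_congr fun a b => ?_) c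
  ring

lemma tn_sum_update (i : ι) (α : ι → A) (f : (ι → A) → ℝ) :
    (∑ β : ι → A, if ∀ l ∈ Finset.univ.erase i, α l = β l then f β else 0) =
      ∑ b, f (update α i b) := by
  rw [← Finset.sum_filter]
  symm
  refine Finset.sum_bij' (fun b _ => update α i b) (fun β _ => β i) ?_ ?_ ?_ ?_ ?_
  · intro b _
    simp only [Finset.mem_filter, Finset.mem_univ, true_and, Finset.mem_erase, and_true]
    intro l hl
    rw [update_of_ne hl]
  · intro β _; exact Finset.mem_univ _
  · intro b _; simp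
  · intro β hβ
    simp only [Finset.mem_filter, Finset.mem_univ, true_and, Finset.mem_erase, and_true] at hβ
    funext l
    by_cases hl : l = i
    · subst hl; simp
    · rw [update_of_ne hl, hβ l hl]
  · intro b _; rfl

/-- One distinguished factor that need not be nonnegative. -/
theorem qf_one_le (i : ι) {K K' : A → A → ℝ} (hK' : PSD K') (hK : PSD fun a b => K' a b - K a b)
    {G : A → A → ℝ} (hG : PSD G) {r : ℝ} (hr : 1 ≤ r)
    (hGr : PSD fun a b => (if a = b then r else 0) - G a b) (c : (ι → A) → ℝ) :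
    qf (fun α β => K (α i) (β i) * ∏ l ∈ Finset.univ.erase i, G (α l) (β l)) c ≤
      r ^ Fintype.card ι * ∑ α, ∑ b, c α * c (update α i b) * K' (α i) b := by
  have hK1 := hK'.tn_comp fun α : ι → A => α i
  refine (tn_two_step (K := fun α β => K (α i) (β i)) (K' := fun α β => K' (α i) (β i)) _ hK1
    (hK.tn_comp fun α : ι → A => α i) hG hGr c).trans ?_
  have key : ∀ t : ℝ, qf (fun α β : ι → A => K' (α i) (β i) *
      ∏ l ∈ Finset.univ.erase i, if α l = β l then t else 0) c =
      t ^ (Finset.univ.erase i).card * ∑ α, ∑ b, c α * c (update α i b) * K' (α i) b := by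
    intro t
    rw [qf, Finset.mul_sum]
    refine Finset.sum_congr rfl fun α _ => ?_
    have := tn_sum_update i α fun β => t ^ (Finset.univ.erase i).card * (c α * c β * K' (α i) (β i))
    simp only [update_self] at this
    rw [Finset.mul_sum, ← this]
    refine Finset.sum_congr rfl fun β _ => ?_
    rw [tn_prod_ite]
    split_ifs <;> ring
  have h0 : 0 ≤ ∑ α, ∑ b, c α * c (update α i b) * K' (α i) b := by
    have h1 : PSD fun a b : A => if a = b then (1 : ℝ) else 0 :=
      (tn_psd_iff _).2 (Matrix.PosSemidef.one (n := A) (R := ℝ))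
    have h2 := (hK1.tn_mul (tn_psd_finprod
      (G := fun l (α β : ι → A) => if α l = β l then (1 : ℝ) else 0) (Finset.univ.erase i)
      fun l _ => h1.tn_comp fun α : ι → A => α l)).2 c
    rwa [key, one_pow, one_mul] at h2
  rw [key]
  exact mul_le_mul_of_nonneg_right (pow_le_pow_right₀ hr (Finset.card_le_univ _)) h0

/-- One distinguished pair with a diagonal upper bound. -/
theorem qf_two_le {i j : ι} (hij : i ≠ j) {K : A × A → A × A → ℝ} {V : A → A → ℝ}
    (hV : ∀ a b, 0 ≤ V a b)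
    (hK : PSD fun p q : A × A => (if p = q then V p.1 p.2 else 0) - K p q)
    {G : A → A → ℝ} (hG : PSD G) {r : ℝ} (hr : 1 ≤ r)
    (hGr : PSD fun a b => (if a = b then r else 0) - G a b) (c : (ι → A) → ℝ) :
    qf (fun α β => K (α i, α j) (β i, β j) *
      ∏ l ∈ (Finset.univ.erase i).erase j, G (α l) (β l)) c ≤
      r ^ Fintype.card ι * ∑ α, V (α i) (α j) * c α ^ 2 := by
  have hD : PSD fun p q : A × A => if p = q then V p.1 p.2 else 0 :=
    (tn_psd_iff _).2 (Matrix.PosSemidef.diagonal (d := fun p : A × A => V p.1 p.2)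
      fun p => hV _ _)
  refine (tn_two_step (K := fun α β => K (α i, α j) (β i, β j))
    (K' := fun α β => if (α i, α j) = (β i, β j) then V (α i) (α j) else 0) _
    (hD.tn_comp fun α : ι → A => (α i, α j))
    (hK.tn_comp fun α : ι → A => (α i, α j)) hG hGr c).trans ?_
  rw [qf, Finset.mul_sum]
  refine Finset.sum_le_sum fun α _ => ?_
  rw [Finset.sum_eq_single α]
  · rw [tn_prod_ite, if_pos rfl, if_pos fun _ _ => rfl]
    have h1 : r ^ ((Finset.univ.erase i).erase j).card ≤ r ^ Fintype.card ι :=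
      pow_le_pow_right₀ hr (Finset.card_le_univ _)
    have h2 : 0 ≤ V (α i) (α j) * c α ^ 2 := mul_nonneg (hV _ _) (sq_nonneg _)
    nlinarith
  · intro β _ hβ
    rw [tn_prod_ite]
    split_ifs with h1 h2
    · refine absurd (funext fun l => ?_) hβ
      rw [Prod.mk.injEq] at h1
      by_cases hl : l = i
      · rw [hl, h1.1]
      · by_cases hl' : l = j
        · rw [hl', h1.2]
        · exact (h2 l (by simp [hl, hl'])).symm
    all_goals simp
  · intro h; exact absurd (Finset.mem_univ _) h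

end Vale.Agent.P370
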