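import Vale.Agent.P370.Radial
import Vale.Agent.P370.Tensor

/-!
Poincare inequalities for unimodal weights.
-/

namespace Vale.Agent.P370

open MeasureTheory Set Function

theorem gs_cs {h : ℝ → ℝ} (hh : Continuous h) {c t : ℝ} (hct : c ≤ t) :
    (∫ s in c..t, h s) ^ 2 ≤ (t - c) * ∫ s in c..t, h s ^ 2 := by
  rcases hct.eq_or_lt with rfl | hlt
  · simp
  set J := ∫ s in c..t, h s with hJ
  have hL : 0 < t - c := sub_pos.2 hlt
  have h1 : ∫ s in c..t, (2 * (J / (t - c)) * h s - (J / (t - c)) ^ 2) ≤ ∫ s in c..t, h s ^ 2 :=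
    intervalIntegral.integral_mono_on hct (by apply Continuous.intervalIntegrable; fun_prop)
      (by apply Continuous.intervalIntegrable; fun_prop)
      fun s _ => by nlinarith [sq_nonneg (h s - J / (t - c))]
  rw [intervalIntegral.integral_sub (by apply Continuous.intervalIntegrable; fun_prop)
    (by apply Continuous.intervalIntegrable; fun_prop), intervalIntegral.integral_const_mul,
    intervalIntegral.integral_const, smul_eq_mul, ← hJ] at h1
  refine le_trans (le_of_eq ?_) (mul_le_mul_of_nonneg_left h1 hL.le)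
  field_simp
  ring

theorem gs_seg {w h : ℝ → ℝ} {a b s t u : ℝ} (hw : Continuous w) (h0 : ∀ t, 0 ≤ w t)
    (hh : Continuous h) (has : a ≤ s) (hst : s ≤ t) (htb : t ≤ b) (hu : 0 ≤ u)
    (hle : ∀ y ∈ Icc s t, u ≤ w y) :
    u * (∫ y in s..t, h y) ^ 2 ≤ (b - a) * ∫ y in Icc a b, w y * h y ^ 2 := by
  have h1 := mul_le_mul_of_nonneg_left (gs_cs hh hst) hu
  have h2 : u * ∫ y in s..t, h y ^ 2 ≤ ∫ y in s..t, w y * h y ^ 2 := by
    rw [← intervalIntegral.integral_const_mul]
    exact intervalIntegral.integral_mono_on hst (by apply Continuous.intervalIntegrable; fun_prop)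
      (by apply Continuous.intervalIntegrable; fun_prop)
      fun y hy => mul_le_mul_of_nonneg_right (hle y hy) (sq_nonneg _)
  have h3 : ∫ y in s..t, w y * h y ^ 2 ≤ ∫ y in Icc a b, w y * h y ^ 2 := by
    rw [intervalIntegral.integral_of_le hst]
    refine setIntegral_mono_set (Continuous.integrableOn_Icc (by fun_prop))
      (Filter.Eventually.of_forall fun y => mul_nonneg (h0 y) (sq_nonneg _))
      (LE.le.eventuallyLE fun y hy => ⟨has.trans hy.1.le, hy.2.trans htb⟩)
  have h4 : 0 ≤ ∫ y in Icc a b, w y * h y ^ 2 :=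
    integral_nonneg fun y => mul_nonneg (h0 y) (sq_nonneg _)
  calc u * (∫ y in s..t, h y) ^ 2 ≤ (t - s) * (u * ∫ y in s..t, h y ^ 2) := by linarith
    _ ≤ (t - s) * ∫ y in Icc a b, w y * h y ^ 2 :=
        mul_le_mul_of_nonneg_left (h2.trans h3) (sub_nonneg.2 hst)
    _ ≤ _ := mul_le_mul_of_nonneg_right (by linarith) h4

/-- One-dimensional inequality for weights that are monotone on both sides of a point. -/
theorem poincare1 {w g : ℝ → ℝ} {a b c : ℝ} (hc : c ∈ Icc a b) (hw : Continuous w)
    (h0 : ∀ t, 0 ≤ w t) (h1 : MonotoneOn w (Icc a c)) (h2 : AntitoneOn w (Icc c b))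
    (hg : ContDiff ℝ 1 g) :
    ∫ t in Icc a b, w t * (g t - g c) ^ 2 ≤ (b - a) ^ 2 * ∫ t in Icc a b, w t * deriv g t ^ 2 := by
  have hd : Continuous (deriv g) := hg.continuous_deriv le_rfl
  have hgc := hg.continuous
  have hab : a ≤ b := hc.1.trans hc.2
  have hF : ∀ s t, ∫ y in s..t, deriv g y = g t - g s := fun s t =>
    intervalIntegral.integral_deriv_eq_sub (fun x _ => hg.differentiable (by simp) x)
      (hd.intervalIntegrable _ _)
  have key : ∀ t ∈ Icc a b,
      w t * (g t - g c) ^ 2 ≤ (b - a) * ∫ y in Icc a b, w y * deriv g y ^ 2 := by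
    intro t ht
    rcases le_total c t with h | h
    · rw [← hF]
      exact gs_seg hw h0 hd hc.1 h ht.2 (h0 t) fun y hy =>
        h2 ⟨hy.1, hy.2.trans ht.2⟩ ⟨h, ht.2⟩ hy.2
    · rw [← neg_sub, neg_sq, ← hF]
      exact gs_seg hw h0 hd ht.1 h hc.2 (h0 t) fun y hy =>
        h1 ⟨ht.1, h⟩ ⟨ht.1.trans hy.1, hy.2⟩ hy.1
  refine (setIntegral_mono_on (Continuous.integrableOn_Icc (by fun_prop))
    (Continuous.integrableOn_Icc continuous_const) measurableSet_Icc key).trans (le_of_eq ?_)
  rw [setIntegral_const, Real.volume_real_Icc_of_le hab, smul_eq_mul]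
  ring

theorem gs_var {w g : ℝ → ℝ} {a b : ℝ} (hw : Continuous w) (hg : Continuous g)
    (hW : 0 < ∫ t in Icc a b, w t) (e : ℝ) :
    (∫ t in Icc a b, w t * g t ^ 2) - (∫ t in Icc a b, w t * g t) ^ 2 / (∫ t in Icc a b, w t) ≤
      ∫ t in Icc a b, w t * (g t - e) ^ 2 := by
  have h1 : ∫ t in Icc a b, w t * (g t - e) ^ 2 =
      ∫ t in Icc a b, (w t * g t ^ 2 - 2 * e * (w t * g t)) + e ^ 2 * w t :=
    integral_congr_ae (Filter.Eventually.of_forall fun t => by ring)
  rw [h1, integral_add (Continuous.integrableOn_Icc (by fun_prop))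
    (Continuous.integrableOn_Icc (by fun_prop)), integral_sub
    (Continuous.integrableOn_Icc (by fun_prop)) (Continuous.integrableOn_Icc (by fun_prop)),
    integral_const_mul, integral_const_mul]
  generalize (∫ t in Icc a b, w t) = W at hW
  generalize (∫ t in Icc a b, w t * g t) = m
  have : 0 ≤ (m - e * W) ^ 2 / W := by positivity
  have e1 : (m - e * W) ^ 2 / W = m ^ 2 / W - 2 * e * m + e ^ 2 * W := by field_simp; ring
  linarith

theorem gs_bm_int {Y : Type} [MeasurableSpace Y] {f : Y → ℝ} (hf : BM f) (μ : Measure Y)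
    [IsFiniteMeasure μ] : Integrable (fun y => f y ^ 2) μ := by
  obtain ⟨h1, C, hC⟩ := hf
  refine Integrable.of_bound (h1.pow_const 2).aestronglyMeasurable (C ^ 2)
    (Filter.Eventually.of_forall fun y => ?_)
  rw [norm_pow, Real.norm_eq_abs]
  exact pow_le_pow_left₀ (abs_nonneg _) (hC y) 2

/-- Poincare inequality on a box for a product of unimodal weights. -/
theorem poincare3 {w : Fin 3 → ℝ → ℝ} {r c : Pt} {L : ℝ} (hr : ∀ k, 0 < r k ∧ r k ≤ L)
    (hc : ∀ k, |c k| ≤ r k) (hw : ∀ k, Continuous (w k)) (h0 : ∀ k t, 0 < w k t)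
    (h1 : ∀ k, MonotoneOn (w k) (Iic (c k))) (h2 : ∀ k, AntitoneOn (w k) (Ici (c k)))
    {f : Pt → ℝ} (hf : ContDiff ℝ 1 f) :
    ∃ a : ℝ, ∫ x in box (r 0) (r 1) (r 2), (w 0 (x 0) * w 1 (x 1) * w 2 (x 2)) * (f x - a) ^ 2 ≤
      4 * L ^ 2 * ∫ x in box (r 0) (r 1) (r 2), (w 0 (x 0) * w 1 (x 1) * w 2 (x 2)) * gsq f x := by
  set B := box (r 0) (r 1) (r 2) with hB
  have hmem : ∀ x, x ∈ B ↔ ∀ k, x k ∈ Icc (-r k) (r k) := fun x => by
    simp only [hB, box, mem_ofPred_eq, Fin.forall_fin_succ, mem_Icc, ← abs_le]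
    simp
  have hBc : IsCompact B := isCompact_box _ _ _
  set μ : Fin 3 → Measure ℝ := fun k => volume.restrict (Icc (-r k) (r k)) with hμ
  have hν : Measure.pi μ = volume.restrict B := by
    rw [show B = univ.pi fun k => Icc (-r k) (r k) from
      Set.ext fun x => (hmem x).trans mem_univ_pi.symm,
      volume_pi, Measure.restrict_pi_pi]
  have hae : ∀ᵐ x ∂Measure.pi μ, x ∈ B := by
    rw [hν]; exact ae_restrict_mem hBc.measurableSet
  have hμpos : ∀ k, 0 < (μ k).real univ := fun k => by
    simp only [hμ, measureReal_restrict_apply_univ]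
    rw [Real.volume_real_Icc_of_le (by linarith [(hr k).1])]
    linarith [(hr k).1]
  set W : Fin 3 → ℝ := fun k => ∫ t in Icc (-r k) (r k), w k t with hW
  have hWpos : ∀ k, 0 < W k := fun k => by
    simp only [hW]
    rw [integral_Icc_eq_integral_Ioc, ← intervalIntegral.integral_of_le (by linarith [(hr k).1])]
    exact intervalIntegral.intervalIntegral_pos_of_pos ((hw k).intervalIntegrable _ _) (h0 k)
      (by linarith [(hr k).1])
  have hmax : ∀ k t, w k t ≤ w k (c k) := fun k t => by
    rcases le_total t (c k) with h | h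
    · exact h1 k h (mem_Iic.2 le_rfl) h
    · exact h2 k (mem_Ici.2 le_rfl) h h
  set φ : Fin 3 → Unit → ℝ → ℝ := fun k _ y => √(w k y) / √(W k) with hφ
  have hON : ON μ φ := by
    refine ⟨fun k _ => ⟨((hw k).sqrt.div_const _).measurable, √(w k (c k)) / √(W k), fun y => ?_⟩,
      fun k _ _ => ?_⟩
    · simp only [hφ]
      rw [abs_of_nonneg (by positivity)]
      exact div_le_div_of_nonneg_right (Real.sqrt_le_sqrt (hmax k y)) (Real.sqrt_nonneg _)
    · have : ∀ y, φ k () y * φ k () y = w k y / W k := fun y => by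
        simp only [hφ]
        rw [div_mul_div_comm, Real.mul_self_sqrt (h0 k y).le, Real.mul_self_sqrt (hWpos k).le]
      simp only [this, if_true, integral_div]
      exact div_self (hWpos k).ne'
  set p : Pt → ℝ := fun x => ∏ k, w k (x k) with hp
  have hpc : Continuous p := continuous_finsetProd _ fun k _ => (hw k).comp (continuous_apply k)
  have hp0 : ∀ x, 0 < p x := fun x => Finset.prod_pos fun k _ => h0 k _
  have hp3 : ∀ x : Pt, w 0 (x 0) * w 1 (x 1) * w 2 (x 2) = p x := fun x =>
    (Fin.prod_univ_three fun k => w k (x k)).symm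
  have hfc := hf.continuous
  set Ψ : Pt → ℝ := B.indicator fun x => √(p x) * f x with hΨ
  have hΨB : ∀ x ∈ B, Ψ x = √(p x) * f x := fun x hx => indicator_of_mem hx _
  have hBM : BM Ψ := by
    have hc' : Continuous fun x => √(p x) * f x := by fun_prop
    obtain ⟨C, hC⟩ := hBc.exists_bound_of_continuousOn hc'.continuousOn
    refine ⟨hc'.measurable.indicator hBc.measurableSet, max C 0, fun x => ?_⟩
    by_cases hx : x ∈ B
    · rw [hΨB x hx]; exact (hC x hx).trans (le_max_left _ _)
    · simp only [hΨ]; rw [indicator_of_notMem hx, abs_zero]; exact le_max_right _ _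
  have hpd : ∀ k, Continuous (pd k f) := fun k =>
    (hf.continuous_fderiv (by simp)).clm_apply continuous_const
  have hG : ∀ k, Integrable (fun x => p x * pd k f x ^ 2) (Measure.pi μ) := fun k => by
    rw [hν]
    have := hpd k
    exact ContinuousOn.integrableOn_compact hBc (by fun_prop)
  have E1 := proj_sq hON hBM
  have E2 := efron_stein hON hμpos hBM
  refine ⟨coef μ φ Ψ default * ∏ k, (√(W k))⁻¹, ?_⟩
  simp only [hp3]
  rw [← hν]
  have L1 : ∫ x, p x * (f x - coef μ φ Ψ default * ∏ k, (√(W k))⁻¹) ^ 2 ∂Measure.pi μ =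
      ∫ x, (Ψ x - ∑ α : Fin 3 → Unit, coef μ φ Ψ α * ∏ i, φ i (α i) (x i)) ^ 2 ∂Measure.pi μ := by
    refine integral_congr_ae ?_
    filter_upwards [hae] with x hx
    rw [Fintype.sum_unique, hΨB x hx]
    have : ∏ i, φ i ((default : Fin 3 → Unit) i) (x i) = √(p x) * ∏ k, (√(W k))⁻¹ := by
      simp only [hφ, hp, div_eq_mul_inv]
      rw [Finset.prod_mul_distrib, Real.sqrt_prod _ fun k _ => (h0 k _).le]
    rw [this]
    conv_lhs => rw [← Real.sq_sqrt (hp0 x).le]
    ring
  have L2 : ∀ i, (∫ x, Ψ x ^ 2 ∂Measure.pi μ) -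
      (∑ a, ∫ x, slice μ φ Ψ i a x ^ 2 ∂Measure.pi μ) / (μ i).real univ ≤
      4 * L ^ 2 * ∫ x, p x * pd i f x ^ 2 ∂Measure.pi μ := by
    intro i
    have I1 := gs_bm_int hBM (Measure.pi μ)
    have I2 := gs_bm_int (BM.slice hON hBM i ()) (Measure.pi μ)
    have U1 := integral_update μ i I1
    have U2 := integral_update μ i (hG i)
    have J1 := (integrable_update μ i I1).integral_prod_left
    have J2 := (integrable_update μ i (hG i)).integral_prod_left
    have key : ∀ᵐ x ∂Measure.pi μ,
        (∫ y, Ψ (update x i y) ^ 2 ∂μ i) - slice μ φ Ψ i () x ^ 2 ≤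
          4 * L ^ 2 * ∫ y, p (update x i y) * pd i f (update x i y) ^ 2 ∂μ i := by
      filter_upwards [hae] with x hx
      set q := ∏ k ∈ Finset.univ.erase i, w k (x k) with hq
      have hq0 : 0 < q := Finset.prod_pos fun k _ => h0 k _
      have hpu : ∀ y, p (update x i y) = q * w i y := fun y => by
        simp only [hp]
        rw [← Finset.prod_erase_mul _ _ (Finset.mem_univ i), update_self]
        congr 1
        exact Finset.prod_congr rfl fun k hk => by rw [update_of_ne (Finset.ne_of_mem_erase hk)]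
      have hup : ∀ y ∈ Icc (-r i) (r i), update x i y ∈ B := fun y hy => (hmem _).2 fun k => by
        rcases eq_or_ne k i with rfl | hk
        · rwa [update_self]
        · rw [update_of_ne hk]; exact (hmem x).1 hx k
      set g : ℝ → ℝ := fun y => f (update x i y) with hg
      have hg1 : ContDiff ℝ 1 g := hf.comp (contDiff_update 1 x i)
      have hgd : ∀ y, deriv g y = pd i f (update x i y) := fun y =>
        ((hf.differentiable (by simp) _).hasFDerivAt.comp_hasDerivAt y
          (hasDerivAt_update x i y)).deriv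
      have a1 : ∫ y, Ψ (update x i y) ^ 2 ∂μ i =
          q * ∫ y in Icc (-r i) (r i), w i y * g y ^ 2 := by
        rw [← integral_const_mul]
        refine setIntegral_congr_fun measurableSet_Icc fun y hy => ?_
        rw [hΨB _ (hup y hy), mul_pow, Real.sq_sqrt (hp0 _).le, hpu, mul_assoc]
      have a2 : slice μ φ Ψ i () x = √q / √(W i) * ∫ y in Icc (-r i) (r i), w i y * g y := by
        unfold slice
        rw [← integral_const_mul]
        refine setIntegral_congr_fun measurableSet_Icc fun y hy => ?_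
        rw [hΨB _ (hup y hy), hpu, Real.sqrt_mul hq0.le]
        conv_rhs => rw [← Real.mul_self_sqrt (h0 i y).le]
        simp only [hφ]
        ring
      have a3 : ∫ y, p (update x i y) * pd i f (update x i y) ^ 2 ∂μ i =
          q * ∫ y in Icc (-r i) (r i), w i y * deriv g y ^ 2 := by
        rw [← integral_const_mul]
        refine setIntegral_congr_fun measurableSet_Icc fun y _ => ?_
        rw [hpu, hgd, mul_assoc]
      have b1 := gs_var (hw i) hg1.continuous (hWpos i) (g (c i))
      have b2 := poincare1 (abs_le.1 (hc i)) (hw i) (fun t => (h0 i t).le)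
        ((h1 i).mono fun t ht => ht.2) ((h2 i).mono fun t ht => ht.1) hg1
      have b3 : 0 ≤ ∫ y in Icc (-r i) (r i), w i y * deriv g y ^ 2 :=
        integral_nonneg fun y => mul_nonneg (h0 i y).le (sq_nonneg _)
      have b4 : (r i - -r i) ^ 2 ≤ 4 * L ^ 2 := by nlinarith [(hr i).1, (hr i).2]
      have b5 := (b1.trans b2).trans (mul_le_mul_of_nonneg_right b4 b3)
      rw [a1, a2, a3, mul_pow, div_pow, Real.sq_sqrt hq0.le, Real.sq_sqrt (hWpos i).le]
      have := mul_le_mul_of_nonneg_left b5 hq0.le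
      simp only [hW]
      calc _ = q * ((∫ t in Icc (-r i) (r i), w i t * g t ^ 2) -
            (∫ t in Icc (-r i) (r i), w i t * g t) ^ 2 / ∫ t in Icc (-r i) (r i), w i t) := by
            ring
        _ ≤ _ := this
        _ = _ := by ring
    have K := integral_mono_ae (J1.sub I2) (J2.const_mul (4 * L ^ 2)) key
    simp only [Pi.sub_apply] at K
    rw [integral_sub J1 I2, integral_const_mul, U1, U2] at K
    rw [Fintype.sum_unique, sub_le_iff_le_add, ← sub_le_iff_le_add', le_div_iff₀ (hμpos i)]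
    linarith
  rw [L1, E1]
  refine E2.trans ((Finset.sum_le_sum fun i _ => L2 i).trans (le_of_eq ?_))
  rw [← Finset.mul_sum, ← integral_finsetSum _ fun i _ => hG i]
  congr 1
  refine integral_congr_ae (Filter.Eventually.of_forall fun x => ?_)
  simp only [gsq, Finset.mul_sum]

end Vale.Agent.P370
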