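import Vale.Agent.P370.FirstB

/-!
The first-order discretisation error against smooth densities.
-/

namespace Vale.Agent.P370

open MeasureTheory Set

lemma Lat.OK.fs_τ {L : Lat} {B : ℝ} (h : L.OK B) : L.l ≤ L.τ := by
  exact_mod_cast h.l_le.trans h.τ_ge

lemma Lat.OK.fs_σ {L : Lat} {B : ℝ} (h : L.OK B) : 0 < L.σ :=
  pow_pos (by have := h.fs_τ; have := h.l_ge; omega) 4

lemma Lat.OK.fs_R {L : Lat} {B : ℝ} (h : L.OK B) : 10 * L.l ≤ L.R := by
  have h1 := h.fs_τ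
  have h2 := h.l_ge
  calc 10 * L.l ≤ L.τ * L.τ := Nat.mul_le_mul (by omega) h1
    _ = L.τ ^ 2 := (sq _).symm
    _ ≤ L.τ ^ 24 := Nat.pow_le_pow_right (by omega) (by norm_num)
    _ ≤ L.R := h.R_ge

theorem Lat.measurable_Vs (L : Lat) {B : ℝ} (h : L.OK B) : Measurable L.Vs :=
  ((measurable_slab _).const_mul _).neg.add h.F_db.1.continuous.measurable

theorem Lat.measurable_dV (L : Lat) {B : ℝ} (h : L.OK B) : Measurable L.dV :=
  (Finset.measurable_sum _ fun _ _ =>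
    (measurable_ker.comp (measurable_id.sub_const _)).const_mul _).neg.sub (L.measurable_Vs h)

theorem Lat.Vs_bdd (L : Lat) {B : ℝ} (h : L.OK B) : ∃ C, ∀ x, |L.Vs x| ≤ C := by
  refine ⟨L.ρ * (7 * 1 ^ 2 + volume.real (box L.R L.R 10) / 1) + B, fun x => ?_⟩
  refine (abs_add_le _ _).trans (add_le_add ?_ (fs_DB_abs h.F_db x))
  rw [abs_neg, abs_of_nonneg (mul_nonneg (Nat.cast_nonneg _) (slab_nonneg _ _))]
  exact mul_le_mul_of_nonneg_left
    (coulomb_le (measurableSet_box _ _ _) (fs_box_ne_top _ _ _) x one_pos) (Nat.cast_nonneg _)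

lemma Lat.fs_Vn_mul (L : Lat) (f : Pt → ℝ) (x : Pt) : L.Vn x * f x =
    -∑ n ∈ sites L.σ L.R, L.Z n / (L.σ : ℝ) ^ 3 * (ker (x - site L.σ L.R n) * f x) := by
  simp only [Lat.Vn, neg_mul, Finset.sum_mul, mul_assoc]

lemma Lat.fs_Vn_int (L : Lat) {f : Pt → ℝ} (hf : Continuous f) (hc : HasCompactSupport f) :
    Integrable fun x => L.Vn x * f x := by
  simp only [L.fs_Vn_mul]
  exact (integrable_finsetSum _ fun n _ => (integrable_ker_mul_cc hf hc _).const_mul _).neg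

lemma Lat.fs_Vs_int (L : Lat) {B : ℝ} (h : L.OK B) {f : Pt → ℝ} (hf : Continuous f)
    (hc : HasCompactSupport f) : Integrable fun x => L.Vs x * f x := by
  obtain ⟨C, hC⟩ := L.Vs_bdd h
  exact (hf.integrable_of_hasCompactSupport hc).bdd_mul (L.measurable_Vs h).aestronglyMeasurable
    (Filter.Eventually.of_forall hC)

theorem Lat.integrable_dV_mul (L : Lat) {B : ℝ} (h : L.OK B) {f : Pt → ℝ} (hf : Continuous f)
    (hc : HasCompactSupport f) : Integrable fun x => L.dV x * f x := by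
  simp only [Lat.dV, sub_mul]
  exact fs_isub (L.fs_Vn_int hf hc) (L.fs_Vs_int h hf hc)

/-- The smooth potential is generated by the density `ρ + lap F / 4π` on the slab. -/
theorem Lat.Vs_eq (L : Lat) {B : ℝ} (h : L.OK B) (x : Pt) :
    L.Vs x = -∫ y in box L.R L.R 10, ker (x - y) * (L.ρ + lap L.F y / (4 * Real.pi)) := by
  have hF2 : ContDiff ℝ 2 L.F := h.F_db.1.of_le fs_two_le
  have hs2 := (tsupport_lap L.F).trans h.F_supp
  have hR : (10 : ℝ) * L.l ≤ L.R := by exact_mod_cast h.fs_R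
  have hl : (0 : ℝ) ≤ L.l := Nat.cast_nonneg _
  have i1 := (integrableOn_ker (fs_box_ne_top L.R L.R 10) x).mul_const (L.ρ : ℝ)
  have i2 : Integrable fun y => ker (x - y) * lap L.F y := by
    simpa only [ker_sub_comm x] using integrable_ker_mul_cc (continuous_lap hF2) (fs_cc hs2) x
  simp only [mul_add, ← mul_div_assoc]
  rw [integral_add i1 (i2.div_const _).integrableOn, integral_mul_const, integral_div,
    setIntegral_eq_integral_of_forall_compl_eq_zero (f := fun y => ker (x - y) * lap L.F y)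
      fun y hy => by
        rw [fs_zero hs2 fun h' => hy ⟨h'.1.trans (by linarith), h'.2.1.trans (by linarith),
          h'.2.2.trans (by norm_num)⟩, mul_zero],
    newton hF2 (fs_cc h.F_supp), Lat.Vs, slab]
  have := Real.pi_pos
  field_simp
  ring

lemma fs_arith {t B l ρ C r eA eC eD eE : ℝ} (ht : 0 ≤ t) (hB : 1 ≤ B) (hl0 : 0 ≤ l) (hl : l ≤ B)
    (hρ0 : 0 ≤ ρ) (hρ : ρ ≤ B) (hC : 1 ≤ C) (hr : r ≤ t)
    (hA : |eA| ≤ 2 * t * B * (80 * (4 * l) ^ 2) * (7 + 8 * (6 * l) ^ 3) +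
      t * (32 * C) * 256 * B * (32 * l ^ 2))
    (hC' : |eC| ≤ 2 * t * (2 ^ 4 * (3 * B) * B) * (80 * (4 * l) ^ 2) * (7 + 8 * (6 * l) ^ 3))
    (hD : |eD| ≤ t * (B * (7 + 8 * (6 * l) ^ 3)) * (80 * (4 * l) ^ 2))
    (hE : |eE| ≤ 30 * t * B * (7 + 8 * (6 * l) ^ 3) * (80 * (4 * l) ^ 2) +
      (30 * t * (32 * C) * 256 + 32 * r * (1760 * l)) * B * (32 * l ^ 2)) :
    |-(ρ * eA) - eC / (4 * Real.pi) - eD - eE| ≤ 10 ^ 9 * C * (B ^ 10 * t) := by
  have hB0 : 0 ≤ B := by linarith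
  have h3 : 1 ≤ B ^ 3 := one_le_pow₀ hB
  have k1 : 7 + 8 * (6 * l) ^ 3 ≤ 1735 * B ^ 3 := by
    have : (6 * l) ^ 3 ≤ (6 * B) ^ 3 := by gcongr
    linarith
  have p : ∀ k ≤ 10, B ^ k * t ≤ C * (B ^ 10 * t) := fun k hk =>
    (mul_le_mul_of_nonneg_right (pow_le_pow_right₀ hB hk) ht).trans
      (le_mul_of_one_le_left (by positivity) hC)
  have q : ∀ k ≤ 10, C * (B ^ k * t) ≤ C * (B ^ 10 * t) := fun k hk =>
    mul_le_mul_of_nonneg_left (mul_le_mul_of_nonneg_right (pow_le_pow_right₀ hB hk) ht)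
      (by linarith)
  have a1 : |ρ * eA| ≤ 4441600 * (B ^ 7 * t) + 262144 * (C * (B ^ 4 * t)) := by
    rw [abs_mul, abs_of_nonneg hρ0]
    calc ρ * |eA| ≤ B * (2 * t * B * (80 * (4 * B) ^ 2) * (1735 * B ^ 3) +
          t * (32 * C) * 256 * B * (32 * B ^ 2)) := by
          refine mul_le_mul hρ (hA.trans ?_) (abs_nonneg _) hB0
          gcongr
      _ = _ := by ring
  have a2 : |eC / (4 * Real.pi)| ≤ 213196800 * (B ^ 7 * t) := by
    have := Real.pi_gt_three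
    rw [abs_div, abs_of_pos (by positivity : 0 < 4 * Real.pi)]
    refine (div_le_self (abs_nonneg _) (by linarith)).trans (hC'.trans ?_)
    calc _ ≤ 2 * t * (2 ^ 4 * (3 * B) * B) * (80 * (4 * B) ^ 2) * (1735 * B ^ 3) := by gcongr
      _ = _ := by ring
  have a3 : |eD| ≤ 2220800 * (B ^ 6 * t) := by
    refine hD.trans ?_
    calc _ ≤ t * (B * (1735 * B ^ 3)) * (80 * (4 * B) ^ 2) := by gcongr
      _ = _ := by ring
  have a4 : |eE| ≤ 66624000 * (B ^ 6 * t) + 7864320 * (C * (B ^ 3 * t)) +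
      1802240 * (B ^ 4 * t) := by
    refine hE.trans ?_
    calc _ ≤ 30 * t * B * (1735 * B ^ 3) * (80 * (4 * B) ^ 2) +
          (30 * t * (32 * C) * 256 + 32 * t * (1760 * B)) * B * (32 * B ^ 2) := by gcongr
      _ = _ := by ring
  have b1 := abs_le.1 a1
  have b2 := abs_le.1 a2
  have b3 := abs_le.1 a3
  have b4 := abs_le.1 a4
  have h0 : 0 ≤ C * (B ^ 10 * t) := by positivity
  rw [abs_le, mul_assoc]
  constructor <;> linarith [p 7 (by norm_num), p 6 (by norm_num), p 4 (by norm_num),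
    q 4 (by norm_num), q 3 (by norm_num)]

theorem first_order : ∃ C : ℝ, ∀ (L : Lat) (B : ℝ), L.OK B → ∀ g : Pt → ℝ, DB 4 g B →
    tsupport g ⊆ box L.l L.l 4 →
    |(∫ x, L.dV x * g x) + Real.pi * L.ρ / (6 * (L.σ : ℝ) ^ 2) * ∫ x, g x| ≤
      C * B ^ 10 / (L.τ : ℝ) ^ 16 := by
  obtain ⟨C, hC1, hC⟩ := ker_deriv
  refine ⟨10 ^ 9 * C, fun L B h g hg hs => ?_⟩
  have hσ := h.fs_σ
  have hl := h.l_ge
  have hR := h.fs_R
  have hR4 : 4 * L.l ≤ L.R := by omega
  have hl' : (10 : ℝ) ≤ L.l := by exact_mod_cast hl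
  have hτ : (1 : ℝ) ≤ L.τ := by linarith [h.l_le, h.τ_ge]
  have hσ' : (0 : ℝ) < L.σ := by exact_mod_cast hσ
  have ht : (1 / (L.σ : ℝ)) ^ 4 = 1 / (L.τ : ℝ) ^ 16 := by
    rw [Lat.σ]; push_cast; rw [one_div_pow, ← pow_mul]
  have hr : 1 / (L.R : ℝ) ≤ 1 / (L.τ : ℝ) ^ 16 := by
    have : (L.τ : ℝ) ^ 24 ≤ L.R := by exact_mod_cast h.R_ge
    exact one_div_le_one_div_of_le (by positivity)
      ((pow_le_pow_right₀ hτ (by norm_num)).trans this)
  have hs2 := (tsupport_lap L.F).trans h.F_supp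
  have hA := fs_partA hC1 hC hσ hl hR4 hg hs
  have hC' := fs_partC hσ hl hR4 hg hs h.F_db h.F_supp
  have hE := fs_partE hC1 hC hσ hl hR h.u_le h.u_out h.u_start hg hs
  have hD := fs_sum_le hσ hR4 (e := fun n => (L.K n - lap L.F (site L.σ L.R n) / (4 * Real.pi)) *
      fsU g (site L.σ L.R n)) fun n hn => by
    rw [abs_mul]
    exact mul_le_mul (h.K_err n) (fs_U_le hl hg hs (fs_site_mem hn)) (abs_nonneg _)
      (by positivity)
  rw [Finset.sum_subset (fs_subset L.σ L.R (4 * L.l)) fun n hn hn' => by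
    classical
    have : site L.σ L.R n ∉ box (3 * L.l) (3 * L.l) 9 := fun h' =>
      hn' (Finset.mem_filter.2 ⟨hn, fs_sub3 h'⟩)
    rw [h.K_out n this, fs_zero hs2 this]
    simp] at hD
  rw [mul_assoc 2, ht, ← mul_assoc 2] at hA hC'
  rw [mul_assoc 30, ht, ← mul_assoc 30, div_eq_mul_one_div 32] at hE
  rw [show ((4 * L.l : ℕ) : ℝ) = 4 * L.l by push_cast; rfl] at hA hC' hD hE
  have key := fs_arith (by positivity) (by linarith [h.l_le]) (by linarith) h.l_le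
    (Nat.cast_nonneg _) h.ρ_le hC1 hr hA hC' hD hE
  rw [mul_one_div, ← mul_div_assoc] at key
  refine le_trans (le_of_eq ?_) key
  congr 1
  have hc := hg.1.continuous
  have hi : Integrable g := hc.integrable_of_hasCompactSupport (fs_cc hs)
  have i2 : Integrable fun x => slab L.R x * g x :=
    fs_setpot_int (measurableSet_box _ _ _) (fs_box_ne_top _ _ _) hi
  have i3 : Integrable fun x => L.F x * g x :=
    hi.bdd_mul h.F_db.1.continuous.aestronglyMeasurable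
      (Filter.Eventually.of_forall (fs_DB_abs h.F_db))
  have e1 : ∫ x, L.Vn x * g x =
      -∑ n ∈ sites L.σ L.R, L.Z n / (L.σ : ℝ) ^ 3 * fsU g (site L.σ L.R n) := by
    simp only [L.fs_Vn_mul]
    rw [integral_neg, integral_finsetSum _ fun n _ =>
      (integrable_ker_mul_cc hc (fs_cc hs) _).const_mul _]
    simp only [integral_const_mul, fsU]
  have e2 : ∫ x, L.Vs x * g x = -(L.ρ * ∫ x, slab L.R x * g x) + ∫ x, L.F x * g x := by
    simp only [Lat.Vs, add_mul, neg_mul, mul_assoc]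
    have i4 : Integrable fun x => -(L.ρ * (slab L.R x * g x)) := (i2.const_mul _).neg
    rw [integral_add i4 i3, integral_neg, integral_const_mul]
  have e3 : ∑ n ∈ sites L.σ L.R, L.Z n / (L.σ : ℝ) ^ 3 * fsU g (site L.σ L.R n) =
      L.ρ * ((1 / (L.σ : ℝ)) ^ 3 * ∑ n ∈ sites L.σ L.R, fsU g (site L.σ L.R n)) +
      (1 / (L.σ : ℝ)) ^ 3 * (∑ n ∈ sites L.σ L.R,
        lap L.F (site L.σ L.R n) * fsU g (site L.σ L.R n)) / (4 * Real.pi) +
      (1 / (L.σ : ℝ)) ^ 3 * (∑ n ∈ sites L.σ L.R,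
        (L.K n - lap L.F (site L.σ L.R n) / (4 * Real.pi)) * fsU g (site L.σ L.R n)) +
      (1 / (L.σ : ℝ)) ^ 3 * ∑ n ∈ sites L.σ L.R, d4 L.u n * fsU g (site L.σ L.R n) := by
    simp only [Finset.mul_sum, Finset.sum_div, ← Finset.sum_add_distrib]
    refine Finset.sum_congr rfl fun n _ => ?_
    rw [Lat.Z]
    ring
  have e0 : ∫ x, L.dV x * g x = (∫ x, L.Vn x * g x) - ∫ x, L.Vs x * g x := by
    simp only [Lat.dV, sub_mul]
    exact integral_sub (L.fs_Vn_int hc (fs_cc hs)) (L.fs_Vs_int h hc (fs_cc hs))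
  rw [e0, e1, e2, e3,
    add_div, mul_div_cancel_left₀ _ (by positivity : 4 * Real.pi ≠ 0)]
  ring

end Vale.Agent.P370
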