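import Vale.Agent.P370.Reg
import Vale.Agent.P370.First
import Vale.Agent.P370.GSA

/-!
Ground state representation, the smooth potential, and Poincare inequalities for the features.
-/

namespace Vale.Agent.P370

open MeasureTheory Set
open scoped ContDiff

/-- Differentiable at `x` with directional derivative `a`. -/
def HP (k : Fin 3) (f : Pt → ℝ) (a : ℝ) (x : Pt) : Prop := DifferentiableAt ℝ f x ∧ pd k f x = a

section
variable {k : Fin 3} {f g : Pt → ℝ} {a b : ℝ} {x : Pt}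

theorem hp_of (hf : DifferentiableAt ℝ f x) (k : Fin 3) : HP k f (pd k f x) x := ⟨hf, rfl⟩

theorem HP.mul (hf : HP k f a x) (hg : HP k g b x) :
    HP k (fun y => f y * g y) (f x * b + g x * a) x := by
  refine ⟨hf.1.mul hg.1, ?_⟩
  rw [← hf.2, ← hg.2]
  unfold pd
  rw [fderiv_fun_mul hf.1 hg.1]
  simp

theorem HP.sub (hf : HP k f a x) (hg : HP k g b x) : HP k (fun y => f y - g y) (a - b) x := by
  refine ⟨hf.1.sub hg.1, ?_⟩
  rw [← hf.2, ← hg.2]
  unfold pd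
  rw [fderiv_fun_sub hf.1 hg.1]
  simp

theorem HP.comp {P : ℝ → ℝ} {c : ℝ} (hf : HP k f a x) (hP : HasDerivAt P c (f x)) :
    HP k (fun y => P (f y)) (c * a) x := by
  have h := hP.comp_hasFDerivAt x hf.1.hasFDerivAt
  refine ⟨h.differentiableAt, ?_⟩
  rw [← hf.2]
  unfold pd
  rw [show (fun y => P (f y)) = P ∘ f from rfl, h.fderiv]
  simp

theorem hp_coord (k j : Fin 3) (x : Pt) : HP k (fun y => y j) (ek k j) x := by
  have h := hasFDerivAt_apply (𝕜 := ℝ) j x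
  refine ⟨h.differentiableAt, ?_⟩
  unfold pd
  rw [h.fderiv]
  simp

end

theorem gs_smooth_pd {f : Pt → ℝ} (hf : ContDiff ℝ ∞ f) (k : Fin 3) : ContDiff ℝ ∞ (pd k f) :=
  (hf.fderiv_right le_rfl).clm_apply contDiff_const

theorem gs_lap : Ev fun G _ => ∀ x, lap G.φ0 x = 2 * G.Vref x * G.φ0 x := by
  refine (m_pos.and v_eq).mono fun G _ _ ⟨⟨hs, hp⟩, hv⟩ x => ?_
  have hd : ∀ y, DifferentiableAt ℝ G.m y := fun y => hs.differentiable (by simp) y
  have A : ∀ k y, HP k G.φ0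
      (G.φ0 y * (pd k G.m y * (2 * G.m y)⁻¹ - G.Ω * ek k 2 * tau (y 2))) y := by
    intro k y
    have hy := (hp y).1
    have a1 := (hp_of (hd y) k).comp (Real.hasDerivAt_sqrt hy.ne')
    have a2 := (hp_coord k 2 y).comp (((hasDerivAt_Tau (y 2)).const_mul G.Ω).neg.exp)
    refine ⟨(a1.mul a2).1, (a1.mul a2).2.trans ?_⟩
    unfold Geo.φ0
    have e := Real.mul_self_sqrt hy.le
    have e0 := Real.sqrt_pos.2 hy
    generalize √(G.m y) = s at e e0
    rw [← e]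
    simp only [Pi.neg_apply]
    field_simp
    ring
  have B : ∀ k, pd k (pd k G.φ0) x = G.φ0 x *
      ((pd k (pd k G.m) x * (2 * G.m x)⁻¹ - pd k G.m x ^ 2 * (2 * G.m x ^ 2)⁻¹ -
        G.Ω * ek k 2 * ek k 2 * bmp 8 (x 2)) +
        (pd k G.m x * (2 * G.m x)⁻¹ - G.Ω * ek k 2 * tau (x 2)) ^ 2) := by
    intro k
    have hx := (hp x).1
    rw [show pd k G.φ0 = _ from funext fun y => (A k y).2]
    have a1 := hp_of ((gs_smooth_pd hs k).differentiable (by simp) x) k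
    have a2 := (hp_of (hd x) k).comp (P := fun t => (2 * t)⁻¹)
      (((hasDerivAt_id (G.m x)).const_mul 2).inv (by simp [hx.ne']))
    have a3 := (hp_coord k 2 x).comp ((hasDerivAt_tau (x 2)).const_mul (G.Ω * ek k 2))
    refine ((A k x).mul ((a1.mul a2).sub a3)).2.trans ?_
    simp only [id]
    field_simp
    ring
  have hx := (hp x).1
  unfold lap Geo.Vref
  rw [(hv x).2, Fin.sum_univ_three, B, B, B]
  unfold lap gsq
  rw [Fin.sum_univ_three, Fin.sum_univ_three, (hv x).1]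
  have e0 : ek 0 2 = 0 := by simp [ek]
  have e1 : ek 1 2 = 0 := by simp [ek]
  have e2 : ek 2 2 = 1 := by simp [ek]
  rw [e0, e1, e2]
  field_simp
  ring

theorem Vref_facts : Ev fun G _ => Continuous G.Vref ∧
    (∀ x, -(G.n : ℝ) ^ 112 ≤ G.Vref x) ∧ ∃ C, ∀ x, |G.Vref x| ≤ C := by
  refine ((Ev.const 2).and v_db).mono fun G _ _ ⟨hn, hs, hv⟩ => ?_
  obtain ⟨o0, o1⟩ := rg_Om G
  have n1 : (1 : ℝ) ≤ G.n := by linarith
  have c1 := hs.continuous
  have c2 := contDiff_tau.continuous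
  have c3 := (contDiff_bmp 8).continuous
  have hb : ∀ z, 0 ≤ G.Ω * bmp 8 z ∧ G.Ω * bmp 8 z ≤ G.Ω := fun z =>
    ⟨mul_nonneg o0 (bmp_nonneg _ _), mul_le_of_le_one_right o0 (bmp_le_one _ _)⟩
  refine ⟨by unfold Geo.Vref; fun_prop, fun x => ?_,
    (G.n : ℝ) ^ 105 + (G.Ω ^ 2 * 9 ^ 2 + G.Ω) / 2, fun x => ?_⟩
  · have h1 := (abs_le.1 (hv x)).1
    have h2 : (G.n : ℝ) ^ 105 ≤ (G.n : ℝ) ^ 110 := pow_le_pow_right₀ n1 (by norm_num)
    have h3 : (G.n : ℝ) ^ 110 * 2 ^ 2 ≤ (G.n : ℝ) ^ 110 * (G.n : ℝ) ^ 2 := by gcongr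
    have h4 : 0 ≤ G.Ω ^ 2 * tau (x 2) ^ 2 := by positivity
    have h5 : (0 : ℝ) ≤ (G.n : ℝ) ^ 110 := by positivity
    rw [← pow_add, show 110 + 2 = 112 from rfl] at h3
    unfold Geo.Vref
    linarith [(hb (x 2)).2]
  · have h1 := abs_le.1 (hv x)
    have h2 : tau (x 2) ^ 2 ≤ 9 ^ 2 := by
      rw [← sq_abs]
      exact pow_le_pow_left₀ (abs_nonneg _) ((abs_tau_le _).trans (min_le_right _ _)) 2
    have h3 := mul_le_mul_of_nonneg_left h2 (sq_nonneg G.Ω)
    have h4 : 0 ≤ G.Ω ^ 2 * tau (x 2) ^ 2 := by positivity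
    unfold Geo.Vref
    rw [abs_le]
    constructor <;> nlinarith [(hb (x 2)).1, (hb (x 2)).2, sq_nonneg G.Ω]

/-- Ground state representation. -/
theorem gs_rep : Ev fun G _ => ∀ f : Pt → ℝ, C1c f →
    C1c (fun x => G.φ0 x * f x) ∧
    qV G.Vref (fun x => G.φ0 x * f x) = 1 / 2 * ∫ x, G.φ0 x ^ 2 * gsq f x := by
  refine (φ0_pos.and gs_lap).mono fun G _ _ ⟨⟨hs, _⟩, hl⟩ f hf => ?_
  have h1 : ContDiff ℝ 1 G.φ0 := hs.of_le (by simp)
  have hc : C1c fun x => G.φ0 x * f x := ⟨h1.mul hf.1, hf.2.mul_left⟩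
  have hc2 : C1c fun x => G.φ0 x * f x * f x := ⟨hc.1.mul hf.1, hf.2.mul_left⟩
  refine ⟨hc, ?_⟩
  have dφ : ∀ k x, HP k G.φ0 (pd k G.φ0 x) x := fun k x => hp_of (h1.differentiable (by simp) x) k
  have df : ∀ k x, HP k f (pd k f x) x := fun k x => hp_of (hf.1.differentiable (by simp) x) k
  have cφ : ∀ k, Continuous (pd k G.φ0) := fun k => (gs_smooth_pd hs k).continuous
  have cφ2 : ∀ k, Continuous (pd k (pd k G.φ0)) := fun k =>
    (gs_smooth_pd (gs_smooth_pd hs k) k).continuous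
  have i1 : ∀ k, Integrable fun x => pd k (fun x => G.φ0 x * f x * f x) x * pd k G.φ0 x :=
    fun k => (((hc2.1.continuous_fderiv (by simp)).clm_apply continuous_const).mul
      (cφ k)).integrable_of_hasCompactSupport ((hc2.2.fderiv_apply ℝ (ek k)).mul_right)
  have i2 : ∀ k, Integrable fun x => G.φ0 x * f x * f x * pd k (pd k G.φ0) x :=
    fun k => (hc2.1.continuous.mul (cφ2 k)).integrable_of_hasCompactSupport hc2.2.mul_right
  have e1 : ∀ x, G.φ0 x ^ 2 * gsq f x = gsq (fun x => G.φ0 x * f x) x -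
      ∑ k, pd k (fun x => G.φ0 x * f x * f x) x * pd k G.φ0 x := by
    intro x
    unfold gsq
    rw [Finset.mul_sum, ← Finset.sum_sub_distrib]
    refine Finset.sum_congr rfl fun k _ => ?_
    rw [(((dφ k x).mul (df k x)).mul (df k x)).2, ((dφ k x).mul (df k x)).2]
    ring
  have e2 : ∑ k, ∫ x, pd k (fun x => G.φ0 x * f x * f x) x * pd k G.φ0 x =
      -(2 * ∫ x, G.Vref x * (G.φ0 x * f x) ^ 2) := by
    have : ∀ k, ∫ x, pd k (fun x => G.φ0 x * f x * f x) x * pd k G.φ0 x =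
        -∫ x, G.φ0 x * f x * f x * pd k (pd k G.φ0) x := fun k => by
      rw [integral_mul_pd hc2 ((gs_smooth_pd hs k).of_le (by simp)) k, neg_neg]
    simp only [this]
    rw [Finset.sum_neg_distrib, ← integral_finsetSum _ fun k _ => i2 k, ← integral_const_mul]
    congr 1
    refine integral_congr_ae (Filter.Eventually.of_forall fun x => ?_)
    beta_reduce
    rw [← Finset.mul_sum, show ∑ k, pd k (pd k G.φ0) x = lap G.φ0 x from rfl, hl]
    ring
  simp only [e1]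
  rw [integral_sub hc.integrable_gsq (integrable_finsetSum _ fun k _ => i1 k),
    integral_finsetSum _ fun k _ => i1 k, e2]
  unfold qV
  ring

/-- The reference energy. -/
noncomputable def Geo.E1 (G : Geo) (R : ℕ) : ℝ :=
  -(G.ρ * (160 * R * cL - 200 * Real.pi)) - G.κ + G.Ω / 2

theorem gs_Om_sq (G : Geo) : G.Ω ^ 2 = 4 * Real.pi * G.ρ := by
  unfold Geo.Ω Geo.ρ
  rw [mul_pow, mul_pow, Real.sq_sqrt Real.pi_pos.le]
  push_cast
  ring

/-- The slab with the correction is close to the reference potential. -/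
theorem near_slab : Ev fun G _ => ∀ R : ℕ, G.n ^ 300 ≤ R →
    G.Near (fun x => -(G.ρ * slab R x) + G.F x) (G.E1 R)
      ((G.n : ℝ) ^ 300 / R + (G.n : ℝ) ^ 300 / 2 ^ G.n) := by
  obtain ⟨C1, hC1, hle⟩ := slab_le
  obtain ⟨C2, hC2, hge⟩ := slab_ge
  refine ((Ev.const 18).and ((Ev.const C1).and ((Ev.const C2).and (v_db.and F_facts)))).mono
    fun G _ _ ⟨hn, n1', n2', ⟨_, hv⟩, hF, _⟩ R hR => ?_
  obtain ⟨o0, o1⟩ := rg_Om G
  have n1 : (1 : ℝ) ≤ G.n := by linarith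
  have hR' : (G.n : ℝ) ^ 300 ≤ R := by exact_mod_cast hR
  have h300 : (1 : ℝ) ≤ (G.n : ℝ) ^ 300 := one_le_pow₀ n1
  have R1 : (1 : ℝ) ≤ R := h300.trans hR'
  have hl : (2 : ℝ) ≤ G.l := by
    rw [rg_l]; exact le_trans (by linarith) (le_self_pow₀ n1 (by norm_num))
  have h105 : (G.n : ℝ) ^ 105 ≤ (G.n : ℝ) ^ 110 := pow_le_pow_right₀ n1 (by norm_num)
  have h110 : (2 : ℝ) ≤ (G.n : ℝ) ^ 110 := le_trans (by linarith) (le_self_pow₀ n1 (by norm_num))
  have ρ0 : (0 : ℝ) ≤ G.ρ := Nat.cast_nonneg _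
  have hpi := Real.pi_pos
  set cut : Pt → ℝ := fun x =>
    bmp (2 * G.l + 1) (x 0) * bmp (2 * G.l + 1) (x 1) * bmp 8 (x 2) with hcut
  set S : Pt → ℝ := fun x => G.ρ * (160 * R * cL - 200 * Real.pi - slab R x -
    2 * Real.pi * tau (x 2) ^ 2) with hS
  have dec : ∀ x, -(G.ρ * slab R x) + G.F x = G.E1 R + G.Vref x + (S x +
      ((G.κ - G.v x) * (1 - rgPi G x * cut x) - G.Ω * (1 - bmp 8 (x 2)) / 2)) := by
    intro x
    unfold Geo.F Geo.E1 Geo.Vref
    rw [rg_F0, gs_Om_sq]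
    simp only [hcut, hS]
    ring
  have hS1 : ∀ x, -((G.n : ℝ) ^ 300 / R) ≤ S x := by
    intro x
    have a1 := hle R x R1
    have a2 : tau (x 2) ^ 2 ≤ min |x 2| 10 ^ 2 := by
      rw [← sq_abs]
      exact pow_le_pow_left₀ (abs_nonneg _) ((abs_tau_le _).trans
        (min_le_min le_rfl (by norm_num))) 2
    have a3 : -(C1 / R) ≤ 160 * R * cL - 200 * Real.pi - slab R x -
        2 * Real.pi * tau (x 2) ^ 2 := by nlinarith
    refine le_trans ?_ (mul_le_mul_of_nonneg_left a3 ρ0)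
    rw [mul_neg, neg_le_neg_iff, ← mul_div_assoc, rg_rho]
    refine div_le_div_of_nonneg_right ?_ (by linarith)
    calc (G.n : ℝ) ^ 220 * C1 ≤ (G.n : ℝ) ^ 220 * G.n := by gcongr
      _ = (G.n : ℝ) ^ 221 := by ring
      _ ≤ _ := pow_le_pow_right₀ n1 (by norm_num)
  have hc0 : ∀ x, 0 ≤ cut x := fun x =>
    mul_nonneg (mul_nonneg (bmp_nonneg _ _) (bmp_nonneg _ _)) (bmp_nonneg _ _)
  have hc1 : ∀ x, cut x ≤ bmp 8 (x 2) := fun x => rg_three (bmp_nonneg _ _) (bmp_nonneg _ _)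
    (bmp_nonneg _ _) (bmp_le_one _ _) (bmp_le_one _ _) (bmp_le_one _ _) (Or.inr (Or.inr le_rfl))
  have hT : ∀ x, 2 * (G.n : ℝ) ^ 110 * (1 - rgPi G x * cut x) ≤
      (G.κ - G.v x) * (1 - rgPi G x * cut x) - G.Ω * (1 - bmp 8 (x 2)) / 2 := by
    intro x
    have a1 : rgPi G x * cut x ≤ bmp 8 (x 2) :=
      (mul_le_of_le_one_left (hc0 x) (rgPi_le_one G x)).trans (hc1 x)
    have a2 := bmp_le_one 8 (x 2)
    have a3 : 4 * (G.n : ℝ) ^ 110 ≤ G.κ - G.v x := by
      rw [rg_kap]; linarith [(abs_le.1 (hv x)).2]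
    have a4 := mul_le_mul_of_nonneg_right a3 (show 0 ≤ 1 - rgPi G x * cut x by linarith)
    have a5 := mul_le_mul o1 (show 1 - bmp 8 (x 2) ≤ 1 - rgPi G x * cut x by linarith)
      (by linarith) (by positivity)
    linarith
  have hk : (G.n : ℝ) ≤ G.k * (1 / 2) := by
    rw [rg_k]
    have : (G.n : ℝ) ^ 2 ≤ (G.n : ℝ) ^ 50 := pow_le_pow_right₀ n1 (by norm_num)
    nlinarith
  have e0 : (0 : ℝ) ≤ (G.n : ℝ) ^ 300 / 2 ^ G.n := by positivity
  refine ⟨((measurable_slab R).const_mul _).neg.add hF.1.continuous.measurable,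
    ⟨G.ρ * (160 * R * cL + C1 / R) + (G.n : ℝ) ^ 600, fun x => ?_⟩, fun x => ?_, fun x hx => ?_,
    fun x hx => ?_⟩
  · refine (abs_add_le _ _).trans (add_le_add ?_ ?_)
    · rw [abs_neg, abs_of_nonneg (mul_nonneg ρ0 (slab_nonneg _ _))]
      refine mul_le_mul_of_nonneg_left ((hle R x R1).trans ?_) ρ0
      have : 0 ≤ 2 * Real.pi * min |x 2| 10 ^ 2 := by positivity
      linarith
    · simpa using hF.2 0 (by norm_num) x
  · have a1 : rgPi G x * cut x ≤ 1 :=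
      mul_le_one₀ (rgPi_le_one G x) (hc0 x) ((hc1 x).trans (bmp_le_one _ _))
    have a2 : 0 ≤ 2 * (G.n : ℝ) ^ 110 * (1 - rgPi G x * cut x) :=
      mul_nonneg (by positivity) (by linarith)
    rw [dec]
    linarith [hS1 x, hT x]
  · have hPi : rgPi G x ≤ 1 / 2 := by
      refine rgPi_le G x ?_
      simp only [box, mem_ofPred_eq, not_and_or, not_le] at hx
      rcases hx with h | h | h
      · refine Or.inl (pp_le_half _ ?_)
        rw [abs_div, Nat.abs_cast, le_div_iff₀ (by linarith)]; linarith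
      · refine Or.inr (Or.inl (pp_le_half _ ?_))
        rw [abs_div, Nat.abs_cast, le_div_iff₀ (by linarith)]; linarith
      · refine Or.inr (Or.inr (pp_le_half _ ?_))
        rw [abs_div, abs_of_pos (by norm_num : (0 : ℝ) < 4), le_div_iff₀ (by norm_num)]; linarith
    have a1 : rgPi G x * cut x ≤ 1 / 2 :=
      (mul_le_of_le_one_right (rgPi_pos G x).le ((hc1 x).trans (bmp_le_one _ _))).trans hPi
    have a2 : 2 * 2 * (1 / 2) ≤ 2 * (G.n : ℝ) ^ 110 * (1 - rgPi G x * cut x) :=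
      mul_le_mul (by linarith) (by linarith) (by norm_num) (by positivity)
    have a3 : (G.n : ℝ) ^ 300 / R ≤ 1 := div_le_one_of_le₀ hR' (by linarith)
    rw [dec]
    linarith [hS1 x, hT x]
  · obtain ⟨x0, x1, x2⟩ := hx
    have b2 : bmp 8 (x 2) = 1 := bmp_one (by linarith)
    have hcx : cut x = 1 := by
      simp only [hcut]
      rw [b2, bmp_one (by linarith), bmp_one (by linarith)]
      norm_num
    have hS2 : S x ≤ (G.n : ℝ) ^ 300 / R := by
      have l2 : 2 * (G.l : ℝ) ≤ R := by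
        refine le_trans ?_ hR'
        rw [rg_l]
        calc 2 * (G.n : ℝ) ^ 26 ≤ G.n * (G.n : ℝ) ^ 26 := by gcongr; linarith
          _ = (G.n : ℝ) ^ 27 := by ring
          _ ≤ _ := pow_le_pow_right₀ n1 (by norm_num)
      have a1 := hge R G.l x (by linarith) l2 ⟨by linarith, by linarith, by linarith⟩
      simp only [hS]
      rw [tau_eq (by linarith)]
      refine (mul_le_mul_of_nonneg_left (show _ ≤ C2 * (G.l : ℝ) ^ 2 / R by linarith) ρ0).trans ?_
      rw [← mul_div_assoc, rg_rho, rg_l]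
      refine div_le_div_of_nonneg_right ?_ (by linarith)
      calc (G.n : ℝ) ^ 220 * (C2 * ((G.n : ℝ) ^ 26) ^ 2)
          ≤ (G.n : ℝ) ^ 220 * (G.n * ((G.n : ℝ) ^ 26) ^ 2) := by gcongr
        _ = (G.n : ℝ) ^ 273 := by ring
        _ ≤ _ := pow_le_pow_right₀ n1 (by norm_num)
    have p0 : 1 - 1 / 2 ^ G.n ≤ pp ℝ G.k (x 0 / G.l) := pp_in (by norm_num) (by norm_num) hk (by
      rw [abs_div, Nat.abs_cast, div_le_iff₀ (by linarith)]; linarith)
    have p1 : 1 - 1 / 2 ^ G.n ≤ pp ℝ G.k (x 1 / G.l) := pp_in (by norm_num) (by norm_num) hk (by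
      rw [abs_div, Nat.abs_cast, div_le_iff₀ (by linarith)]; linarith)
    have p2 : 1 - 1 / 2 ^ G.n ≤ pp ℝ G.k (x 2 / 4) := pp_in (by norm_num) (by norm_num) hk (by
      rw [abs_div, abs_of_pos (by norm_num : (0 : ℝ) < 4), div_le_iff₀ (by norm_num)]; linarith)
    have hPi : 1 - rgPi G x ≤ 3 * (1 / 2 ^ G.n) := by
      unfold rgPi
      have q0 := pp_le_one G.k (x 0 / G.l)
      have q1 := pp_le_one G.k (x 1 / G.l)
      have q2 := pp_le_one G.k (x 2 / 4)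
      have r0 := (pp_pos G.k (x 0 / G.l)).le
      have r1 := (pp_pos G.k (x 1 / G.l)).le
      generalize pp ℝ G.k (x 0 / G.l) = a at *
      generalize pp ℝ G.k (x 1 / G.l) = b at *
      generalize pp ℝ G.k (x 2 / 4) = c at *
      have s1 := mul_nonneg (sub_nonneg.2 q0) (sub_nonneg.2 q1)
      have s2 := mul_nonneg (sub_nonneg.2 (mul_le_one₀ q0 r1 q1)) (sub_nonneg.2 q2)
      linarith only [s1, s2, p0, p1, p2]
    have a3 : G.κ - G.v x ≤ 6 * (G.n : ℝ) ^ 110 := by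
      rw [rg_kap]; linarith [(abs_le.1 (hv x)).1]
    have a4 := mul_le_mul a3 hPi (sub_nonneg.2 (rgPi_le_one G x)) (by positivity)
    have a5 : 6 * (G.n : ℝ) ^ 110 * (3 * (1 / 2 ^ G.n)) ≤ (G.n : ℝ) ^ 300 / 2 ^ G.n := by
      rw [div_eq_mul_one_div ((G.n : ℝ) ^ 300), ← mul_assoc]
      refine mul_le_mul_of_nonneg_right ?_ (by positivity)
      calc 6 * (G.n : ℝ) ^ 110 * 3 = 18 * (G.n : ℝ) ^ 110 := by ring
        _ ≤ G.n * (G.n : ℝ) ^ 110 := by gcongr
        _ = (G.n : ℝ) ^ 111 := by ring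
        _ ≤ _ := pow_le_pow_right₀ n1 (by norm_num)
    rw [dec, hcx, b2, mul_one, sub_self, mul_zero, zero_div, sub_zero]
    linarith

/-- Dirichlet energy carried by a feature. -/
noncomputable def Geo.dir (G : Geo) (f : Feat) (g : Pt → ℝ) : ℝ :=
  ∫ x in box G.l G.l 4, fv G.k f x * Real.exp (-(G.Ω * x 2 ^ 2)) * gsq g x

/-- Mean square deviation from `a` on a feature. -/
noncomputable def Geo.dev (G : Geo) (f : Feat) (g : Pt → ℝ) (a : ℝ) : ℝ :=
  ∫ x in box G.l G.l 4, fv G.k f x * Real.exp (-(G.Ω * x 2 ^ 2)) * (g x - a) ^ 2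

theorem gs_uni (k : ℕ) (c : ℝ) {h : ℝ} (hh : 0 < h) :
    MonotoneOn (fun t => pp ℝ k ((t - c) / h)) (Iic c) ∧
      AntitoneOn (fun t => pp ℝ k ((t - c) / h)) (Ici c) := by
  constructor
  · intro s hs t ht hst
    refine pp_anti k ?_
    rw [abs_div, abs_div, abs_of_nonpos (sub_nonpos.2 (mem_Iic.1 hs)),
      abs_of_nonpos (sub_nonpos.2 (mem_Iic.1 ht))]
    exact div_le_div_of_nonneg_right (by linarith) (abs_nonneg _)
  · intro s hs t ht hst
    refine pp_anti k ?_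
    rw [abs_div, abs_div, abs_of_nonneg (sub_nonneg.2 (mem_Ici.1 hs)),
      abs_of_nonneg (sub_nonneg.2 (mem_Ici.1 ht))]
    exact div_le_div_of_nonneg_right (by linarith) (abs_nonneg _)

theorem poincare_feat : Ev fun G _ => ∀ f ∈ G.feats, ∀ g : Pt → ℝ, ContDiff ℝ 1 g →
    ∃ a, G.dev f g a ≤ (G.n : ℝ) ^ 53 * G.dir f g := by
  refine ((Ev.const 4).and feat_shape).mono fun G _ _ ⟨hn, _, _, hf⟩ f hf' g hg => ?_
  obtain ⟨f1, -, f3, -, f5, -, f7⟩ := hf f hf'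
  obtain ⟨o0, -⟩ := rg_Om G
  have n1 : (1 : ℝ) ≤ G.n := by linarith
  have hl : (4 : ℝ) ≤ G.l := by
    rw [rg_l]; exact le_trans hn (le_self_pow₀ n1 (by norm_num))
  have w1 : (0 : ℝ) < f.1 := by exact_mod_cast f1
  have w3 : (1 : ℝ) ≤ f.2.2.1 := by exact_mod_cast f3
  have w5 : (1 : ℝ) ≤ f.2.2.2.2 := by exact_mod_cast f5
  have hc := f7 (show (![(f.2.1 : ℝ), (f.2.2.2.1 : ℝ), 0] : Pt) ∈ rect f 1 from
    ⟨by simp; linarith, by simp; linarith⟩)
  simp only [mem_ofPred_eq, Matrix.cons_val_zero, Matrix.cons_val_one] at hc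
  obtain ⟨u0, u1⟩ := gs_uni G.k f.2.1 (show (0 : ℝ) < f.2.2.1 by linarith)
  obtain ⟨v0, v1⟩ := gs_uni G.k f.2.2.2.1 (show (0 : ℝ) < f.2.2.2.2 by linarith)
  have cp := (contDiff_pp G.k).continuous
  obtain ⟨a, ha⟩ := poincare3 (w := ![fun t => (f.1 : ℝ) * pp ℝ G.k ((t - f.2.1) / f.2.2.1),
      fun t => pp ℝ G.k ((t - f.2.2.2.1) / f.2.2.2.2), fun t => Real.exp (-(G.Ω * t ^ 2))])
    (r := ![G.l, G.l, 4]) (c := ![f.2.1, f.2.2.2.1, 0]) (L := G.l)
    (fun k => by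
      fin_cases k
      · exact ⟨show (0 : ℝ) < G.l by linarith, le_rfl⟩
      · exact ⟨show (0 : ℝ) < G.l by linarith, le_rfl⟩
      · exact ⟨show (0 : ℝ) < 4 by norm_num, hl⟩)
    (fun k => by fin_cases k <;> simp <;> linarith [hc.1, hc.2])
    (fun k => by fin_cases k <;> simp <;> fun_prop)
    (fun k t => by
      fin_cases k
      · exact mul_pos w1 (pp_pos _ _)
      · exact pp_pos _ _
      · exact Real.exp_pos _)
    (fun k => by
      fin_cases k
      · exact fun s hs t ht hst => mul_le_mul_of_nonneg_left (u0 hs ht hst) w1.le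
      · exact v0
      · intro s hs t ht hst
        have hs' : s ≤ 0 := hs
        have ht' : t ≤ 0 := ht
        exact Real.exp_le_exp.2 (neg_le_neg (mul_le_mul_of_nonneg_left (by nlinarith) o0)))
    (fun k => by
      fin_cases k
      · exact fun s hs t ht hst => mul_le_mul_of_nonneg_left (u1 hs ht hst) w1.le
      · exact v1
      · intro s hs t ht hst
        have hs' : 0 ≤ s := hs
        exact Real.exp_le_exp.2 (neg_le_neg (mul_le_mul_of_nonneg_left (by nlinarith) o0))) hg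
  refine ⟨a, le_trans ha (mul_le_mul_of_nonneg_right ?_ (integral_nonneg fun x => ?_))⟩
  · rw [rg_l]
    calc 4 * ((G.n : ℝ) ^ 26) ^ 2 ≤ G.n * ((G.n : ℝ) ^ 26) ^ 2 := by gcongr
      _ = _ := by ring
  · refine mul_nonneg (mul_nonneg (mul_nonneg (mul_nonneg w1.le (pp_pos _ _).le) (pp_pos _ _).le)
      (Real.exp_pos _).le) (Finset.sum_nonneg fun _ _ => sq_nonneg _)

end Vale.Agent.P370
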