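import Vale.Agent.P370.ManyLowA

/-!
Many-body lower bound: antisymmetry of the coefficients and the repulsion terms.
-/

namespace Vale.Agent.P370

open MeasureTheory Function

namespace ML

variable {N M : ℕ} {φ : Arm M → Pt → ℝ} {r : ℝ} {Ψ : (Fin N → Pt) → ℝ}

theorem anti_coef {Ψ : (Fin N → Fin 2) → (Fin N → Pt) → ℝ} (hΨ : RCore Ψ) :
    Anti fun s => coef (fun _ => mu r) (fun _ => φ) (Ψ s) := by
  intro π s α
  unfold coef
  beta_reduce
  rw [← (measurePreserving_piCongrLeft (fun _ => mu r) π).symm.integral_comp', ← integral_const_mul]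
  refine integral_congr_ae (Filter.Eventually.of_forall fun y => ?_)
  change (∏ i, φ (α (π i)) (y (π i))) * Ψ (s ∘ π) (y ∘ π) = _
  rw [hΨ.2, Equiv.prod_comp π fun i => φ (α i) (y i)]
  ring

theorem int_ker (r : ℝ) :
    Integrable (fun p : Pt × Pt => ker (p.1 - p.2)) ((mu r).prod (mu r)) := by
  have hm : Measurable fun p : Pt × Pt => ker (p.1 - p.2) :=
    measurable_ker.comp (measurable_fst.sub measurable_snd)
  refine (integrable_prod_iff hm.aestronglyMeasurable).2 ⟨Filter.Eventually.of_forall fun x =>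
    integrableOn_ker measure_closedBall_lt_top.ne x, Integrable.of_bound
      hm.aestronglyMeasurable.norm.integral_prod_right'
      (7 * 1 ^ 2 + volume.real (Metric.closedBall (0 : Pt) r) / 1)
      (Filter.Eventually.of_forall fun x => ?_)⟩
  simp only [Real.norm_of_nonneg (ker_nonneg _)]
  rw [Real.norm_of_nonneg (integral_nonneg fun y => ker_nonneg _)]
  exact coulomb_le measurableSet_closedBall measure_closedBall_lt_top.ne x one_pos

theorem proj_sq_eq (hφ : Sharp φ) (c : (Fin N → Arm M) → ℝ) (x : Fin N → Pt) :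
    (∑ α : Fin N → Arm M, c α * ∏ i, φ (α i) (x i)) ^ 2 =
      ∑ α : Fin N → Arm M, c α ^ 2 * ∏ i, φ (α i) (x i) ^ 2 := by
  rw [sq, Finset.sum_mul_sum]
  refine Finset.sum_congr rfl fun α _ => ?_
  rw [Finset.sum_eq_single α (fun β _ hβ => ?_) (by simp), Finset.prod_pow]
  · ring
  · obtain ⟨i, hi⟩ := Function.ne_iff.1 hβ
    rw [mul_mul_mul_comm, ← Finset.prod_mul_distrib,
      Finset.prod_eq_zero (Finset.mem_univ i) (hφ.disj _ _ _ hi.symm), mul_zero]

theorem quad {t A B p q : ℝ} (ht : 0 ≤ t) (hA : 0 ≤ A) (hB : 0 ≤ B) (h : t ^ 2 ≤ A * B) :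
    t * p ^ 2 - A * p ^ 2 - B * q ^ 2 ≤ t * (p + q) ^ 2 := by
  rcases hA.eq_or_lt with rfl | hA
  · have : t = 0 := by nlinarith
    subst this
    nlinarith [sq_nonneg q]
  · refine le_of_mul_le_mul_left ?_ hA
    nlinarith [sq_nonneg (A * p + t * q), mul_nonneg (sub_nonneg.2 h) (sq_nonneg q),
      mul_nonneg (mul_nonneg hA.le ht) (sq_nonneg q)]

theorem bm_k {Λ : ℝ} (hΛ : 0 ≤ Λ) : BM fun p : Pt × Pt => min (ker (p.1 - p.2)) Λ :=
  ⟨(measurable_ker.comp (measurable_fst.sub measurable_snd)).min measurable_const, Λ, fun p => by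
    rw [abs_of_nonneg (le_min (ker_nonneg _) hΛ)]
    exact min_le_right _ _⟩

theorem one_mu (hφ : Sharp φ) (hr : ∀ a x, r < ‖x‖ → φ a x = 0) (a : Arm M) :
    ∫ y, φ a y ^ 2 ∂mu r = 1 := by
  rw [int_mu fun y hy => by rw [hr a y hy, sq, mul_zero], hφ.one]

theorem pair_diag (hφ : Sharp φ) (hr : ∀ a x, r < ‖x‖ → φ a x = 0) {Λ : ℝ} (hΛ : 0 ≤ Λ)
    {i j : Fin N} (hij : i ≠ j) (α : Fin N → Arm M) (t : ℝ) :
    ∫ x, min (ker (x i - x j)) Λ * (t * ∏ l, φ (α l) (x l) ^ 2) ∂(Measure.pi fun _ => mu r) =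
      t * ∫ p : Pt × Pt, min (ker (p.1 - p.2)) Λ * (φ (α i) p.1 ^ 2 * φ (α j) p.2 ^ 2) := by
  have h1 : BM fun p : Pt × Pt => φ (α i) p.1 := bm_comp (hφ.bm (α i)) measurable_fst
  have h2 : BM fun p : Pt × Pt => φ (α j) p.2 := bm_comp (hφ.bm (α j)) measurable_snd
  have h3 := integral_pair_prod (fun _ => mu r) hij
    (bm_int (bm_mul (bm_k hΛ) (bm_mul (bm_sq h1) (bm_sq h2))) _)
    (g := fun l y => φ (α l) y ^ 2) fun l => bm_sq (hφ.bm _)
  simp only [one_mu hφ hr, Finset.prod_const_one, mul_one] at h3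
  rw [← int_prod (r := r) fun p hp => by rcases hp with h | h <;> simp [hr _ _ h], ← h3,
    ← integral_const_mul]
  refine integral_congr_ae (Filter.Eventually.of_forall fun x => ?_)
  beta_reduce
  rw [← Finset.mul_prod_erase _ _ (Finset.mem_univ i), ← Finset.mul_prod_erase _ _
    (Finset.mem_erase.2 ⟨hij.symm, Finset.mem_univ j⟩)]
  ring

theorem pert {Y : Type} [MeasurableSpace Y] {μ : Measure Y} [IsFiniteMeasure μ]
    {k k' f p : Y → ℝ} {g Λ A B : ℝ} (hk : Integrable k μ) (hk' : BM k') (hf : BM f) (hp : BM p)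
    (h0 : ∀ y, 0 ≤ k' y) (h1 : ∀ y, k' y ≤ k y) (h2 : ∀ y, k' y ≤ Λ) (hg : 0 ≤ g) (hA : 0 ≤ A)
    (hB : 0 ≤ B) (hAB : (g * Λ) ^ 2 ≤ A * B) :
    g * ∫ y, k' y * p y ^ 2 ∂μ - A * ∫ y, p y ^ 2 ∂μ - B * ∫ y, (f y - p y) ^ 2 ∂μ ≤
      g * ∫ y, k y * f y ^ 2 ∂μ := by
  have i1 := (bm_int (bm_mul hk' (bm_sq hp)) μ).const_mul g
  have i2 := (bm_int (bm_sq hp) μ).const_mul A
  have i3 := (bm_int (bm_sq (bm_sub hf hp)) μ).const_mul B
  have key := integral_mono ((i1.sub i2).sub i3) ((int_mul hk (bm_sq hf)).const_mul g) fun y => by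
    have h3 := quad (p := p y) (q := f y - p y) (mul_nonneg hg (h0 y)) hA hB
      ((pow_le_pow_left₀ (mul_nonneg hg (h0 y)) (mul_le_mul_of_nonneg_left (h2 y) hg) 2).trans hAB)
    rw [add_sub_cancel] at h3
    have h4 := mul_le_mul_of_nonneg_left (mul_le_mul_of_nonneg_right (h1 y) (sq_nonneg (f y))) hg
    simp only [Pi.sub_apply]
    linarith
  rwa [integral_sub' (i1.sub i2) i3, integral_sub' i1 i2, integral_const_mul, integral_const_mul,
    integral_const_mul, integral_const_mul] at key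

/-- the repulsion of one pair -/
theorem pair_low (hφ : Sharp φ) (hr : ∀ a x, r < ‖x‖ → φ a x = 0) {g Λ ε₂ A B : ℝ}
    {V : Arm M → Arm M → ℝ} (h2 : TBlow φ Λ V ε₂) (hg : 0 ≤ g) (hΛ : 0 ≤ Λ) (hA : 0 ≤ A)
    (hB : 0 ≤ B) (hAB : (g * Λ) ^ 2 ≤ A * B) (hΨ : BM Ψ) {i j : Fin N} (hij : i ≠ j) :
    ∑ α : Fin N → Arm M, g * V (α i) (α j) * coef (fun _ => mu r) (fun _ => φ) Ψ α ^ 2 -
      (g * ε₂ + A) * ∑ α, coef (fun _ => mu r) (fun _ => φ) Ψ α ^ 2 -
      B * ((∫ x, Ψ x ^ 2 ∂Measure.pi fun _ => mu r) -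
        ∑ α, coef (fun _ => mu r) (fun _ => φ) Ψ α ^ 2) ≤
    g * ∫ x, ker (x i - x j) * Ψ x ^ 2 ∂Measure.pi fun _ => mu r := by
  rw [← proj_sq (on_mu hφ hr) hΨ]
  generalize coef (fun _ => mu r) (fun _ => φ) Ψ = c
  have hk' : BM fun x : Fin N → Pt => min (ker (x i - x j)) Λ :=
    bm_comp (u := fun x : Fin N → Pt => (x i, x j)) (bm_k hΛ)
      ((measurable_pi_apply i).prodMk (measurable_pi_apply j))
  have hΦ0 : ∀ a l, BM fun x : Fin N → Pt => φ a (x l) := fun a l =>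
    bm_comp (hφ.bm a) (measurable_pi_apply l)
  have hΦ2 : ∀ α : Fin N → Arm M, BM fun x : Fin N → Pt => c α ^ 2 * ∏ l, φ (α l) (x l) ^ 2 :=
    fun α => bm_mul (bm_const _) (bm_prod _ fun l => bm_sq (hΦ0 _ l))
  have hP : BM fun x : Fin N → Pt => ∑ α : Fin N → Arm M, c α * ∏ l, φ (α l) (x l) :=
    bm_sum _ fun α => bm_mul (bm_const _) (bm_prod _ fun l => hΦ0 _ l)
  have hk : Integrable (fun x : Fin N → Pt => ker (x i - x j)) (Measure.pi fun _ => mu r) :=
    integrable_pair (fun _ => mu r) hij (int_ker r)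
  refine le_trans (sub_le_sub_right ?_ _) (pert hk hk' hΨ hP
    (fun x => le_min (ker_nonneg _) hΛ) (fun x => min_le_left _ _) (fun x => min_le_right _ _)
    hg hA hB hAB)
  simp only [proj_sq_eq hφ, Finset.mul_sum]
  rw [integral_finsetSum _ fun α _ => bm_int (bm_mul hk' (hΦ2 α)) _,
    integral_finsetSum _ fun α _ => bm_int (hΦ2 α) _, Finset.mul_sum,
    Finset.mul_sum, ← Finset.sum_sub_distrib, ← Finset.sum_sub_distrib]
  refine Finset.sum_le_sum fun α _ => ?_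
  rw [pair_diag hφ hr hΛ hij, integral_const_mul,
    integral_fintype_prod_eq_prod (fun l y => φ (α l) y ^ 2) (μ := fun _ => mu r)]
  simp only [one_mu hφ hr, Finset.prod_const_one]
  have h3 := mul_le_mul_of_nonneg_left (h2 (α i) (α j)) (mul_nonneg hg (sq_nonneg (c α)))
  linarith

theorem sum_pairs_le {K : ℝ} (hK : 0 ≤ K) :
    ∑ i : Fin N, ∑ j : Fin N, (if i < j then K else 0) ≤ N ^ 2 * K := by
  calc _ ≤ ∑ _i : Fin N, ∑ _j : Fin N, K :=
        Finset.sum_le_sum fun i _ => Finset.sum_le_sum fun j _ => by split_ifs <;> simp [hK]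
    _ = _ := by simp [sq, mul_assoc]

end ML

end Vale.Agent.P370
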