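import Vale.Agent.P370.ManyUpB

/-!
Many-body trial states.
-/

namespace Vale.Agent.P370

open MeasureTheory Function

/-- Norms of combinations of the smooth orbitals. -/
theorem Soft.norm_eq {M : ℕ} {φ η : Arm M → Pt → ℝ} {δ : ℝ} (hφ : Sharp φ) (hη : Soft φ η δ)
    (c : Arm M → ℝ) :
    ∫ x, lc η c x ^ 2 = (∑ a, c a ^ 2) + ∫ x, (lc η c x - lc φ c x) ^ 2 := hη.mu_norm_eq hφ c

section

variable {N M : ℕ} {φ η : Arm M → Pt → ℝ} {δ : ℝ}

/-- Gram matrix. -/
noncomputable def muG (η : Arm M → Pt → ℝ) (a b : Arm M) : ℝ := ∫ x, η a x * η b x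

/-- One-body matrix. -/
noncomputable def muH (V : Pt → ℝ) (η : Arm M → Pt → ℝ) (a b : Arm M) : ℝ :=
  1 / 2 * (∑ k, ∫ x, pd k (η a) x * pd k (η b) x) + ∫ x, V x * (η a x * η b x)

/-- Two-body matrix. -/
noncomputable def muK (η : Arm M → Pt → ℝ) (p q : Arm M × Arm M) : ℝ :=
  ∫ z : Pt × Pt, ker (z.1 - z.2) * ((η p.1 z.1 * η q.1 z.1) * (η p.2 z.2 * η q.2 z.2))

/-- The trial function of a coefficient array. -/
def muPsi (η : Arm M → Pt → ℝ) (c : (Fin N → Arm M) → ℝ) (x : Fin N → Pt) : ℝ :=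
  ∑ α, c α * ∏ i, η (α i) (x i)

lemma mu_qf_G (h : ∀ a, C1c (η a)) (c : Arm M → ℝ) : qf (muG η) c = ∫ x, lc η c x ^ 2 :=
  (mu_int_sq' η c fun a b => ((h a).mu_cc.mul (h b).mu_cc).integrable).symm

lemma mu_G_symm (a b : Arm M) : muG η a b = muG η b a := by
  simp only [muG, mul_comm]

lemma mu_H_symm (V : Pt → ℝ) (a b : Arm M) : muH V η a b = muH V η b a := by
  simp only [muH, mul_comm]

lemma mu_K_symm (p q : Arm M × Arm M) : muK η p q = muK η q p := by
  simp only [muK, mul_comm]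

lemma mu_qf_H (h : ∀ a, C1c (η a)) {V : Pt → ℝ}
    (hVi : ∀ f, Continuous f → HasCompactSupport f → Integrable fun x => V x * f x)
    (c : Arm M → ℝ) : qf (muH V η) c = qV V (lc η c) := by
  have h1 : ∫ x, gsq (lc η c) x = ∑ k, qf (fun a b => ∫ x, pd k (η a) x * pd k (η b) x) c := by
    unfold gsq
    rw [integral_finsetSum _ fun k _ => ((mu_lc_c1c h c).mu_cc_pd k).sq.integrable]
    refine Finset.sum_congr rfl fun k _ => ?_
    simp only [mu_pd_lc h]
    exact mu_int_sq' (fun a => pd k (η a)) c fun a b =>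
      (((h a).mu_cc_pd k).mul ((h b).mu_cc_pd k)).integrable
  have h2 : ∫ x, V x * lc η c x ^ 2 = qf (fun a b => ∫ x, V x * (η a x * η b x)) c :=
    mu_int_sq η V c fun a b => hVi _ ((h a).mu_cc.mul (h b).mu_cc).1 ((h a).mu_cc.mul (h b).mu_cc).2
  rw [qV, h1, h2, ← mu_qf_sum, ← mu_qf_smul, ← mu_qf_add]
  rfl

lemma mu_qf_K (h : ∀ a, C1c (η a)) (d : Arm M × Arm M → ℝ) :
    qf (muK η) d =
      ∫ p : Pt × Pt, ker (p.1 - p.2) * (∑ a, ∑ b, d (a, b) * (η a p.1 * η b p.2)) ^ 2 := by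
  have e : ∀ (p q : Arm M × Arm M) (z : Pt × Pt),
      (η p.1 z.1 * η p.2 z.2) * (η q.1 z.1 * η q.2 z.2) =
        (η p.1 z.1 * η q.1 z.1) * (η p.2 z.2 * η q.2 z.2) := fun p q z => by ring
  have := mu_int_sq (μ := volume) (fun (p : Arm M × Arm M) (z : Pt × Pt) => η p.1 z.1 * η p.2 z.2)
    (fun z => ker (z.1 - z.2)) d fun p q => by
      simp only [e]
      exact mu_ker_integrable ((h p.1).mu_cc.mul (h q.1).mu_cc) ((h p.2).mu_cc.mul (h q.2).mu_cc)
  have e2 : ∀ z : Pt × Pt, ∑ p : Arm M × Arm M, d p * (η p.1 z.1 * η p.2 z.2) =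
      ∑ a, ∑ b, d (a, b) * (η a z.1 * η b z.2) := fun z => Fintype.sum_prod_type _
  simp only [e, e2] at this
  rw [this]
  rfl

lemma mu_psi_norm (h : ∀ a, C1c (η a)) (c : (Fin N → Arm M) → ℝ) :
    ∫ x, muPsi η c x ^ 2 = qf (fun α β => ∏ i, muG η (α i) (β i)) c := by
  have e : ∀ (α β : Fin N → Arm M) (x : Fin N → Pt),
      (∏ i, η (α i) (x i)) * ∏ i, η (β i) (x i) = ∏ i, η (α i) (x i) * η (β i) (x i) :=
    fun α β x => Finset.prod_mul_distrib.symm
  unfold muPsi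
  rw [mu_int_sq' (fun (α : Fin N → Arm M) (x : Fin N → Pt) => ∏ i, η (α i) (x i)) c fun α β => by
    simp only [e]
    exact Integrable.fintype_prod (f := fun i y => η (α i) y * η (β i) y) fun i =>
      ((h _).mu_cc.mul (h _).mu_cc).integrable]
  refine congrArg (fun G => qf G c) ?_
  funext α β
  simp only [e]
  exact integral_fintype_prod_volume_eq_prod fun i y => η (α i) y * η (β i) y

lemma mu_psi_contDiff (h : ∀ a, C1c (η a)) (c : (Fin N → Arm M) → ℝ) :
    ContDiff ℝ 1 (muPsi η c) :=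
  ContDiff.sum fun α _ => contDiff_const.mul (mu_contDiff_prod fun l => (h (α l)).1)

lemma mu_psi_supp (h : ∀ a, C1c (η a)) (c : (Fin N → Arm M) → ℝ) :
    HasCompactSupport (muPsi η c) := by
  obtain ⟨R, hR⟩ := mu_exists_ball fun a => (h a).mu_cc
  refine HasCompactSupport.intro
    (isCompact_univ_pi fun _ : Fin N => isCompact_closedBall (0 : Pt) R) fun x hx => ?_
  rw [Set.mem_univ_pi, not_forall] at hx
  obtain ⟨l, hl⟩ := hx
  refine Finset.sum_eq_zero fun α _ => ?_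
  rw [Finset.prod_eq_zero (Finset.mem_univ l), mul_zero]
  by_contra h0
  exact hl (mem_closedBall_zero_iff.2 (hR _ _ h0))

lemma mu_psi_fderiv (h : ∀ a, C1c (η a)) (c : (Fin N → Arm M) → ℝ) (x : Fin N → Pt) (i : Fin N)
    (k : Fin 3) :
    fderiv ℝ (muPsi η c) x (Pi.single i (Pi.single k 1)) =
      ∑ α, c α * (pd k (η (α i)) (x i) * ∏ l ∈ Finset.univ.erase i, η (α l) (x l)) := by
  have hd : ∀ α : Fin N → Arm M,
      DifferentiableAt ℝ (fun x : Fin N → Pt => ∏ l, η (α l) (x l)) x := fun α =>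
    (mu_contDiff_prod fun l => (h (α l)).1).differentiable one_ne_zero x
  unfold muPsi
  rw [fderiv_fun_sum fun α _ => (hd α).const_mul _, sum_apply]
  refine Finset.sum_congr rfl fun α _ => ?_
  rw [fderiv_const_mul (hd α), ← mu_fderiv_prod (fun l => (h (α l)).1) x i k]
  rfl

lemma mu_psi_kin (h : ∀ a, C1c (η a)) (c : (Fin N → Arm M) → ℝ) (i : Fin N) (k : Fin 3) :
    ∫ x, fderiv ℝ (muPsi η c) x (Pi.single i (Pi.single k 1)) ^ 2 =
      qf (fun α β => (∫ x, pd k (η (α i)) x * pd k (η (β i)) x) *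
        ∏ l ∈ Finset.univ.erase i, muG η (α l) (β l)) c := by
  have e : ∀ (α β : Fin N → Arm M) (x : Fin N → Pt),
      (pd k (η (α i)) (x i) * ∏ l ∈ Finset.univ.erase i, η (α l) (x l)) *
        (pd k (η (β i)) (x i) * ∏ l ∈ Finset.univ.erase i, η (β l) (x l)) =
      (pd k (η (α i)) (x i) * pd k (η (β i)) (x i)) *
        ∏ l ∈ Finset.univ.erase i, η (α l) (x l) * η (β l) (x l) := fun α β x => by
    rw [Finset.prod_mul_distrib]; ring
  simp only [mu_psi_fderiv h]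
  rw [mu_int_sq' (fun (α : Fin N → Arm M) (x : Fin N → Pt) =>
    pd k (η (α i)) (x i) * ∏ l ∈ Finset.univ.erase i, η (α l) (x l)) c fun α β => by
      simp only [e]
      exact mu_one_integrable i (f := fun y => pd k (η (α i)) y * pd k (η (β i)) y)
        (g := fun l y => η (α l) y * η (β l) y)
        (((h _).mu_cc_pd k).mul ((h _).mu_cc_pd k)).integrable fun l =>
        ((h _).mu_cc.mul (h _).mu_cc).integrable]
  refine congrArg (fun G => qf G c) ?_
  funext α β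
  simp only [e]
  exact mu_one_integral i (fun y => pd k (η (α i)) y * pd k (η (β i)) y)
    fun l y => η (α l) y * η (β l) y

lemma mu_psi_pot (h : ∀ a, C1c (η a)) {V : Pt → ℝ}
    (hVi : ∀ f, Continuous f → HasCompactSupport f → Integrable fun x => V x * f x)
    (c : (Fin N → Arm M) → ℝ) (i : Fin N) :
    ∫ x, V (x i) * muPsi η c x ^ 2 =
      qf (fun α β => (∫ x, V x * (η (α i) x * η (β i) x)) *
        ∏ l ∈ Finset.univ.erase i, muG η (α l) (β l)) c := by
  have e : ∀ (α β : Fin N → Arm M) (x : Fin N → Pt),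
      V (x i) * ((∏ l, η (α l) (x l)) * ∏ l, η (β l) (x l)) =
      (V (x i) * (η (α i) (x i) * η (β i) (x i))) *
        ∏ l ∈ Finset.univ.erase i, η (α l) (x l) * η (β l) (x l) := fun α β x => by
    rw [← Finset.prod_mul_distrib, ← Finset.mul_prod_erase Finset.univ _ (Finset.mem_univ i)]
    ring
  unfold muPsi
  rw [mu_int_sq (fun (α : Fin N → Arm M) (x : Fin N → Pt) => ∏ l, η (α l) (x l))
    (fun x => V (x i)) c fun α β => by
      simp only [e]
      exact mu_one_integrable i (f := fun y => V y * (η (α i) y * η (β i) y))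
        (g := fun l y => η (α l) y * η (β l) y)
        (hVi _ ((h _).mu_cc.mul (h _).mu_cc).1 ((h _).mu_cc.mul (h _).mu_cc).2) fun l =>
        ((h _).mu_cc.mul (h _).mu_cc).integrable]
  refine congrArg (fun G => qf G c) ?_
  funext α β
  simp only [e]
  exact mu_one_integral i (fun y => V y * (η (α i) y * η (β i) y))
    fun l y => η (α l) y * η (β l) y

lemma mu_psi_pair (h : ∀ a, C1c (η a)) (c : (Fin N → Arm M) → ℝ) {i j : Fin N} (hij : i ≠ j) :
    ∫ x, ker (x i - x j) * muPsi η c x ^ 2 =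
      qf (fun α β => muK η (α i, α j) (β i, β j) *
        ∏ l ∈ (Finset.univ.erase i).erase j, muG η (α l) (β l)) c := by
  have e : ∀ (α β : Fin N → Arm M) (x : Fin N → Pt),
      ker (x i - x j) * ((∏ l, η (α l) (x l)) * ∏ l, η (β l) (x l)) =
      ker (x i - x j) * ((η (α i) (x i) * η (β i) (x i)) * (η (α j) (x j) * η (β j) (x j))) *
        ∏ l ∈ (Finset.univ.erase i).erase j, η (α l) (x l) * η (β l) (x l) := fun α β x => by
    rw [← Finset.prod_mul_distrib, ← Finset.mul_prod_erase Finset.univ _ (Finset.mem_univ i),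
      ← Finset.mul_prod_erase (Finset.univ.erase i) _ (a := j) (by simp [hij.symm])]
    ring
  have key := fun α β : Fin N → Arm M => mu_two hij ((h (α i)).mu_cc.mul (h (β i)).mu_cc)
    ((h (α j)).mu_cc.mul (h (β j)).mu_cc) (g := fun l y => η (α l) y * η (β l) y)
    fun l => (h (α l)).mu_cc.mul (h (β l)).mu_cc
  unfold muPsi
  rw [mu_int_sq (fun (α : Fin N → Arm M) (x : Fin N → Pt) => ∏ l, η (α l) (x l))
    (fun x => ker (x i - x j)) c fun α β => by
      simp only [e]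
      exact (key α β).1]
  refine congrArg (fun G => qf G c) ?_
  funext α β
  simp only [e]
  exact (key α β).2

lemma mu_G_psd (h : ∀ a, C1c (η a)) : PSD (muG η) :=
  ⟨mu_G_symm, fun c => by rw [mu_qf_G h]; exact integral_nonneg fun _ => sq_nonneg _⟩

lemma mu_G_low (hφ : Sharp φ) (hη : Soft φ η δ) :
    PSD fun a b => muG η a b - if a = b then 1 else 0 := by
  refine ⟨fun a b => by simp only [mu_G_symm a b, eq_comm], fun c => ?_⟩
  rw [mu_qf_sub, mu_qf_G hη.mu_c1c, mu_qf_diag (fun _ => 1), hη.norm_eq hφ]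
  have : 0 ≤ ∫ x, (lc η c x - lc φ c x) ^ 2 := integral_nonneg fun _ => sq_nonneg _
  simp only [one_mul]
  linarith

lemma mu_G_up (hφ : Sharp φ) (hη : Soft φ η δ) :
    PSD fun a b => (if a = b then 1 + δ else 0) - muG η a b := by
  refine ⟨fun a b => by simp only [mu_G_symm a b, eq_comm], fun c => ?_⟩
  rw [mu_qf_sub, mu_qf_G hη.mu_c1c, mu_qf_diag (fun _ => 1 + δ), hη.norm_eq hφ,
    ← Finset.mul_sum]
  have := hη.close c
  linarith

lemma mu_psi_norm_ge (hφ : Sharp φ) (hη : Soft φ η δ) (c : (Fin N → Arm M) → ℝ) :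
    ∑ α, c α ^ 2 ≤ ∫ x, muPsi η c x ^ 2 := by
  rw [mu_psi_norm hη.mu_c1c]
  have h1 : PSD fun a b : Arm M => if a = b then (1 : ℝ) else 0 :=
    ⟨fun a b => by simp only [eq_comm], fun c => by
      rw [mu_qf_diag (fun _ => 1)]
      exact Finset.sum_nonneg fun _ _ => by positivity⟩
  have := qf_prod_le (ι := Fin N) (G := fun _ a b => if a = b then (1 : ℝ) else 0)
    (H := fun _ => muG η) (fun _ => h1) (fun _ => mu_G_low hφ hη) c
  refine le_trans (le_of_eq ?_) this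
  have e : (fun α β : Fin N → Arm M => ∏ i, if α i = β i then (1 : ℝ) else 0) =
      fun α β => if α = β then 1 else 0 := by
    funext α β
    rw [Finset.prod_ite_zero]
    simp [funext_iff]
  rw [e, mu_qf_diag (fun _ => 1)]
  simp only [one_mul]

lemma mu_one_body (hφ : Sharp φ) (hη : Soft φ η δ) {V : Pt → ℝ}
    (hVi : ∀ f, Continuous f → HasCompactSupport f → Integrable fun x => V x * f x)
    {E T ε : ℝ} (h1 : OBup V η E T ε) (hT : 0 ≤ T) (hε : 0 ≤ ε) (hδ : 0 ≤ δ)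
    (c : (Fin N → Arm M) → ℝ) (i : Fin N) :
    1 / 2 * (∑ k, ∫ x, fderiv ℝ (muPsi η c) x (Pi.single i (Pi.single k 1)) ^ 2) +
      ∫ x, V (x i) * muPsi η c x ^ 2 ≤
      E * (∫ x, muPsi η c x ^ 2) + (1 + δ) ^ N *
        (T * (∑ α, (c α - (∑ b, c (update α i ((α i).1, b))) / 3) ^ 2) + ε * ∑ α, c α ^ 2) := by
  have h := hη.mu_c1c
  have hK' : PSD fun a b : Arm M => T * muHop a b + if a = b then ε else 0 := by
    refine ⟨fun a b => by simp only [mu_hop_symm a b, eq_comm], fun c => ?_⟩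
    rw [mu_qf_add, mu_qf_smul, mu_qf_hop, mu_qf_diag (fun _ => ε)]
    exact add_nonneg (mul_nonneg hT (mu_hop_nonneg c)) (Finset.sum_nonneg fun _ _ => by positivity)
  have hK : PSD fun a b : Arm M => (T * muHop a b + if a = b then ε else 0) -
      (muH V η a b - E * muG η a b) := by
    refine ⟨fun a b => by
      simp only [mu_hop_symm a b, mu_H_symm V a b, mu_G_symm a b, eq_comm], fun c => ?_⟩
    rw [mu_qf_sub, mu_qf_add, mu_qf_smul, mu_qf_hop, mu_qf_diag (fun _ => ε), mu_qf_sub,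
      mu_qf_smul, mu_qf_H h hVi, mu_qf_G h, ← Finset.mul_sum]
    have := h1 c
    linarith
  have key := qf_one_le i hK' hK (mu_G_psd h) (r := 1 + δ) (by linarith) (mu_G_up hφ hη) c
  rw [Fintype.card_fin] at key
  have e1 : ∑ α, ∑ b, c α * c (update α i b) * (T * muHop (α i) b + if α i = b then ε else 0) =
      T * (∑ α, (c α - (∑ b, c (update α i ((α i).1, b))) / 3) ^ 2) + ε * ∑ α, c α ^ 2 := by
    rw [← mu_hop_coord, Finset.mul_sum, Finset.mul_sum, ← Finset.sum_add_distrib]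
    refine Finset.sum_congr rfl fun α _ => ?_
    simp only [mul_add, Finset.sum_add_distrib, mul_ite, mul_zero, Finset.sum_ite_eq,
      Finset.mem_univ, if_true, update_eq_self, Finset.mul_sum]
    refine congrArg₂ (· + ·) (Finset.sum_congr rfl fun b _ => by ring) (by ring)
  rw [e1] at key
  have e2 : qf (fun α β : Fin N → Arm M => (muH V η (α i) (β i) - E * muG η (α i) (β i)) *
      ∏ l ∈ Finset.univ.erase i, muG η (α l) (β l)) c =
      1 / 2 * (∑ k, ∫ x, fderiv ℝ (muPsi η c) x (Pi.single i (Pi.single k 1)) ^ 2) +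
      (∫ x, V (x i) * muPsi η c x ^ 2) - E * ∫ x, muPsi η c x ^ 2 := by
    simp only [mu_psi_kin h, mu_psi_pot h hVi, mu_psi_norm h]
    rw [← mu_qf_sum, ← mu_qf_smul, ← mu_qf_add, ← mu_qf_smul, ← mu_qf_sub]
    refine congrArg (fun G => qf G c) ?_
    funext α β
    rw [← Finset.mul_prod_erase Finset.univ _ (Finset.mem_univ i), ← Finset.sum_mul, muH]
    ring
  rw [e2] at key
  linarith

lemma mu_two_body (hφ : Sharp φ) (hη : Soft φ η δ) {V : Arm M → Arm M → ℝ} {ε₂ : ℝ}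
    (h2 : TBup η V ε₂) (hε₂ : 0 ≤ ε₂) (hδ : 0 ≤ δ) (hV : ∀ a b, 0 ≤ V a b)
    (c : (Fin N → Arm M) → ℝ) {i j : Fin N} (hij : i ≠ j) :
    ∫ x, ker (x i - x j) * muPsi η c x ^ 2 ≤
      (1 + δ) ^ N * ∑ α, (V (α i) (α j) + ε₂) * c α ^ 2 := by
  have h := hη.mu_c1c
  have hK : PSD fun p q : Arm M × Arm M => (if p = q then V p.1 p.2 + ε₂ else 0) - muK η p q := by
    refine ⟨fun p q => ?_, fun d => ?_⟩
    · by_cases hpq : p = q
      · rw [hpq]
      · simp only [if_neg hpq, if_neg (Ne.symm hpq), mu_K_symm p q]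
    · rw [mu_qf_sub, mu_qf_diag (fun p : Arm M × Arm M => V p.1 p.2 + ε₂), mu_qf_K h,
        Fintype.sum_prod_type]
      exact sub_nonneg.2 (h2 fun a b => d (a, b))
  have key := qf_two_le hij (V := fun a b => V a b + ε₂) (fun a b => add_nonneg (hV a b) hε₂) hK
    (mu_G_psd h) (r := 1 + δ) (by linarith) (mu_G_up hφ hη) c
  rw [Fintype.card_fin] at key
  rw [mu_psi_pair h c hij]
  exact key

lemma mu_rE_le (nuc : List (Pt × ℝ)) (hφ : Sharp φ) (hη : Soft φ η δ) {E T ε g ε₂ : ℝ}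
    {V : Arm M → Arm M → ℝ} (h1 : OBup (pot nuc) η E T ε) (h2 : TBup η V ε₂) (hT : 0 ≤ T)
    (hg : 0 ≤ g) (hε : 0 ≤ ε) (hε₂ : 0 ≤ ε₂) (hδ : 0 ≤ δ) (hV : ∀ a b, 0 ≤ V a b)
    (c : (Fin N → Arm M) → ℝ) :
    rE nuc g (muPsi η c) ≤ N * E * (∫ x, muPsi η c x ^ 2) + (1 + δ) ^ N *
      (fmE1 T (fun a b => g * V a b) c + (N * ε + g * N ^ 2 * ε₂) * ∑ α, c α ^ 2) := by
  have hr : 0 ≤ (1 + δ) ^ N := by positivity
  have hc : 0 ≤ ∑ α, c α ^ 2 := Finset.sum_nonneg fun _ _ => sq_nonneg _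
  have hA := Finset.sum_le_sum fun i (_ : i ∈ (Finset.univ : Finset (Fin N))) =>
    mu_one_body hφ hη (fun f hf hc => integrable_pot_mul nuc hf hc) h1 hT hε hδ c i
  simp only [Finset.sum_add_distrib, ← Finset.mul_sum, Finset.sum_const, Finset.card_univ,
    Fintype.card_fin, nsmul_eq_mul] at hA
  have hB : ∑ i : Fin N, ∑ j : Fin N,
      (if i < j then ∫ x : Fin N → Pt, ker (x i - x j) * muPsi η c x ^ 2 else 0) ≤
      ∑ i : Fin N, ∑ j : Fin N, (1 + δ) ^ N *
        ((∑ α, (if i < j then V (α i) (α j) else 0) * c α ^ 2) + ε₂ * ∑ α, c α ^ 2) := by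
    refine Finset.sum_le_sum fun i _ => Finset.sum_le_sum fun j _ => ?_
    by_cases hij : i < j
    · simp only [if_pos hij]
      refine (mu_two_body hφ hη h2 hε₂ hδ hV c hij.ne).trans (le_of_eq ?_)
      simp only [add_mul, Finset.sum_add_distrib, Finset.mul_sum]
    · simp only [if_neg hij, zero_mul, Finset.sum_const_zero, zero_add]
      positivity
  have hC : ∑ α : Fin N → Arm M,
      (∑ i : Fin N, ∑ j : Fin N, if i < j then g * V (α i) (α j) else 0) * c α ^ 2 =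
      g * ∑ i : Fin N, ∑ j : Fin N, ∑ α, (if i < j then V (α i) (α j) else 0) * c α ^ 2 := by
    simp only [Finset.sum_mul, Finset.mul_sum]
    rw [Finset.sum_comm]
    refine Finset.sum_congr rfl fun i _ => ?_
    rw [Finset.sum_comm]
    refine Finset.sum_congr rfl fun j _ => Finset.sum_congr rfl fun α _ => ?_
    split_ifs <;> ring
  simp only [Finset.sum_add_distrib, ← Finset.mul_sum, Finset.sum_const, Finset.card_univ,
    Fintype.card_fin, nsmul_eq_mul] at hB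
  have hB' := mul_le_mul_of_nonneg_left hB hg
  rw [rE, fmE1, hC]
  nlinarith [hA, hB']

end

theorem many_up {N M : ℕ} (nuc : List (Pt × ℝ)) {φ η : Arm M → Pt → ℝ} {δ : ℝ} (hφ : Sharp φ)
    (hη : Soft φ η δ) {E T ε g ε₂ e : ℝ} {V : Arm M → Arm M → ℝ} (h1 : OBup (pot nuc) η E T ε)
    (h2 : TBup η V ε₂) (hT : 0 ≤ T) (hg : 0 ≤ g) (hε : 0 ≤ ε) (hε₂ : 0 ≤ ε₂) (hδ : 0 ≤ δ)
    (hV : ∀ a b, 0 ≤ V a b) (he : 0 ≤ e)
    {c : (Fin N → Fin 2) → (Fin N → Arm M) → ℝ} (hc : Anti c) (hc0 : 0 < fmN c)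
    (hF : fmE T (fun a b => g * V a b) c ≤ e * fmN c) :
    ∃ Ψ : (Fin N → Fin 2) → (Fin N → Pt) → ℝ, RCore Ψ ∧ 0 < ∑ s, ∫ x, Ψ s x ^ 2 ∧
      ∑ s, rE nuc g (Ψ s) ≤
        (N * E + (1 + δ) ^ N * (e + N * ε + g * N ^ 2 * ε₂)) * ∑ s, ∫ x, Ψ s x ^ 2 := by
  have h := hη.mu_c1c
  have hn : fmN c ≤ ∑ s, ∫ x, muPsi η (c s) x ^ 2 :=
    Finset.sum_le_sum fun s _ => mu_psi_norm_ge hφ hη (c s)
  refine ⟨fun s => muPsi η (c s), ⟨fun s => ⟨mu_psi_contDiff h _, mu_psi_supp h _⟩, ?_⟩,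
    hc0.trans_le hn, ?_⟩
  · intro π s x
    simp only [muPsi, Finset.mul_sum]
    rw [← Equiv.sum_comp (Equiv.arrowCongr π.symm (Equiv.refl (Arm M)))]
    refine Finset.sum_congr rfl fun β _ => ?_
    have e : (Equiv.arrowCongr π.symm (Equiv.refl (Arm M))) β = β ∘ π := by
      funext i; simp
    rw [e, hc π s β, mul_assoc]
    refine congrArg _ (congrArg _ ?_)
    exact Equiv.prod_comp π fun i => η (β i) (x i)
  · have hA := Finset.sum_le_sum fun s (_ : s ∈ (Finset.univ : Finset (Fin N → Fin 2))) =>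
      mu_rE_le nuc hφ hη h1 h2 hT hg hε hε₂ hδ hV (c s)
    simp only [Finset.sum_add_distrib, ← Finset.mul_sum] at hA
    have hr : 0 ≤ (1 + δ) ^ N := by positivity
    have hq : 0 ≤ e + N * ε + g * N ^ 2 * ε₂ := by positivity
    have hB : (∑ s, fmE1 T (fun a b => g * V a b) (c s)) +
        (N * ε + g * N ^ 2 * ε₂) * ∑ s, ∑ α, c s α ^ 2 ≤
        (e + N * ε + g * N ^ 2 * ε₂) * ∑ s, ∫ x, muPsi η (c s) x ^ 2 := by
      refine le_trans ?_ (mul_le_mul_of_nonneg_left hn hq)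
      have : fmE T (fun a b => g * V a b) c + (N * ε + g * N ^ 2 * ε₂) * fmN c ≤
          (e + N * ε + g * N ^ 2 * ε₂) * fmN c := by linarith
      exact this
    have hB' := mul_le_mul_of_nonneg_left hB hr
    simp only
    linarith

end Vale.Agent.P370
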