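import Vale.Agent.P370.Defs

/-!
Shared analytic and discrete definitions for P370.
-/

namespace Vale.Agent.P370

open MeasureTheory
open scoped ContDiff

/-- Coordinate vectors. -/
def ek (k : Fin 3) : Pt := Pi.single k 1

/-- Partial derivative. -/
noncomputable def pd (k : Fin 3) (f : Pt → ℝ) (x : Pt) : ℝ := fderiv ℝ f x (ek k)

/-- Laplacian. -/
noncomputable def lap (f : Pt → ℝ) (x : Pt) : ℝ := ∑ k, pd k (pd k f) x

/-- Squared gradient. -/
noncomputable def gsq (f : Pt → ℝ) (x : Pt) : ℝ := ∑ k, pd k f x ^ 2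

/-- Continuously differentiable with compact support. -/
def C1c (f : Pt → ℝ) : Prop := ContDiff ℝ 1 f ∧ HasCompactSupport f

/-- Closed box centred at the origin. -/
def box (a b c : ℝ) : Set Pt := {x | |x 0| ≤ a ∧ |x 1| ≤ b ∧ |x 2| ≤ c}

/-- Smooth with derivatives up to order `r` bounded by `B` (sup norm on `Pt`). -/
def DB (r : ℕ) (f : Pt → ℝ) (B : ℝ) : Prop :=
  ContDiff ℝ ∞ f ∧ ∀ j ≤ r, ∀ x, ‖iteratedFDeriv ℝ j f x‖ ≤ B

/-- The Coulomb kernel. -/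
noncomputable def ker (x : Pt) : ℝ := (nrm x)⁻¹

/-- The constant `arsinh 1`. -/
noncomputable def cL : ℝ := ∫ t in (0 : ℝ)..1, 1 / √(1 + t ^ 2)

/-- Mean inverse distance of two points of a square of side two. -/
noncomputable def cU : ℝ := ∫ t in (0 : ℝ)..1, (2 - 2 * t / 3) / √(1 + t ^ 2)

/-- Potential of the uniform slab `box R R 10` of unit density (up to sign). -/
noncomputable def slab (R : ℝ) (x : Pt) : ℝ := ∫ y in box R R 10, ker (x - y)

/-! ### The lattice of nuclei -/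

/-- Half-open cube with centre `c` and side `s`. -/
def cell (c : Pt) (s : ℝ) : Set Pt := {y | ∀ k, c k - s / 2 ≤ y k ∧ y k < c k + s / 2}

/-- Centres of the cells of side `1 / σ` of the slab. -/
noncomputable def site (σ R : ℕ) (n : ℕ × ℕ × ℕ) : Pt :=
  ![(n.1 + 1 / 2) / σ - R, (n.2.1 + 1 / 2) / σ - R, (n.2.2 + 1 / 2) / σ - 10]

/-- Indices of the cells. -/
def sites (σ R : ℕ) : Finset (ℕ × ℕ × ℕ) :=
  Finset.range (2 * R * σ) ×ˢ Finset.range (2 * R * σ) ×ˢ Finset.range (20 * σ)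

/-- Fourth difference in the first index. -/
def d4 {K : Type} [Ring K] (u : ℕ × ℕ × ℕ → K) (n : ℕ × ℕ × ℕ) : K :=
  u (n.1 + 4, n.2) - 4 * u (n.1 + 3, n.2) + 6 * u (n.1 + 2, n.2) - 4 * u (n.1 + 1, n.2) + u n

/-- Data of a discretised charge distribution: mesh `σ = τ ^ 4`, slab size `R`, background
density `ρ`, core size `l`, smooth correction `F`, computed samples `K` of `lap F / 4π`, and
rounding errors `u`. -/
structure Lat where
  /-- mesh root -/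
  τ : ℕ
  /-- slab size -/
  R : ℕ
  /-- background -/
  ρ : ℕ
  /-- core size -/
  l : ℕ
  /-- smooth correction of the potential -/
  F : Pt → ℝ
  /-- samples -/
  K : ℕ × ℕ × ℕ → ℝ
  /-- rounding errors -/
  u : ℕ × ℕ × ℕ → ℝ

/-- Number of cells per unit length. -/
def Lat.σ (L : Lat) : ℕ := L.τ ^ 4

/-- Charges. -/
noncomputable def Lat.Z (L : Lat) (n : ℕ × ℕ × ℕ) : ℝ := L.ρ + L.K n + d4 L.u n

/-- Potential of the nuclei in scaled units. -/
noncomputable def Lat.Vn (L : Lat) (x : Pt) : ℝ :=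
  -∑ n ∈ sites L.σ L.R, L.Z n / (L.σ : ℝ) ^ 3 * ker (x - site L.σ L.R n)

/-- The smooth potential. -/
noncomputable def Lat.Vs (L : Lat) (x : Pt) : ℝ := -(L.ρ * slab L.R x) + L.F x

/-- Discretisation error. -/
noncomputable def Lat.dV (L : Lat) (x : Pt) : ℝ := L.Vn x - L.Vs x

/-- Standing hypotheses; `B` bounds everything that does not depend on the mesh. -/
structure Lat.OK (L : Lat) (B : ℝ) : Prop where
  l_ge : 10 ≤ L.l
  l_le : (L.l : ℝ) ≤ B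
  ρ_ge : 20 ≤ L.ρ
  ρ_le : (L.ρ : ℝ) ≤ B
  τ_ge : B ≤ L.τ
  R_ge : L.τ ^ 24 ≤ L.R
  F_db : DB 6 L.F B
  F_supp : tsupport L.F ⊆ box (3 * L.l) (3 * L.l) 9
  lap_le : ∀ x, |lap L.F x| ≤ 2 * Real.pi * L.ρ
  K_err : ∀ n, |L.K n - lap L.F (site L.σ L.R n) / (4 * Real.pi)| ≤ 1 / (L.τ : ℝ) ^ 16
  K_out : ∀ n, site L.σ L.R n ∉ box (3 * L.l) (3 * L.l) 9 → L.K n = 0
  u_le : ∀ n, |L.u n| ≤ 1
  u_start : ∀ n, n.1 < 4 → L.u n = 0
  u_out : ∀ n, 3 * (L.l : ℝ) < |site L.σ L.R n 1| → L.u n = 0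

/-! ### One-body and many-body forms, real valued -/

/-- One-body form with a potential. -/
noncomputable def qV (V ψ : Pt → ℝ) : ℝ := 1 / 2 * (∫ x, gsq ψ x) + ∫ x, V x * ψ x ^ 2

/-- Potential of a list of nuclei. -/
noncomputable def pot (nuc : List (Pt × ℝ)) (x : Pt) : ℝ :=
  -(nuc.map fun p => p.2 * ker (x - p.1)).sum

/-- Many-body form of one spin component, with coupling `g` of the repulsion. -/
noncomputable def rE {N : ℕ} (nuc : List (Pt × ℝ)) (g : ℝ) (Ψ : (Fin N → Pt) → ℝ) : ℝ :=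
  1 / 2 * (∑ i, ∑ k, ∫ x, fderiv ℝ Ψ x (Pi.single i (Pi.single k 1)) ^ 2) +
    (∑ i, ∫ x, pot nuc (x i) * Ψ x ^ 2) +
    g * ∑ i, ∑ j, if i < j then ∫ x, ker (x i - x j) * Ψ x ^ 2 else 0

/-- Real elements of the core. -/
def RCore {N : ℕ} (Ψ : (Fin N → Fin 2) → (Fin N → Pt) → ℝ) : Prop :=
  (∀ s, ContDiff ℝ 1 (Ψ s) ∧ HasCompactSupport (Ψ s)) ∧
    ∀ (π : Equiv.Perm (Fin N)) s x, Ψ (s ∘ π) (x ∘ π) = (Equiv.Perm.sign π : ℤ) * Ψ s x

/-! ### Discrete models -/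

/-- Arms: three per molecule. -/
abbrev Arm (M : ℕ) := Fin M × Fin 3

/-- Row of an arm. -/
def row {M : ℕ} (a : Arm M) : ℕ := 3 * a.1.val + a.2.val

/-- Hopping form on the arms. -/
noncomputable def hop {M : ℕ} (x : Arm M → ℝ) : ℝ := ∑ a, (x a - (∑ b, x (a.1, b)) / 3) ^ 2

/-- Antisymmetric coefficient arrays. -/
def Anti {N M : ℕ} (c : (Fin N → Fin 2) → (Fin N → Arm M) → ℝ) : Prop :=
  ∀ (π : Equiv.Perm (Fin N)) s α, c (s ∘ π) (α ∘ π) = (Equiv.Perm.sign π : ℤ) * c s α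

/-- Squared norm in the fermion model. -/
def fmN {N M : ℕ} (c : (Fin N → Fin 2) → (Fin N → Arm M) → ℝ) : ℝ := ∑ s, ∑ α, c s α ^ 2

/-- Energy of one spin component in the fermion model. -/
noncomputable def fmE1 {N M : ℕ} (T : ℝ) (V : Arm M → Arm M → ℝ) (c : (Fin N → Arm M) → ℝ) : ℝ :=
  T * (∑ i, ∑ α, (c α - (∑ b, c (Function.update α i ((α i).1, b))) / 3) ^ 2) +
    ∑ α, (∑ i, ∑ j, if i < j then V (α i) (α j) else 0) * c α ^ 2

/-- Energy in the fermion model. -/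
noncomputable def fmE {N M : ℕ} (T : ℝ) (V : Arm M → Arm M → ℝ)
    (c : (Fin N → Fin 2) → (Fin N → Arm M) → ℝ) : ℝ := ∑ s, fmE1 T V (c s)

/-- Energy in the qutrit model. -/
noncomputable def qtE {M : ℕ} (T : ℝ) (W : (Fin M → Fin 3) → ℝ) (χ : (Fin M → Fin 3) → ℝ) : ℝ :=
  T * (∑ m, ∑ h, ((∑ b, χ (Function.update h m b)) / 3) ^ 2) + ∑ h, W h * χ h ^ 2

end Vale.Agent.P370
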