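import Vale.Agent.P370.BoxA

/-!
Coulomb integrals of squares and the potential of the slab.
-/

namespace Vale.Agent.P370

open MeasureTheory Set Filter Topology

theorem measurable_slab (R : ℝ) : Measurable (slab R) :=
  (StronglyMeasurable.integral_prod_right (ν := volume.restrict (box R R 10))
    (f := fun x y : Pt => ker (x - y))
    (measurable_ker.comp (measurable_fst.sub measurable_snd)).stronglyMeasurable).measurable

theorem slab_nonneg (R : ℝ) (x : Pt) : 0 ≤ slab R x := integral_nonneg fun _ => ker_nonneg _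

/-! ### One-dimensional rearrangement -/

lemma box_shift_eq {g : ℝ → ℝ} (hg : Continuous g) (R a : ℝ) :
    ∫ u in -R..R, g (a - u) = (∫ u in -R..R, g u) - ∫ v in (0 : ℝ)..a, (g (v - R) - g (v + R)) := by
  rw [intervalIntegral.integral_comp_sub_left, intervalIntegral.integral_sub
    (Continuous.intervalIntegrable (by fun_prop) _ _)
    (Continuous.intervalIntegrable (by fun_prop) _ _), intervalIntegral.integral_comp_sub_right,
    intervalIntegral.integral_comp_add_right, zero_sub, zero_add, sub_neg_eq_add]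
  have h1 := intervalIntegral.integral_add_adjacent_intervals (μ := volume)
    (hg.intervalIntegrable (-R) (a - R)) (hg.intervalIntegrable (a - R) (a + R))
  have h2 := intervalIntegral.integral_add_adjacent_intervals (μ := volume)
    (hg.intervalIntegrable (-R) R) (hg.intervalIntegrable R (a + R))
  linarith

lemma box_shift_le {g : ℝ → ℝ} (hg : Continuous g) (hm : ∀ u v, |u| ≤ |v| → g v ≤ g u) {R : ℝ}
    (hR : 0 ≤ R) (a : ℝ) : ∫ u in -R..R, g (a - u) ≤ ∫ u in -R..R, g u := by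
  rw [box_shift_eq hg, sub_le_self_iff]
  rcases le_total 0 a with h | h
  · refine intervalIntegral.integral_nonneg h fun v hv => sub_nonneg.2 (hm _ _ ?_)
    rw [← sq_le_sq]
    nlinarith [hv.1]
  · rw [intervalIntegral.integral_symm, ← intervalIntegral.integral_neg]
    refine intervalIntegral.integral_nonneg h fun v hv => ?_
    rw [neg_sub]
    refine sub_nonneg.2 (hm _ _ ?_)
    rw [← sq_le_sq]
    nlinarith [hv.2]

lemma box_shift_ge {g : ℝ → ℝ} (hg : Continuous g) {R a M : ℝ}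
    (h : ∀ v, |v| ≤ |a| → |g (v - R) - g (v + R)| ≤ M) :
    (∫ u in -R..R, g u) - M * |a| ≤ ∫ u in -R..R, g (a - u) := by
  rw [box_shift_eq hg]
  have h1 := intervalIntegral.norm_integral_le_of_norm_le_const (a := 0) (b := a) (C := M)
    (f := fun v => g (v - R) - g (v + R)) fun v hv => h v (by
      have := abs_sub_left_of_mem_uIcc (uIoc_subset_uIcc hv)
      simpa using this)
  rw [sub_zero] at h1
  linarith [le_abs_self (∫ v in (0 : ℝ)..a, (g (v - R) - g (v + R))), Real.norm_eq_abs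
    (∫ v in (0 : ℝ)..a, (g (v - R) - g (v + R)))]

lemma box_inv_sqrt {P Q m : ℝ} (hm : 0 < m) (hP : m ^ 2 ≤ P) (hQ : m ^ 2 ≤ Q) :
    |(√P)⁻¹ - (√Q)⁻¹| ≤ |Q - P| / (2 * m ^ 3) := by
  have hp : m ≤ √P := Real.le_sqrt_of_sq_le hP
  have hq : m ≤ √Q := Real.le_sqrt_of_sq_le hQ
  have e1 : √P ^ 2 = P := Real.sq_sqrt (by nlinarith)
  have e2 : √Q ^ 2 = Q := Real.sq_sqrt (by nlinarith)
  generalize √P = p at hp e1
  generalize √Q = q at hq e2
  have hp0 := hm.trans_le hp
  have hq0 := hm.trans_le hq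
  have h1 : p⁻¹ - q⁻¹ = (Q - P) / (p * q * (p + q)) := by
    rw [← e1, ← e2]; field_simp; ring
  rw [h1, abs_div, abs_of_pos (by positivity : 0 < p * q * (p + q))]
  refine div_le_div_of_nonneg_left (abs_nonneg _) (by positivity) ?_
  calc 2 * m ^ 3 = m * m * (m + m) := by ring
    _ ≤ p * q * (p + q) := by gcongr

lemma box_anti {P Q : ℝ} (hP : 0 < P) (h : P ≤ Q) : (√Q)⁻¹ ≤ (√P)⁻¹ :=
  inv_anti₀ (Real.sqrt_pos.2 hP) (Real.sqrt_le_sqrt h)

lemma box_loss {R l v c : ℝ} (hl : 0 < l) (hR : 2 * l ≤ R) (hv : |v| ≤ l) (hc : 0 ≤ c) :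
    |(√((v - R) ^ 2 + c))⁻¹ - (√((v + R) ^ 2 + c))⁻¹| ≤ 16 * l / R ^ 2 := by
  have hR0 : 0 < R := by linarith
  obtain ⟨h1, h2⟩ := abs_le.1 hv
  refine (box_inv_sqrt (m := R / 2) (by positivity) (by nlinarith) (by nlinarith)).trans ?_
  rw [show (v + R) ^ 2 + c - ((v - R) ^ 2 + c) = 4 * R * v by ring, abs_mul,
    abs_of_pos (by positivity : 0 < 4 * R)]
  calc 4 * R * |v| / (2 * (R / 2) ^ 3) ≤ 4 * R * l / (2 * (R / 2) ^ 3) := by gcongr
    _ = 16 * l / R ^ 2 := by field_simp; ring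

/-! ### The potential of a square sheet -/

/-- Potential of the square sheet at horizontal position `(a, b)` and height `t`. -/
noncomputable def sheet (R a b t : ℝ) : ℝ :=
  ∫ p in Icc (-R) R ×ˢ Icc (-R) R, (√((a - p.1) ^ 2 + (b - p.2) ^ 2 + t ^ 2))⁻¹

lemma box_cont {t : ℝ} (ht : t ≠ 0) :
    Continuous fun p : ℝ × ℝ => (√(p.1 ^ 2 + p.2 ^ 2 + t ^ 2))⁻¹ :=
  Continuous.inv₀ (by fun_prop) fun p => (Real.sqrt_pos.2 (by positivity)).ne'

lemma sheet_eq {R t : ℝ} (hR : 0 ≤ R) (ht : t ≠ 0) (a b : ℝ) : sheet R a b t =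
    ∫ u in -R..R, ∫ w in -R..R, (√((a - u) ^ 2 + (b - w) ^ 2 + t ^ 2))⁻¹ := by
  have h1 : Continuous fun p : ℝ × ℝ => (√((a - p.1) ^ 2 + (b - p.2) ^ 2 + t ^ 2))⁻¹ :=
    (box_cont ht).comp (f := fun p : ℝ × ℝ => (a - p.1, b - p.2)) (by fun_prop)
  have h2 : -R ≤ R := by linarith
  rw [sheet, Measure.volume_eq_prod, setIntegral_prod _
    (h1.continuousOn.integrableOn_compact (isCompact_Icc.prod isCompact_Icc))]
  simp only [intervalIntegral.integral_of_le h2, integral_Icc_eq_integral_Ioc]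

lemma sheet_cont {t : ℝ} (ht : t ≠ 0) (R b : ℝ) :
    Continuous fun u : ℝ => ∫ w in -R..R, (√(u ^ 2 + (b - w) ^ 2 + t ^ 2))⁻¹ :=
  intervalIntegral.continuous_parametric_intervalIntegral_of_continuous'
    (f := fun u w : ℝ => (√(u ^ 2 + (b - w) ^ 2 + t ^ 2))⁻¹) ((box_cont ht).comp (f := fun p : ℝ × ℝ => (p.1, b - p.2)) (by fun_prop)) _ _

lemma box_cont1 {t : ℝ} (ht : t ≠ 0) (u : ℝ) :
    Continuous fun w : ℝ => (√(u ^ 2 + w ^ 2 + t ^ 2))⁻¹ :=
  (box_cont ht).comp (f := fun w : ℝ => (u, w)) (by fun_prop)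

lemma box_int1 {t : ℝ} (ht : t ≠ 0) (u b R : ℝ) :
    IntervalIntegrable (fun w : ℝ => (√(u ^ 2 + (b - w) ^ 2 + t ^ 2))⁻¹) volume (-R) R :=
  ((box_cont1 ht u).comp (f := fun w : ℝ => b - w) (by fun_prop)).intervalIntegrable _ _

lemma sheet_le {R t : ℝ} (hR : 0 ≤ R) (ht : t ≠ 0) (a b : ℝ) : sheet R a b t ≤ sheet R 0 0 t := by
  have h2 : -R ≤ R := by linarith
  rw [sheet_eq hR ht, sheet_eq hR ht]
  refine (box_shift_le (sheet_cont ht R b) (fun u v huv => ?_) hR a).trans ?_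
  · refine intervalIntegral.integral_mono_on h2 (box_int1 ht _ _ _) (box_int1 ht _ _ _)
      fun w _ => box_anti (by positivity) ?_
    linarith [sq_le_sq.2 huv]
  · simp only [zero_sub, neg_sq]
    have h3 := sheet_cont ht R 0
    simp only [zero_sub, neg_sq] at h3
    refine intervalIntegral.integral_mono_on h2 ((sheet_cont ht R b).intervalIntegrable _ _)
      (h3.intervalIntegrable _ _) fun u _ => ?_
    refine box_shift_le (box_cont1 ht u) (fun v w hvw => box_anti (by positivity) ?_) hR b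
    linarith [sq_le_sq.2 hvw]

lemma sheet_ge {R l t a b : ℝ} (hl : 0 < l) (hR : 2 * l ≤ R) (ht : t ≠ 0) (ha : |a| ≤ l)
    (hb : |b| ≤ l) : sheet R 0 0 t - 64 * l ^ 2 / R ≤ sheet R a b t := by
  have hR0 : 0 < R := by linarith
  have h2 : -R ≤ R := by linarith
  rw [sheet_eq hR0.le ht, sheet_eq hR0.le ht]
  have h3 := box_shift_ge (sheet_cont ht R b) (R := R) (a := a) (M := 16 * l / R ^ 2 * (2 * R))
    fun v hv => by
      rw [← intervalIntegral.integral_sub (box_int1 ht _ _ _) (box_int1 ht _ _ _)]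
      rw [← Real.norm_eq_abs]
      refine (intervalIntegral.norm_integral_le_of_norm_le_const (C := 16 * l / R ^ 2)
        fun w _ => ?_).trans (le_of_eq ?_)
      · rw [add_assoc, add_assoc]
        exact box_loss hl hR (hv.trans ha) (by positivity)
      · rw [abs_of_nonneg (by linarith)]; ring
  have h4 := sheet_cont ht R 0
  simp only [zero_sub, neg_sq] at h4 ⊢
  have h5 := intervalIntegral.integral_mono_on h2
    ((h4.intervalIntegrable (μ := volume) _ _).sub
      (intervalIntegrable_const (c := 16 * l / R ^ 2 * |b|)))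
    ((sheet_cont ht R b).intervalIntegrable _ _) fun u _ => box_shift_ge (box_cont1 ht u)
      fun v hv => by
        rw [add_comm (u ^ 2), add_comm (u ^ 2), add_assoc, add_assoc]
        exact box_loss hl hR (hv.trans hb) (by positivity)
  rw [intervalIntegral.integral_sub (h4.intervalIntegrable _ _) intervalIntegrable_const,
    intervalIntegral.integral_const, smul_eq_mul] at h5
  have h6 : 16 * l / R ^ 2 * (2 * R) * |a| ≤ 32 * l ^ 2 / R :=
    calc _ ≤ 16 * l / R ^ 2 * (2 * R) * l := by gcongr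
      _ = _ := by field_simp; ring
  have h7 : (R - -R) * (16 * l / R ^ 2 * |b|) ≤ 32 * l ^ 2 / R :=
    calc _ ≤ (R - -R) * (16 * l / R ^ 2 * l) := by gcongr
      _ = _ := by field_simp; ring
  have h8 : 64 * l ^ 2 / R = 32 * l ^ 2 / R + 32 * l ^ 2 / R := by ring
  linarith

lemma sheet_anti {R t t' : ℝ} (ht : t ≠ 0) (h : |t| ≤ |t'|) : sheet R 0 0 t' ≤ sheet R 0 0 t := by
  have ht' : t' ≠ 0 := abs_pos.1 ((abs_pos.2 ht).trans_le h)
  simp only [sheet, zero_sub, neg_sq]
  refine setIntegral_mono_on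
    ((box_cont ht').continuousOn.integrableOn_compact (isCompact_Icc.prod isCompact_Icc))
    ((box_cont ht).continuousOn.integrableOn_compact (isCompact_Icc.prod isCompact_Icc))
    (measurableSet_Icc.prod measurableSet_Icc) fun p _ => box_anti (by positivity) ?_
  linarith [sq_le_sq.2 h]

lemma box_tail {R : ℝ} (hR : 0 < R) (c : ℝ) :
    Integrable (fun p : ℝ × ℝ => (Ioi R).indicator (fun r => c / r ^ 3) √(p.1 ^ 2 + p.2 ^ 2)) ∧
      ∫ p : ℝ × ℝ, (Ioi R).indicator (fun r => c / r ^ 3) √(p.1 ^ 2 + p.2 ^ 2) =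
        2 * Real.pi * (c / R) := by
  have h1 : (fun r => r * (Ioi R).indicator (fun r => c / r ^ 3) r) =
      (Ioi R).indicator fun r => c * r ^ (-2 : ℝ) := by
    funext r
    by_cases h : r ∈ Ioi R
    · have h2 : 0 < r := hR.trans h
      rw [indicator_of_mem h, indicator_of_mem h, Real.rpow_neg h2.le, Real.rpow_two]
      field_simp
    · rw [indicator_of_notMem h, indicator_of_notMem h, mul_zero]
  have h2 : Ioi (0 : ℝ) ∩ Ioi R = Ioi R := inter_eq_right.2 (Ioi_subset_Ioi hR.le)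
  constructor
  · refine integrable_radial2 (Measurable.indicator (by fun_prop) measurableSet_Ioi) ?_
    rw [h1, integrableOn_indicator_iff measurableSet_Ioi, inter_comm, h2]
    exact (integrableOn_Ioi_rpow_of_lt (by norm_num) hR).const_mul c
  · rw [integral_radial2, h1, setIntegral_indicator measurableSet_Ioi, h2, integral_const_mul,
      integral_Ioi_rpow_of_lt (by norm_num) hR, show (-2 : ℝ) + 1 = -1 by norm_num,
      Real.rpow_neg_one]
    field_simp

lemma sheet_zero {R t : ℝ} (hR : 0 < R) (ht : t ≠ 0) :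
    8 * R * cL - 2 * Real.pi * |t| ≤ sheet R 0 0 t ∧
      sheet R 0 0 t ≤ 8 * R * cL - 2 * Real.pi * |t| + 4 * t ^ 2 / R := by
  have hm : MeasurableSet (Icc (-R) R ×ˢ Icc (-R) R) := measurableSet_Icc.prod measurableSet_Icc
  obtain ⟨h1, h2⟩ := ker2_smear (abs_nonneg t) 0
  simp only [ker2, zero_sub, Prod.fst_neg, Prod.snd_neg, neg_sq, sq_abs] at h1 h2
  rw [← integral_add_compl hm h1, integral_sub (f := fun p : ℝ × ℝ => (√(p.1 ^ 2 + p.2 ^ 2))⁻¹)
    (boxA_int0 (boxA_sq_ne _ _ _ _)) ((box_cont ht).continuousOn.integrableOn_compact (isCompact_Icc.prod isCompact_Icc))] at h2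
  have h3 := square_pot hR
  simp only [ker2] at h3
  have hout : ∀ p ∈ (Icc (-R) R ×ˢ Icc (-R) R)ᶜ, R ^ 2 < p.1 ^ 2 + p.2 ^ 2 := by
    intro p hp
    simp only [mem_compl_iff, mem_prod, mem_Icc, ← abs_le, not_and_or, not_le] at hp
    rcases hp with hp | hp
    · have := sq_lt_sq' (by linarith [abs_nonneg p.1]) hp
      nlinarith [sq_abs p.1, sq_nonneg p.2]
    · have := sq_lt_sq' (by linarith [abs_nonneg p.2]) hp
      nlinarith [sq_abs p.2, sq_nonneg p.1]
  have h4 : 0 ≤ ∫ p in (Icc (-R) R ×ˢ Icc (-R) R)ᶜ,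
      ((√(p.1 ^ 2 + p.2 ^ 2))⁻¹ - (√(p.1 ^ 2 + p.2 ^ 2 + t ^ 2))⁻¹) :=
    setIntegral_nonneg hm.compl fun p hp => sub_nonneg.2
      (box_anti ((pow_pos hR 2).trans (hout p hp)) (by nlinarith [sq_nonneg t]))
  obtain ⟨h5, h6⟩ := box_tail hR (t ^ 2 / 2)
  have h7 := (setIntegral_mono_on h1.integrableOn h5.integrableOn hm.compl fun p hp => by
    have h8 := hout p hp
    have h9 : R < √(p.1 ^ 2 + p.2 ^ 2) := Real.lt_sqrt_of_sq_lt h8
    have h10 : √(p.1 ^ 2 + p.2 ^ 2) ^ 2 = p.1 ^ 2 + p.2 ^ 2 := Real.sq_sqrt (by positivity)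
    rw [indicator_of_mem (mem_Ioi.2 h9)]
    refine (le_abs_self _).trans ((box_inv_sqrt (hR.trans h9) h10.le
      (by nlinarith [sq_nonneg t])).trans (le_of_eq ?_))
    rw [add_sub_cancel_left, abs_of_nonneg (sq_nonneg t), div_div]).trans
    (setIntegral_le_integral h5 (Eventually.of_forall fun p =>
      indicator_apply_nonneg fun h => by have := hR.trans h; positivity))
  rw [h6] at h7
  have h8 : 2 * Real.pi * (t ^ 2 / 2 / R) ≤ 4 * t ^ 2 / R :=
    calc _ ≤ 2 * 4 * (t ^ 2 / 2 / R) := by gcongr; exact Real.pi_le_four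
      _ = _ := by ring
  simp only [sheet, zero_sub, neg_sq]
  constructor <;> linarith

/-! ### The slab -/

lemma slab_eq (R : ℝ) (x : Pt) :
    IntegrableOn (fun z => sheet R (x 0) (x 1) (x 2 - z)) (Icc (-10) 10) ∧
      slab R x = ∫ z in Icc (-10 : ℝ) 10, sheet R (x 0) (x 1) (x 2 - z) := by
  have h1 : toPt ⁻¹' box R R 10 = (Icc (-R) R ×ˢ Icc (-R) R) ×ˢ Icc (-10) 10 := by
    ext p
    simp only [mem_prod, mem_Icc, ← abs_le, and_assoc]
    rfl
  have h2 := measurePreserving_toPt.restrict_preimage_emb measurableEmbedding_toPt (box R R 10)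
  rw [h1, Measure.volume_eq_prod, ← Measure.prod_restrict] at h2
  have h3 := (h2.integrable_comp_emb measurableEmbedding_toPt).2
    (integrableOn_ker (isCompact_box R R 10).measure_lt_top.ne x)
  have h4 := h2.integral_comp measurableEmbedding_toPt fun y => ker (x - y)
  have h5 : ∀ p : (ℝ × ℝ) × ℝ, ker (x - toPt p) =
      (√((x 0 - p.1.1) ^ 2 + (x 1 - p.1.2) ^ 2 + (x 2 - p.2) ^ 2))⁻¹ := by
    intro p
    simp [ker, nrm, toPt, Fin.sum_univ_three]
  simp only [Function.comp_def, h5] at h3 h4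
  exact ⟨h3.integral_prod_right, by rw [slab, ← h4, integral_prod_symm _ h3]; rfl⟩

lemma box_abs_int {c : ℝ} (hc : |c| ≤ 10) : ∫ z in Icc (-10 : ℝ) 10, |c - z| = 100 + c ^ 2 := by
  obtain ⟨h1, h2⟩ := abs_le.1 hc
  have hi : ∀ a b : ℝ, IntervalIntegrable (fun z => |c - z|) volume a b := fun a b =>
    Continuous.intervalIntegrable (by fun_prop) _ _
  rw [integral_Icc_eq_integral_Ioc, ← intervalIntegral.integral_of_le (by norm_num),
    ← intervalIntegral.integral_add_adjacent_intervals (hi _ c) (hi c _),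
    intervalIntegral.integral_congr (g := fun z => c - z) (a := -10) (b := c) (fun z hz => by
      rw [uIcc_of_le h1] at hz; exact abs_of_nonneg (by linarith [hz.2])),
    intervalIntegral.integral_congr (g := fun z => z - c) (a := c) (b := 10) (fun z hz => by
      rw [uIcc_of_le h2] at hz
      exact (abs_of_nonpos (by linarith [hz.1])).trans (neg_sub _ _)),
    intervalIntegral.integral_sub intervalIntegrable_const intervalIntegral.intervalIntegrable_id,
    intervalIntegral.integral_sub intervalIntegral.intervalIntegrable_id intervalIntegrable_const]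
  simp only [intervalIntegral.integral_const, integral_id, smul_eq_mul]
  ring

lemma box_aff_int {c : ℝ} (hc : |c| ≤ 10) (A : ℝ) :
    IntegrableOn (fun z => A - 2 * Real.pi * |c - z|) (Icc (-10 : ℝ) 10) ∧
      ∫ z in Icc (-10 : ℝ) 10, (A - 2 * Real.pi * |c - z|) =
        20 * A - 2 * Real.pi * (100 + c ^ 2) := by
  refine ⟨Continuous.integrableOn_Icc (by fun_prop), ?_⟩
  rw [integral_sub (Continuous.integrableOn_Icc (by fun_prop))
    (Continuous.integrableOn_Icc (by fun_prop)), integral_const_mul, box_abs_int hc,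
    setIntegral_const, Real.volume_real_Icc_of_le (by norm_num), smul_eq_mul]
  norm_num

lemma box_ae_ne (c : ℝ) : ∀ᵐ z ∂volume.restrict (Icc (-10 : ℝ) 10), z ∈ Icc (-10 : ℝ) 10 ∧ c - z ≠ 0 := by
  filter_upwards [ae_restrict_mem measurableSet_Icc, ae_restrict_of_ae (Measure.ae_ne volume c)]
    with z h1 h2
  exact ⟨h1, sub_ne_zero.2 h2.symm⟩

/-- Upper bound everywhere. -/
theorem slab_le : ∃ C : ℝ, 1 ≤ C ∧ ∀ (R : ℝ) (x : Pt), 1 ≤ R →
    slab R x ≤ 160 * R * cL - 200 * Real.pi - 2 * Real.pi * min |x 2| 10 ^ 2 + C / R := by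
  refine ⟨32000, by norm_num, fun R x hR => ?_⟩
  have hR0 : 0 < R := by linarith
  obtain ⟨c, h1, h2, h3⟩ : ∃ c : ℝ, |c| ≤ 10 ∧ c ^ 2 = min |x 2| 10 ^ 2 ∧
      ∀ z ∈ Icc (-10 : ℝ) 10, |c - z| ≤ |x 2 - z| := by
    rcases le_total |x 2| 10 with h | h
    · exact ⟨x 2, h, by rw [min_eq_left h, sq_abs], fun _ _ => le_rfl⟩
    rw [min_eq_right h]
    rcases le_abs.1 h with h' | h'
    · refine ⟨10, by norm_num, rfl, fun z hz => ?_⟩
      rw [abs_of_nonneg (by linarith [hz.2]), abs_of_nonneg (by linarith [hz.2])]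
      linarith
    · refine ⟨-10, by norm_num, by norm_num, fun z hz => ?_⟩
      rw [abs_of_nonpos (by linarith [hz.1]), abs_of_nonpos (by linarith [hz.1])]
      linarith
  obtain ⟨i1, e1⟩ := slab_eq R x
  obtain ⟨i2, e2⟩ := box_aff_int h1 (8 * R * cL + 1600 / R)
  have h4 := integral_mono_ae i1 i2 (by
    filter_upwards [box_ae_ne c] with z hz
    have h5 : x 2 - z ≠ 0 := abs_pos.1 ((abs_pos.2 hz.2).trans_le (h3 z hz.1))
    have h6 := ((sheet_le hR0.le h5 (x 0) (x 1)).trans (sheet_anti hz.2 (h3 z hz.1))).trans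
      (sheet_zero hR0 hz.2).2
    have h7 : 4 * (c - z) ^ 2 / R ≤ 1600 / R := by
      obtain ⟨h8, h9⟩ := abs_le.1 h1
      refine div_le_div_of_nonneg_right ?_ hR0.le
      nlinarith [hz.1.1, hz.1.2]
    linarith)
  rw [← e1, e2, h2] at h4
  refine h4.trans (le_of_eq ?_)
  ring

/-- Lower bound in the core. -/
theorem slab_ge : ∃ C : ℝ, 1 ≤ C ∧ ∀ (R l : ℝ) (x : Pt), 1 ≤ l → 2 * l ≤ R → x ∈ box l l 10 →
    160 * R * cL - 200 * Real.pi - 2 * Real.pi * x 2 ^ 2 - C * l ^ 2 / R ≤ slab R x := by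
  refine ⟨1280, by norm_num, fun R l x hl hR hx => ?_⟩
  have hR0 : 0 < R := by linarith
  obtain ⟨i1, e1⟩ := slab_eq R x
  obtain ⟨i2, e2⟩ := box_aff_int hx.2.2 (8 * R * cL - 64 * l ^ 2 / R)
  have h4 := integral_mono_ae i2 i1 (by
    filter_upwards [box_ae_ne (x 2)] with z hz
    have h5 := sheet_ge (by linarith) hR hz.2 hx.1 hx.2.1
    have h6 := (sheet_zero hR0 hz.2).1
    linarith)
  rw [← e1, e2] at h4
  refine le_trans (le_of_eq ?_) h4
  ring

end Vale.Agent.P370
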