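import Vale.Agent.P370.Radial

/-!
Coulomb integrals of squares.
-/

namespace Vale.Agent.P370

open MeasureTheory Set Filter Topology

/-- Planar distance kernel. -/
noncomputable def ker2 (p : ℝ × ℝ) : ℝ := (√(p.1 ^ 2 + p.2 ^ 2))⁻¹

lemma boxA_sqrt_mem {t : ℝ} (ht : t ∈ Icc (0 : ℝ) 1) : 1 ≤ √(1 + t ^ 2) ∧ √(1 + t ^ 2) ≤ 3 / 2 := by
  refine ⟨Real.one_le_sqrt.2 (by nlinarith [sq_nonneg t]), Real.sqrt_le_iff.2 ⟨by norm_num, ?_⟩⟩
  nlinarith [ht.1, ht.2]

lemma boxA_sqrt_ne (t : ℝ) : √(1 + t ^ 2) ≠ 0 := (Real.sqrt_pos.2 (by positivity)).ne'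

lemma boxA_cont {f : ℝ → ℝ} (hf : Continuous f) : Continuous fun t => f t / √(1 + t ^ 2) :=
  hf.div (by fun_prop) boxA_sqrt_ne

lemma cL_mem : cL ∈ Icc (1 / 2 : ℝ) 1 := by
  have hc := (boxA_cont (f := fun _ => 1) continuous_const).intervalIntegrable (μ := volume) 0 1
  constructor
  · refine le_trans (by simp) (intervalIntegral.integral_mono_on zero_le_one
      (f := fun _ => (1 / 2 : ℝ)) intervalIntegrable_const hc fun t ht => ?_)
    obtain ⟨h1, h2⟩ := boxA_sqrt_mem ht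
    rw [div_le_div_iff₀ (by norm_num) (by linarith)]
    linarith
  · refine le_trans (intervalIntegral.integral_mono_on zero_le_one
      (g := fun _ => (1 : ℝ)) hc intervalIntegrable_const fun t ht => ?_) (by simp)
    obtain ⟨h1, h2⟩ := boxA_sqrt_mem ht
    rw [div_le_one (by linarith)]
    exact h1

lemma cU_mem : cU ∈ Icc (1 : ℝ) 2 := by
  have hc := (boxA_cont (f := fun t => 2 - 2 * t / 3) (by fun_prop)).intervalIntegrable
    (μ := volume) 0 1
  constructor
  · refine le_trans ?_ (intervalIntegral.integral_mono_on zero_le_one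
      (f := fun t => 4 / 3 - 4 / 9 * t) (Continuous.intervalIntegrable (by fun_prop) _ _) hc
      fun t ht => ?_)
    · rw [intervalIntegral.integral_sub intervalIntegrable_const
        (Continuous.intervalIntegrable (by fun_prop) _ _), intervalIntegral.integral_const_mul]
      norm_num
    · obtain ⟨h1, h2⟩ := boxA_sqrt_mem ht
      rw [le_div_iff₀ (by linarith)]
      nlinarith [ht.1, ht.2]
  · refine le_trans (intervalIntegral.integral_mono_on zero_le_one
      (g := fun _ => (2 : ℝ)) hc intervalIntegrable_const fun t ht => ?_) (by simp)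
    obtain ⟨h1, h2⟩ := boxA_sqrt_mem ht
    rw [div_le_iff₀ (by linarith)]
    nlinarith [ht.1, ht.2]

lemma measurable_ker2 : Measurable ker2 := by
  unfold ker2
  fun_prop

lemma ker2_nonneg (p : ℝ × ℝ) : 0 ≤ ker2 p := inv_nonneg.2 (Real.sqrt_nonneg _)

/-- The truncated inverse. -/
noncomputable def boxA_tr (r : ℝ) : ℝ := (Iic (1 : ℝ)).indicator (fun r => r⁻¹) r

lemma boxA_tr_eq : EqOn (fun r => r * boxA_tr r) ((Iic (1 : ℝ)).indicator fun _ => 1) (Ioi 0) := by
  intro r hr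
  by_cases h : r ∈ Iic (1 : ℝ)
  · simp only [boxA_tr, indicator_of_mem h, mul_inv_cancel₀ (mem_Ioi.1 hr).ne']
  · simp only [boxA_tr, indicator_of_notMem h, mul_zero]

lemma boxA_tr_int (x : ℝ × ℝ) :
    Integrable (fun y => boxA_tr (√((x - y).1 ^ 2 + (x - y).2 ^ 2))) ∧
      ∫ y, boxA_tr (√((x - y).1 ^ 2 + (x - y).2 ^ 2)) = 2 * Real.pi := by
  constructor
  · refine (integrable_radial2 (measurable_inv.indicator measurableSet_Iic) ?_).comp_sub_left x
    refine (integrableOn_congr_fun boxA_tr_eq measurableSet_Ioi).2 ?_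
    rw [integrableOn_indicator_iff measurableSet_Iic, inter_comm, Ioi_inter_Iic]
    exact integrableOn_const measure_Ioc_lt_top.ne
  · rw [integral_sub_left_eq_self (fun p : ℝ × ℝ => boxA_tr (√(p.1 ^ 2 + p.2 ^ 2))) volume x,
      integral_radial2, setIntegral_congr_fun measurableSet_Ioi boxA_tr_eq,
      setIntegral_indicator measurableSet_Iic, Ioi_inter_Iic]
    simp

lemma boxA_tr_nonneg (p : ℝ × ℝ) : 0 ≤ boxA_tr (√(p.1 ^ 2 + p.2 ^ 2)) :=
  indicator_apply_nonneg fun _ => inv_nonneg.2 (Real.sqrt_nonneg _)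

lemma boxA_ker2_le (p : ℝ × ℝ) : ker2 p ≤ boxA_tr (√(p.1 ^ 2 + p.2 ^ 2)) + 1 := by
  by_cases h : √(p.1 ^ 2 + p.2 ^ 2) ∈ Iic (1 : ℝ)
  · rw [boxA_tr, indicator_of_mem h, ker2]
    linarith
  · rw [boxA_tr, indicator_of_notMem h, ker2, zero_add]
    exact inv_le_one_of_one_le₀ (not_le.1 h).le

theorem integrableOn_ker2 {E : Set (ℝ × ℝ)} (hE : volume E ≠ ⊤) (x : ℝ × ℝ) :
    IntegrableOn (fun y => ker2 (x - y)) E := by
  refine Integrable.mono' ((boxA_tr_int x).1.integrableOn.add (integrableOn_const (C := (1 : ℝ)) hE))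
    (measurable_ker2.comp (measurable_const.sub measurable_id)).aestronglyMeasurable
    (Eventually.of_forall fun y => ?_)
  rw [Real.norm_of_nonneg (ker2_nonneg _)]
  exact boxA_ker2_le _

theorem coulomb2_le {E : Set (ℝ × ℝ)} (hm : MeasurableSet E) (hE : volume E ≠ ⊤) (x : ℝ × ℝ) :
    ∫ y in E, ker2 (x - y) ≤ 7 + volume.real E := by
  have h1 := setIntegral_mono_on (integrableOn_ker2 hE x)
    ((boxA_tr_int x).1.integrableOn.add (integrableOn_const (C := (1 : ℝ)) hE)) hm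
    fun y _ => boxA_ker2_le (x - y)
  have h2 := setIntegral_le_integral (s := E) (boxA_tr_int x).1
    (Eventually.of_forall fun y => boxA_tr_nonneg (x - y))
  simp only [Pi.add_apply] at h1
  rw [integral_add (boxA_tr_int x).1.integrableOn (integrableOn_const hE), setIntegral_const,
    smul_eq_mul, mul_one] at h1
  rw [(boxA_tr_int x).2] at h2
  linarith [Real.pi_lt_d2]

lemma boxA_smear {e : ℝ} (he : 0 ≤ e) :
    IntegrableOn (fun r => r * (r⁻¹ - (√(r ^ 2 + e ^ 2))⁻¹)) (Ioi 0) ∧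
      ∫ r in Ioi (0 : ℝ), r * (r⁻¹ - (√(r ^ 2 + e ^ 2))⁻¹) = e := by
  have hle : ∀ r : ℝ, 0 < r → r ≤ √(r ^ 2 + e ^ 2) := fun r hr =>
    Real.le_sqrt_of_sq_le (by nlinarith [sq_nonneg e])
  have h1 : ContinuousWithinAt (fun r : ℝ => r - √(r ^ 2 + e ^ 2)) (Ici 0) 0 :=
    Continuous.continuousWithinAt (by fun_prop)
  have h2 : ∀ r ∈ Ioi (0 : ℝ), HasDerivAt (fun r : ℝ => r - √(r ^ 2 + e ^ 2))
      (r * (r⁻¹ - (√(r ^ 2 + e ^ 2))⁻¹)) r := by
    intro r hr
    have hr' : (0 : ℝ) < r := hr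
    have h3 := hr'.trans_le (hle r hr')
    refine ((hasDerivAt_id r).sub (((hasDerivAt_pow 2 r).add_const (e ^ 2)).sqrt
      (by positivity))).congr_deriv ?_
    field_simp
    ring
  have h3 : ∀ r ∈ Ioi (0 : ℝ), 0 ≤ r * (r⁻¹ - (√(r ^ 2 + e ^ 2))⁻¹) := fun r hr =>
    mul_nonneg (le_of_lt hr) (sub_nonneg.2 (inv_anti₀ hr (hle r hr)))
  have h4 : Tendsto (fun r : ℝ => r - √(r ^ 2 + e ^ 2)) atTop (𝓝 0) := by
    have h5 : Tendsto (fun r : ℝ => -(e ^ 2 * r⁻¹)) atTop (𝓝 0) := by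
      simpa using (tendsto_inv_atTop_zero.const_mul (e ^ 2)).neg
    refine tendsto_of_tendsto_of_tendsto_of_le_of_le' h5 tendsto_const_nhds ?_ ?_
    · filter_upwards [eventually_gt_atTop 0] with r hr
      have h6 : √(r ^ 2 + e ^ 2) ≤ r + e ^ 2 * r⁻¹ := by
        refine Real.sqrt_le_iff.2 ⟨by positivity, ?_⟩
        have h7 : r * (e ^ 2 * r⁻¹) = e ^ 2 := by field_simp
        nlinarith [sq_nonneg (e ^ 2 * r⁻¹), sq_nonneg e]
      linarith
    · filter_upwards [eventually_gt_atTop 0] with r hr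
      linarith [hle r hr]
  refine ⟨integrableOn_Ioi_deriv_of_nonneg h1 h2 h3 h4, ?_⟩
  rw [integral_Ioi_of_hasDerivAt_of_nonneg h1 h2 h3 h4]
  simp [Real.sqrt_sq he]

/-- Smearing the planar kernel costs little. -/
theorem ker2_smear {e : ℝ} (he : 0 ≤ e) (x : ℝ × ℝ) :
    Integrable (fun y => ker2 (x - y) - (√((x - y).1 ^ 2 + (x - y).2 ^ 2 + e ^ 2))⁻¹) ∧
      ∫ y, (ker2 (x - y) - (√((x - y).1 ^ 2 + (x - y).2 ^ 2 + e ^ 2))⁻¹) = 2 * Real.pi * e := by
  have h1 : ∀ p : ℝ × ℝ, √(p.1 ^ 2 + p.2 ^ 2) ^ 2 = p.1 ^ 2 + p.2 ^ 2 := fun p =>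
    Real.sq_sqrt (by positivity)
  have h2 := integrable_radial2 (f := fun r => r⁻¹ - (√(r ^ 2 + e ^ 2))⁻¹) (by fun_prop)
    (boxA_smear he).1
  have h3 := integral_radial2 (fun r => r⁻¹ - (√(r ^ 2 + e ^ 2))⁻¹)
  simp only [h1] at h2 h3
  refine ⟨h2.comp_sub_left x, ?_⟩
  rw [integral_sub_left_eq_self
    (fun p : ℝ × ℝ => ker2 p - (√(p.1 ^ 2 + p.2 ^ 2 + e ^ 2))⁻¹) volume x]
  rw [(boxA_smear he).2] at h3
  exact h3

/-- Reduction of a symmetric planar integral to a triangle. -/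
lemma boxA_tri {H : ℝ → ℝ → ℝ} (hs : ∀ a b, H a b = H b a)
    (hi : Integrable fun p : ℝ × ℝ => H |p.1| |p.2|) :
    ∫ p : ℝ × ℝ, H |p.1| |p.2| = 8 * ∫ a in Ioi (0 : ℝ), a * ∫ t in (0 : ℝ)..1, H a (a * t) := by
  have key : ∀ S : ℝ → Set ℝ, MeasurableSet {p : ℝ × ℝ | |p.2| ∈ S |p.1|} →
      (∀ a, MeasurableSet (S a)) → (∀ a, 0 < a → (Ioi 0 ∩ S a : Set ℝ) =ᵐ[volume] Ioc 0 a) →
      ∫ p in {p : ℝ × ℝ | |p.2| ∈ S |p.1|}, H |p.1| |p.2| =
        4 * ∫ a in Ioi (0 : ℝ), a * ∫ t in (0 : ℝ)..1, H a (a * t) := by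
    intro S h1 h2 h3
    rw [← integral_indicator h1, Measure.volume_eq_prod, integral_prod _ (hi.indicator h1)]
    have h4 : ∀ a : ℝ, ∫ b, {p : ℝ × ℝ | |p.2| ∈ S |p.1|}.indicator
        (fun p : ℝ × ℝ => H |p.1| |p.2|) (a, b) =
        (fun a => 2 * ∫ b in Ioi (0 : ℝ), (S a).indicator (H a) b) |a| := by
      intro a
      exact integral_comp_abs (f := (S |a|).indicator (H |a|))
    simp only [h4]
    rw [integral_comp_abs (f := fun a => 2 * ∫ b in Ioi (0 : ℝ), (S a).indicator (H a) b),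
      integral_const_mul, ← mul_assoc]
    congr 1
    · norm_num
    refine setIntegral_congr_fun measurableSet_Ioi fun a ha => ?_
    rw [setIntegral_indicator (h2 a), setIntegral_congr_set (h3 a ha),
      intervalIntegral.mul_integral_comp_mul_left, mul_zero, mul_one,
      intervalIntegral.integral_of_le (le_of_lt ha)]
  have m1 : MeasurableSet {p : ℝ × ℝ | |p.2| ∈ Iic |p.1|} :=
    measurableSet_le (f := fun p : ℝ × ℝ => |p.2|) (by fun_prop) (by fun_prop)
  have m2 : MeasurableSet {p : ℝ × ℝ | |p.2| ∈ Iio |p.1|} :=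
    measurableSet_lt (f := fun p : ℝ × ℝ => |p.2|) (by fun_prop) (by fun_prop)
  have h1 := key (fun a => Iic a) m1 (fun _ => measurableSet_Iic) fun a _ =>
    Ioi_inter_Iic.eventuallyEq
  have h2 := key (fun a => Iio a) m2 (fun _ => measurableSet_Iio) fun a _ => by
    rw [Ioi_inter_Iio]; exact Ioo_ae_eq_Ioc
  have h3 : ∫ p in {p : ℝ × ℝ | |p.2| ∈ Iic |p.1|}ᶜ, H |p.1| |p.2| =
      ∫ p in {p : ℝ × ℝ | |p.2| ∈ Iio |p.1|}, H |p.1| |p.2| := by
    rw [← integral_indicator m1.compl, ← integral_indicator m2, Measure.volume_eq_prod,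
      ← integral_prod_swap]
    refine integral_congr_ae (Eventually.of_forall fun p => ?_)
    simp only [indicator, mem_compl_iff, mem_ofPred_eq, mem_Iic, mem_Iio, not_le, Prod.fst_swap,
      Prod.snd_swap, hs |p.2|]
  rw [← integral_add_compl m1 hi, h3, h1, h2]
  ring

lemma boxA_ker2_abs (p : ℝ × ℝ) : ker2 p = (√(|p.1| ^ 2 + |p.2| ^ 2))⁻¹ := by
  rw [sq_abs, sq_abs, ker2]

lemma boxA_int0 {E : Set (ℝ × ℝ)} (hE : volume E ≠ ⊤) : IntegrableOn ker2 E := by
  have := integrableOn_ker2 hE 0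
  simp only [ker2, zero_sub, Prod.fst_neg, Prod.snd_neg, neg_sq] at this
  exact this

lemma boxA_sq_ne (a b c d : ℝ) : volume (Icc a b ×ˢ Icc c d) ≠ ⊤ :=
  (isCompact_Icc.prod isCompact_Icc).measure_lt_top.ne

/-- Weighted version: an even weight supported in an interval. -/
lemma boxA_weight {w : ℝ → ℝ} (hw : Continuous w) {R : ℝ} (hR : 0 < R) :
    ∫ p in Icc (-R) R ×ˢ Icc (-R) R, ker2 p * (w |p.1| * w |p.2|) =
      8 * ∫ a in (0 : ℝ)..R, w a * ∫ t in (0 : ℝ)..1, w (a * t) / √(1 + t ^ 2) := by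
  have hm : MeasurableSet (Icc (-R) R ×ˢ Icc (-R) R) := measurableSet_Icc.prod measurableSet_Icc
  have h1 : (Icc (-R) R ×ˢ Icc (-R) R).indicator (fun p : ℝ × ℝ => ker2 p * (w |p.1| * w |p.2|)) =
      fun p : ℝ × ℝ => (fun a b : ℝ => (√(a ^ 2 + b ^ 2))⁻¹ *
        ((Iic R).indicator w a * (Iic R).indicator w b)) |p.1| |p.2| := by
    funext p
    simp only [indicator, mem_prod, mem_Icc, ← abs_le, mem_Iic, boxA_ker2_abs]
    by_cases h : |p.1| ≤ R <;> by_cases h' : |p.2| ≤ R <;> simp [h, h']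
  have h2 : IntegrableOn (fun p : ℝ × ℝ => ker2 p * (w |p.1| * w |p.2|))
      (Icc (-R) R ×ˢ Icc (-R) R) :=
    (boxA_int0 (boxA_sq_ne _ _ _ _)).mul_continuousOn (by fun_prop)
      (isCompact_Icc.prod isCompact_Icc)
  rw [← integrable_indicator_iff hm, h1] at h2
  rw [← integral_indicator hm, h1]
  refine (boxA_tri (H := fun a b : ℝ => (√(a ^ 2 + b ^ 2))⁻¹ *
    ((Iic R).indicator w a * (Iic R).indicator w b))
    (fun a b => by rw [add_comm, mul_comm ((Iic R).indicator w a)]) h2).trans ?_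
  rw [intervalIntegral.integral_of_le hR.le, ← Ioi_inter_Iic,
    ← setIntegral_indicator measurableSet_Iic]
  congr 1
  refine setIntegral_congr_fun measurableSet_Ioi fun a ha => ?_
  have ha' : (0 : ℝ) < a := ha
  by_cases h : a ∈ Iic R
  · simp only [indicator_of_mem h]
    rw [← intervalIntegral.integral_const_mul, ← intervalIntegral.integral_const_mul]
    refine intervalIntegral.integral_congr fun t ht => ?_
    rw [uIcc_of_le zero_le_one] at ht
    have h3 : a * t ∈ Iic R := (mul_le_of_le_one_right ha'.le ht.2).trans h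
    have h4 : √(a ^ 2 + (a * t) ^ 2) = a * √(1 + t ^ 2) := by
      rw [show a ^ 2 + (a * t) ^ 2 = a ^ 2 * (1 + t ^ 2) by ring, Real.sqrt_mul (sq_nonneg _),
        Real.sqrt_sq ha'.le]
    have h5 := boxA_sqrt_ne t
    simp only [indicator_of_mem h3, h4]
    field_simp
  · simp [indicator_of_notMem h]

/-- Potential of a square at its centre. -/
theorem square_pot {R : ℝ} (hR : 0 < R) :
    ∫ y in Icc (-R) R ×ˢ Icc (-R) R, ker2 y = 8 * R * cL := by
  have := boxA_weight (w := fun _ => 1) continuous_const hR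
  simp only [mul_one, one_mul, intervalIntegral.integral_const, sub_zero, smul_eq_mul] at this
  rw [this, cL, mul_assoc]

lemma boxA_overlap {r w : ℝ} (a : ℝ) (hw : |w| ≤ 2 * r) :
    ∫ x, (Icc (a - r) (a + r)).indicator (1 : ℝ → ℝ) x *
      (Icc (a - r) (a + r)).indicator (1 : ℝ → ℝ) (x - w) = 2 * r - |w| := by
  have h1 : ∀ x, (Icc (a - r) (a + r)).indicator (1 : ℝ → ℝ) x *
      (Icc (a - r) (a + r)).indicator (1 : ℝ → ℝ) (x - w) =
      (Icc (a - r + max w 0) (a + r + min w 0)).indicator (1 : ℝ → ℝ) x := by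
    intro x
    have : x ∈ Icc (a - r + max w 0) (a + r + min w 0) ↔
        x ∈ Icc (a - r) (a + r) ∧ x - w ∈ Icc (a - r) (a + r) := by
      simp only [mem_Icc]
      rcases le_total w 0 with h | h
      · rw [max_eq_right h, min_eq_left h]
        exact ⟨fun h' => ⟨⟨by linarith [h'.1], by linarith [h'.2]⟩, by linarith [h'.1],
          by linarith [h'.2]⟩, fun h' => ⟨by linarith [h'.1.1], by linarith [h'.2.2]⟩⟩
      · rw [max_eq_left h, min_eq_right h]
        exact ⟨fun h' => ⟨⟨by linarith [h'.1], by linarith [h'.2]⟩, by linarith [h'.1],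
          by linarith [h'.2]⟩, fun h' => ⟨by linarith [h'.2.1], by linarith [h'.1.2]⟩⟩
    simp only [indicator, this, Pi.one_apply]
    by_cases h : x ∈ Icc (a - r) (a + r) <;> by_cases h' : x - w ∈ Icc (a - r) (a + r) <;>
      simp only [h, h', if_true, if_false, mul_one, mul_zero, and_self, and_false, false_and]
  have h2 : a + r + min w 0 - (a - r + max w 0) = 2 * r - |w| := by
    rcases le_total w 0 with h | h
    · rw [max_eq_right h, min_eq_left h, abs_of_nonpos h]; ring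
    · rw [max_eq_left h, min_eq_right h, abs_of_nonneg h]; ring
  simp only [h1]
  rw [integral_indicator_one measurableSet_Icc, Real.volume_real_Icc, h2, max_eq_left (by linarith)]

/-- Self-energy of a square. -/
theorem square_self {r : ℝ} (hr : 0 < r) (a b : ℝ) :
    ∫ x in Icc (a - r) (a + r) ×ˢ Icc (b - r) (b + r),
      ∫ y in Icc (a - r) (a + r) ×ˢ Icc (b - r) (b + r), ker2 (x - y) = 16 * r ^ 3 * cU := by
  set S := Icc (a - r) (a + r) ×ˢ Icc (b - r) (b + r) with hS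
  set T := Icc (-(2 * r)) (2 * r) ×ˢ Icc (-(2 * r)) (2 * r) with hT
  have mS : MeasurableSet S := measurableSet_Icc.prod measurableSet_Icc
  have mT : MeasurableSet T := measurableSet_Icc.prod measurableSet_Icc
  have h1 : ∀ x ∈ S, ∫ y in S, ker2 (x - y) =
      ∫ w in T, ker2 w * S.indicator (1 : ℝ × ℝ → ℝ) (x - w) := by
    intro x hx
    rw [← integral_indicator mS, ← integral_sub_left_eq_self _ volume x, ← integral_indicator mT]
    refine integral_congr_ae (Eventually.of_forall fun w => ?_)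
    by_cases h : x - w ∈ S
    · have h2 : w ∈ T := by
        simp only [hS, hT, mem_prod, mem_Icc, Prod.fst_sub, Prod.snd_sub] at h hx ⊢
        refine ⟨⟨?_, ?_⟩, ?_, ?_⟩ <;> linarith [h.1.1, h.1.2, h.2.1, h.2.2, hx.1.1, hx.1.2,
          hx.2.1, hx.2.2]
      simp only [indicator_of_mem h, indicator_of_mem h2, sub_sub_cancel, Pi.one_apply, mul_one]
    · simp [indicator, h]
  have h2 : Integrable (Function.uncurry fun x w : ℝ × ℝ =>
      ker2 w * S.indicator (1 : ℝ × ℝ → ℝ) (x - w)) ((volume.restrict S).prod (volume.restrict T)) := by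
    have h3 : IntegrableOn (fun _ : ℝ × ℝ => (1 : ℝ)) S := integrableOn_const (boxA_sq_ne _ _ _ _)
    refine (Integrable.mul_prod h3 (boxA_int0 (E := T) (boxA_sq_ne _ _ _ _))).mono'
      ((measurable_ker2.comp measurable_snd).mul ((measurable_one.indicator mS).comp
        (measurable_fst.sub measurable_snd))).aestronglyMeasurable
      (Eventually.of_forall fun z => ?_)
    rw [Function.uncurry, one_mul, norm_mul, Real.norm_of_nonneg (ker2_nonneg _)]
    refine mul_le_of_le_one_right (ker2_nonneg _) ?_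
    exact (norm_indicator_le_norm_self _ _).trans (by simp)
  have h3 : ∀ w ∈ T, ∫ x in S, ker2 w * S.indicator (1 : ℝ × ℝ → ℝ) (x - w) =
      ker2 w * ((2 * r - |w.1|) * (2 * r - |w.2|)) := by
    intro w hw
    rw [integral_const_mul, ← boxA_overlap a (abs_le.2 hw.1), ← boxA_overlap b (abs_le.2 hw.2),
      ← integral_prod_mul, ← integral_indicator mS]
    congr 1
    refine integral_congr_ae (Eventually.of_forall fun x => ?_)
    simp only [indicator, hS, mem_prod, Prod.fst_sub, Prod.snd_sub, Pi.one_apply]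
    by_cases h1 : x.1 ∈ Icc (a - r) (a + r) <;> by_cases h2 : x.2 ∈ Icc (b - r) (b + r) <;>
      by_cases h3 : x.1 - w.1 ∈ Icc (a - r) (a + r) <;>
      by_cases h4 : x.2 - w.2 ∈ Icc (b - r) (b + r) <;>
      simp only [h1, h2, h3, h4, if_true, if_false, mul_one, mul_zero, and_self, and_false,
        false_and]
  rw [setIntegral_congr_fun mS h1, integral_integral_swap h2, setIntegral_congr_fun mT h3,
    boxA_weight (w := fun u => 2 * r - u) (by fun_prop) (by linarith)]
  have hL := (boxA_cont (f := fun _ => 1) continuous_const).intervalIntegrable (μ := volume) 0 1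
  have hM := (boxA_cont (f := fun t => t) continuous_id).intervalIntegrable (μ := volume) 0 1
  have h4 : ∀ c d : ℝ, ∫ t in (0 : ℝ)..1, (c - d * t) / √(1 + t ^ 2) =
      c * cL - d * ∫ t in (0 : ℝ)..1, t / √(1 + t ^ 2) := by
    intro c d
    rw [cL, ← intervalIntegral.integral_const_mul, ← intervalIntegral.integral_const_mul,
      ← intervalIntegral.integral_sub (hL.const_mul _) (hM.const_mul _)]
    refine intervalIntegral.integral_congr fun t _ => ?_
    ring
  have h5 : cU = 2 * cL - 2 / 3 * ∫ t in (0 : ℝ)..1, t / √(1 + t ^ 2) := by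
    rw [← h4, cU]
    refine intervalIntegral.integral_congr fun t _ => ?_
    ring
  simp only [h4]
  rw [h5]
  generalize (∫ t in (0 : ℝ)..1, t / √(1 + t ^ 2)) = M
  rw [intervalIntegral.integral_eq_sub_of_hasDerivAt (f := fun u => 4 * r ^ 2 * cL * u -
    (r * M + r * cL) * u ^ 2 + M / 3 * u ^ 3) (fun u _ => ?_)
    (Continuous.intervalIntegrable (by fun_prop) _ _)]
  · ring
  · refine (((hasDerivAt_id u).const_mul _).sub ((hasDerivAt_pow 2 u).const_mul _)).add
      ((hasDerivAt_pow 3 u).const_mul _) |>.congr_deriv ?_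
    push_cast
    ring

end Vale.Agent.P370
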