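import Vale.Agent.P370.ManyUp
import Vale.Agent.P370.Newton

/-!
Perturbation of the one-body bounds by a rough potential `W`.
-/

namespace Vale.Agent.P370

open MeasureTheory

lemma cb_qV_add {V W ψ : Pt → ℝ}
    (hVi : ∀ f, Continuous f → HasCompactSupport f → Integrable fun x => V x * f x)
    (hWi : ∀ f, Continuous f → HasCompactSupport f → Integrable fun x => W x * f x)
    (hψ : C1c ψ) : qV (fun x => V x + W x) ψ = qV V ψ + ∫ x, W x * ψ x ^ 2 := by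
  have h := hψ.mu_cc.sq
  simp only [qV, add_mul]
  rw [integral_add (hVi _ h.1 h.2) (hWi _ h.1 h.2)]
  ring

lemma cb_W_lc {M : ℕ} {η : Arm M → Pt → ℝ} (h : ∀ a, C1c (η a)) {W : Pt → ℝ} {σ ε₁ : ℝ}
    (hWi : ∀ f, Continuous f → HasCompactSupport f → Integrable fun x => W x * f x)
    (hW1 : ∀ i j, |(∫ x, W x * (η i x * η j x)) + σ * ∫ x, η i x * η j x| ≤ ε₁)
    (c : Arm M → ℝ) :
    |(∫ x, W x * lc η c x ^ 2) + σ * ∫ x, lc η c x ^ 2| ≤ 3 * M * ε₁ * ∑ a, c a ^ 2 := by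
  have h2 : ∫ x, W x * lc η c x ^ 2 = qf (fun a b => ∫ x, W x * (η a x * η b x)) c :=
    mu_int_sq η W c fun a b => hWi _ ((h a).mu_cc.mul (h b).mu_cc).1 ((h a).mu_cc.mul (h b).mu_cc).2
  rw [h2, ← mu_qf_G h, ← mu_qf_smul, ← mu_qf_add, qf]
  have h3 : ∀ a b, |c a * c b * ((∫ x, W x * (η a x * η b x)) + σ * muG η a b)| ≤
      ε₁ / 2 * c a ^ 2 + ε₁ / 2 * c b ^ 2 := by
    intro a b
    have h4 := hW1 a b
    have h5 : 0 ≤ ε₁ := (abs_nonneg _).trans h4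
    have h6 : |c a * c b| ≤ (c a ^ 2 + c b ^ 2) / 2 := by
      rw [abs_le]
      constructor <;> nlinarith [sq_nonneg (c a + c b), sq_nonneg (c a - c b)]
    rw [abs_mul]
    calc _ ≤ (c a ^ 2 + c b ^ 2) / 2 * ε₁ := mul_le_mul h6 h4 (abs_nonneg _) (by positivity)
      _ = _ := by ring
  refine (Finset.abs_sum_le_sum_abs _ _).trans ((Finset.sum_le_sum fun a _ =>
    (Finset.abs_sum_le_sum_abs _ _).trans (Finset.sum_le_sum fun b _ => h3 a b)).trans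
    (le_of_eq ?_))
  simp only [Finset.sum_add_distrib, Finset.sum_const, Finset.card_univ, Fintype.card_prod,
    Fintype.card_fin, nsmul_eq_mul, ← Finset.mul_sum]
  push_cast
  ring

lemma cb_c1c_add {f g : Pt → ℝ} (hf : C1c f) (hg : C1c g) (t : ℝ) :
    C1c fun x => f x + t * g x :=
  ⟨hf.1.add (contDiff_const.mul hg.1), hf.2.add hg.2.mul_left⟩

lemma cb_pd_add {f g : Pt → ℝ} (hf : C1c f) (hg : C1c g) (t : ℝ) (k : Fin 3) (x : Pt) :
    pd k (fun x => f x + t * g x) x = pd k f x + t * pd k g x := by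
  have h1 := hf.1.differentiable one_ne_zero x
  have h2 := hg.1.differentiable one_ne_zero x
  unfold pd
  rw [fderiv_fun_add h1 (h2.const_mul t), fderiv_const_mul h2]
  rfl

lemma cb_para {V f g : Pt → ℝ}
    (hVi : ∀ f, Continuous f → HasCompactSupport f → Integrable fun x => V x * f x)
    (hf : C1c f) (hg : C1c g) :
    qV V (fun x => f x + 1 * g x) + qV V (fun x => f x + (-1) * g x) = 2 * qV V f + 2 * qV V g ∧
    (∫ x, (f x + 1 * g x) ^ 2) + ∫ x, (f x + (-1) * g x) ^ 2 =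
      2 * (∫ x, f x ^ 2) + 2 * ∫ x, g x ^ 2 := by
  have hp := cb_c1c_add hf hg 1
  have hm := cb_c1c_add hf hg (-1)
  have e1 : (∫ x, gsq (fun x => f x + 1 * g x) x) + ∫ x, gsq (fun x => f x + (-1) * g x) x =
      2 * (∫ x, gsq f x) + 2 * ∫ x, gsq g x := by
    rw [← integral_add hp.integrable_gsq hm.integrable_gsq, ← integral_const_mul,
      ← integral_const_mul,
      ← integral_add (hf.integrable_gsq.const_mul _) (hg.integrable_gsq.const_mul _)]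
    refine integral_congr_ae (Filter.Eventually.of_forall fun x => ?_)
    simp only [gsq, cb_pd_add hf hg, Fin.sum_univ_three]
    ring
  have e2 : (∫ x, V x * (f x + 1 * g x) ^ 2) + ∫ x, V x * (f x + (-1) * g x) ^ 2 =
      2 * (∫ x, V x * f x ^ 2) + 2 * ∫ x, V x * g x ^ 2 := by
    rw [← integral_add (hVi _ hp.mu_cc.sq.1 hp.mu_cc.sq.2) (hVi _ hm.mu_cc.sq.1 hm.mu_cc.sq.2),
      ← integral_const_mul, ← integral_const_mul,
      ← integral_add ((hVi _ hf.mu_cc.sq.1 hf.mu_cc.sq.2).const_mul _)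
        ((hVi _ hg.mu_cc.sq.1 hg.mu_cc.sq.2).const_mul _)]
    refine integral_congr_ae (Filter.Eventually.of_forall fun x => ?_)
    simp only
    ring
  constructor
  · simp only [qV]
    linarith
  · rw [← integral_add hp.mu_cc.sq.integrable hm.mu_cc.sq.integrable, ← integral_const_mul,
      ← integral_const_mul,
      ← integral_add (hf.mu_cc.sq.integrable.const_mul _) (hg.mu_cc.sq.integrable.const_mul _)]
    refine integral_congr_ae (Filter.Eventually.of_forall fun x => ?_)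
    simp only
    ring

lemma cb_gsq_le {V ψ : Pt → ℝ} {E B : ℝ}
    (hVi : ∀ f, Continuous f → HasCompactSupport f → Integrable fun x => V x * f x)
    (hB : ∀ x, E - B ≤ V x) (hψ : C1c ψ) :
    1 / 2 * ∫ x, gsq ψ x ≤ qV V ψ - (E - B) * ∫ x, ψ x ^ 2 := by
  have : ∫ x, (E - B) * ψ x ^ 2 ≤ ∫ x, V x * ψ x ^ 2 :=
    integral_mono (hψ.mu_cc.sq.integrable.const_mul _) (hVi _ hψ.mu_cc.sq.1 hψ.mu_cc.sq.2)
      fun x => mul_le_mul_of_nonneg_right (hB x) (sq_nonneg _)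
  rw [integral_const_mul] at this
  rw [qV]
  linarith

/-- Splitting off the soft part. -/
lemma cb_split {M : ℕ} {η : Arm M → Pt → ℝ} (h : ∀ a, C1c (η a)) {W : Pt → ℝ} {σ a γ : ℝ}
    (hWi : ∀ f, Continuous f → HasCompactSupport f → Integrable fun x => W x * f x)
    (hW2 : ∀ i, Integrable (fun x => ((W x + σ) * η i x) ^ 2) ∧
      ∫ x, ((W x + σ) * η i x) ^ 2 ≤ a ^ 2) (hσ : 0 ≤ σ) (hγ : 0 < γ) {ψ : Pt → ℝ} (hψ : C1c ψ)
    (c : Arm M → ℝ) :
    ((∫ x, W x * lc η c x ^ 2) + σ * ∫ x, lc η c x ^ 2) +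
      (∫ x, W x * (ψ x + (-1) * lc η c x) ^ 2) -
      γ / 16 * (∫ x, (ψ x + (-1) * lc η c x) ^ 2) - 48 * M * a ^ 2 / γ * ∑ i, c i ^ 2 ≤
      (∫ x, W x * ψ x ^ 2) + σ * ∫ x, ψ x ^ 2 := by
  have hu := mu_lc_c1c h c
  have hp := cb_c1c_add hψ hu (-1)
  have hc : 0 ≤ ∑ i, c i ^ 2 := Finset.sum_nonneg fun _ _ => sq_nonneg _
  have i1 := hWi _ hu.mu_cc.sq.1 hu.mu_cc.sq.2
  have i2 := hu.mu_cc.sq.integrable.const_mul σ
  have i3 := hWi _ hp.mu_cc.sq.1 hp.mu_cc.sq.2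
  have i4 := hp.mu_cc.sq.integrable.const_mul (γ / 16)
  have i5 : Integrable fun x => 16 / γ * (∑ i, c i ^ 2) * ∑ i, ((W x + σ) * η i x) ^ 2 :=
    (integrable_finsetSum _ fun i _ => (hW2 i).1).const_mul _
  have i6 := hWi _ hψ.mu_cc.sq.1 hψ.mu_cc.sq.2
  have i7 := hψ.mu_cc.sq.integrable.const_mul σ
  have key : ∫ x, (W x * lc η c x ^ 2 + σ * lc η c x ^ 2 + W x * (ψ x + (-1) * lc η c x) ^ 2 -
      γ / 16 * (ψ x + (-1) * lc η c x) ^ 2 -
      16 / γ * (∑ i, c i ^ 2) * ∑ i, ((W x + σ) * η i x) ^ 2) ≤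
      ∫ x, (W x * ψ x ^ 2 + σ * ψ x ^ 2) := by
    refine integral_mono ((((i1.add i2).add i3).sub i4).sub i5) (i6.add i7) fun x => ?_
    have h1 : ((W x + σ) * lc η c x) ^ 2 ≤ (∑ i, c i ^ 2) * ∑ i, ((W x + σ) * η i x) ^ 2 := by
      refine le_trans (le_of_eq ?_) (Finset.sum_mul_sq_le_sq_mul_sq _ _ _)
      rw [lc, Finset.mul_sum]
      exact congrArg (· ^ 2) (Finset.sum_congr rfl fun i _ => by ring)
    set y := ψ x + (-1) * lc η c x with hy
    have hψx : ψ x = lc η c x + y := by rw [hy]; ring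
    set z := (W x + σ) * lc η c x with hz
    have h2 : 16 / γ * z ^ 2 ≤ 16 / γ * ((∑ i, c i ^ 2) * ∑ i, ((W x + σ) * η i x) ^ 2) :=
      mul_le_mul_of_nonneg_left h1 (by positivity)
    have h3 : 0 ≤ γ / 16 * y ^ 2 + 2 * z * y + 16 / γ * z ^ 2 := by
      have : γ / 16 * y ^ 2 + 2 * z * y + 16 / γ * z ^ 2 = γ / 16 * (y + 16 / γ * z) ^ 2 := by
        field_simp
        ring
      rw [this]; positivity
    have h4 : 0 ≤ σ * y ^ 2 := by positivity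
    have h5 : W x * ψ x ^ 2 + σ * ψ x ^ 2 = W x * lc η c x ^ 2 + σ * lc η c x ^ 2 + W x * y ^ 2 +
        σ * y ^ 2 + 2 * z * y := by
      rw [hψx, hz]; ring
    simp only
    rw [h5]
    linarith
  have j1 : Integrable fun x => W x * lc η c x ^ 2 + σ * lc η c x ^ 2 := i1.add i2
  have j2 : Integrable fun x => W x * lc η c x ^ 2 + σ * lc η c x ^ 2 +
      W x * (ψ x + (-1) * lc η c x) ^ 2 := j1.add i3
  have j3 : Integrable fun x => W x * lc η c x ^ 2 + σ * lc η c x ^ 2 +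
      W x * (ψ x + (-1) * lc η c x) ^ 2 - γ / 16 * (ψ x + (-1) * lc η c x) ^ 2 := j2.sub i4
  rw [integral_sub j3 i5, integral_sub j2 i4,
    integral_add j1 i3, integral_add i1 i2, integral_add i6 i7, integral_const_mul,
    integral_const_mul, integral_const_mul, integral_const_mul,
    integral_finsetSum _ fun i _ => (hW2 i).1] at key
  have h6 : ∑ i, ∫ x, ((W x + σ) * η i x) ^ 2 ≤ 3 * M * a ^ 2 := by
    refine (Finset.sum_le_sum fun i _ => (hW2 i).2).trans (le_of_eq ?_)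
    simp only [Finset.sum_const, Finset.card_univ, Fintype.card_prod, Fintype.card_fin,
      nsmul_eq_mul]
    push_cast
    ring
  have h7 := mul_le_mul_of_nonneg_left h6 (show 0 ≤ 16 / γ * ∑ i, c i ^ 2 by positivity)
  have h8 : 16 / γ * (∑ i, c i ^ 2) * (3 * M * a ^ 2) = 48 * M * a ^ 2 / γ * ∑ i, c i ^ 2 := by
    ring
  linarith

lemma cb_dist {M : ℕ} {φ η : Arm M → Pt → ℝ} {δ : ℝ} (hφ : Sharp φ) (hη : Soft φ η δ)
    {ψ : Pt → ℝ} (hψ : C1c ψ) :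
    ∫ x, (ψ x + (-1) * lc η (co φ ψ) x) ^ 2 ≤
      2 * ((∫ x, ψ x ^ 2) - ∑ a, co φ ψ a ^ 2) + 2 * δ * ∑ a, co φ ψ a ^ 2 := by
  obtain ⟨i1, e1⟩ := hφ.mu_pyth hψ.mu_cc
  have i2 := hη.mu_integrable_diff_sq hφ (co φ ψ)
  have hp := cb_c1c_add hψ (mu_lc_c1c hη.mu_c1c (co φ ψ)) (-1)
  have key : ∫ x, (ψ x + (-1) * lc η (co φ ψ) x) ^ 2 ≤
      ∫ x, (2 * (ψ x - lc φ (co φ ψ) x) ^ 2 + 2 * (lc η (co φ ψ) x - lc φ (co φ ψ) x) ^ 2) := by
    refine integral_mono hp.mu_cc.sq.integrable ((i1.const_mul _).add (i2.const_mul _)) fun x => ?_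
    simp only
    nlinarith [sq_nonneg (ψ x + lc η (co φ ψ) x - 2 * lc φ (co φ ψ) x)]
  rw [integral_add (i1.const_mul _) (i2.const_mul _), integral_const_mul, integral_const_mul,
    e1] at key
  have := hη.close (co φ ψ)
  linarith

theorem comb_low {M : ℕ} {φ η : Arm M → Pt → ℝ} {δ : ℝ} (hφ : Sharp φ) (hη : Soft φ η δ)
    {V W : Pt → ℝ} {E T γ ε B σ ε₁ a b : ℝ}
    (hVi : ∀ f, Continuous f → HasCompactSupport f → Integrable fun x => V x * f x)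
    (hWi : ∀ f, Continuous f → HasCompactSupport f → Integrable fun x => W x * f x)
    (h1 : OBlow V φ E T γ ε) (h2 : OBup V η E T ε) (hB : ∀ x, E - B ≤ V x)
    (hW1 : ∀ i j, |(∫ x, W x * (η i x * η j x)) + σ * ∫ x, η i x * η j x| ≤ ε₁)
    (hW2 : ∀ i, Integrable (fun x => ((W x + σ) * η i x) ^ 2) ∧
      ∫ x, ((W x + σ) * η i x) ^ 2 ≤ a ^ 2)
    (hW3 : ∀ ψ, C1c ψ → -(b * ((∫ x, ψ x ^ 2) + ∫ x, gsq ψ x)) ≤ ∫ x, W x * ψ x ^ 2)
    (hσ : 0 ≤ σ) (hT : 0 ≤ T) (hε : 0 ≤ ε) (hδ : 0 ≤ δ) (hδ1 : δ ≤ 1) (ha : 0 ≤ a) (hb : 0 ≤ b)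
    (hB1 : 1 ≤ B) (hγ : 0 < γ) (hγ1 : γ ≤ 1) (hbγ : 100 * b * B ≤ γ) :
    OBlow (fun x => V x + W x) φ (E - σ) T (γ / 2)
      (ε + 3 * M * ε₁ + 100 * (b * (T + ε + B * δ) + M * a ^ 2 / γ + γ * δ)) := by
  intro ψ hψ
  have h := hη.mu_c1c
  set c := co φ ψ with hc
  have hu := mu_lc_c1c h c
  have hp := cb_c1c_add hψ hu 1
  have hm := cb_c1c_add hψ hu (-1)
  have hM : 0 ≤ 3 * M * ε₁ := by
    rcases Nat.eq_zero_or_pos M with h0 | h0
    · rw [h0]; simp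
    · have := (abs_nonneg _).trans (hW1 (⟨0, h0⟩, 0) (⟨0, h0⟩, 0))
      positivity
  obtain ⟨p1, p2⟩ := cb_para hVi hψ hu
  have q1 := h1 ψ hψ
  have q2 := h1 _ hp
  have q3 := h2 c
  have q4 := hφ.mu_bessel hp.mu_cc
  have q5 := hφ.mu_bessel hψ.mu_cc
  have q6 := mu_hop_nonneg (co φ fun x => ψ x + 1 * lc η c x)
  have q7 := mu_hop_nonneg c
  have q8 := mu_hop_le c
  have q9 := cb_gsq_le hVi hB hm
  have q10 := cb_split h hWi hW2 hσ hγ hψ c
  have q11 := cb_dist hφ hη hψ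
  have q12 := (abs_le.1 (cb_W_lc h hWi hW1 c)).1
  have q13 := hW3 _ hm
  have q14 := hη.norm_eq hφ c
  have q15 := hη.close c
  have q16 : 0 ≤ ∑ i, c i ^ 2 := Finset.sum_nonneg fun _ _ => sq_nonneg _
  rw [cb_qV_add hVi hWi hψ]
  rw [← hc] at q1 q5 q11
  set n := ∫ x, ψ x ^ 2
  set m := ∑ i, c i ^ 2
  set H := hop c
  set nu := ∫ x, lc η c x ^ 2
  set np := ∫ x, (ψ x + 1 * lc η c x) ^ 2
  set nm := ∫ x, (ψ x + (-1) * lc η c x) ^ 2
  set Q := qV V ψ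
  set Qu := qV V (lc η c)
  set Qp := qV V fun x => ψ x + 1 * lc η c x
  set Qm := qV V fun x => ψ x + (-1) * lc η c x
  set gm := ∫ x, gsq (fun x => ψ x + (-1) * lc η c x) x
  have hnm : 0 ≤ nm := integral_nonneg fun _ => sq_nonneg _
  have r1 : (E - ε) * np ≤ Qp := by
    have := mul_nonneg hT q6
    have := mul_nonneg hγ.le (sub_nonneg.2 q4)
    linarith
  have r2 : Qm - (E - ε) * nm ≤ 2 * (Q - (E - ε) * n) + 2 * (Qu - (E - ε) * nu) := by
    have : (E - ε) * (np + nm) = (E - ε) * (2 * n + 2 * nu) := by rw [p2]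
    linarith
  have r3 : Qu - (E - ε) * nu ≤ (T + 3 * ε) * m := by
    have h3 : nu ≤ 2 * m := by nlinarith
    have := mul_le_mul_of_nonneg_left h3 hε
    have := mul_le_mul_of_nonneg_left q8 hT
    linarith
  have r4 : gm ≤ 4 * (Q - (E - ε) * n) + 4 * ((T + 3 * ε) * m) + 2 * B * nm := by
    have := mul_nonneg hε hnm
    linarith
  have hb1 : 100 * b ≤ 1 := by nlinarith
  have r5 : b * gm ≤ b * (4 * (Q - (E - ε) * n) + 4 * ((T + 3 * ε) * m) + 2 * B * nm) :=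
    mul_le_mul_of_nonneg_left r4 hb
  have r6 : (1 - 4 * b) * (T * H + γ * (n - m)) ≤ (1 - 4 * b) * (Q - (E - ε) * n) :=
    mul_le_mul_of_nonneg_left (by linarith) (by linarith)
  have r7 : b * nm ≤ b * B * nm := by
    have := mul_le_mul_of_nonneg_left hB1 (mul_nonneg hb hnm)
    linarith
  have r8 : b * B * nm ≤ b * B * (2 * (n - m) + 2 * δ * m) :=
    mul_le_mul_of_nonneg_left q11 (by positivity)
  have r9 : γ * nm ≤ γ * (2 * (n - m) + 2 * δ * m) := mul_le_mul_of_nonneg_left q11 hγ.le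
  have hD : 0 ≤ n - m := sub_nonneg.2 q5
  have r10 : 100 * b * B * (n - m) ≤ γ * (n - m) := mul_le_mul_of_nonneg_right hbγ hD
  have r11 : b * T * H ≤ b * T * m := mul_le_mul_of_nonneg_left q8 (by positivity)
  have r12 : 100 * b * (γ * (n - m)) ≤ 1 * (γ * (n - m)) :=
    mul_le_mul_of_nonneg_right hb1 (by positivity)
  have r13 : (3 * M * ε₁ + 100 * (b * (T + ε + B * δ) + M * a ^ 2 / γ + γ * δ)) * m ≤
      (3 * M * ε₁ + 100 * (b * (T + ε + B * δ) + M * a ^ 2 / γ + γ * δ)) * n :=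
    mul_le_mul_of_nonneg_left q5 (by positivity)
  have s1 : 0 ≤ b * T * m := by positivity
  have s2 : 0 ≤ b * ε * m := by positivity
  have s3 : 0 ≤ b * B * δ * m := by positivity
  have s4 : 0 ≤ M * a ^ 2 / γ * m := by positivity
  have s5 : 0 ≤ γ * δ * m := by positivity
  have s6 : 0 ≤ γ * (n - m) := by positivity
  have s7 : 48 * M * a ^ 2 / γ * m = 48 * (M * a ^ 2 / γ * m) := by ring
  linarith

theorem comb_up {M : ℕ} {φ η : Arm M → Pt → ℝ} {δ : ℝ} (hη : Soft φ η δ)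
    {V W : Pt → ℝ} {E T ε σ ε₁ : ℝ}
    (hVi : ∀ f, Continuous f → HasCompactSupport f → Integrable fun x => V x * f x)
    (hWi : ∀ f, Continuous f → HasCompactSupport f → Integrable fun x => W x * f x)
    (h2 : OBup V η E T ε)
    (hW1 : ∀ i j, |(∫ x, W x * (η i x * η j x)) + σ * ∫ x, η i x * η j x| ≤ ε₁) :
    OBup (fun x => V x + W x) η (E - σ) T (ε + 3 * M * ε₁) := by
  intro c
  have q := (abs_le.1 (cb_W_lc hη.mu_c1c hWi hW1 c)).2
  have q3 := h2 c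
  rw [cb_qV_add hVi hWi (mu_lc_c1c hη.mu_c1c c)]
  linarith

end Vale.Agent.P370
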