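import Vale.Agent.P370.Newton

/-!
Cubature on cells, finite differences, and the partition of the slab into cells.
-/

namespace Vale.Agent.P370

open MeasureTheory Set

lemma cb_cell_eq (c : Pt) (s : ℝ) :
    cell c s = Set.pi univ fun k => Ico (c k - s / 2) (c k + s / 2) := by
  ext y
  simp [cell]

lemma measurableSet_cell (c : Pt) (s : ℝ) : MeasurableSet (cell c s) := by
  rw [cb_cell_eq]
  exact MeasurableSet.univ_pi fun k => measurableSet_Ico

lemma volume_cell (c : Pt) {s : ℝ} (hs : 0 ≤ s) : volume.real (cell c s) = s ^ 3 := by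
  rw [cb_cell_eq, measureReal_def, Real.volume_pi_Ico_toReal fun k => by linarith]
  simp

lemma norm_sub_le_of_mem_cell {c y : Pt} {s : ℝ} (hy : y ∈ cell c s) : ‖y - c‖ ≤ s / 2 := by
  have h0 : 0 ≤ s / 2 := by linarith [(hy 0).1, (hy 0).2]
  refine (pi_norm_le_iff_of_nonneg h0).2 fun k => ?_
  rw [Real.norm_eq_abs, Pi.sub_apply, abs_le]
  constructor <;> linarith [(hy k).1, (hy k).2]

lemma cb_cell_ae (c : Pt) {s : ℝ} (hs : 0 ≤ s) :
    cell c s =ᵐ[volume] Metric.closedBall c (s / 2) := by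
  rw [cb_cell_eq, closedBall_pi c (by linarith)]
  simp only [Real.closedBall_eq_Icc]
  exact Measure.pi_Ico_ae_eq_pi_Icc

lemma cb_vol_ball {s : ℝ} (hs : 0 ≤ s) :
    volume.real (Metric.closedBall (0 : Pt) (s / 2)) = s ^ 3 := by
  rw [← volume_cell 0 hs, measureReal_congr (cb_cell_ae 0 hs)]

lemma cb_int_cell (f : Pt → ℝ) (c : Pt) {s : ℝ} (hs : 0 ≤ s) :
    ∫ y in cell c s, f y = ∫ v in Metric.closedBall (0 : Pt) (s / 2), f (c + v) := by
  rw [setIntegral_congr_set (cb_cell_ae c hs), ← integral_indicator measurableSet_closedBall,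
    ← integral_indicator measurableSet_closedBall, ← integral_add_left_eq_self _ c]
  refine integral_congr_ae (Filter.Eventually.of_forall fun v => ?_)
  simp only [indicator, mem_closedBall_iff_norm, add_sub_cancel_left, sub_zero]

lemma cb_int_neg (g : Pt → ℝ) (r : ℝ) :
    ∫ v in Metric.closedBall (0 : Pt) r, g (-v) = ∫ v in Metric.closedBall (0 : Pt) r, g v := by
  rw [← integral_indicator measurableSet_closedBall,
    ← integral_indicator measurableSet_closedBall, ← integral_neg_eq_self]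
  refine integral_congr_ae (Filter.Eventually.of_forall fun v => ?_)
  simp only [indicator, mem_closedBall_zero_iff, norm_neg, neg_neg]

lemma cb_taylor {f : Pt → ℝ} {x v : Pt} {M : ℝ} (n : ℕ)
    (h : ∀ t ∈ Icc (0 : ℝ) 1, ContDiffAt ℝ (n + 1) f (x + t • v) ∧
      ‖iteratedFDeriv ℝ (n + 1) f (x + t • v)‖ ≤ M) :
    |f (x + v) - ∑ k ∈ Finset.range (n + 1),
      (k.factorial : ℝ)⁻¹ * iteratedFDeriv ℝ k f x (fun _ => v)| ≤
      M * ‖v‖ ^ (n + 1) / (n + 1).factorial := by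
  rw [map_add_eq_sum_add_integral_iteratedFDeriv fun t ht => (h t ht).1]
  simp only [smul_eq_mul, add_sub_cancel_left]
  have h1 : ‖∫ t in (0 : ℝ)..1, (1 - t) ^ n * iteratedFDeriv ℝ (n + 1) f (x + t • v) fun _ => v‖ ≤
      ∫ t in (0 : ℝ)..1, (1 - t) ^ n * (M * ‖v‖ ^ (n + 1)) := by
    refine intervalIntegral.norm_integral_le_of_norm_le zero_le_one
      (Filter.Eventually.of_forall fun t ht => ?_)
      ((by fun_prop : Continuous fun t : ℝ =>
        (1 - t) ^ n * (M * ‖v‖ ^ (n + 1))).intervalIntegrable _ _)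
    have h0 : 0 ≤ (1 - t) ^ n := pow_nonneg (by linarith [ht.2]) _
    rw [norm_mul, Real.norm_eq_abs, abs_of_nonneg h0]
    refine mul_le_mul_of_nonneg_left ?_ h0
    refine (ContinuousMultilinearMap.le_opNorm _ _).trans ?_
    rw [Finset.prod_const, Finset.card_univ, Fintype.card_fin]
    exact mul_le_mul_of_nonneg_right (h t ⟨ht.1.le, ht.2⟩).2 (by positivity)
  rw [intervalIntegral.integral_mul_const, intervalIntegral.integral_comp_sub_left (fun t => t ^ n),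
    integral_pow, Real.norm_eq_abs] at h1
  rw [abs_mul, abs_of_pos (by positivity), Nat.factorial_succ]
  refine (mul_le_mul_of_nonneg_left h1 (by positivity)).trans (le_of_eq ?_)
  push_cast
  simp only [sub_zero, one_pow, sub_self, ne_eq, Nat.add_eq_zero_iff, one_ne_zero, and_false,
    not_false_eq_true, zero_pow]
  field_simp

lemma cb_smul (f : Pt → ℝ) (x v : Pt) (k : ℕ) (t : ℝ) :
    iteratedFDeriv ℝ k f x (fun _ => t • v) = t ^ k * iteratedFDeriv ℝ k f x fun _ => v := by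
  rw [(iteratedFDeriv ℝ k f x).map_smul_univ (fun _ => t) fun _ => v]
  simp

lemma cb_line4 {f : Pt → ℝ} {x v : Pt} {M : ℝ} (a : ℝ)
    (h : ∀ t ∈ Icc (0 : ℝ) 1, ContDiffAt ℝ 4 f (x + t • a • v) ∧
      ‖iteratedFDeriv ℝ 4 f (x + t • a • v)‖ ≤ M) :
    |f (x + a • v) - (f x + a * iteratedFDeriv ℝ 1 f x (fun _ => v) +
      a ^ 2 / 2 * iteratedFDeriv ℝ 2 f x (fun _ => v) +
      a ^ 3 / 6 * iteratedFDeriv ℝ 3 f x (fun _ => v))| ≤ M * (a ^ 4 * ‖v‖ ^ 4) / 24 := by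
  have := cb_taylor (x := x) (v := a • v) 3 h
  simp only [cb_smul, Finset.sum_range_succ, Finset.range_zero, Finset.sum_empty,
    iteratedFDeriv_zero_apply, norm_smul, Real.norm_eq_abs, mul_pow] at this
  rw [show |a| ^ (3 + 1) = a ^ 4 from (by decide : Even 4).pow_abs a] at this
  refine le_of_eq_of_le ?_ (this.trans (le_of_eq ?_))
  · congr 2
    simp [Nat.factorial]
    ring
  · simp [Nat.factorial]

lemma cb_line2 {f : Pt → ℝ} {x v : Pt} {M : ℝ} (a : ℝ)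
    (h : ∀ t ∈ Icc (0 : ℝ) 1, ContDiffAt ℝ 2 f (x + t • a • v) ∧
      ‖iteratedFDeriv ℝ 2 f (x + t • a • v)‖ ≤ M) :
    |f (x + a • v) - (f x + a * iteratedFDeriv ℝ 1 f x (fun _ => v))| ≤
      M * (a ^ 2 * ‖v‖ ^ 2) / 2 := by
  have := cb_taylor (x := x) (v := a • v) 1 h
  simp only [cb_smul, Finset.sum_range_succ, Finset.range_zero, Finset.sum_empty,
    iteratedFDeriv_zero_apply, norm_smul, Real.norm_eq_abs, mul_pow] at this
  rw [show |a| ^ (1 + 1) = a ^ 2 from sq_abs a] at this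
  refine le_of_eq_of_le ?_ (this.trans (le_of_eq ?_))
  · congr 2
    simp [Nat.factorial]
  · simp [Nat.factorial]

lemma cb_seg {c v : Pt} {r t a : ℝ} (hv : ‖v‖ ≤ r) (ht : t ∈ Icc (0 : ℝ) 1) (ha : |a| = 1) :
    ‖c + t • a • v - c‖ ≤ r := by
  rw [add_sub_cancel_left, norm_smul, norm_smul, Real.norm_eq_abs, Real.norm_eq_abs, ha,
    abs_of_nonneg ht.1, one_mul]
  exact (mul_le_of_le_one_left (norm_nonneg _) ht.2).trans hv

lemma cb_sym {f q : Pt → ℝ} {c : Pt} {s D : ℝ} (hs : 0 < s)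
    (hf : ∀ y, ‖y - c‖ ≤ s / 2 → ContinuousAt f y) (hq : Continuous q)
    (h : ∀ v, ‖v‖ ≤ s / 2 → |f (c + v) + f (c + -v) - q v| ≤ D) :
    |(∫ v in Metric.closedBall (0 : Pt) (s / 2), q v) / 2 - ∫ y in cell c s, f y| ≤
      s ^ 3 * D / 2 := by
  have hK := isCompact_closedBall (0 : Pt) (s / 2)
  have i1 : IntegrableOn (fun v => f (c + v)) (Metric.closedBall (0 : Pt) (s / 2)) := by
    refine ContinuousOn.integrableOn_compact hK fun v hv => ContinuousAt.continuousWithinAt ?_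
    refine ContinuousAt.comp (f := fun v => c + v) (hf _ ?_) (by fun_prop)
    simpa using hv
  have i2 : IntegrableOn (fun v => f (c + -v)) (Metric.closedBall (0 : Pt) (s / 2)) := by
    refine ContinuousOn.integrableOn_compact hK fun v hv => ContinuousAt.continuousWithinAt ?_
    refine ContinuousAt.comp (f := fun v => c + -v) (hf _ ?_) (by fun_prop)
    simpa using hv
  have i3 : IntegrableOn q (Metric.closedBall (0 : Pt) (s / 2)) :=
    hq.continuousOn.integrableOn_compact hK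
  have h1 := norm_setIntegral_le_of_norm_le_const (μ := volume)
    (f := fun v => f (c + v) + f (c + -v) - q v) hK.measure_lt_top
    (fun v hv => h v (mem_closedBall_zero_iff.1 hv))
  have i4 : IntegrableOn (fun v => f (c + v) + f (c + -v)) (Metric.closedBall (0 : Pt) (s / 2)) :=
    i1.add i2
  rw [integral_sub i4 i3, integral_add i1 i2, cb_int_neg (fun v => f (c + v)),
    cb_vol_ball hs.le, Real.norm_eq_abs, ← cb_int_cell f c hs.le] at h1
  rw [abs_le] at h1 ⊢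
  constructor <;> linarith [h1.1, h1.2]

/-- Midpoint rule. -/
theorem cub2 {f : Pt → ℝ} {c : Pt} {s M : ℝ} (hs : 0 < s)
    (h : ∀ y, ‖y - c‖ ≤ s / 2 → ContDiffAt ℝ 2 f y ∧ ‖iteratedFDeriv ℝ 2 f y‖ ≤ M) :
    |s ^ 3 * f c - ∫ y in cell c s, f y| ≤ s ^ 5 * M := by
  have hM : 0 ≤ M := (norm_nonneg _).trans (h c (by simp [hs.le, div_nonneg])).2
  have := cb_sym (q := fun _ => 2 * f c) (D := s ^ 2 * M) hs
    (fun y hy => (h y hy).1.continuousAt) continuous_const (by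
      intro v hv
      have h1 := cb_line2 (x := c) (v := v) 1 fun t ht => h _ (cb_seg hv ht (by simp))
      have h2 := cb_line2 (x := c) (v := v) (-1) fun t ht => h _ (cb_seg hv ht (by simp))
      have h3 : ‖v‖ ^ 2 ≤ s ^ 2 := pow_le_pow_left₀ (norm_nonneg _) (by linarith) 2
      have h4 := mul_le_mul_of_nonneg_left h3 hM
      rw [one_smul] at h1
      rw [neg_one_smul] at h2
      rw [abs_le] at h1 h2 ⊢
      constructor <;> linarith [h1.1, h1.2, h2.1, h2.2])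
  rw [setIntegral_const, cb_vol_ball hs.le, smul_eq_mul] at this
  have h5 : 0 ≤ s ^ 5 * M := by positivity
  rw [abs_le] at this ⊢
  constructor <;> linarith [this.1, this.2]

lemma cb_mom {r : ℝ} (hr : 0 ≤ r) (p q w : ℕ) :
    ∫ v in Metric.closedBall (0 : Pt) r, v 0 ^ p * v 1 ^ q * v 2 ^ w =
      (r ^ (p + 1) - (-r) ^ (p + 1)) / (p + 1) * ((r ^ (q + 1) - (-r) ^ (q + 1)) / (q + 1)) *
        ((r ^ (w + 1) - (-r) ^ (w + 1)) / (w + 1)) := by
  have e : ∀ p : ℕ, ∫ t, (Icc (-r) r).indicator (fun t : ℝ => t ^ p) t =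
      (r ^ (p + 1) - (-r) ^ (p + 1)) / (p + 1) := fun p => by
    rw [integral_indicator measurableSet_Icc, integral_Icc_eq_integral_Ioc,
      ← intervalIntegral.integral_of_le (by linarith), integral_pow]
  rw [← e, ← e, ← e, ← integral_pt_prod, ← integral_indicator measurableSet_closedBall]
  refine integral_congr_ae (Filter.Eventually.of_forall fun v => ?_)
  have hv : v ∈ Metric.closedBall (0 : Pt) r ↔
      (v 0 ∈ Icc (-r) r ∧ v 1 ∈ Icc (-r) r) ∧ v 2 ∈ Icc (-r) r := by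
    rw [mem_closedBall_zero_iff, pi_norm_le_iff_of_nonneg hr, Fin.forall_fin_succ,
      Fin.forall_fin_two]
    simp only [Real.norm_eq_abs, abs_le, mem_Icc, and_assoc]
    rfl
  simp only [indicator, hv]
  by_cases h0 : v 0 ∈ Icc (-r) r <;> by_cases h1 : v 1 ∈ Icc (-r) r <;>
    by_cases h2 : v 2 ∈ Icc (-r) r <;> simp only [h0, h1, h2] <;> simp

lemma cb_mom2 {s : ℝ} (hs : 0 ≤ s) (i j : Fin 3) :
    ∫ v in Metric.closedBall (0 : Pt) (s / 2), v i * v j = if i = j then s ^ 5 / 12 else 0 := by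
  have hr : 0 ≤ s / 2 := by linarith
  have key : ∀ p q w : ℕ, ∀ z : ℝ, (∀ v : Pt, v i * v j = v 0 ^ p * v 1 ^ q * v 2 ^ w) →
      ((s / 2) ^ (p + 1) - (-(s / 2)) ^ (p + 1)) / (p + 1) *
        (((s / 2) ^ (q + 1) - (-(s / 2)) ^ (q + 1)) / (q + 1)) *
        (((s / 2) ^ (w + 1) - (-(s / 2)) ^ (w + 1)) / (w + 1)) = z →
      ∫ v in Metric.closedBall (0 : Pt) (s / 2), v i * v j = z := by
    intro p q w z h1 h2
    simp only [h1]
    rw [cb_mom hr, h2]
  fin_cases i <;> fin_cases j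
  · exact key 2 0 0 _ (fun v => by simp [sq]) (by simp; ring)
  · exact key 1 1 0 _ (fun v => by simp) (by simp)
  · exact key 1 0 1 _ (fun v => by simp) (by simp)
  · exact key 1 1 0 _ (fun v => by simpa using mul_comm _ _) (by simp)
  · exact key 0 2 0 _ (fun v => by simp [sq]) (by simp; ring)
  · exact key 0 1 1 _ (fun v => by simp) (by simp)
  · exact key 1 0 1 _ (fun v => by simp [mul_comm]) (by simp)
  · exact key 0 1 1 _ (fun v => by simp [mul_comm]) (by simp)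
  · exact key 0 0 2 _ (fun v => by simp [sq]) (by simp; ring)

lemma cb_quad (f : Pt → ℝ) (c v : Pt) : iteratedFDeriv ℝ 2 f c (fun _ => v) =
    ∑ i, ∑ j, v i * v j * iteratedFDeriv ℝ 2 f c ![ek i, ek j] := by
  have hv : v = ∑ i, v i • ek i := by
    ext k
    simp [ek, Pi.single_apply]
  simp only [iteratedFDeriv_two_apply, Matrix.cons_val_zero, Matrix.cons_val_one]
  generalize fderiv ℝ (fderiv ℝ f) c = A
  conv_lhs => rw [hv]
  simp only [map_sum, map_smul, sum_apply, smul_apply, smul_eq_mul, Finset.mul_sum]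
  rw [Finset.sum_comm]
  exact Finset.sum_congr rfl fun i _ => Finset.sum_congr rfl fun j _ => by ring

/-- Midpoint rule with the first correction. -/
theorem cub4 {f : Pt → ℝ} {c : Pt} {s M : ℝ} (hs : 0 < s)
    (h : ∀ y, ‖y - c‖ ≤ s / 2 → ContDiffAt ℝ 4 f y ∧ ‖iteratedFDeriv ℝ 4 f y‖ ≤ M) :
    |s ^ 3 * f c + s ^ 5 / 24 * lap f c - ∫ y in cell c s, f y| ≤ s ^ 7 * M := by
  have hc := h c (by simp [hs.le, div_nonneg])
  have hM : 0 ≤ M := (norm_nonneg _).trans hc.2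
  have hK := isCompact_closedBall (0 : Pt) (s / 2)
  have := cb_sym (q := fun v => 2 * f c +
      ∑ i, ∑ j, v i * v j * iteratedFDeriv ℝ 2 f c ![ek i, ek j]) (D := s ^ 4 * M) hs
    (fun y hy => (h y hy).1.continuousAt) (by fun_prop) (by
      intro v hv
      have h1 := cb_line4 (x := c) (v := v) 1 fun t ht => h _ (cb_seg hv ht (by simp))
      have h2 := cb_line4 (x := c) (v := v) (-1) fun t ht => h _ (cb_seg hv ht (by simp))
      have h3 : ‖v‖ ^ 4 ≤ s ^ 4 := pow_le_pow_left₀ (norm_nonneg _) (by linarith) 4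
      have h4 := mul_le_mul_of_nonneg_left h3 hM
      have h5 : 0 ≤ M * s ^ 4 := by positivity
      rw [one_smul] at h1
      rw [neg_one_smul] at h2
      rw [← cb_quad]
      rw [abs_le] at h1 h2 ⊢
      constructor <;> linarith [h1.1, h1.2, h2.1, h2.2])
  have i1 : ∀ i j, IntegrableOn (fun v : Pt => v i * v j * iteratedFDeriv ℝ 2 f c ![ek i, ek j])
      (Metric.closedBall (0 : Pt) (s / 2)) := fun i j =>
    Continuous.continuousOn (by fun_prop) |>.integrableOn_compact hK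
  rw [integral_add (continuousOn_const.integrableOn_compact hK)
      (integrable_finsetSum _ fun i _ => integrable_finsetSum _ fun j _ => i1 i j),
    setIntegral_const, cb_vol_ball hs.le, smul_eq_mul,
    integral_finsetSum _ fun i _ => integrable_finsetSum _ fun j _ => i1 i j] at this
  simp only [integral_finsetSum _ fun j _ => i1 _ j, integral_mul_const, cb_mom2 hs.le, ite_mul,
    zero_mul, Finset.sum_ite_eq, Finset.mem_univ, if_true, ← Finset.mul_sum] at this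
  rw [← lap_eq_iterated (hc.1.of_le (by norm_num))] at this
  have h5 : 0 ≤ s ^ 7 * M := by positivity
  rw [abs_le] at this ⊢
  constructor <;> linarith [this.1, this.2]

lemma cb_DB_at {r : ℕ} {f : Pt → ℝ} {M : ℝ} (h : DB r f M) (y : Pt) :
    ContDiffAt ℝ r f y ∧ ‖iteratedFDeriv ℝ r f y‖ ≤ M :=
  ⟨(h.1.of_le (by exact_mod_cast le_top)).contDiffAt, h.2 r le_rfl y⟩

/-- The same with the correction integrated. -/
theorem cub4' {f : Pt → ℝ} {c : Pt} {s M : ℝ} (hs : 0 < s) (h : DB 4 f M) :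
    |s ^ 3 * f c + s ^ 2 / 24 * (∫ y in cell c s, lap f y) - ∫ y in cell c s, f y| ≤
      2 * s ^ 7 * M := by
  have hM : 0 ≤ M := (norm_nonneg _).trans (h.2 0 (by norm_num) c)
  have h1 := cub4 (c := c) hs fun y _ => cb_DB_at h y
  have h2 := cub2 (c := c) hs fun y _ => cb_DB_at (DB.lap (r := 2) h) y
  have h3 := mul_le_mul_of_nonneg_left h2 (show 0 ≤ s ^ 2 / 24 by positivity)
  rw [← abs_of_nonneg (show 0 ≤ s ^ 2 / 24 by positivity), ← abs_mul,
    abs_of_nonneg (show 0 ≤ s ^ 2 / 24 by positivity)] at h3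
  have h5 : 0 ≤ s ^ 7 * M := by positivity
  rw [abs_le] at h1 h3 ⊢
  constructor <;> linarith [h1.1, h1.2, h3.1, h3.2]

/-- Fourth differences. -/
theorem diff4 {f : Pt → ℝ} {c : Pt} {s M : ℝ} (hs : 0 < s)
    (h : ∀ t ∈ Icc (0 : ℝ) (4 * s), ContDiffAt ℝ 4 f (c + t • ek 0) ∧
      ‖iteratedFDeriv ℝ 4 f (c + t • ek 0)‖ ≤ M) :
    |f (c + (4 * s) • ek 0) - 4 * f (c + (3 * s) • ek 0) + 6 * f (c + (2 * s) • ek 0) -
      4 * f (c + s • ek 0) + f c| ≤ 30 * s ^ 4 * M := by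
  have hM : 0 ≤ M := (norm_nonneg _).trans (h 0 ⟨le_rfl, by positivity⟩).2
  have key : ∀ a : ℝ, 0 ≤ a → a ≤ 4 * s → _ := fun a h0 h4 =>
    cb_line4 (f := f) (x := c) (v := ek 0) (M := M) a fun t ht => by
      rw [smul_smul]
      exact h _ ⟨mul_nonneg ht.1 h0, (mul_le_of_le_one_left h0 ht.2).trans h4⟩
  have h1 := key s hs.le (by linarith)
  have h2 := key (2 * s) (by linarith) (by linarith)
  have h3 := key (3 * s) (by linarith) (by linarith)
  have h4 := key (4 * s) (by linarith) le_rfl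
  have h5 : 0 ≤ s ^ 4 * M := by positivity
  rw [nw_norm_ek, abs_le] at h1 h2 h3 h4
  rw [abs_le]
  constructor <;> linarith [h1.1, h1.2, h2.1, h2.2, h3.1, h3.2, h4.1, h4.2]

/-- The finite-difference Laplacian. -/
theorem fd_lap {f : Pt → ℝ} {M : ℝ} (h : DB 4 f M) {e : ℝ} (he : 0 < e) (x : Pt) :
    |(∑ k, (f (x + e • ek k) + f (x - e • ek k) - 2 * f x)) / e ^ 2 - lap f x| ≤ e ^ 2 * M := by
  have hM : 0 ≤ M := (norm_nonneg _).trans (h.2 0 (by norm_num) x)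
  have key : ∀ k, |f (x + e • ek k) + f (x - e • ek k) - 2 * f x -
      e ^ 2 * iteratedFDeriv ℝ 2 f x ![ek k, ek k]| ≤ e ^ 4 * M / 12 := by
    intro k
    have h1 := cb_line4 (x := x) (v := ek k) e fun t _ => cb_DB_at h _
    have h2 := cb_line4 (x := x) (v := ek k) (-e) fun t _ => cb_DB_at h _
    have e1 : (![ek k, ek k] : Fin 2 → Pt) = fun _ => ek k := by
      funext i
      fin_cases i <;> rfl
    rw [neg_smul, ← sub_eq_add_neg] at h2
    rw [nw_norm_ek, abs_le] at h1 h2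
    rw [e1, abs_le]
    constructor <;> linarith [h1.1, h1.2, h2.1, h2.2]
  have he2 : 0 < e ^ 2 := by positivity
  rw [lap_eq_iterated ((cb_DB_at h x).1.of_le (by norm_num)), div_sub' he2.ne',
    abs_div, abs_of_pos he2, div_le_iff₀ he2, Finset.mul_sum, ← Finset.sum_sub_distrib]
  refine (Finset.abs_sum_le_sum_abs _ _).trans ((Finset.sum_le_sum fun k _ => key k).trans ?_)
  have h5 : 0 ≤ e ^ 4 * M := by positivity
  simp only [Finset.sum_const, Finset.card_univ, Fintype.card_fin, nsmul_eq_mul]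
  push_cast
  linarith

lemma site_succ {σ : ℕ} (hσ : 0 < σ) (R i : ℕ) (n : ℕ × ℕ × ℕ) :
    site σ R (n.1 + i, n.2) = site σ R n + ((i : ℝ) * (1 / σ)) • ek 0 := by
  have _h := hσ
  funext k
  fin_cases k
  · simp [site, ek]
    ring
  · simp [site, ek]
  · simp [site, ek]

lemma cb_1d {σ : ℕ} (hσ : 0 < σ) (R y : ℝ) (n : ℕ) :
    (((n : ℝ) + 1 / 2) / σ - R - 1 / σ / 2 ≤ y ∧ y < ((n : ℝ) + 1 / 2) / σ - R + 1 / σ / 2) ↔
      ((n : ℝ) ≤ σ * (y + R) ∧ σ * (y + R) < n + 1) := by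
  have h : (0 : ℝ) < σ := by exact_mod_cast hσ
  have e1 : ((n : ℝ) + 1 / 2) / σ - R - 1 / σ / 2 = n / σ - R := by field_simp; ring
  have e2 : ((n : ℝ) + 1 / 2) / σ - R + 1 / σ / 2 = (n + 1) / σ - R := by field_simp; ring
  rw [e1, e2, sub_le_iff_le_add, div_le_iff₀ h, lt_sub_iff_add_lt, lt_div_iff₀ h, mul_comm]

lemma cb_mem_cell {σ : ℕ} (hσ : 0 < σ) (R : ℕ) (n : ℕ × ℕ × ℕ) (y : Pt) :
    y ∈ cell (site σ R n) (1 / σ) ↔
      ((n.1 : ℝ) ≤ σ * (y 0 + R) ∧ σ * (y 0 + R) < n.1 + 1) ∧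
      ((n.2.1 : ℝ) ≤ σ * (y 1 + R) ∧ σ * (y 1 + R) < n.2.1 + 1) ∧
      ((n.2.2 : ℝ) ≤ σ * (y 2 + 10) ∧ σ * (y 2 + 10) < n.2.2 + 1) := by
  rw [← cb_1d hσ, ← cb_1d hσ, ← cb_1d hσ, cell, mem_ofPred_eq, Fin.forall_fin_succ,
    Fin.forall_fin_two]
  rfl

lemma cb_nat_eq {m n : ℕ} {t : ℝ} (hm : (m : ℝ) ≤ t ∧ t < m + 1) (hn : (n : ℝ) ≤ t ∧ t < n + 1) :
    m = n := by
  have h1 : m < n + 1 := by exact_mod_cast hm.1.trans_lt hn.2
  have h2 : n < m + 1 := by exact_mod_cast hn.1.trans_lt hm.2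
  omega

lemma cell_disjoint {σ : ℕ} (hσ : 0 < σ) (R : ℕ) {m n : ℕ × ℕ × ℕ} (h : m ≠ n) :
    Disjoint (cell (site σ R m) (1 / σ)) (cell (site σ R n) (1 / σ)) := by
  rw [Set.disjoint_left]
  intro y hm hn
  rw [cb_mem_cell hσ] at hm hn
  exact h (Prod.ext (cb_nat_eq hm.1 hn.1)
    (Prod.ext (cb_nat_eq hm.2.1 hn.2.1) (cb_nat_eq hm.2.2 hn.2.2)))

lemma cb_self_mem (c : Pt) {s : ℝ} (hs : 0 < s) : c ∈ cell c s := fun k =>
  ⟨by linarith, by linarith⟩

lemma site_injective {σ : ℕ} (hσ : 0 < σ) (R : ℕ) : Function.Injective (site σ R) := by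
  intro m n h
  by_contra hne
  have h0 : (0 : ℝ) < 1 / σ := by positivity
  exact Set.disjoint_left.1 (cell_disjoint hσ R hne) (cb_self_mem _ h0) (h ▸ cb_self_mem _ h0)

/-- Sums of integrals over cells. -/
theorem sum_cells {σ : ℕ} (hσ : 0 < σ) (R : ℕ) (S : Finset (ℕ × ℕ × ℕ)) {f : Pt → ℝ}
    (hf : IntegrableOn f (⋃ n ∈ S, cell (site σ R n) (1 / σ))) :
    ∑ n ∈ S, ∫ y in cell (site σ R n) (1 / σ), f y =
      ∫ y in ⋃ n ∈ S, cell (site σ R n) (1 / σ), f y := by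
  rw [integral_biUnion_finset S (fun n _ => measurableSet_cell _ _)
    (fun m _ n _ h => cell_disjoint hσ R h)
    fun n hn => hf.mono_set (subset_biUnion_of_mem (u := fun n => cell (site σ R n) (1 / σ)) hn)]

lemma cb_abs {σ R a : ℕ} (hσ : 0 < σ) (n : ℕ) :
    |((n : ℝ) + 1 / 2) / σ - R| ≤ a ↔ σ * R ≤ n + σ * a ∧ n + 1 ≤ σ * R + σ * a := by
  have h : (0 : ℝ) < σ := by exact_mod_cast hσ
  rw [abs_le, le_sub_iff_add_le, le_div_iff₀ h, sub_le_iff_le_add, div_le_iff₀ h]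
  constructor
  · rintro ⟨h1, h2⟩
    have h3 : ((σ * R : ℕ) : ℝ) < (n + σ * a + 1 : ℕ) := by push_cast; linarith
    have h4 : ((n : ℕ) : ℝ) < (σ * R + σ * a : ℕ) := by push_cast; linarith
    exact ⟨Nat.lt_succ_iff.1 (Nat.cast_lt.1 h3), Nat.cast_lt.1 h4⟩
  · rintro ⟨h1, h2⟩
    have h3 : ((σ * R : ℕ) : ℝ) ≤ (n + σ * a : ℕ) := Nat.cast_le.2 h1
    have h4 : ((n + 1 : ℕ) : ℝ) ≤ (σ * R + σ * a : ℕ) := Nat.cast_le.2 h2
    push_cast at h3 h4
    constructor <;> linarith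

lemma cb_fill {σ R a : ℕ} (hσ : 0 < σ) (ha : a ≤ R) (y : ℝ) :
    (∃ n : ℕ, (σ * R ≤ n + σ * a ∧ n + 1 ≤ σ * R + σ * a) ∧
      ((n : ℝ) ≤ σ * (y + R) ∧ σ * (y + R) < n + 1)) ↔ y ∈ Ico (-(a : ℝ)) a := by
  have h : (0 : ℝ) < σ := by exact_mod_cast hσ
  constructor
  · rintro ⟨n, ⟨h1, h2⟩, h5, h6⟩
    have h4 : ((n + 1 : ℕ) : ℝ) ≤ (σ * R + σ * a : ℕ) := Nat.cast_le.2 h2
    have h3 : ((σ * R : ℕ) : ℝ) ≤ (n + σ * a : ℕ) := Nat.cast_le.2 h1
    push_cast at h3 h4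
    constructor
    · exact le_of_mul_le_mul_left (by linarith) h
    · exact lt_of_mul_lt_mul_left (by linarith) h.le
  · rintro ⟨h1, h2⟩
    have ha' : (a : ℝ) ≤ R := by exact_mod_cast ha
    have h0 : 0 ≤ σ * (y + R) := mul_nonneg h.le (by linarith)
    have h3 := Nat.floor_le h0
    have h4 := Nat.lt_floor_add_one (σ * (y + R))
    have h5 := mul_le_mul_of_nonneg_left h1 h.le
    have h6 := mul_lt_mul_of_pos_left h2 h
    refine ⟨⌊σ * (y + R)⌋₊, ⟨?_, ?_⟩, h3, h4⟩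
    · have : ((σ * R : ℕ) : ℝ) < (⌊σ * (y + R)⌋₊ + σ * a + 1 : ℕ) := by push_cast; linarith
      exact Nat.lt_succ_iff.1 (Nat.cast_lt.1 this)
    · have : ((⌊σ * (y + R)⌋₊ : ℕ) : ℝ) < (σ * R + σ * a : ℕ) := by push_cast; linarith
      exact Nat.cast_lt.1 this

lemma cb_mem_box {σ R a : ℕ} (hσ : 0 < σ) (n : ℕ × ℕ × ℕ) : site σ R n ∈ box a a 10 ↔
    (σ * R ≤ n.1 + σ * a ∧ n.1 + 1 ≤ σ * R + σ * a) ∧
    (σ * R ≤ n.2.1 + σ * a ∧ n.2.1 + 1 ≤ σ * R + σ * a) ∧
    (σ * 10 ≤ n.2.2 + σ * 10 ∧ n.2.2 + 1 ≤ σ * 10 + σ * 10) := by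
  rw [← cb_abs hσ, ← cb_abs hσ, ← cb_abs hσ]
  rfl

lemma cb_mem_sites {σ R : ℕ} (n : ℕ × ℕ × ℕ) : n ∈ sites σ R ↔
    n.1 + 1 ≤ σ * R + σ * R ∧ n.2.1 + 1 ≤ σ * R + σ * R ∧ n.2.2 + 1 ≤ σ * 10 + σ * 10 := by
  simp only [sites, Finset.mem_product, Finset.mem_range]
  rw [show 2 * R * σ = σ * R + σ * R by ring, show 20 * σ = σ * 10 + σ * 10 by ring]
  rfl

open Classical in
/-- The cells with centre in a smaller box with integer sides fill it. -/
theorem cells_ae_eq' {σ : ℕ} (hσ : 0 < σ) {R a : ℕ} (ha : a ≤ R) :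
    (⋃ n ∈ (sites σ R).filter (fun n => site σ R n ∈ box a a 10), cell (site σ R n) (1 / σ) :
      Set Pt) =ᵐ[volume] box a a 10 := by
  have e1 : (⋃ n ∈ (sites σ R).filter (fun n => site σ R n ∈ box a a 10),
      cell (site σ R n) (1 / σ) : Set Pt) =
      Set.pi univ fun k => Ico (-(![(a : ℝ), a, 10] k)) (![(a : ℝ), a, 10] k) := by
    ext y
    have h0 := cb_fill hσ ha (y 0)
    have h1 := cb_fill hσ ha (y 1)
    have h2 := cb_fill hσ (le_refl 10) (y 2)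
    have hR : σ * a ≤ σ * R := Nat.mul_le_mul_left _ ha
    simp only [mem_iUnion, Finset.mem_filter, cb_mem_cell hσ, cb_mem_box hσ, cb_mem_sites,
      mem_univ_pi, Fin.forall_fin_succ, exists_prop]
    push_cast at h2
    constructor
    · rintro ⟨n, ⟨-, a0, a1, a2⟩, b0, b1, b2⟩
      exact ⟨h0.1 ⟨_, a0, b0⟩, h1.1 ⟨_, a1, b1⟩, h2.1 ⟨_, a2, b2⟩, fun i => i.elim0⟩
    · rintro ⟨c0, c1, c2, -⟩
      obtain ⟨n0, a0, b0⟩ := h0.2 c0
      obtain ⟨n1, a1, b1⟩ := h1.2 c1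
      obtain ⟨n2, a2, b2⟩ := h2.2 c2
      exact ⟨(n0, n1, n2), ⟨⟨by linarith [a0.2], by linarith [a1.2], a2.2⟩, a0, a1, a2⟩, b0, b1, b2⟩
  have e2 : box a a 10 =
      Set.pi univ fun k => Icc (-(![(a : ℝ), a, 10] k)) (![(a : ℝ), a, 10] k) := by
    ext y
    simp only [box, mem_ofPred_eq, mem_univ_pi, Fin.forall_fin_succ, mem_Icc, abs_le]
    exact ⟨fun h => ⟨h.1, h.2.1, h.2.2, fun i => i.elim0⟩, fun h => ⟨h.1, h.2.1, h.2.2.1⟩⟩
  rw [e1, e2]
  exact Measure.pi_Ico_ae_eq_pi_Icc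

/-- The cells fill the slab. -/
theorem cells_ae_eq {σ : ℕ} (hσ : 0 < σ) (R : ℕ) :
    (⋃ n ∈ sites σ R, cell (site σ R n) (1 / σ) : Set Pt) =ᵐ[volume] box R R 10 := by
  classical
  have := cells_ae_eq' hσ (le_refl R)
  rwa [Finset.filter_true_of_mem] at this
  intro n hn
  rw [cb_mem_sites] at hn
  rw [cb_mem_box hσ]
  exact ⟨⟨by omega, hn.1⟩, ⟨by omega, hn.2.1⟩, by omega, hn.2.2⟩

/-- Comparison of a lattice sum with an integral. -/
theorem sum_le_integral {σ : ℕ} (hσ : 0 < σ) (R : ℕ) (S : Finset (ℕ × ℕ × ℕ))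
    {a : ℕ × ℕ × ℕ → ℝ} {g : Pt → ℝ} {E : Set Pt} (hE : MeasurableSet E) (hg : IntegrableOn g E)
    (h0 : ∀ y ∈ E, 0 ≤ g y) (hS : ∀ n ∈ S, cell (site σ R n) (1 / σ) ⊆ E)
    (h : ∀ n ∈ S, ∀ y ∈ cell (site σ R n) (1 / σ), a n ≤ g y) :
    (1 / (σ : ℝ)) ^ 3 * ∑ n ∈ S, a n ≤ ∫ y in E, g y := by
  have hU : (⋃ n ∈ S, cell (site σ R n) (1 / σ)) ⊆ E := iUnion₂_subset hS
  have hs : (0 : ℝ) < 1 / σ := by positivity
  calc (1 / (σ : ℝ)) ^ 3 * ∑ n ∈ S, a n ≤ ∑ n ∈ S, ∫ y in cell (site σ R n) (1 / σ), g y := by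
        rw [Finset.mul_sum]
        refine Finset.sum_le_sum fun n hn => ?_
        have hfin : volume (cell (site σ R n) (1 / σ)) ≠ ⊤ := by
          rw [measure_congr (cb_cell_ae _ hs.le)]
          exact (isCompact_closedBall _ _).measure_lt_top.ne
        rw [← volume_cell (site σ R n) hs.le, ← smul_eq_mul, ← setIntegral_const]
        exact setIntegral_mono_on (integrableOn_const hfin) (hg.mono_set (hS n hn))
          (measurableSet_cell _ _) (h n hn)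
    _ = ∫ y in ⋃ n ∈ S, cell (site σ R n) (1 / σ), g y := sum_cells hσ R S (hg.mono_set hU)
    _ ≤ ∫ y in E, g y := setIntegral_mono_set hg (ae_restrict_of_forall_mem hE h0)
        hU.eventuallyLE

lemma cb_near {σ k : ℕ} (hσ : 0 < σ) {x R : ℝ} {n : ℕ}
    (h : |x - (((n : ℝ) + 1 / 2) / σ - R)| ≤ k * (1 / σ)) :
    (n : ℤ) ∈ Finset.Ico ⌈σ * (x + R) - 1 / 2 - k⌉ (⌈σ * (x + R) - 1 / 2 - k⌉ + (2 * k + 1 : ℕ)) := by
  have h0 : (0 : ℝ) < σ := by exact_mod_cast hσ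
  have e : x - (((n : ℝ) + 1 / 2) / σ - R) = (σ * (x + R) - 1 / 2 - n) * (1 / σ) := by
    field_simp
    ring
  rw [e, abs_mul, abs_of_pos (show (0 : ℝ) < 1 / σ by positivity)] at h
  have h1 := abs_le.1 (le_of_mul_le_mul_right h (by positivity))
  have h2 := Int.le_ceil (σ * (x + R) - 1 / 2 - k)
  rw [Finset.mem_Ico, Int.ceil_le]
  refine ⟨by push_cast; linarith [h1.2], ?_⟩
  have : ((n : ℤ) : ℝ) < ((⌈σ * (x + R) - 1 / 2 - k⌉ + (2 * k + 1 : ℕ) : ℤ) : ℝ) := by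
    push_cast
    linarith [h1.1]
  exact Int.cast_lt.1 this

/-- At most `(2 k + 1) ^ 3` sites are within `k` mesh lengths of a point. -/
theorem card_near {σ : ℕ} (hσ : 0 < σ) (R k : ℕ) (S : Finset (ℕ × ℕ × ℕ)) (x : Pt)
    (h : ∀ n ∈ S, ‖x - site σ R n‖ ≤ k * (1 / σ)) : S.card ≤ (2 * k + 1) ^ 3 := by
  let I : ℝ → Finset ℤ := fun u => Finset.Ico ⌈u - 1 / 2 - k⌉ (⌈u - 1 / 2 - k⌉ + (2 * k + 1 : ℕ))
  have hI : ∀ u, (I u).card = 2 * k + 1 := fun u => by
    simp only [I, Int.card_Ico, add_sub_cancel_left, Int.toNat_natCast]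
  have := Finset.card_le_card_of_injOn (s := S)
    (t := I (σ * (x 0 + R)) ×ˢ I (σ * (x 1 + R)) ×ˢ I (σ * (x 2 + 10)))
    (fun n => ((n.1 : ℤ), (n.2.1 : ℤ), (n.2.2 : ℤ))) (fun n hn => ?_) (fun m _ n _ hmn => ?_)
  · rw [Finset.card_product, Finset.card_product, hI, hI, hI] at this
    exact this.trans (le_of_eq (by ring))
  · have h1 := fun i => (norm_le_pi_norm (x - site σ R n) i).trans (h n hn)
    simp only [Finset.coe_product, mem_prod, Finset.mem_coe]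
    exact ⟨cb_near hσ (h1 0), cb_near hσ (h1 1), cb_near hσ (h1 2)⟩
  · simp only [Prod.mk.injEq, Nat.cast_inj] at hmn
    exact Prod.ext hmn.1 (Prod.ext hmn.2.1 hmn.2.2)

lemma cb_shift (A j d : ℕ) (a g : ℕ → ℝ) (ha : ∀ i < j + d, a i = 0) :
    ∑ i ∈ Finset.range A, a (i + j) * g i =
      ∑ i ∈ Finset.range A, a (i + (j + d)) * (if i + d < A then g (i + d) else 0) := by
  have h1 := Finset.sum_range_add (fun i => a (i + j) * if i < A then g i else 0) A d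
  have h2 := Finset.sum_range_add (fun i => a (i + j) * if i < A then g i else 0) d A
  rw [add_comm d A, h1] at h2
  rw [Finset.sum_eq_zero (s := Finset.range d) (fun i _ => by simp),
    Finset.sum_eq_zero (s := Finset.range d)
      (fun i hi => by rw [ha _ (by have := Finset.mem_range.1 hi; omega), zero_mul]),
    add_zero, zero_add] at h2
  refine Eq.trans (Finset.sum_congr rfl fun i hi => ?_) (h2.trans (Finset.sum_congr rfl ?_))
  · rw [if_pos (Finset.mem_range.1 hi)]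
  · intro i _
    rw [add_comm d i, show i + d + j = i + (j + d) by ring]

/-- Summation by parts along the first index. -/
theorem sum_d4 (A : ℕ) (S : Finset (ℕ × ℕ)) (u G : ℕ × ℕ × ℕ → ℝ) (hu : ∀ n, n.1 < 4 → u n = 0) :
    ∑ n ∈ Finset.range A ×ˢ S, d4 u n * G n =
      ∑ n ∈ Finset.range A ×ˢ S, u (n.1 + 4, n.2) * d4 (fun m => if m.1 < A then G m else 0) n := by
  rw [Finset.sum_product_right, Finset.sum_product_right]
  refine Finset.sum_congr rfl fun z _ => ?_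
  have key : ∀ j d, j + d = 4 → ∑ i ∈ Finset.range A, u (i + j, z) * G (i, z) =
      ∑ i ∈ Finset.range A, u (i + 4, z) * (if i + d < A then G (i + d, z) else 0) := by
    intro j d hjd
    have := cb_shift A j d (fun i => u (i, z)) (fun i => G (i, z))
      fun i hi => hu _ (by rw [← hjd]; exact hi)
    rwa [hjd] at this
  have k0 := key 0 4 rfl
  have k1 := key 1 3 rfl
  have k2 := key 2 2 rfl
  have k3 := key 3 1 rfl
  have k4 := key 4 0 rfl
  simp only [add_zero] at k0 k4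
  have e1 : ∀ i, d4 u (i, z) * G (i, z) = u (i + 4, z) * G (i, z) - 4 * (u (i + 3, z) * G (i, z)) +
      6 * (u (i + 2, z) * G (i, z)) - 4 * (u (i + 1, z) * G (i, z)) + u (i, z) * G (i, z) :=
    fun i => by simp only [d4]; ring
  have e2 : ∀ i, u (i + 4, z) * d4 (fun m => if m.1 < A then G m else 0) (i, z) =
      u (i + 4, z) * (if i + 4 < A then G (i + 4, z) else 0) -
      4 * (u (i + 4, z) * (if i + 3 < A then G (i + 3, z) else 0)) +
      6 * (u (i + 4, z) * (if i + 2 < A then G (i + 2, z) else 0)) -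
      4 * (u (i + 4, z) * (if i + 1 < A then G (i + 1, z) else 0)) +
      u (i + 4, z) * (if i < A then G (i, z) else 0) := fun i => by simp only [d4]; ring
  simp only [e1, e2, Finset.sum_add_distrib, Finset.sum_sub_distrib, ← Finset.mul_sum]
  linarith

end Vale.Agent.P370
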