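import Mathlib

/-!
Statement-level definitions for P370: self-delimiting codes, polynomial time, quantum circuits and
QMA, and the continuum electronic ground energy.
-/

namespace Vale.Agent.P370

open MeasureTheory

/-! ### Codes and polynomial time -/

/-- Code of a pair. -/
def cPair {α β : Type} (f : α → List Bool) (g : β → List Bool) (p : α × β) : List Bool :=
  true :: (f p.1 ++ g p.2)

/-- Code of a list. -/
def cList {α : Type} (f : α → List Bool) : List α → List Bool
  | [] => [false]
  | x :: l => true :: (f x ++ cList f l)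

/-- Code of a bit. -/
def cBool (b : Bool) : List Bool :=
  if b then [true, true, false, false, false] else [true, false, true, false, false]

/-- Binary code of a natural number. -/
def cNat (n : ℕ) : List Bool := cList cBool n.bits

/-- Unary code of a natural number. -/
def cUnary (n : ℕ) : List Bool := cList cBool (List.replicate n true)

/-- Code of a rational number: sign, binary numerator and binary denominator in lowest terms. -/
def cRat (q : ℚ) : List Bool :=
  cPair (cPair cBool cNat) cNat ((decide (q.num < 0), q.num.natAbs), q.den)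

/-- `f` is computed in polynomial time, on the given codes, by a multi-stack Turing machine with
finite alphabets. -/
def PolyTime {α β : Type} (ca : α → List Bool) (cb : β → List Bool) (f : α → β) : Prop :=
  ∃ M : Turing.TM2ComputableInPolyTime ca cb f, ∀ k, Finite (M.tm.Γ k)

/-! ### Quantum circuits and QMA -/

/-- Gates: Hadamard, the phase gate `T`, and CNOT (control, target). -/
inductive Gate
  | had (i : ℕ)
  | tee (i : ℕ)
  | cnot (i j : ℕ)

/-- A verifier circuit: `w` witness qubits, `a` ancilla qubits, and gates in order of action. -/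
structure Circuit where
  /-- witness qubits -/
  w : ℕ
  /-- ancilla qubits -/
  a : ℕ
  /-- the gates -/
  gates : List Gate

/-- Kind and qubits of a gate. -/
def Gate.data : Gate → ℕ × ℕ × ℕ
  | .had i => (0, i, i)
  | .tee i => (1, i, i)
  | .cnot i j => (2, i, j)

/-- Code of a circuit; the numbers of qubits are in unary. -/
def Circuit.code (C : Circuit) : List Bool :=
  cPair cUnary (cPair cUnary (cList (cPair cNat (cPair cNat cNat))))
    (C.w, C.a, C.gates.map Gate.data)

/-- The gate acts on qubits below `n`, and CNOT on two different qubits. -/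
def Gate.Fits (n : ℕ) : Gate → Prop
  | .had i => i < n
  | .tee i => i < n
  | .cnot i j => i < n ∧ j < n ∧ i ≠ j

/-- Well-formed circuits. -/
def Circuit.WF (C : Circuit) : Prop := 0 < C.w + C.a ∧ ∀ g ∈ C.gates, g.Fits (C.w + C.a)

/-- A one-qubit matrix acting on qubit `i` of an `n`-qubit state. -/
def act1 {n : ℕ} (U : Matrix (Fin 2) (Fin 2) ℂ) (i : ℕ) (ψ : (Fin n → Fin 2) → ℂ) :
    (Fin n → Fin 2) → ℂ := fun x =>
  if h : i < n then ∑ b, U (x ⟨i, h⟩) b * ψ (Function.update x ⟨i, h⟩ b) else ψ x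

/-- Action of a gate. -/
noncomputable def Gate.act {n : ℕ} : Gate → ((Fin n → Fin 2) → ℂ) → (Fin n → Fin 2) → ℂ
  | .had i, ψ => act1 !![1 / (√2 : ℝ), 1 / (√2 : ℝ); 1 / (√2 : ℝ), -(1 / (√2 : ℝ))] i ψ
  | .tee i, ψ => act1 !![1, 0; 0, Complex.exp (Real.pi * Complex.I / 4)] i ψ
  | .cnot i j, ψ => fun x =>
    if h : i < n ∧ j < n then ψ (Function.update x ⟨j, h.2⟩ (x ⟨j, h.2⟩ + x ⟨i, h.1⟩)) else ψ x

/-- The witness together with ancillas in the state zero. -/
def Circuit.init (C : Circuit) (ψ : (Fin C.w → Fin 2) → ℂ) : (Fin (C.w + C.a) → Fin 2) → ℂ :=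
  fun x => if ∀ j, x (Fin.natAdd C.w j) = 0 then ψ fun i => x (Fin.castAdd C.a i) else 0

/-- The probability that the first qubit is measured as one after the circuit. -/
noncomputable def Circuit.acc (C : Circuit) (ψ : (Fin C.w → Fin 2) → ℂ) : ℝ :=
  ∑ x : Fin (C.w + C.a) → Fin 2, if ∀ i : Fin (C.w + C.a), i.val = 0 → x i = 1 then
    ‖C.gates.foldl (fun φ g => g.act φ) (C.init ψ) x‖ ^ 2 else 0

/-- Some witness is accepted with probability at least two thirds. -/
def Circuit.Yes (C : Circuit) : Prop := ∃ ψ, ∑ x, ‖ψ x‖ ^ 2 = 1 ∧ 2 / 3 ≤ C.acc ψ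

/-- Every witness is accepted with probability at most one third. -/
def Circuit.No (C : Circuit) : Prop := ∀ ψ, ∑ x, ‖ψ x‖ ^ 2 = 1 → C.acc ψ ≤ 1 / 3

/-- The promise problem with yes-instances `Y` and no-instances `Z` is in QMA: a polynomial-time
generated family of verifier circuits decides it. -/
def InQMA (Y Z : Set (List Bool)) : Prop :=
  ∃ V : List Bool → Circuit, PolyTime id Circuit.code V ∧ (∀ x, (V x).WF) ∧
    (∀ x ∈ Y, (V x).Yes) ∧ ∀ x ∈ Z, (V x).No

/-! ### The electronic Hamiltonian -/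

/-- Points of space. -/
abbrev Pt := Fin 3 → ℝ

/-- Euclidean norm. -/
noncomputable def nrm (x : Pt) : ℝ := √(∑ k, x k ^ 2)

/-- Wave functions of `N` electrons: spins and positions. -/
abbrev Wave (N : ℕ) := (Fin N → Fin 2) → (Fin N → Pt) → ℂ

/-- The form core: continuously differentiable with compact support, and antisymmetric under
simultaneous exchange of positions and spins. -/
def Core {N : ℕ} (Ψ : Wave N) : Prop :=
  (∀ s, ContDiff ℝ 1 (Ψ s) ∧ HasCompactSupport (Ψ s)) ∧
    ∀ (π : Equiv.Perm (Fin N)) s x, Ψ (s ∘ π) (x ∘ π) = (Equiv.Perm.sign π : ℤ) * Ψ s x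

/-- Squared norm. -/
noncomputable def normSq {N : ℕ} (Ψ : Wave N) : ℝ := ∑ s, ∫ x, ‖Ψ s x‖ ^ 2

/-- The quadratic form of the clamped-nucleus Hamiltonian; a nucleus is a position and a charge. -/
noncomputable def energy {N : ℕ} (nuc : List (Pt × ℝ)) (Ψ : Wave N) : ℝ :=
  ∑ s, ((1 / 2) * (∑ i, ∑ k, ∫ x, ‖fderiv ℝ (Ψ s) x (Pi.single i (Pi.single k 1))‖ ^ 2) -
    (∑ i, (nuc.map fun p => p.2 * ∫ x, ‖Ψ s x‖ ^ 2 / nrm (x i - p.1)).sum) +
    ∑ i, ∑ j, if i < j then ∫ x, ‖Ψ s x‖ ^ 2 / nrm (x i - x j) else 0)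

/-- The ground energy: the infimum of the form over normalised elements of the core. -/
noncomputable def ground (N : ℕ) (nuc : List (Pt × ℝ)) : EReal :=
  ⨅ Ψ : {Ψ : Wave N // Core Ψ ∧ normSq Ψ = 1}, (energy nuc Ψ.1 : EReal)

/-- Instances: nuclei (rational position, integer charge), electron number, thresholds. -/
structure Inst where
  /-- nuclei -/
  nuc : List ((ℚ × ℚ × ℚ) × ℕ)
  /-- number of electrons -/
  N : ℕ
  /-- lower threshold -/
  a : ℚ
  /-- upper threshold -/
  b : ℚ

/-- Code of an instance; the electron number is in unary. -/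
def Inst.code (I : Inst) : List Bool :=
  cPair (cList (cPair (cPair cRat (cPair cRat cRat)) cNat)) (cPair cUnary (cPair cRat cRat))
    (I.nuc, I.N, I.a, I.b)

/-- Ground energy of an instance. -/
noncomputable def Inst.E0 (I : Inst) : EReal :=
  ground I.N (I.nuc.map fun p => (![(p.1.1 : ℝ), (p.1.2.1 : ℝ), (p.1.2.2 : ℝ)], (p.2 : ℝ)))

/-- Valid instances with the promised gap. -/
def Inst.Valid (c : ℕ) (I : Inst) : Prop :=
  I.nuc ≠ [] ∧ (I.nuc.map Prod.fst).Nodup ∧ (∀ p ∈ I.nuc, 0 < p.2) ∧ 1 ≤ I.N ∧ I.a < I.b ∧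
    1 / (I.code.length : ℚ) ^ c ≤ I.b - I.a

end Vale.Agent.P370
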