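import Vale.Agent.P370.Defs

/-!
The ground energy over the full form domain: antisymmetric wave functions in the Sobolev space.
-/

namespace Vale.Agent.P370

open MeasureTheory
open scoped ContDiff

/-- `f` is square integrable with square integrable weak partial derivatives `G i k`. -/
def InH1 {N : ℕ} (f : (Fin N → Pt) → ℂ) (G : Fin N → Fin 3 → (Fin N → Pt) → ℂ) : Prop :=
  MemLp f 2 ∧ ∀ i k, MemLp (G i k) 2 ∧ ∀ φ : (Fin N → Pt) → ℝ, ContDiff ℝ ∞ φ →
    HasCompactSupport φ →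
    ∫ x, f x * (fderiv ℝ φ x (Pi.single i (Pi.single k 1)) : ℝ) = -∫ x, G i k x * (φ x : ℝ)

/-- Gradients of wave functions. -/
abbrev Grad (N : ℕ) := (Fin N → Fin 2) → Fin N → Fin 3 → (Fin N → Pt) → ℂ

/-- The form domain: Sobolev functions, antisymmetric under simultaneous exchange of positions
and spins. -/
def Dom {N : ℕ} (Ψ : Wave N) (G : Grad N) : Prop :=
  (∀ s, InH1 (Ψ s) (G s)) ∧ ∀ (π : Equiv.Perm (Fin N)) s,
    ∀ᵐ x, Ψ (s ∘ π) (x ∘ π) = (Equiv.Perm.sign π : ℤ) * Ψ s x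

/-- The quadratic form of the clamped-nucleus Hamiltonian. -/
noncomputable def form {N : ℕ} (nuc : List (Pt × ℝ)) (Ψ : Wave N) (G : Grad N) : ℝ :=
  ∑ s, ((1 / 2) * (∑ i, ∑ k, ∫ x, ‖G s i k x‖ ^ 2) -
    (∑ i, (nuc.map fun p => p.2 * ∫ x, ‖Ψ s x‖ ^ 2 / nrm (x i - p.1)).sum) +
    ∑ i, ∑ j, if i < j then ∫ x, ‖Ψ s x‖ ^ 2 / nrm (x i - x j) else 0)

/-- The ground energy: the infimum of the form over normalised elements of the form domain. -/
noncomputable def groundH (N : ℕ) (nuc : List (Pt × ℝ)) : EReal :=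
  ⨅ p : {p : Wave N × Grad N // Dom p.1 p.2 ∧ normSq p.1 = 1}, (form nuc p.1.1 p.1.2 : EReal)

/-- Ground energy of an instance. -/
noncomputable def Inst.ground (I : Inst) : EReal :=
  groundH I.N (I.nuc.map fun p => (![(p.1.1 : ℝ), (p.1.2.1 : ℝ), (p.1.2.2 : ℝ)], (p.2 : ℝ)))

end Vale.Agent.P370
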