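import Vale.Agent.P370.HardyN

/-!
Antisymmetric elements of the core approximate elements of the form domain.
-/

namespace Vale.Agent.P370

open MeasureTheory Function Set
open scoped ContDiff

variable {N : ℕ} {f f' : (Fin N → Pt) → ℂ} {G G' : Fin N → Fin 3 → (Fin N → Pt) → ℂ}

lemma int_test (h : MemLp f 2) {φ : (Fin N → Pt) → ℝ} (hφ : Continuous φ)
    (hc : HasCompactSupport φ) : Integrable fun x => f x * (φ x : ℝ) :=
  h.integrable_mul (q := 2) ((Complex.continuous_ofReal.comp hφ).memLp_of_hasCompactSupport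
    (hc.comp_left (g := fun t : ℝ => (t : ℂ)) (by simp)))

lemma int_test' (h : MemLp f 2) {φ : (Fin N → Pt) → ℝ} (hφ : ContDiff ℝ ∞ φ)
    (hc : HasCompactSupport φ) (v : Fin N → Pt) :
    Integrable fun x => f x * (fderiv ℝ φ x v : ℝ) :=
  int_test h ((hφ.continuous_fderiv (by simp)).clm_apply continuous_const) (hc.fderiv_apply ℝ v)

lemma InH1.add (h : InH1 f G) (h' : InH1 f' G') :
    InH1 (fun x => f x + f' x) fun i k x => G i k x + G' i k x := by
  refine ⟨h.1.add h'.1, fun i k => ⟨(h.2 i k).1.add (h'.2 i k).1, fun φ hφ hc => ?_⟩⟩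
  simp only [add_mul]
  rw [integral_add (int_test' h.1 hφ hc _) (int_test' h'.1 hφ hc _),
    integral_add (int_test (h.2 i k).1 hφ.continuous hc) (int_test (h'.2 i k).1 hφ.continuous hc),
    (h.2 i k).2 φ hφ hc, (h'.2 i k).2 φ hφ hc, neg_add]

lemma InH1.mul (h : InH1 f G) (c : ℂ) : InH1 (fun x => c * f x) fun i k x => c * G i k x := by
  refine ⟨h.1.const_mul c, fun i k => ⟨(h.2 i k).1.const_mul c, fun φ hφ hc => ?_⟩⟩
  simp only [mul_assoc]
  rw [integral_const_mul, integral_const_mul, (h.2 i k).2 φ hφ hc, mul_neg]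

lemma InH1.sub (h : InH1 f G) (h' : InH1 f' G') :
    InH1 (fun x => f x - f' x) fun i k x => G i k x - G' i k x := by
  simpa [sub_eq_add_neg] using h.add (h'.mul (-1))

lemma InH1.sum {ι : Type} (S : Finset ι) {F : ι → (Fin N → Pt) → ℂ}
    {H : ι → Fin N → Fin 3 → (Fin N → Pt) → ℂ} (h : ∀ a, InH1 (F a) (H a)) :
    InH1 (fun x => ∑ a ∈ S, F a x) fun i k x => ∑ a ∈ S, H a i k x := by
  classical
  induction S using Finset.induction_on with
  | empty => exact ⟨by simp, fun i k => ⟨by simp, fun φ _ _ => by simp⟩⟩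
  | insert a S ha ih => simpa [Finset.sum_insert ha] using (h a).add ih

lemma InH1.unique (h : InH1 f G) (h' : InH1 f' G') (e : f =ᵐ[volume] f') (i : Fin N)
    (k : Fin 3) : G i k =ᵐ[volume] G' i k := by
  refine ae_eq_of_integral_contDiff_smul_eq ((h.2 i k).1.locallyIntegrable (by norm_num))
    ((h'.2 i k).1.locallyIntegrable (by norm_num)) fun φ hφ hc => ?_
  have h1 := (h.2 i k).2 φ hφ hc
  rw [integral_congr_ae (g := fun x => f' x * (fderiv ℝ φ x (Pi.single i (Pi.single k 1)) : ℝ))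
    (e.mono fun x hx => by rw [hx]), (h'.2 i k).2 φ hφ hc, neg_inj] at h1
  simpa [mul_comm] using h1.symm

/-- Permutation of the particles. -/
noncomputable def prm (π : Equiv.Perm (Fin N)) : (Fin N → Pt) ≃L[ℝ] (Fin N → Pt) :=
  (LinearEquiv.funCongrLeft ℝ Pt π).toContinuousLinearEquiv

lemma prm_apply (π : Equiv.Perm (Fin N)) (x : Fin N → Pt) : prm π x = x ∘ π := rfl

lemma mp_prm (π : Equiv.Perm (Fin N)) :
    MeasurePreserving (fun x : Fin N → Pt => x ∘ π) volume volume := by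
  have := volume_measurePreserving_piCongrLeft (fun _ : Fin N => Pt) π.symm
  convert this using 1
  funext x j
  simp [MeasurableEquiv.coe_piCongrLeft, Equiv.piCongrLeft_apply_eq_cast]

lemma int_prm {E : Type} [NormedAddCommGroup E] [NormedSpace ℝ E] (π : Equiv.Perm (Fin N))
    (F : (Fin N → Pt) → E) : ∫ x : Fin N → Pt, F (x ∘ π) = ∫ x, F x :=
  (mp_prm π).integral_comp (prm π).toHomeomorph.measurableEmbedding F

lemma InH1.perm (h : InH1 f G) (π : Equiv.Perm (Fin N)) :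
    InH1 (fun x => f (x ∘ π)) fun i k x => G (π.symm i) k (x ∘ π) := by
  refine ⟨h.1.comp_measurePreserving (mp_prm π), fun i k =>
    ⟨(h.2 _ k).1.comp_measurePreserving (mp_prm π), fun φ hφ hc => ?_⟩⟩
  have h1 := (h.2 (π.symm i) k).2 (φ ∘ prm π.symm) (hφ.comp (prm π.symm).contDiff)
    (hc.comp_homeomorph (prm π.symm).toHomeomorph)
  rw [← int_prm π, ← int_prm π fun x => G (π.symm i) k x * _] at h1
  have e1 : ∀ x : Fin N → Pt, prm π.symm (x ∘ π) = x := fun x => by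
    funext j; simp [prm_apply]
  have e2 : prm π.symm (Pi.single (π.symm i) (Pi.single k 1)) = Pi.single i (Pi.single k 1) := by
    funext j
    simp [prm_apply, Pi.single_apply]
  simpa only [ContinuousLinearEquiv.comp_right_fderiv, ContinuousLinearMap.comp_apply,
    ContinuousLinearEquiv.coe_coe, e1, e2, comp_apply] using h1

lemma avg_le {ι : Type} [Fintype ι] {F : ι → (Fin N → Pt) → ℂ} (hF : ∀ a, MemLp (F a) 2)
    {c : ι → ℂ} (hc : ∀ a, ‖c a‖ ≤ 1) {ε : ℝ} (h : ∀ a, ∫ x, ‖F a x‖ ^ 2 ≤ ε) :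
    ∫ x, ‖∑ a, c a * F a x‖ ^ 2 ≤ (Fintype.card ι : ℝ) ^ 2 * ε := by
  have i1 : Integrable fun x => ‖∑ a, c a * F a x‖ ^ 2 :=
    MemLp.isq (memLp_finset_sum _ fun a _ => (hF a).const_mul _)
  have i2 := (integrable_finsetSum Finset.univ fun a _ => MemLp.isq (hF a)).const_mul
    (Fintype.card ι : ℝ)
  refine (integral_mono i1 i2 fun x => ?_).trans ?_
  · refine le_trans (pow_le_pow_left₀ (norm_nonneg _) ((norm_sum_le _ _).trans
      (Finset.sum_le_sum fun a _ => ?_)) 2) sq_sum_le_card_mul_sum_sq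
    rw [norm_mul]
    exact mul_le_of_le_one_left (norm_nonneg _) (hc a)
  · rw [integral_const_mul, integral_finsetSum _ fun a _ => MemLp.isq (hF a), sq, mul_assoc]
    refine mul_le_mul_of_nonneg_left ((Finset.sum_le_sum fun a _ => h a).trans ?_)
      (Nat.cast_nonneg _)
    simp

theorem Dom.approx {Ψ : Wave N} {G : Grad N} (h : Dom Ψ G) {ε : ℝ} (hε : 0 < ε) :
    ∃ Φ : Wave N, Core Φ ∧ ∀ s, ∫ x, ‖Φ s x - Ψ s x‖ ^ 2 ≤ ε ∧
      ∀ i k, ∫ x, ‖fderiv ℝ (Φ s) x (dirn i k) - G s i k x‖ ^ 2 ≤ ε := by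
  obtain ⟨n, hn⟩ : ∃ n : ℝ, n = (Fintype.card (Equiv.Perm (Fin N)) : ℝ) := ⟨_, rfl⟩
  have n1 : 1 ≤ n := by rw [hn]; exact_mod_cast Fintype.card_pos
  choose g g1 g2 g3 g4 using fun s =>
    (h.1 s).approx (div_pos hε (pow_pos (by linarith) 2 : 0 < n ^ 2))
  set c : Equiv.Perm (Fin N) → ℂ := fun π => ((Equiv.Perm.sign π : ℤ) : ℂ) / n with hc
  have hs : ∀ π : Equiv.Perm (Fin N),
      ((Equiv.Perm.sign π : ℤ) : ℂ) * ((Equiv.Perm.sign π : ℤ) : ℂ) = 1 := fun π => by
    rw [← Int.cast_mul, ← Units.val_mul, Int.units_mul_self]; simp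
  have hc1 : ∀ π, ‖c π‖ ≤ 1 := fun π => by
    rw [hc, norm_div, Complex.norm_real, Real.norm_eq_abs, abs_of_pos (by linarith),
      div_le_one (by linarith)]
    rcases Int.units_eq_one_or (Equiv.Perm.sign π) with h | h <;> simp [h, n1]
  set Φ : Wave N := fun s x => ∑ π, c π * g (s ∘ π) (x ∘ π) with hΦ
  have hcore : Core Φ := by
    refine ⟨fun s => ⟨ContDiff.sum fun π _ => contDiff_const.mul ((g1 _).comp (prm π).contDiff), ?_⟩,
      fun τ s x => ?_⟩
    · rw [show Φ s = ∑ π, fun x => c π * g (s ∘ π) (x ∘ π) from by funext x; simp [hΦ]]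
      exact HasCompactSupport.finset_sum fun π _ =>
        HasCompactSupport.mul_left ((g2 _).comp_homeomorph (prm π).toHomeomorph)
    · simp only [hΦ, Finset.mul_sum]
      refine Fintype.sum_equiv (Equiv.mulLeft τ) _ _ fun π => ?_
      simp only [hc, Equiv.coe_mulLeft, Equiv.Perm.sign_mul, Units.val_mul, Int.cast_mul,
        Equiv.Perm.coe_mul, comp_assoc]
      linear_combination (-((Equiv.Perm.sign π : ℤ) : ℂ) / n * g (s ∘ τ ∘ π) (x ∘ τ ∘ π)) * hs τ
  refine ⟨Φ, hcore, fun s => ?_⟩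
  have hd := fun s => (inH1_of_c1 (g1 s) (g2 s)).sub (h.1 s)
  have hP := fun π : Equiv.Perm (Fin N) => (hd (s ∘ π)).perm π
  have hA := InH1.sum Finset.univ fun π => (hP π).mul (c π)
  have hB := (inH1_of_c1 (hcore.1 s).1 (hcore.1 s).2).sub (h.1 s)
  have e : (fun x => Φ s x - Ψ s x) =ᵐ[volume]
      fun x => ∑ π, c π * (g (s ∘ π) (x ∘ π) - Ψ (s ∘ π) (x ∘ π)) := by
    filter_upwards [ae_all_iff.2 fun π => h.2 π s] with x hx
    simp only [hΦ, mul_sub, Finset.sum_sub_distrib, hx]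
    congr 1
    have : ∀ π, c π * (((Equiv.Perm.sign π : ℤ) : ℂ) * Ψ s x) = Ψ s x / n := fun π => by
      simp only [hc]
      linear_combination (Ψ s x / n) * hs π
    have n0 : (n : ℂ) ≠ 0 := by exact_mod_cast (by linarith : n ≠ 0)
    simp only [this, Finset.sum_const, Finset.card_univ, nsmul_eq_mul]
    rw [show ((Fintype.card (Equiv.Perm (Fin N)) : ℕ) : ℂ) = n by simp [hn]]
    field_simp
  have fin : (Fintype.card (Equiv.Perm (Fin N)) : ℝ) ^ 2 * (ε / n ^ 2) = ε := by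
    rw [← hn]; field_simp
  refine ⟨?_, fun i k => ?_⟩
  · rw [integral_congr_ae (e.mono fun x hx => by simp only at hx; rw [hx]), ← fin]
    exact avg_le (fun π => (hP π).1) hc1 fun π =>
      (int_prm π fun x => ‖g (s ∘ π) x - Ψ (s ∘ π) x‖ ^ 2).trans_le (g3 _)
  · rw [integral_congr_ae ((hB.unique hA e i k).mono fun x hx => by
      simp only at hx; rw [hx]), ← fin]
    exact avg_le (fun π => ((hP π).2 i k).1) hc1 fun π =>
      (int_prm π fun x => ‖fderiv ℝ (g (s ∘ π)) x (dirn (π.symm i) k) -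
        G (s ∘ π) (π.symm i) k x‖ ^ 2).trans_le (g4 _ _ _)

end Vale.Agent.P370
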