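import Vale.Agent.P370.Box
import Vale.Agent.P049.QCT

/-!
Rational approximations of the constants, in time polynomial in the unary precision.
-/

namespace Vale.Agent.P370

open Vale.Agent.Lib.TM Vale.Agent.P049

/-- `f q` approximates `c` within `1 / q` and is computed in time polynomial in `q`. -/
def Apx (c : ℝ) (f : ℕ → ℚ) : Prop :=
  (∀ q, 1 ≤ q → |(f q : ℝ) - c| ≤ 1 / q) ∧ CT 0 fun u : List Bool => f u.length

theorem ct_replicate {α β : Type} [Enc α] [Enc β] {n : α → ℕ} {b : α → β} (hn : CT 0 n)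
    (hB : Bd 0 n) (hb : CT 0 b) : CT 0 fun a => List.replicate (n a) (b a) :=
  (CT.map (f := fun a _ => b a) (by fun_prop) (hn.range hB)).of_eq fun a => by simp

lemma nm_unary {α β : Type} [Enc α] [Enc β] {F : ℕ → β} (h : CT 0 fun u : List Bool => F u.length)
    {q : α → ℕ} (hq : CT 0 q) (hB : Bd 0 q) : CT 0 fun a => F (q a) :=
  (h.comp (ct_replicate hq hB (CT.const true))).of_eq fun a => by simp

theorem Apx.ct {c : ℝ} {f : ℕ → ℚ} (h : Apx c f) {α : Type} [Enc α] {q : α → ℕ} (hq : CT 0 q)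
    (hB : Bd 0 q) : CT 0 fun a => f (q a) := nm_unary h.2 hq hB

theorem ct_floor {α : Type} [Enc α] {x : α → ℚ} (hx : CT 0 x) : CT 0 fun a => ⌊x a⌋ := by
  have h1 := ct_natAbs (ct_num hx)
  refine (ct_subNat ((ct_toNat (ct_iadd (ct_num hx) (ct_intCast (h1.mul (ct_den hx))))).div
    (ct_den hx)) h1).of_eq fun a => ?_
  have h2 : (0 : ℤ) < (x a).den := by exact_mod_cast (x a).den_pos
  have h3 : 0 ≤ (x a).num + ((x a).num.natAbs * (x a).den : ℕ) := by
    push_cast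
    nlinarith [neg_abs_le (x a).num, abs_nonneg (x a).num]
  rw [Rat.floor_def', Int.natCast_div, Int.toNat_of_nonneg h3, Nat.cast_mul,
    Int.add_mul_ediv_right _ _ h2.ne', add_sub_cancel_right]

theorem ct_qpow' {α : Type} [Enc α] {x : α → ℚ} {k : α → ℕ} (hx : CT 0 x) (hk : CT 0 k)
    (hB : Bd 0 k) : CT 0 fun a => x a ^ k a := by
  have h1 := ct_qdiv (ct_natCast ((ct_natAbs (ct_num hx)).pow hk hB))
    (ct_natCast ((ct_den hx).pow hk hB))
  refine (((ct_qlt hx (CT.const 0)).and ((CT.const 0).decLt (hk.mod (CT.const 2)))).cond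
    (ct_qneg h1) h1).of_eq fun a => ?_
  have h2 : (((x a).num.natAbs ^ k a : ℕ) : ℚ) / ((x a).den ^ k a : ℕ) = |x a| ^ k a := by
    rw [Nat.cast_pow, Nat.cast_pow, ← div_pow, Nat.cast_natAbs, Int.cast_abs]
    conv_rhs => rw [← Rat.num_div_den (x a), abs_div, Nat.abs_cast]
  rw [h2]
  rcases lt_or_ge (x a) 0 with h | h
  · rcases Nat.even_or_odd (k a) with h' | h'
    · simp [Nat.even_iff.1 h', h'.pow_abs]
    · simp [Nat.odd_iff.1 h', h, abs_of_neg h, h'.neg_pow]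
  · simp [h.not_gt, abs_of_nonneg h]

theorem ct_icast {α : Type} [Enc α] {z : α → ℤ} (hz : CT 0 z) : CT 0 fun a => (z a : ℚ) :=
  (ct_mkRat hz (CT.const 1)).of_eq fun a => by simp [Rat.mkRat_eq_div]

theorem ct_isum {α : Type} [Enc α] {l : α → List ℤ} (hl : CT 0 l) : CT 0 fun a => (l a).sum :=
  (ct_num (ct_qsum (CT.map (f := fun _ (z : ℤ) => (z : ℚ)) (ct_icast CT.id.snd) hl))).of_eq
    fun a => by rw [← Int.cast_list_sum, Rat.num_intCast]

theorem Bd.npow {α : Type} [Enc α] {t : α → ℕ} (h : Bd 0 t) (c : ℕ) : Bd 0 fun a => t a ^ c := by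
  induction c with
  | zero => exact (Bd.const 1).of_le fun a => by simp
  | succ c ih => exact (ih.mul h).of_le fun a => (pow_succ _ _).le

/-- Square root with precision `1 / Q`. -/
def nmRt (x : ℚ) (Q : ℕ) : ℚ := (Nat.sqrt ⌊x * Q ^ 2⌋.toNat : ℚ) / Q

lemma nm_rt (x : ℚ) {Q : ℕ} (hQ : 1 ≤ Q) (hx : 0 ≤ x) : |(nmRt x Q : ℝ) - √x| ≤ 1 / Q := by
  have h0 : (0 : ℝ) < Q := by exact_mod_cast hQ
  have h1 : 0 ≤ ⌊x * Q ^ 2⌋ := Int.floor_nonneg.2 (by positivity)
  obtain ⟨m, hm⟩ := Int.eq_ofNat_of_zero_le h1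
  have h2 : (m : ℝ) ≤ x * Q ^ 2 := by
    have := Int.floor_le (x * Q ^ 2)
    rw [hm] at this
    exact_mod_cast this
  have h3 : x * (Q : ℝ) ^ 2 < m + 1 := by
    have := Int.lt_floor_add_one (x * Q ^ 2)
    rw [hm] at this
    exact_mod_cast this
  have h4 : (m.sqrt : ℝ) ^ 2 ≤ m := by exact_mod_cast Nat.sqrt_le' m
  have h5 : (m : ℝ) + 1 ≤ (m.sqrt + 1) ^ 2 := by exact_mod_cast Nat.lt_succ_sqrt' m
  have h6 : (m.sqrt : ℝ) / Q ≤ √x :=
    Real.le_sqrt_of_sq_le (by rw [div_pow, div_le_iff₀ (by positivity)]; linarith)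
  have h7 : √x ≤ (m.sqrt + 1) / Q :=
    Real.sqrt_le_iff.2 ⟨by positivity, by rw [div_pow, le_div_iff₀ (by positivity)]; linarith⟩
  rw [add_div] at h7
  rw [nmRt, hm, Int.toNat_natCast, abs_le]
  push_cast
  have : (0 : ℝ) < 1 / Q := by positivity
  constructor <;> linarith

lemma nm_ct_rt {α : Type} [Enc α] {x : α → ℚ} {Q : α → ℕ} (hx : CT 0 x) (hQ : CT 0 Q)
    (hB : Bd 0 Q) (C : ℕ) (h : ∀ a, x a ≤ C) : CT 0 fun a => nmRt (x a) (Q a) := by
  refine ct_qdiv (ct_natCast ((ct_toNat (ct_floor (by fun_prop))).sqrt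
    (((Bd.const C).mul (Bd.npow hB 2)).of_le fun a => ?_))) (ct_natCast hQ)
  rw [Int.toNat_le, Int.floor_le_iff]
  push_cast
  nlinarith [h a, sq_nonneg (Q a : ℚ)]

lemma nm_riemann {g : ℝ → ℝ} (hg : AntitoneOn g (Set.Icc 0 1)) {Q : ℕ} (hQ : 1 ≤ Q) :
    |(∑ i ∈ Finset.range Q, g (i / Q)) / Q - ∫ t in (0 : ℝ)..1, g t| ≤ (g 0 - g 1) / Q := by
  have h0 : (0 : ℝ) < Q := by exact_mod_cast hQ
  have h1 : AntitoneOn (fun s => g (s / Q)) (Set.Icc 0 (0 + Q)) := fun s hs t ht h => by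
    rw [zero_add] at hs ht
    exact hg ⟨div_nonneg hs.1 h0.le, (div_le_one h0).2 hs.2⟩
      ⟨div_nonneg ht.1 h0.le, (div_le_one h0).2 ht.2⟩ (by gcongr)
  have h2 := h1.integral_le_sum
  have h3 := h1.sum_le_integral
  have h4 := Finset.sum_range_sub' (fun i : ℕ => g (i / Q)) Q
  simp only [zero_add, intervalIntegral.integral_comp_div _ h0.ne', zero_div, div_self h0.ne',
    smul_eq_mul, Finset.sum_sub_distrib, Nat.cast_zero] at h2 h3 h4
  rw [div_sub' h0.ne', abs_div, abs_of_pos h0]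
  gcongr
  rw [abs_le]
  constructor <;> linarith

lemma nm_apx {g : ℝ → ℝ} (hg : AntitoneOn g (Set.Icc 0 1)) (h0 : g 0 - g 1 ≤ 2) {a : ℕ → ℕ → ℚ}
    (ha : ∀ Q i, i < Q → |(a Q i : ℝ) - g (i / Q)| ≤ 2 / Q)
    (hc : CT 0 fun p : List Bool × ℕ => a p.1.length p.2) :
    ∃ f, Apx (∫ t in (0 : ℝ)..1, g t) f := by
  refine ⟨fun q => ((List.range (4 * q)).map (a (4 * q))).sum / (4 * q : ℕ), fun q hq => ?_,
    nm_unary (F := fun Q => ((List.range Q).map (a Q)).sum / Q) (ct_qdiv (ct_qsum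
      (CT.map (f := fun u : List Bool => a u.length) hc CT.id.range_length))
      (ct_natCast CT.id.length)) ((CT.const 4).mul CT.id.length)
      ((Bd.const 4).mul (CT.id (e := 0)).bd_length)⟩
  obtain ⟨Q, hQ⟩ : ∃ Q, Q = 4 * q := ⟨_, rfl⟩
  have h1 := nm_riemann hg (show 1 ≤ Q by omega)
  have h2 : (0 : ℝ) < Q := by exact_mod_cast (show 0 < Q by omega)
  have h3 : |(∑ i ∈ Finset.range Q, (a Q i : ℝ)) - ∑ i ∈ Finset.range Q, g (i / Q)| ≤ 2 := by
    rw [← Finset.sum_sub_distrib]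
    refine (Finset.abs_sum_le_sum_abs _ _).trans ((Finset.sum_le_card_nsmul _ _ _
      fun i hi => ha Q i (Finset.mem_range.1 hi)).trans (le_of_eq ?_))
    rw [Finset.card_range, nsmul_eq_mul]
    field_simp
  have h4 : (1 : ℝ) / q = 2 / Q + 2 / Q := by
    have : (0 : ℝ) < q := by exact_mod_cast hq
    rw [hQ]; push_cast; field_simp; norm_num
  have h5 : ((List.range Q).map (a Q)).sum = ∑ i ∈ Finset.range Q, a Q i := rfl
  dsimp only
  rw [← hQ, h5, h4]
  push_cast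
  refine (abs_sub_le _ _ _).trans (add_le_add ?_ (h1.trans (by gcongr)))
  rw [← sub_div, abs_div, abs_of_pos h2]
  gcongr

theorem apx_pi : ∃ f, Apx Real.pi f := by
  have h := nm_apx (g := fun t => 4 * (1 / (1 + t ^ 2)))
    (fun s hs t ht h => by have := hs.1; dsimp only; gcongr) (by norm_num)
    (a := fun Q i => 4 * (1 / (1 + (i / Q) ^ 2))) (fun Q i _ => by simp; positivity) (by fun_prop)
  rwa [intervalIntegral.integral_const_mul, integral_one_div_one_add_sq, Real.arctan_one,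
    Real.arctan_zero, sub_zero, mul_div_cancel₀ _ four_ne_zero] at h

theorem apx_sqrt_pi : ∃ f, Apx (√Real.pi) f := by
  obtain ⟨f, hf⟩ := apx_pi
  have p1 := Real.pi_gt_three
  have p2 := Real.pi_lt_four
  have h1 : ∀ q : ℕ, 2 ≤ (f (2 * q + 1) : ℝ) ∧ (f (2 * q + 1) : ℝ) ≤ 5 := fun q => by
    have h := abs_le.1 ((hf.1 (2 * q + 1) (by omega)).trans
      ((div_le_one (by positivity)).2 (by exact_mod_cast Nat.le_add_left 1 _)))
    constructor <;> linarith [h.1, h.2]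
  have hc : CT 0 fun u : List Bool => 2 * u.length + 1 := by fun_prop
  have hB : Bd 0 fun u : List Bool => 2 * u.length + 1 :=
    ((Bd.const 2).mul (CT.id (e := 0)).bd_length).add (Bd.const 1)
  refine ⟨fun q => nmRt (f (2 * q + 1)) (2 * q + 1), fun q hq => ?_,
    nm_ct_rt (hf.ct hc hB) hc hB 5 fun u => by exact_mod_cast (h1 _).2⟩
  have h2 := nm_rt (f (2 * q + 1)) (show 1 ≤ 2 * q + 1 by omega)
    (by exact_mod_cast zero_le_two.trans (h1 q).1)
  have h3 := hf.1 (2 * q + 1) (by omega)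
  have h4 : |√(f (2 * q + 1) : ℝ) - √Real.pi| ≤ |(f (2 * q + 1) : ℝ) - Real.pi| := by
    have a1 : 1 ≤ √Real.pi := Real.one_le_sqrt.2 (by linarith)
    have a2 := Real.sqrt_nonneg (f (2 * q + 1) : ℝ)
    conv_rhs => rw [← Real.sq_sqrt (zero_le_two.trans (h1 q).1), ← Real.sq_sqrt Real.pi_pos.le,
      sq_sub_sq, abs_mul]
    exact le_mul_of_one_le_left (abs_nonneg _) (by rw [abs_of_nonneg] <;> linarith)
  have h5 : (1 : ℝ) / (2 * q + 1 : ℕ) ≤ 1 / q / 2 := by
    have : (0 : ℝ) < q := by exact_mod_cast hq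
    rw [div_div]; push_cast; gcongr; linarith
  linarith [abs_sub_le (nmRt (f (2 * q + 1)) (2 * q + 1) : ℝ) √(f (2 * q + 1) : ℝ) √Real.pi]

lemma nm_anti : AntitoneOn (fun t : ℝ => 1 / √(1 + t ^ 2)) (Set.Icc 0 1) := fun s hs t ht h => by
  have := hs.1
  dsimp only
  gcongr

lemma nm_isq (Q i : ℕ) (h : i < Q) :
    |(nmRt (1 / (1 + (i / Q) ^ 2)) Q : ℝ) - 1 / √(1 + (i / Q) ^ 2)| ≤ 1 / Q := by
  have := nm_rt (1 / (1 + (i / Q) ^ 2)) (show 1 ≤ Q by omega) (by positivity)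
  push_cast at this
  rwa [Real.sqrt_div zero_le_one, Real.sqrt_one] at this

lemma nm_ct_isq :
    CT 0 fun p : List Bool × ℕ => nmRt (1 / (1 + (p.2 / p.1.length) ^ 2)) p.1.length :=
  nm_ct_rt (by fun_prop) (by fun_prop) (CT.id (e := 0)).fst.bd_length 1 fun p => by
    rw [Nat.cast_one, div_le_one (by positivity)]
    exact le_add_of_nonneg_right (sq_nonneg _)

theorem apx_cL : ∃ f, Apx cL f :=
  nm_apx nm_anti (by have : 0 ≤ 1 / √(1 + (1 : ℝ) ^ 2) := by positivity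
                     simp only [ne_eq, OfNat.ofNat_ne_zero, not_false_eq_true, zero_pow, add_zero,
                       Real.sqrt_one]
                     linarith)
    (fun Q i h => (nm_isq Q i h).trans (by gcongr; norm_num)) nm_ct_isq

theorem apx_cU : ∃ f, Apx cU f := by
  refine nm_apx (fun s hs t ht h => ?_) ?_
    (a := fun Q i => (2 - 2 * (i / Q) / 3) * nmRt (1 / (1 + (i / Q) ^ 2)) Q) (fun Q i h => ?_)
    (ct_qmul (by fun_prop) nm_ct_isq)
  · have := hs.1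
    have := hs.2
    gcongr
    linarith
  · have : 0 ≤ (2 - 2 * 1 / 3) / √(1 + (1 : ℝ) ^ 2) := by positivity
    simp only [ne_eq, OfNat.ofNat_ne_zero, not_false_eq_true, zero_pow, add_zero, Real.sqrt_one]
    linarith
  · have h1 : (0 : ℝ) < Q := by exact_mod_cast (show 0 < Q by omega)
    have h2 : (i : ℝ) / Q ≤ 1 := (div_le_one h1).2 (by exact_mod_cast h.le)
    have h3 : (0 : ℝ) ≤ i / Q := by positivity
    rw [Rat.cast_mul, div_eq_mul_one_div (2 - _), div_eq_mul_one_div 2]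
    push_cast
    rw [← mul_sub, abs_mul]
    exact mul_le_mul (abs_le.2 ⟨by linarith, by linarith⟩) (nm_isq Q i h) (abs_nonneg _) zero_le_two

instance : Enc Circuit :=
  ⟨fun C => enc (List.replicate C.w true, List.replicate C.a true, C.gates.map Gate.data)⟩

instance : Enc Inst := ⟨fun I => enc (I.nuc, List.replicate I.N true, I.a, I.b)⟩

lemma nm_list {α : Type} [Enc α] {f : α → List Bool} (h : ∀ x, (enc x).code = f x) (l : List α) :
    (enc l).code = cList f l := by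
  induction l with
  | nil => rfl
  | cons x l ih => rw [enc_cons, Tr.code, h, ih, cList]

lemma nm_pair {α β : Type} [Enc α] [Enc β] {f : α → List Bool} {g : β → List Bool}
    (h : ∀ x, (enc x).code = f x) (h' : ∀ x, (enc x).code = g x) (p : α × β) :
    (enc p).code = cPair f g p := by
  rw [cPair, ← h, ← h']; rfl

lemma nm_bool (b : Bool) : (enc b).code = cBool b := by cases b <;> rfl

lemma nm_nat (n : ℕ) : (enc n).code = cNat n := nm_list nm_bool _

lemma nm_rat (x : ℚ) : (enc x).code = cRat x := nm_pair (nm_pair nm_bool nm_nat) nm_nat (_, _)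

theorem enc_circuit (C : Circuit) : (enc C).code = C.code :=
  nm_pair (nm_list nm_bool) (nm_pair (nm_list nm_bool)
    (nm_list (nm_pair nm_nat (nm_pair nm_nat nm_nat)))) (_, _, _)

theorem enc_inst (I : Inst) : (enc I).code = I.code :=
  nm_pair (nm_list (nm_pair (nm_pair nm_rat (nm_pair nm_rat nm_rat)) nm_nat))
    (nm_pair (nm_list nm_bool) (nm_pair nm_rat nm_rat)) (_, _, _, _)

theorem ct_polyTime {f : Circuit → Inst} (h : CT 0 f) : PolyTime Circuit.code Inst.code f := by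
  rw [← (funext enc_circuit : (fun C : Circuit => (enc C).code) = Circuit.code),
    ← (funext enc_inst : (fun I : Inst => (enc I).code) = Inst.code)]
  exact h.polyTime

theorem ct_circuit : CT 0 fun C : Circuit =>
    (List.replicate C.w true, List.replicate C.a true, C.gates.map Gate.data) :=
  CT.id.of_enc_eq fun _ => rfl

theorem ct_inst {α : Type} [Enc α] {nuc : α → List ((ℚ × ℚ × ℚ) × ℕ)} {N : α → ℕ} {a b : α → ℚ}
    (h1 : CT 0 nuc) (h2 : CT 0 N) (h2' : Bd 0 N) (h3 : CT 0 a) (h4 : CT 0 b) :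
    CT 0 fun x => (⟨nuc x, N x, a x, b x⟩ : Inst) :=
  (h1.mk ((ct_replicate h2 h2' (CT.const true)).mk (h3.mk h4))).of_enc_eq fun _ => rfl

end Vale.Agent.P370
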