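import Vale.Agent.P370.LH
import Vale.Agent.P370.Num

/-!
The integer design of the couplings and its computability.
-/

namespace Vale.Agent.P370

open Vale.Agent.Lib.TM Vale.Agent.P049

/-- Integer approximations of the diagonal operators, scaled by `2 q`. -/
def dtab (q : ℕ) : List (List ℤ) :=
  [[2 * (q : ℤ), 2 * (q : ℤ), 2 * (q : ℤ)], [0, 0, 3 * (q : ℤ)],
    [2 * ((3 * q * q).sqrt : ℤ), -2 * ((3 * q * q).sqrt : ℤ), 0],
    [2 * (q : ℤ), 2 * (q : ℤ), -4 * (q : ℤ)],
    [((6 * q * q).sqrt : ℤ) + ((2 * q * q).sqrt : ℤ),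
      -1 * ((6 * q * q).sqrt : ℤ) + ((2 * q * q).sqrt : ℤ), -2 * ((2 * q * q).sqrt : ℤ)]]

/-- Entry of the table. -/
def dget (tb : List (List ℤ)) (P a : ℕ) : ℤ := (tb.getD (min P 4) []).getD a 0

/-- Contribution of the terms to an ordered pair of rows. -/
def wz (tb : List (List ℤ)) (H : List Term) (r r' : ℕ) : ℤ :=
  (H.map fun t => bif t.2.1.1 == r / 3 && t.2.2.1 == r' / 3 then
    t.1 * (dget tb t.2.1.2 (r % 3) * dget tb t.2.2.2 (r' % 3)) else 0).sum

/-- Half of the coupling of rows of different molecules. -/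
def xz (tb : List (List ℤ)) (H : List Term) (c r r' : ℕ) : ℤ :=
  bif r / 3 == r' / 3 then 0 else c + (wz tb H r r' + wz tb H r' r)

/-- Row sums. -/
def yz (tb : List (List ℤ)) (H : List Term) (c M r : ℕ) : ℤ :=
  ((List.range (3 * M)).map fun r' => xz tb H c r r').sum

/-- The couplings. -/
def vz (tb : List (List ℤ)) (H : List Term) (c K M r r' : ℕ) : ℤ :=
  2 * xz tb H c r r' + bif r / 3 == r' / 3 then
    K + (yz tb H c M (3 * (r / 3)) + yz tb H c M (3 * (r / 3) + 1) +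
      yz tb H c M (3 * (r / 3) + 2)) + -2 * (yz tb H c M r + yz tb H c M r') else 0

/-- The table of the couplings. -/
def vtab (tb : List (List ℤ)) (H : List Term) (c K M : ℕ) : List (List ℕ) :=
  (List.range (3 * M)).map fun r => (List.range (3 * M)).map fun r' => (vz tb H c K M r r').toNat

/-- The shift of the couplings. -/
def dC (n : ℕ) : ℕ := 2 * n * ((200 * n + 2) * (200 * n + 2))
/-- The hopping. -/
def dT (n : ℕ) : ℕ := 20000 * (n * n) * (200 * (n * n))
/-- A quarter of the row sums. -/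
def dK (n M : ℕ) : ℕ := dC n * (M * (M - 1)) + 56000 * (n * n) + 24 * M * dC n
/-- Lower threshold. -/
def dA (n M : ℕ) : ℕ := 3 * M * dT n + 8 * M * dK n M + (dC n * (M * (M - 1)) + 42000 * (n * n))
/-- Upper threshold. -/
def dB (n M : ℕ) : ℕ := 3 * M * dT n + 8 * M * dK n M + (dC n * (M * (M - 1)) + 56000 * (n * n))

/-- The instance of the fermion model. -/
def discFM (n₀ n M M' : ℕ) (H : List Term) : FM :=
  (List.replicate (n₀ + dB n M) true, M', vtab (dtab (50 * n)) H (dC n) (dK n M) M, dT n,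
    dA n M, dB n M)

section CT

attribute [local fun_prop] ct_iadd ct_imul ct_intCast ct_isum ct_toNat

variable {α : Type} [Enc α]

theorem ct_dtab {q : α → ℕ} (hq : CT 0 q) (hB : Bd 0 q) : CT 0 fun a => dtab (q a) := by
  have h : ∀ k : ℕ, CT 0 fun a => (k * q a * q a).sqrt := fun k =>
    CT.sqrt (by fun_prop) (((Bd.const k).mul hB).mul hB)
  have h2 := h 2
  have h3 := h 3
  have h6 := h 6
  unfold dtab
  fun_prop

@[fun_prop]
theorem ct_dget {tb : α → List (List ℤ)} {P r : α → ℕ} (h1 : CT 0 tb) (h2 : CT 0 P)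
    (h3 : CT 0 r) : CT 0 fun a => dget (tb a) (P a) (r a) := by
  unfold dget
  fun_prop

@[fun_prop]
theorem ct_wz {tb : α → List (List ℤ)} {H : α → List Term} {r r' : α → ℕ} (h1 : CT 0 tb)
    (h2 : CT 0 H) (h3 : CT 0 r) (h4 : CT 0 r') : CT 0 fun a => wz (tb a) (H a) (r a) (r' a) := by
  unfold wz
  fun_prop

@[fun_prop]
theorem ct_xz {tb : α → List (List ℤ)} {H : α → List Term} {c r r' : α → ℕ} (h1 : CT 0 tb)
    (h2 : CT 0 H) (h0 : CT 0 c) (h3 : CT 0 r) (h4 : CT 0 r') :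
    CT 0 fun a => xz (tb a) (H a) (c a) (r a) (r' a) := by
  unfold xz
  fun_prop

theorem ct_yz {tb : α → List (List ℤ)} {H : α → List Term} {c M r : α → ℕ} (h1 : CT 0 tb)
    (h2 : CT 0 H) (h0 : CT 0 c) (h3 : CT 0 fun a => List.range (3 * M a)) (h4 : CT 0 r) :
    CT 0 fun a => yz (tb a) (H a) (c a) (M a) (r a) := by
  unfold yz
  exact ct_isum (CT.map (f := fun a r' => xz (tb a) (H a) (c a) (r a) r') (by fun_prop) h3)

theorem ct_vz {tb : α → List (List ℤ)} {H : α → List Term} {c K M r r' : α → ℕ} (h1 : CT 0 tb)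
    (h2 : CT 0 H) (h0 : CT 0 c) (hK : CT 0 K) (h3 : CT 0 fun a => List.range (3 * M a))
    (h4 : CT 0 r) (h5 : CT 0 r') :
    CT 0 fun a => vz (tb a) (H a) (c a) (K a) (M a) (r a) (r' a) := by
  have k0 := ct_yz h1 h2 h0 h3 (r := fun a => 3 * (r a / 3)) (by fun_prop)
  have k1 := ct_yz h1 h2 h0 h3 (r := fun a => 3 * (r a / 3) + 1) (by fun_prop)
  have k2 := ct_yz h1 h2 h0 h3 (r := fun a => 3 * (r a / 3) + 2) (by fun_prop)
  have k3 := ct_yz h1 h2 h0 h3 h4
  have k4 := ct_yz h1 h2 h0 h3 h5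
  unfold vz
  exact ct_iadd (by fun_prop) (CT.cond (by fun_prop)
    (ct_iadd (ct_iadd (ct_intCast hK) (ct_iadd (ct_iadd k0 k1) k2))
      (ct_imul (CT.const _) (ct_iadd k3 k4))) (CT.const _))

theorem ct_vtab {tb : α → List (List ℤ)} {H : α → List Term} {c K M : α → ℕ} (h1 : CT 0 tb)
    (h2 : CT 0 H) (h0 : CT 0 c) (hK : CT 0 K) (h3 : CT 0 fun a => List.range (3 * M a)) :
    CT 0 fun a => vtab (tb a) (H a) (c a) (K a) (M a) := by
  unfold vtab
  have h4 : CT 0 fun p : (α × ℕ) × ℕ => p.1.1 := by fun_prop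
  refine CT.map (f := fun a r => (List.range (3 * M a)).map fun r' =>
    (vz (tb a) (H a) (c a) (K a) (M a) r r').toNat) ?_ h3
  refine CT.map (f := fun (p : α × ℕ) r' =>
    (vz (tb p.1) (H p.1) (c p.1) (K p.1) (M p.1) p.2 r').toNat) ?_
    (h3.comp (g := fun p : α × ℕ => p.1) (by fun_prop))
  exact ct_toNat (ct_vz (h1.comp h4) (h2.comp h4) (h0.comp h4) (hK.comp h4) (h3.comp h4)
    (by fun_prop) (by fun_prop))

theorem ct_discFM (n₀ : ℕ) {n M M' : α → ℕ} {H : α → List Term} (h1 : CT 0 n) (h2 : CT 0 M)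
    (h3 : CT 0 M') (h4 : CT 0 H) (hn : Bd 0 n) (hM : Bd 0 M) :
    CT 0 fun a => discFM n₀ (n a) (M a) (M' a) (H a) := by
  have hM' : Bd 0 fun a => M a - 1 := hM.of_le fun a => Nat.sub_le _ _
  have k0 : CT 0 fun a => 200 * n a + 2 := ((CT.const _).mul h1).add (CT.const _)
  have kC : CT 0 fun a => dC (n a) := ((CT.const _).mul h1).mul (k0.mul k0)
  have kT : CT 0 fun a => dT (n a) :=
    ((CT.const _).mul (h1.mul h1)).mul ((CT.const _).mul (h1.mul h1))
  have kD : ∀ k : ℕ, CT 0 fun a => dC (n a) * (M a * (M a - 1)) + k * (n a * n a) := fun k =>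
    (kC.mul (h2.mul (h2.sub (CT.const _)))).add ((CT.const _).mul (h1.mul h1))
  have kK : CT 0 fun a => dK (n a) (M a) := (kD _).add (((CT.const _).mul h2).mul kC)
  have kA : CT 0 fun a => dA (n a) (M a) :=
    ((((CT.const _).mul h2).mul kT).add (((CT.const _).mul h2).mul kK)).add (kD _)
  have kB : CT 0 fun a => dB (n a) (M a) :=
    ((((CT.const _).mul h2).mul kT).add (((CT.const _).mul h2).mul kK)).add (kD _)
  have b0 : Bd 0 fun a => 200 * n a + 2 := ((Bd.const _).mul hn).add (Bd.const _)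
  have bC : Bd 0 fun a => dC (n a) := ((Bd.const _).mul hn).mul (b0.mul b0)
  have bT : Bd 0 fun a => dT (n a) :=
    ((Bd.const _).mul (hn.mul hn)).mul ((Bd.const _).mul (hn.mul hn))
  have b1 : Bd 0 fun a => dC (n a) * (M a * (M a - 1)) + 56000 * (n a * n a) :=
    (bC.mul (hM.mul hM')).add ((Bd.const _).mul (hn.mul hn))
  have bK : Bd 0 fun a => dK (n a) (M a) := b1.add (((Bd.const _).mul hM).mul bC)
  have bB : Bd 0 fun a => dB (n a) (M a) :=
    ((((Bd.const _).mul hM).mul bT).add (((Bd.const _).mul hM).mul bK)).add b1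
  have k1 := ct_replicate ((CT.const n₀).add kB) ((Bd.const n₀).add bB) (CT.const true)
  have k2 := ct_vtab (ct_dtab ((CT.const 50).mul h1) ((Bd.const 50).mul hn)) h4 kC kK
    (((CT.const 3).mul h2).range ((Bd.const 3).mul hM))
  exact k1.mk (h3.mk (k2.mk (kT.mk (kA.mk kB))))

end CT

end Vale.Agent.P370
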