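import Vale.Agent.P370.FermiB

/-!
Block decomposition of the fermion model.
-/

namespace Vale.Agent.P370.Fe

open Finset Function

variable {N M : ℕ}

/-- Arms from molecules and local arms. -/
def mk (μ : Fin N → Fin M) (a : Fin N → Fin 3) : Fin N → Arm M := fun i => (μ i, a i)

theorem sum_mk (F : (Fin N → Arm M) → ℝ) : ∑ α, F α = ∑ μ, ∑ a, F (mk μ a) := by
  rw [← Fintype.sum_prod_type']
  exact (Equiv.sum_comp (Equiv.arrowProdEquivProdArrow _ (fun _ => Fin M) fun _ => Fin 3).symm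
    F).symm

theorem update_mk (μ : Fin N → Fin M) (a : Fin N → Fin 3) (i : Fin N) (b : Fin 3) :
    update (mk μ a) i ((mk μ a i).1, b) = mk μ (update a i b) := by
  funext j
  by_cases h : j = i
  · subst h; simp [mk]
  · simp [mk, h]

/-- Energy of a block. -/
noncomputable def bE (T : ℝ) (V : Arm M → Arm M → ℝ) (μ : Fin N → Fin M)
    (d : (Fin N → Fin 3) → ℝ) : ℝ :=
  T * (∑ i, ∑ a, (d a - av d i a) ^ 2) +
    ∑ a, (∑ i, ∑ j, if i < j then V (mk μ a i) (mk μ a j) else 0) * d a ^ 2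

theorem fmE_eq (T : ℝ) (V : Arm M → Arm M → ℝ) (c : (Fin N → Fin 2) → (Fin N → Arm M) → ℝ) :
    fmE T V c = ∑ s, ∑ μ, bE T V μ fun a => c s (mk μ a) := by
  refine sum_congr rfl fun s _ => ?_
  simp only [fmE1, bE, sum_add_distrib, ← mul_sum, av, sum_mk (M := M) (N := N), update_mk]
  rw [sum_comm]

theorem fmN_eq (c : (Fin N → Fin 2) → (Fin N → Arm M) → ℝ) :
    fmN c = ∑ s, ∑ μ, ∑ a, c s (mk μ a) ^ 2 :=
  sum_congr rfl fun _ _ => sum_mk _

theorem bE_zero (T : ℝ) (V : Arm M → Arm M → ℝ) (μ : Fin N → Fin M) {d : (Fin N → Fin 3) → ℝ}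
    (h : ∀ a, d a = 0) : bE T V μ d = 0 := by simp [bE, av, h]

theorem anti_block {c : (Fin N → Fin 2) → (Fin N → Arm M) → ℝ} (hc : Anti c) {s : Fin N → Fin 2}
    {μ : Fin N → Fin M} {i j : Fin N} (hij : i ≠ j) (hs : s i = s j) (hμ : μ i = μ j)
    (a : Fin N → Fin 3) : c s (mk μ (a ∘ Equiv.swap i j)) = -c s (mk μ a) := by
  have h1 := hc (Equiv.swap i j) s (mk μ a)
  have h2 : s ∘ Equiv.swap i j = s := funext fun k => Equiv.apply_swap_eq_self hs k
  have h3 : mk μ a ∘ Equiv.swap i j = mk μ (a ∘ Equiv.swap i j) :=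
    funext fun k => Prod.ext (Equiv.apply_swap_eq_self hμ k) rfl
  rw [h2, h3, Equiv.Perm.sign_swap hij] at h1
  simpa using h1

theorem inj_of_ne {c : (Fin N → Fin 2) → (Fin N → Arm M) → ℝ} (hc : Anti c) {s : Fin N → Fin 2}
    {μ : Fin N → Fin M} {a : Fin N → Fin 3} (h : c s (mk μ a) ≠ 0) {i j : Fin N}
    (hs : s i = s j) (hμ : μ i = μ j) (ha : a i = a j) : i = j := by
  by_contra hij
  have h1 := anti_block hc hij hs hμ a
  rw [show a ∘ Equiv.swap i j = a from funext fun k => Equiv.apply_swap_eq_self ha k] at h1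
  exact h (by linarith)

/-- Reindexing of the electrons by molecule and slot. -/
def unc (e : Fin N ≃ Fin M × Fin 5) : (Fin M → Loc) ≃ (Fin N → Fin 3) where
  toFun B i := B (e i).1 (e i).2
  invFun a m k := a (e.symm (m, k))
  left_inv B := by funext m k; simp
  right_inv a := by funext i; simp

theorem unc_apply (e : Fin N ≃ Fin M × Fin 5) (B : Fin M → Loc) (m : Fin M) (k : Fin 5) :
    unc e B (e.symm (m, k)) = B m k := by simp [unc]

theorem unc_update (e : Fin N ≃ Fin M × Fin 5) (B : Fin M → Loc) (m : Fin M) (k : Fin 5)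
    (z : Fin 3) : update (unc e B) (e.symm (m, k)) z = unc e (update B m (update (B m) k z)) := by
  funext i
  obtain ⟨⟨m', k'⟩, rfl⟩ := e.symm.surjective i
  rw [unc_apply]
  by_cases h1 : m' = m
  · subst h1
    by_cases h2 : k' = k
    · subst h2; simp
    · simp [h2, unc_apply]
  · simp [h1, unc_apply]

theorem unc_swap (e : Fin N ≃ Fin M × Fin 5) (B : Fin M → Loc) (m : Fin M) (k k' : Fin 5) :
    unc e (update B m (B m ∘ Equiv.swap k k')) =
      unc e B ∘ Equiv.swap (e.symm (m, k)) (e.symm (m, k')) := by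
  funext i
  obtain ⟨⟨m', l⟩, rfl⟩ := e.symm.surjective i
  rw [unc_apply, comp_apply, e.symm.injective.swap_apply, ← Prod.mk.eta (p := Equiv.swap _ _ _),
    unc_apply]
  by_cases h1 : m' = m
  · subst h1
    rw [(Prod.mk_right_injective m').swap_apply]
    simp
  · rw [Equiv.swap_apply_of_ne_of_ne (by simp [h1]) (by simp [h1])]
    simp [h1]

theorem occ_good (e : Fin N ≃ Fin M × Fin 5) {B : Fin M → Loc} (hB : sgn B ≠ 0) (m : Fin M)
    (y : Fin 3) :
    2 - occ (mk (fun i => (e i).1) (unc e B)) (m, y) = if holes B m = y then 1 else 0 := by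
  have h1 : sg (B m) ≠ 0 := by exact_mod_cast prod_ne_zero_iff.1 hB m (mem_univ m)
  have h2 : occ (mk (fun i => (e i).1) (unc e B)) (m, y) = ∑ k, if B m k = y then 1 else 0 := by
    rw [occ, ← Equiv.sum_comp e.symm, Fintype.sum_prod_type, sum_eq_single m]
    · simp [mk, unc_apply]
    · intro m' _ h
      simp [mk, h]
    · simp
  rw [h2, occ_loc _ h1, sub_sub_cancel, holes]

theorem exists_equiv {s : Fin N → Fin 2} {μ : Fin N → Fin M}
    (h5 : ∀ m, (univ.filter fun i => μ i = m).card = 5)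
    (h3 : ∀ m σ, (univ.filter fun i => μ i = m ∧ s i = σ).card ≤ 3) :
    ∃ e : Fin N ≃ Fin M × Fin 5, (∀ i, (e i).1 = μ i) ∧
      ∀ i j, μ i = μ j → part (e i).2 = part (e j).2 → s i = s j := by
  have h1 : ∀ m, ∃ σ, (univ.filter fun i => μ i = m ∧ s i = σ).card = 2 ∧
      (univ.filter fun i => μ i = m ∧ ¬ s i = σ).card = 3 := by
    intro m
    have e1 : ∀ σ, (univ.filter fun i => μ i = m ∧ s i = σ).card +
        (univ.filter fun i => μ i = m ∧ ¬ s i = σ).card = 5 := fun σ => by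
      rw [← h5 m, ← filter_filter, ← filter_filter, card_filter_add_card_filter_not]
    have e2 : (univ.filter fun i => μ i = m ∧ ¬ s i = 0) =
        univ.filter fun i => μ i = m ∧ s i = 1 :=
      filter_congr fun i _ => and_congr_right fun _ => by omega
    have e3 := e1 0
    have e4 := e1 1
    have e5 := h3 m 0
    have e6 := h3 m 1
    rw [e2] at e3
    by_cases k : (univ.filter fun i => μ i = m ∧ s i = 0).card = 2
    · exact ⟨0, k, by rw [e2]; omega⟩
    · exact ⟨1, by omega, by omega⟩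
  choose σ h2 h3 using h1
  have h4 : ∀ c : Fin M × Fin 2,
      Fintype.card {i // (μ i, if s i = σ (μ i) then (0 : Fin 2) else 1) = c} =
        Fintype.card {q : Fin M × Fin 5 // (q.1, part q.2) = c} := by
    rintro ⟨m, p⟩
    have e1 : (univ.filter fun q : Fin M × Fin 5 => (q.1, part q.2) = (m, p)) =
        {m} ×ˢ univ.filter fun k => part k = p := by
      ext q; simp only [mem_filter, mem_univ, true_and, mem_product, mem_singleton, Prod.mk.injEq]
    rw [Fintype.card_subtype, Fintype.card_subtype, e1, card_product, card_singleton, one_mul,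
      card_part]
    split_ifs with hp
    · refine Eq.trans (congrArg card (filter_congr fun i _ => ?_)) (h2 m)
      rw [Prod.mk.injEq]
      refine and_congr_right fun hi => ?_
      subst hi
      split_ifs with k <;> simp [k, hp]
    · refine Eq.trans (congrArg card (filter_congr fun i _ => ?_)) (h3 m)
      rw [Prod.mk.injEq]
      refine and_congr_right fun hi => ?_
      subst hi
      have hp1 : p = 1 := by omega
      split_ifs with k <;> simp [k, hp1]
  have h6 := Equiv.ofFiberEquiv_map fun c => Fintype.equivOfCardEq (h4 c)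
  refine ⟨_, fun i => congrArg Prod.fst (h6 i), fun i j hij hp => ?_⟩
  have e1 := congrArg Prod.snd (h6 i)
  have e2 := congrArg Prod.snd (h6 j)
  simp only at e1 e2
  rw [e1, e2, hij] at hp
  split_ifs at hp <;> omega

theorem qtE_mul (T : ℝ) (W χ : (Fin M → Fin 3) → ℝ) (r : ℝ) :
    qtE T W (fun h => r * χ h) = r ^ 2 * qtE T W χ := by
  simp only [qtE, ← mul_sum, mul_div_assoc, mul_pow, mul_left_comm _ (r ^ 2)]
  ring

/-- Canonical spins. -/
def sp (e : Fin N ≃ Fin M × Fin 5) : Fin N → Fin 2 := fun i => part (e i).2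

/-- Canonical configurations. -/
def cf (e : Fin N ≃ Fin M × Fin 5) (h : Fin M → Fin 3) : Fin N → Arm M :=
  mk (fun i => (e i).1) (unc e fun m => cfg (h m))

theorem cf_rigid {e : Fin N ≃ Fin M × Fin 5} {π : Equiv.Perm (Fin N)} {h h' : Fin M → Fin 3}
    (h1 : sp e ∘ π = sp e) (h2 : cf e h ∘ π = cf e h') : π = 1 ∧ h' = h := by
  have a1 : ∀ i, part (e (π i)).2 = part (e i).2 := fun i => congrFun h1 i
  have a2 : ∀ i, (e (π i)).1 = (e i).1 := fun i => congrArg (α := Arm M) Prod.fst (congrFun h2 i)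
  have a3 : ∀ i, cfg (h (e i).1) (e (π i)).2 = cfg (h' (e i).1) (e i).2 := fun i => by
    have : cfg (h (e (π i)).1) (e (π i)).2 = cfg (h' (e i).1) (e i).2 :=
      congrArg (α := Arm M) Prod.snd (congrFun h2 i)
    rwa [a2 i] at this
  have a4 : h = h' := by
    funext m
    have b0 := a3 (e.symm (m, 0))
    have b1 := a3 (e.symm (m, 1))
    have c0 := a1 (e.symm (m, 0))
    have c1 := a1 (e.symm (m, 1))
    rw [e.apply_symm_apply] at b0 b1 c0 c1
    exact cfg_eq _ _ _ _ c0 c1 b0 b1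
  subst a4
  exact ⟨Equiv.ext fun i => e.injective (Prod.ext (a2 i) (cfg_inj _ _ _ (a1 i) (a3 i))), rfl⟩

/-- The antisymmetric state built from a qutrit state. -/
noncomputable def up (e : Fin N ≃ Fin M × Fin 5) (χ : (Fin M → Fin 3) → ℝ) (s : Fin N → Fin 2)
    (α : Fin N → Arm M) : ℝ :=
  ∑ π : Equiv.Perm (Fin N), (Equiv.Perm.sign π : ℤ) *
    ∑ h, if s ∘ π = sp e ∧ α ∘ π = cf e h then χ h else 0

theorem sign_sq (π : Equiv.Perm (Fin N)) : ((Equiv.Perm.sign π : ℤ) : ℝ) ^ 2 = 1 := by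
  rcases Int.units_eq_one_or (Equiv.Perm.sign π) with h | h <;> simp [h]

theorem anti_up (e : Fin N ≃ Fin M × Fin 5) (χ : (Fin M → Fin 3) → ℝ) : Anti (up e χ) := by
  intro ρ s α
  rw [up, up, ← Equiv.sum_comp (Equiv.mulLeft ρ) (fun π : Equiv.Perm (Fin N) =>
    ((Equiv.Perm.sign π : ℤ) : ℝ) * ∑ h, if s ∘ π = sp e ∧ α ∘ π = cf e h then χ h else 0), mul_sum]
  refine sum_congr rfl fun π _ => ?_
  rw [Equiv.coe_mulLeft, Equiv.Perm.sign_mul, Units.val_mul, Int.cast_mul, ← mul_assoc,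
    ← mul_assoc, ← sq, sign_sq, one_mul]
  rfl

theorem up_cf (e : Fin N ≃ Fin M × Fin 5) (χ : (Fin M → Fin 3) → ℝ) (h : Fin M → Fin 3) :
    up e χ (sp e) (cf e h) = χ h := by
  rw [up, sum_eq_single 1, sum_eq_single h]
  · simp
  · exact fun h' _ hne => if_neg fun k => hne (cf_rigid k.1 k.2).2
  · simp
  · intro π _ hne
    rw [sum_eq_zero fun h' _ => if_neg fun k => hne (cf_rigid k.1 k.2).1, mul_zero]
  · simp

theorem up_ne {e : Fin N ≃ Fin M × Fin 5} {χ : (Fin M → Fin 3) → ℝ} {s : Fin N → Fin 2}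
    {μ : Fin N → Fin M} {a : Fin N → Fin 3} (h : up e χ s (mk μ a) ≠ 0) :
    ∃ π : Equiv.Perm (Fin N), s = sp (π.trans e) ∧ μ = fun i => (π.trans e i).1 := by
  obtain ⟨π, _, h1⟩ := exists_ne_zero_of_sum_ne_zero h
  obtain ⟨h', _, h2⟩ := exists_ne_zero_of_sum_ne_zero (right_ne_zero_of_mul h1)
  have h3 : s ∘ π = sp e ∧ mk μ a ∘ π = cf e h' := by
    by_contra k
    exact h2 (if_neg k)
  refine ⟨π.symm, funext fun i => ?_, funext fun i => ?_⟩
  · simpa [sp] using congrFun h3.1 (π.symm i)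
  · simpa [mk, cf] using congrArg Prod.fst (congrFun h3.2 (π.symm i))

end Vale.Agent.P370.Fe
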