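import Vale.Agent.P370.LH
import Vale.Agent.P370.Tensor
import Vale.Agent.P370.FermiC

/-!
Five electrons on three arms per molecule: one hole per molecule is a qutrit.
-/

namespace Vale.Agent.P370

/-- Interaction energy of the holes. -/
noncomputable def holeW {M : ℕ} (V : Arm M → Arm M → ℝ) (h : Fin M → Fin 3) : ℝ :=
  ∑ m, ∑ m', if m < m' then V (m, h m) (m', h m') else 0

/-- Interaction matrices with constant diagonal `u`, constant row sums, and repulsion at least
`G` inside each molecule. -/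
structure Charging {M : ℕ} (V : Arm M → Arm M → ℝ) (u Γ G : ℝ) : Prop where
  symm : ∀ a b, V a b = V b a
  nonneg : ∀ a b, 0 ≤ V a b
  diag : ∀ a, V a a = u
  rows : ∀ a, 2 * ∑ b, V a b = 2 * u + Γ
  intra : ∀ a b, a.1 = b.1 → G ≤ V a b

namespace Fe

open Finset Function

variable {M : ℕ} {V : Arm M → Arm M → ℝ} {u Γ G : ℝ}

theorem pot_good (hV : Charging V u Γ G) (e : Fin (5 * M) ≃ Fin M × Fin 5) {B : Fin M → Loc}
    (hB : sgn B ≠ 0) : (∑ i, ∑ j, if i < j then V (mk (fun i => (e i).1) (unc e B) i)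
      (mk (fun i => (e i).1) (unc e B) j) else 0) =
      2 * M * u + 2 * M * Γ + holeW V (holes B) := by
  have h1 := sum_lt_sym (F := fun m m' => V (m, holes B m) (m', holes B m')) fun _ _ => hV.symm _ _
  rw [pot_eq hV.symm hV.diag hV.rows]
  simp only [Fintype.sum_prod_type, occ_good e hB, Int.cast_ite, Int.cast_one, Int.cast_zero,
    ite_mul, one_mul, zero_mul, sum_ite_irrel, sum_ite_eq, mem_univ, if_true, sum_const_zero]
  simp only [hV.diag, sum_const, card_univ, Fintype.card_fin, nsmul_eq_mul] at h1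
  rw [h1, holeW]
  ring

theorem good_block (hV : Charging V u Γ G) (T : ℝ) (e : Fin (5 * M) ≃ Fin M × Fin 5)
    {d : (Fin (5 * M) → Fin 3) → ℝ} (hd : ∀ i j, i ≠ j → (e i).1 = (e j).1 →
      part (e i).2 = part (e j).2 → ∀ a, d (a ∘ Equiv.swap i j) = -d a)
    {χ : (Fin M → Fin 3) → ℝ} (hχ : ∀ h, χ h = d (unc e fun m => cfg (h m))) :
    ∑ a, d a ^ 2 = 12 ^ M * ∑ h, χ h ^ 2 ∧ bE T V (fun i => (e i).1) d =
      12 ^ M * ((3 * M * T + 2 * M * u + 2 * M * Γ) * ∑ h, χ h ^ 2 + qtE T (holeW V) χ) := by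
  have h1 : ∀ B, d (unc e B) = sgn B * χ (holes B) := fun B => by
    rw [hχ]
    refine glob_struct (D := fun B => d (unc e B)) (fun m k k' hk hp B => ?_) B
    simp only [unc_swap]
    exact hd _ _ (by simpa using hk) (by simp) (by simpa using hp) _
  have h2 : ∑ i, ∑ a, (d a - av d i a) ^ 2 =
      ∑ m, 12 ^ M * ∑ h, (3 * χ h ^ 2 + av χ m h ^ 2) := by
    rw [← Equiv.sum_comp e.symm, Fintype.sum_prod_type]
    refine sum_congr rfl fun m _ => ?_
    rw [← prod_kin]
    refine sum_congr rfl fun k _ => ?_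
    rw [← Equiv.sum_comp (unc e)]
    simp only [av, unc_update, h1]
  have h3 : ∑ a, (∑ i, ∑ j, if i < j then V (mk (fun i => (e i).1) a i)
      (mk (fun i => (e i).1) a j) else 0) * d a ^ 2 =
      12 ^ M * ∑ h, (2 * M * u + 2 * M * Γ + holeW V h) * χ h ^ 2 := by
    rw [← Equiv.sum_comp (unc e), ← prod_norm]
    refine sum_congr rfl fun B _ => ?_
    rw [h1]
    by_cases hB : sgn B = 0
    · simp [hB]
    · rw [pot_good hV e hB]; ring
  constructor
  · rw [← Equiv.sum_comp (unc e), ← prod_norm]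
    simp only [h1, mul_pow]
  · rw [bE, h2, h3, qtE]
    simp only [add_mul, sum_add_distrib, ← mul_sum, av, sum_const, card_univ, Fintype.card_fin,
      nsmul_eq_mul]
    ring

theorem low_block {T e : ℝ} (hV : Charging V u Γ G) (hT : 0 ≤ T) (he : e ≤ G)
    (h : ∀ χ : (Fin M → Fin 3) → ℝ, e * ∑ x, χ x ^ 2 ≤ qtE T (holeW V) χ)
    {c : (Fin (5 * M) → Fin 2) → (Fin (5 * M) → Arm M) → ℝ} (hc : Anti c)
    (s : Fin (5 * M) → Fin 2) (μ : Fin (5 * M) → Fin M) :
    (3 * M * T + 2 * M * u + 2 * M * Γ + e) * ∑ a, c s (mk μ a) ^ 2 ≤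
      bE T V μ fun a => c s (mk μ a) := by
  by_cases hz : ∀ a, c s (mk μ a) = 0
  · rw [bE_zero T V μ hz]
    simp [hz]
  obtain ⟨a0, ha0⟩ := not_forall.1 hz
  by_cases hg : ∀ m, (univ.filter fun i => μ i = m).card = 5
  · obtain ⟨E, h1, h2⟩ := exists_equiv (s := s) hg fun m σ => by
      have := card_le_card_of_injOn (s := univ.filter fun i => μ i = m ∧ s i = σ) (t := univ) a0
        (fun _ _ => mem_coe.2 (mem_univ _)) fun i hi j hj hij => by
          have a1 := (mem_filter.1 hi).2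
          have a2 := (mem_filter.1 hj).2
          exact inj_of_ne hc ha0 (a1.2.trans a2.2.symm) (a1.1.trans a2.1.symm) hij
      simpa using this
    obtain rfl : (fun i => (E i).1) = μ := funext h1
    obtain ⟨h3, h4⟩ := good_block hV T E (d := fun a => c s (mk (fun i => (E i).1) a))
      (fun i j hij hm hp a => anti_block hc hij (h2 i j hm hp) hm a) fun _ => rfl
    rw [h3, h4, mul_left_comm, add_mul _ e]
    exact mul_le_mul_of_nonneg_left (add_le_add le_rfl (h _)) (by positivity)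
  have h1 : ∃ m, (univ.filter fun i => μ i = m).card ≤ 4 := by
    by_contra hn
    push Not at hn hg
    obtain ⟨m, hm⟩ := hg
    have e1 := card_eq_sum_card_fiberwise (f := μ) (s := univ) (t := univ)
      fun _ _ => mem_coe.2 (mem_univ _)
    have e2 := sum_lt_sum (s := univ) (f := fun _ : Fin M => 5)
      (g := fun m => (univ.filter fun i => μ i = m).card) (fun m _ => hn m)
      ⟨m, mem_univ m, lt_of_le_of_ne (hn m) hm.symm⟩
    rw [← e1] at e2
    simp [mul_comm] at e2
  obtain ⟨m, hm⟩ := h1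
  have h2 := kin_low (d := fun a => c s (mk μ a)) (fun i => (s i, μ i)) fun i j hij hl a =>
    anti_block hc hij (congrArg Prod.fst hl) (congrArg Prod.snd hl) a
  have h3 : ∀ a, (2 * M * u + 2 * M * Γ + e) * c s (mk μ a) ^ 2 ≤
      (∑ i, ∑ j, if i < j then V (mk μ a i) (mk μ a j) else 0) * c s (mk μ a) ^ 2 := by
    intro a
    by_cases ha : c s (mk μ a) = 0
    · simp [ha]
    refine mul_le_mul_of_nonneg_right ?_ (sq_nonneg _)
    have e1 := bad_bound hV.nonneg hV.diag hV.intra (η := fun b => 2 - occ (mk μ a) b) (m := m)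
      (fun b => by
        have := card_le_card_of_injOn (s := univ.filter fun i => mk μ a i = b) (t := univ) s
          (fun _ _ => mem_coe.2 (mem_univ _)) fun i hi j hj hij => by
            have a1 := (mem_filter.1 hi).2.trans (mem_filter.1 hj).2.symm
            exact inj_of_ne hc ha hij (congrArg Prod.fst a1) (congrArg Prod.snd a1)
        rw [card_univ, Fintype.card_fin] at this
        rw [occ, sum_boole, sub_nonneg]
        exact_mod_cast this)
      (by
        simp only [sum_sub_distrib, occ]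
        rw [sum_comm]
        simp
        ring)
      (by
        have e2 : ∑ y, occ (mk μ a) (m, y) = (univ.filter fun i => μ i = m).card := by
          simp only [occ]
          rw [sum_comm, ← sum_boole]
          refine sum_congr rfl fun i _ => ?_
          by_cases k : μ i = m <;> simp [mk, k]
        rw [sum_sub_distrib, e2]
        simp only [sum_const, card_univ, Fintype.card_fin, nsmul_eq_mul]
        omega)
    rw [pot_eq hV.symm hV.diag hV.rows]
    linarith
  have h4 := sum_le_sum fun a (_ : a ∈ univ) => h3 a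
  rw [← mul_sum] at h4
  simp only [Fintype.card_fin, Fintype.card_prod] at h2
  push_cast at h2
  have h5 := mul_le_mul_of_nonneg_left h2 hT
  rw [bE]
  linarith

end Fe

open Fe Finset

theorem fermi_up {M : ℕ} {V : Arm M → Arm M → ℝ} {u Γ G T e : ℝ} (hV : Charging V u Γ G)
    {χ : (Fin M → Fin 3) → ℝ} (h0 : 0 < ∑ x, χ x ^ 2)
    (h : qtE T (holeW V) χ ≤ e * ∑ x, χ x ^ 2) :
    ∃ c : (Fin (5 * M) → Fin 2) → (Fin (5 * M) → Arm M) → ℝ, Anti c ∧ 0 < fmN c ∧
      fmE T V c ≤ (3 * M * T + 2 * M * u + 2 * M * Γ + e) * fmN c := by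
  have E : Fin (5 * M) ≃ Fin M × Fin 5 := Fintype.equivOfCardEq (by simp [mul_comm])
  have hc := anti_up E χ
  refine ⟨up E χ, hc, ?_, ?_⟩
  · obtain ⟨x, _, hx⟩ := exists_ne_zero_of_sum_ne_zero h0.ne'
    refine sum_pos' (fun s _ => sum_nonneg fun _ _ => sq_nonneg _) ⟨sp E, mem_univ _, ?_⟩
    refine sum_pos' (fun _ _ => sq_nonneg _) ⟨cf E x, mem_univ _, ?_⟩
    rw [up_cf]
    exact lt_of_le_of_ne (sq_nonneg _) hx.symm
  rw [fmE_eq, fmN_eq, mul_sum]
  refine sum_le_sum fun s _ => ?_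
  rw [mul_sum]
  refine sum_le_sum fun μ _ => ?_
  by_cases hz : ∀ a, up E χ s (mk μ a) = 0
  · rw [bE_zero T V μ hz]
    simp [hz]
  obtain ⟨a0, ha0⟩ := not_forall.1 hz
  obtain ⟨π, rfl, rfl⟩ := up_ne ha0
  obtain ⟨h3, h4⟩ := good_block hV T (π.trans E)
    (d := fun a => up E χ (sp (π.trans E)) (mk (fun i => (π.trans E i).1) a))
    (fun i j hij hm hp a => anti_block hc hij hp hm a)
    (χ := fun x => (Equiv.Perm.sign π : ℤ) * χ x) fun x => by
      rw [← up_cf E χ x]
      exact (hc π (sp E) (cf E x)).symm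
  rw [h3, h4, qtE_mul, mul_left_comm, add_mul _ e]
  simp only [mul_pow, sign_sq, one_mul]
  exact mul_le_mul_of_nonneg_left (add_le_add le_rfl h) (by positivity)

theorem fermi_low {M : ℕ} {V : Arm M → Arm M → ℝ} {u Γ G T e : ℝ} (hV : Charging V u Γ G)
    (hT : 0 ≤ T) (he : e ≤ G)
    (h : ∀ χ : (Fin M → Fin 3) → ℝ, e * ∑ x, χ x ^ 2 ≤ qtE T (holeW V) χ)
    {c : (Fin (5 * M) → Fin 2) → (Fin (5 * M) → Arm M) → ℝ} (hc : Anti c) :
    (3 * M * T + 2 * M * u + 2 * M * Γ + e) * fmN c ≤ fmE T V c := by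
  rw [fmE_eq, fmN_eq, mul_sum]
  refine sum_le_sum fun s _ => ?_
  rw [mul_sum]
  exact sum_le_sum fun μ _ => low_block hV hT he h hc s μ

end Vale.Agent.P370
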