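import Vale.Agent.P370.Qutrit
import Vale.Agent.P370.Fermi
import Vale.Agent.P370.Num
import Vale.Agent.P370.DiscA

/-!
From two-local Hamiltonians to instances of the fermion model.
-/

namespace Vale.Agent.P370

open Vale.Agent.Lib.TM Vale.Agent.P049

lemma nsqrt_apx (k q : ℕ) :
    ((k * q * q).sqrt : ℝ) ≤ √k * q ∧ √k * q ≤ ((k * q * q).sqrt : ℝ) + 1 := by
  have h : √((k * q * q : ℕ) : ℝ) = √k * q := by
    push_cast
    rw [mul_assoc, Real.sqrt_mul (Nat.cast_nonneg k), Real.sqrt_mul_self (Nat.cast_nonneg q)]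
  rw [← h]
  exact ⟨Real.nat_sqrt_le_real_sqrt, Real.real_sqrt_le_nat_sqrt_succ⟩

lemma dget_apx (q P : ℕ) (a : Fin 3) : |(dget (dtab q) P a : ℝ) - 2 * q * dg P a| ≤ 2 := by
  obtain ⟨a2, b2⟩ := nsqrt_apx 2 q
  obtain ⟨a3, b3⟩ := nsqrt_apx 3 q
  obtain ⟨a6, b6⟩ := nsqrt_apx 6 q
  have h2 : (√2 : ℝ) ^ 2 = 2 := Real.sq_sqrt (by norm_num)
  have h2' : (√2 : ℝ) ≠ 0 := by positivity
  have h6 : (√6 : ℝ) = √2 * √3 := by rw [← Real.sqrt_mul (by norm_num)]; norm_num
  push_cast at a2 b2 a3 b3 a6 b6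
  rw [abs_le]
  match P with
  | 0 => fin_cases a <;> simp [dg, dget, dtab]
  | 1 => fin_cases a <;> simp [dg, dget, dtab] <;> constructor <;> linarith
  | 2 => fin_cases a <;> simp [dg, dget, dtab] <;> constructor <;> linarith
  | 3 => fin_cases a <;> simp [dg, dget, dtab] <;> constructor <;> linarith
  | k + 4 =>
    have e1 : 2 * (q : ℝ) * ((√3 + 1) / √2) = √6 * q + √2 * q := by
      rw [h6]; field_simp; rw [h2]; ring
    have e2 : 2 * (q : ℝ) * ((-√3 + 1) / √2) = -(√6 * q) + √2 * q := by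
      rw [h6]; field_simp; rw [h2]; ring
    have e3 : 2 * (q : ℝ) * (-2 / √2) = -2 * (√2 * q) := by
      field_simp; rw [h2]; ring
    have e4 : min (k + 4) 4 = 4 := by omega
    fin_cases a <;> simp only [dg, dget, e4] <;> simp [dtab, e1, e2, e3] <;> constructor <;>
      linarith

lemma abs_dget_le (q P : ℕ) {a : ℕ} (ha : a < 3) : |dget (dtab q) P a| ≤ 4 * q + 2 := by
  have h1 := dget_apx q P ⟨a, ha⟩
  have h2 : |2 * (q : ℝ) * dg P ⟨a, ha⟩| ≤ 2 * q * 2 := by
    rw [abs_mul, abs_of_nonneg (by positivity)]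
    exact mul_le_mul_of_nonneg_left (abs_dg_le _ _) (by positivity)
  have h3 := abs_sub_abs_le_abs_sub (dget (dtab q) P a : ℝ) (2 * (q : ℝ) * dg P ⟨a, ha⟩)
  have h4 : |(dget (dtab q) P a : ℝ)| ≤ 4 * q + 2 := by linarith
  exact_mod_cast h4

lemma abs_wz_le (q : ℕ) (H : List Term) (r r' : ℕ) :
    |wz (dtab q) H r r'| ≤ ((H.map fun t => t.1.natAbs).sum : ℕ) * ((4 * q + 2) * (4 * q + 2)) := by
  induction H with
  | nil => simp [wz]
  | cons t H ih =>
    simp only [wz, List.map_cons, List.sum_cons] at ih ⊢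
    refine (abs_add_le _ _).trans ?_
    rw [Nat.cast_add, add_mul]
    refine add_le_add ?_ ih
    cases t.2.1.1 == r / 3 && t.2.2.1 == r' / 3
    · simp only [cond_false, abs_zero]
      positivity
    · rw [cond_true, abs_mul, abs_mul, Int.natCast_natAbs]
      exact mul_le_mul_of_nonneg_left (mul_le_mul (abs_dget_le _ _ (Nat.mod_lt _ (by norm_num)))
        (abs_dget_le _ _ (Nat.mod_lt _ (by norm_num))) (abs_nonneg _) (by positivity))
        (abs_nonneg _)

lemma disc_sum_rows (M : ℕ) (f : ℕ → ℤ) :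
    ((List.range (3 * M)).map f).sum = ∑ b : Arm M, f (row b) := by
  rw [Fintype.sum_prod_type]
  simp only [Fin.sum_univ_three, row]
  induction M with
  | zero => simp
  | succ M ih =>
    rw [Fin.sum_univ_castSucc, show 3 * (M + 1) = 3 * M + 1 + 1 + 1 by ring, List.sum_range_succ,
      List.sum_range_succ, List.sum_range_succ, ih]
    simp [add_assoc]

section bounds

variable {n M : ℕ} {H : List Term}

lemma disc_row_div (a : Arm M) : row a / 3 = a.1 := by
  have := a.2.2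
  unfold row
  omega

lemma disc_row_mod (a : Arm M) : row a % 3 = a.2 := by
  have := a.2.2
  unfold row
  omega

lemma disc_row_lt (a : Arm M) : row a < 3 * M := by
  have := a.1.2
  have := a.2.2
  unfold row
  omega

lemma xz_bd (hH : (H.map fun t => t.1.natAbs).sum ≤ n) (r r' : ℕ) :
    0 ≤ xz (dtab (50 * n)) H (dC n) r r' ∧ xz (dtab (50 * n)) H (dC n) r r' ≤ 2 * dC n := by
  have h : ∀ r r', |wz (dtab (50 * n)) H r r'| ≤ n * ((200 * n + 2) * (200 * n + 2)) := by
    intro r r'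
    refine (abs_wz_le _ _ _ _).trans ?_
    have h1 : (4 * ((50 * n : ℕ) : ℤ) + 2) = 200 * n + 2 := by push_cast; ring
    rw [h1]
    exact mul_le_mul_of_nonneg_right (by exact_mod_cast hH) (by positivity)
  have h1 := abs_le.1 (h r r')
  have h2 := abs_le.1 (h r' r)
  have h3 : (dC n : ℤ) = 2 * (n * ((200 * n + 2) * (200 * n + 2))) := by
    rw [dC]; push_cast; ring
  unfold xz
  cases r / 3 == r' / 3
  · rw [cond_false]
    constructor <;> linarith
  · rw [cond_true]
    exact ⟨le_rfl, by positivity⟩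

lemma yz_bd (hH : (H.map fun t => t.1.natAbs).sum ≤ n) (r : ℕ) :
    0 ≤ yz (dtab (50 * n)) H (dC n) M r ∧ yz (dtab (50 * n)) H (dC n) M r ≤ 6 * (M * dC n) := by
  rw [yz, disc_sum_rows]
  refine ⟨Finset.sum_nonneg fun b _ => (xz_bd hH _ _).1,
    (Finset.sum_le_sum fun b _ => (xz_bd hH _ _).2).trans_eq ?_⟩
  simp
  ring

lemma vz_symm (tb : List (List ℤ)) (c K r r' : ℕ) : vz tb H c K M r r' = vz tb H c K M r' r := by
  unfold vz xz
  by_cases h : r / 3 = r' / 3
  · simp [h, add_comm]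
  · have h1 : (r / 3 == r' / 3) = false := by simpa using h
    have h2 : (r' / 3 == r / 3) = false := by simpa using fun h' => h h'.symm
    simp [h1, h2, add_comm]

lemma vz_bd (hH : (H.map fun t => t.1.natAbs).sum ≤ n) (hM : 1 ≤ M) (r r' : ℕ) :
    0 ≤ vz (dtab (50 * n)) H (dC n) (dK n M) M r r' ∧
      vz (dtab (50 * n)) H (dC n) (dK n M) M r r' ≤ 2 * dK n M ∧ (r / 3 = r' / 3 →
        ((dC n * (M * (M - 1)) + 56000 * (n * n) : ℕ) : ℤ) ≤
          vz (dtab (50 * n)) H (dC n) (dK n M) M r r') := by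
  have h0 := xz_bd hH r r'
  have h1 := yz_bd (M := M) hH r
  have h2 := yz_bd (M := M) hH r'
  have h3 := yz_bd (M := M) hH (3 * (r / 3))
  have h4 := yz_bd (M := M) hH (3 * (r / 3) + 1)
  have h5 := yz_bd (M := M) hH (3 * (r / 3) + 2)
  have h6 : (dK n M : ℤ) = ((dC n * (M * (M - 1)) + 56000 * (n * n) : ℕ) : ℤ) +
      24 * (M * dC n) := by
    rw [dK, Nat.cast_add]; push_cast; ring
  have h7 : (dC n : ℤ) ≤ M * dC n := by exact_mod_cast Nat.le_mul_of_pos_left _ hM
  have h8 := Int.natCast_nonneg (dC n * (M * (M - 1)) + 56000 * (n * n))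
  have h9 := Int.natCast_nonneg (dC n)
  unfold vz
  by_cases h : r / 3 = r' / 3
  · have h10 : xz (dtab (50 * n)) H (dC n) r r' = 0 := by simp [xz, h]
    have h11 : (r / 3 == r' / 3) = true := by simpa using h
    rw [h11, cond_true]
    exact ⟨by linarith, by linarith, fun _ => by linarith⟩
  · have h11 : (r / 3 == r' / 3) = false := by simpa using h
    rw [h11, cond_false]
    exact ⟨by linarith, by linarith, fun h' => absurd h' h⟩

lemma vz_rows (tb : List (List ℤ)) (c K : ℕ) (a : Arm M) :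
    ∑ b : Arm M, vz tb H c K M (row a) (row b) = 2 * K + vz tb H c K M (row a) (row a) := by
  have h1 : ∑ b : Arm M, xz tb H c (row a) (row b) = yz tb H c M (row a) := by
    rw [yz, disc_sum_rows]
  have h2 : xz tb H c (row a) (row a) = 0 := by simp [xz]
  have h3 : ∀ F : ℕ → ℤ, ∑ b : Arm M, (bif row a / 3 == row b / 3 then F (row b) else 0) =
      F (3 * a.1) + F (3 * a.1 + 1) + F (3 * a.1 + 2) := by
    intro F
    rw [Fintype.sum_prod_type, Finset.sum_eq_single a.1]
    · simp only [disc_row_div, beq_self_eq_true, cond_true, Fin.sum_univ_three]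
      rfl
    · intro m _ hm
      have h4 : ((a.1 : ℕ) == (m : ℕ)) = false := by simpa using fun h => hm (Fin.ext h).symm
      simp [disc_row_div, h4]
    · simp
  simp only [vz]
  rw [Finset.sum_add_distrib, ← Finset.mul_sum, h1, h2, h3 fun r' =>
    K + (yz tb H c M (3 * (row a / 3)) + yz tb H c M (3 * (row a / 3) + 1) +
      yz tb H c M (3 * (row a / 3) + 2)) + -2 * (yz tb H c M (row a) + yz tb H c M r')]
  simp only [disc_row_div, beq_self_eq_true, cond_true]
  ring

/-- The integer interaction. -/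
def zW (tb : List (List ℤ)) (H : List Term) (h : Fin M → Fin 3) : ℤ :=
  (H.map fun t => t.1 * (dget tb t.2.1.2 (hat h t.2.1.1) * dget tb t.2.2.2 (hat h t.2.2.1))).sum

lemma wz_sum (tb : List (List ℤ)) (hH : ∀ t ∈ H, t.2.1.1 < M ∧ t.2.2.1 < M ∧ t.2.1.1 ≠ t.2.2.1)
    (h : Fin M → Fin 3) :
    ∑ m, ∑ m', wz tb H (row (m, h m)) (row (m', h m')) = zW tb H h := by
  induction H with
  | nil => simp [wz, zW]
  | cons t H ih =>
    obtain ⟨h1, h2, -⟩ := hH t (by simp)
    have h5 := ih fun t ht => hH t (by simp [ht])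
    simp only [wz, zW, List.map_cons, List.sum_cons, Finset.sum_add_distrib] at h5 ⊢
    rw [h5]
    congr 1
    simp only [disc_row_div, disc_row_mod]
    rw [Finset.sum_eq_single ⟨_, h1⟩, Finset.sum_eq_single ⟨_, h2⟩]
    · simp [hat, h1, h2]
    · intro m _ hm
      have h4 : (t.2.2.1 == (m : ℕ)) = false := by simpa using fun h => hm (Fin.ext h).symm
      simp [h4]
    · simp
    · intro m _ hm
      have h4 : (t.2.1.1 == (m : ℕ)) = false := by simpa using fun h => hm (Fin.ext h).symm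
      simp [h4]
    · simp

lemma wz_self (tb : List (List ℤ)) (hH : ∀ t ∈ H, t.2.1.1 < M ∧ t.2.2.1 < M ∧ t.2.1.1 ≠ t.2.2.1)
    (r : ℕ) : wz tb H r r = 0 := by
  refine List.sum_eq_zero fun x hx => ?_
  obtain ⟨t, ht, rfl⟩ := List.mem_map.1 hx
  have h1 := (hH t ht).2.2
  have h2 : (t.2.1.1 == r / 3 && t.2.2.1 == r / 3) = false := by
    rw [Bool.and_eq_false_iff]
    simp only [beq_eq_false_iff_ne]
    omega
  rw [h2, cond_false]

lemma sum_lt_pairs (f : Fin M → Fin M → ℤ) :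
    (∑ m, ∑ m', if m < m' then f m m' + f m' m else 0) = ∑ m, ∑ m', f m m' - ∑ m, f m m := by
  have h1 : ∀ m m', f m m' = ((if m < m' then f m m' else 0) + if m' < m then f m m' else 0) +
      if m = m' then f m m' else 0 := by
    intro m m'
    rcases lt_trichotomy m m' with h | h | h
    · simp [h, h.not_gt, h.ne]
    · simp [h]
    · simp [h, h.not_gt, h.ne']
  have h2 : (∑ m, ∑ m', if m' < m then f m m' else 0) =
      ∑ m, ∑ m', if m < m' then f m' m else 0 := Finset.sum_comm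
  have h3 : ∑ m, ∑ m', f m m' = ∑ m, ∑ m', (((if m < m' then f m m' else 0) +
      if m' < m then f m m' else 0) + if m = m' then f m m' else 0) :=
    Finset.sum_congr rfl fun m _ => Finset.sum_congr rfl fun m' _ => h1 m m'
  simp only [Finset.sum_add_distrib, Finset.sum_ite_eq, Finset.mem_univ, if_true, h2] at h3
  simp only [ite_add_zero, Finset.sum_add_distrib]
  linarith

lemma hole_sum (tb : List (List ℤ)) (c K : ℕ)
    (hH : ∀ t ∈ H, t.2.1.1 < M ∧ t.2.2.1 < M ∧ t.2.1.1 ≠ t.2.2.1) (h : Fin M → Fin 3) :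
    (∑ m, ∑ m', if m < m' then vz tb H c K M (row (m, h m)) (row (m', h m')) else 0) =
      (c * (M * (M - 1)) : ℕ) + 2 * zW tb H h := by
  have h1 := sum_lt_pairs fun m m' => c + 2 * wz tb H (row (m, h m)) (row (m', h m'))
  simp only [wz_self tb hH, Finset.sum_add_distrib, ← Finset.mul_sum, wz_sum tb hH] at h1
  have h2 : ((c * (M * (M - 1)) : ℕ) : ℤ) = M * (M * c) - M * c := by
    cases M with
    | zero => simp
    | succ M => push_cast; ring
  rw [h2]
  refine Eq.trans (Finset.sum_congr rfl fun m _ => Finset.sum_congr rfl fun m' _ => ?_)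
    (h1.trans ?_)
  · split_ifs with hm
    · have h4 : ((m : ℕ) == (m' : ℕ)) = false := by simpa using fun h => hm.ne (Fin.ext h)
      simp only [vz, xz, disc_row_div, h4, cond_false]
      ring
    · rfl
  · simp
    ring

lemma zW_apx (q : ℕ) (h : Fin M → Fin 3) : |(zW (dtab q) H h : ℝ) - (2 * q) ^ 2 * qW H h| ≤
    (((H.map fun t => t.1.natAbs).sum : ℕ) : ℝ) * (16 * q + 4) := by
  induction H with
  | nil => simp [zW, qW]
  | cons t H ih =>
    simp only [zW, qW, List.map_cons, List.sum_cons] at ih ⊢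
    have h1 := dget_apx q t.2.1.2 (hat h t.2.1.1)
    have h2 := dget_apx q t.2.2.2 (hat h t.2.2.1)
    have h3 : |(dget (dtab q) t.2.2.2 (hat h t.2.2.1) : ℝ)| ≤ 4 * q + 2 := by
      exact_mod_cast abs_dget_le q t.2.2.2 (hat h t.2.2.1).2
    have h4 : |2 * (q : ℝ) * dg t.2.1.2 (hat h t.2.1.1)| ≤ 2 * q * 2 := by
      rw [abs_mul, abs_of_nonneg (by positivity)]
      exact mul_le_mul_of_nonneg_left (abs_dg_le _ _) (by positivity)
    rw [Int.cast_add, Int.cast_mul, Int.cast_mul, Nat.cast_add, Nat.cast_natAbs, Int.cast_abs]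
    generalize (dget (dtab q) t.2.1.2 (hat h t.2.1.1) : ℝ) = x at *
    generalize (dget (dtab q) t.2.2.2 (hat h t.2.2.1) : ℝ) = y at *
    generalize dg t.2.1.2 (hat h t.2.1.1) = u at *
    generalize dg t.2.2.2 (hat h t.2.2.1) = v at *
    have h5 : ∀ S S' : ℝ, t.1 * (x * y) + S - (2 * q) ^ 2 * (t.1 * (u * v) + S') =
        t.1 * ((x - 2 * q * u) * y + 2 * q * u * (y - 2 * q * v)) + (S - (2 * q) ^ 2 * S') := by
      intro S S'; ring
    rw [h5, add_mul]
    refine (abs_add_le _ _).trans (add_le_add ?_ ih)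
    rw [abs_mul]
    refine mul_le_mul_of_nonneg_left ((abs_add_le _ _).trans ?_) (abs_nonneg _)
    rw [abs_mul, abs_mul _ (y - _)]
    have h6 := mul_le_mul h1 h3 (abs_nonneg _) (by norm_num)
    have h7 := mul_le_mul h4 h2 (abs_nonneg _) (by positivity)
    linarith

lemma discFM_V (n₀ n M M' : ℕ) (H : List Term) (r r' : ℕ) : (discFM n₀ n M M' H).V r r' =
    if r < 3 * M ∧ r' < 3 * M then (vz (dtab (50 * n)) H (dC n) (dK n M) M r r').toNat else 0 := by
  by_cases h : r < 3 * M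
  · by_cases h' : r' < 3 * M <;> simp [FM.V, discFM, vtab, List.getD_eq_getElem?_getD, h, h']
  · simp [FM.V, discFM, vtab, List.getD_eq_getElem?_getD, h]

lemma dK_le (hM : 1 ≤ M) : 2 * dK n M ≤ dB n M := by
  have h : 2 * dK n M ≤ 8 * M * dK n M := Nat.mul_le_mul_right _ (by omega)
  unfold dB
  omega

lemma discFM_wf (n₀ : ℕ) (hM : 1 ≤ M) (hn : 1 ≤ n) (hH : (H.map fun t => t.1.natAbs).sum ≤ n) :
    (discFM n₀ n M M H).WF n₀ := by
  have h0 : (discFM n₀ n M M H).1.length = n₀ + dB n M := List.length_replicate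
  have h1 := dK_le (n := n) hM
  have h2 : 1 ≤ n * n := Nat.mul_pos hn hn
  have h3 : 0 < dT n := by unfold dT; positivity
  have h4 : M * 1 ≤ M * dT n := Nat.mul_le_mul_left _ h3
  have h5 : 1 * dT n ≤ M * dT n := Nat.mul_le_mul_right _ hM
  have h6 : 3 * (M * dT n) ≤ dB n M := by rw [← mul_assoc]; unfold dB; omega
  rw [FM.WF, h0]
  refine ⟨by omega, hM, ?_, fun a b => ?_, fun a b => ?_, h3, ?_, ?_, ?_⟩
  · change M ≤ _
    omega
  · rw [discFM_V, discFM_V, vz_symm]
    simp only [and_comm]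
  · rw [discFM_V]
    have h7 := (vz_bd hH hM a b).2.1
    split_ifs <;> omega
  · change dT n ≤ _
    omega
  · change dA n M < dB n M
    unfold dA dB
    omega
  · change dB n M ≤ _
    omega

/-- The interaction matrix of the instance. -/
noncomputable def vR (n M : ℕ) (H : List Term) (u : ℝ) (a b : Arm M) : ℝ :=
  if a = b then u else vz (dtab (50 * n)) H (dC n) (dK n M) M (row a) (row b)

lemma discFM_W (n₀ : ℕ) (hM : 1 ≤ M) (hH : (H.map fun t => t.1.natAbs).sum ≤ n) (u : ℝ) :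
    (discFM n₀ n M M H).W u = vR n M H u := by
  funext (a : Arm M) (b : Arm M)
  change (if a = b then u else ((discFM n₀ n M M H).V (row a) (row b) : ℝ)) = _
  rw [vR, discFM_V, if_pos (And.intro (disc_row_lt a) (disc_row_lt b)), ← Int.cast_natCast,
    Int.toNat_of_nonneg (vz_bd hH hM _ _).1]

lemma vR_charging (hM : 1 ≤ M) (hH : (H.map fun t => t.1.natAbs).sum ≤ n) {u : ℝ}
    (hu : (dB n M : ℝ) ≤ u) : Charging (vR n M H u) u (4 * dK n M)
      ((dC n * (M * (M - 1)) + 56000 * (n * n) : ℕ) : ℝ) := by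
  have h1 : ((dC n * (M * (M - 1)) + 56000 * (n * n) : ℕ) : ℝ) ≤ u :=
    le_trans (by exact_mod_cast Nat.le_add_left _ _) hu
  refine ⟨fun a b => ?_, fun a b => ?_, fun a => by simp [vR], fun a => ?_, fun a b hab => ?_⟩
  · rw [vR, vR, vz_symm]
    simp only [eq_comm]
  · rw [vR]
    split_ifs
    · exact (Nat.cast_nonneg _).trans h1
    · exact_mod_cast (vz_bd hH hM _ _).1
  · have h2 : ∀ b, vR n M H u a b = vz (dtab (50 * n)) H (dC n) (dK n M) M (row a) (row b) +
        if a = b then u - vz (dtab (50 * n)) H (dC n) (dK n M) M (row a) (row a) else 0 := by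
      intro b
      rw [vR]
      split_ifs with h
      · rw [h]; ring
      · ring
    simp only [h2, Finset.sum_add_distrib, Finset.sum_ite_eq, Finset.mem_univ, if_true]
    rw [← Int.cast_sum, vz_rows]
    push_cast
    ring
  · rw [vR]
    split_ifs
    · exact h1
    · exact_mod_cast (vz_bd hH hM _ _).2.2 (by rw [disc_row_div, disc_row_div, hab])

lemma holeW_vR (hH : ∀ t ∈ H, t.2.1.1 < M ∧ t.2.2.1 < M ∧ t.2.1.1 ≠ t.2.2.1) (u : ℝ)
    (h : Fin M → Fin 3) :
    holeW (vR n M H u) h = (dC n * (M * (M - 1)) : ℕ) + 2 * (zW (dtab (50 * n)) H h : ℝ) := by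
  have h1 := congrArg (Int.cast : ℤ → ℝ) (hole_sum (dtab (50 * n)) (dC n) (dK n M) hH h)
  simp only [Int.cast_sum, Int.cast_add, Int.cast_mul, Int.cast_natCast, Int.cast_ofNat] at h1
  rw [← h1]
  refine Finset.sum_congr rfl fun m _ => Finset.sum_congr rfl fun m' _ => ?_
  split_ifs with hm
  · rw [vR, if_neg fun h' => hm.ne (congrArg Prod.fst h')]
  · simp

lemma qtE_vR (hn : 1 ≤ n) (hH : (H.map fun t => t.1.natAbs).sum ≤ n)
    (hH' : ∀ t ∈ H, t.2.1.1 < M ∧ t.2.2.1 < M ∧ t.2.1.1 ≠ t.2.2.1) (u : ℝ)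
    (χ : (Fin M → Fin 3) → ℝ) :
    |qtE (dT n) (holeW (vR n M H u)) χ - ((dC n * (M * (M - 1)) : ℕ) * ∑ x, χ x ^ 2 +
      20000 * (n * n) * qtE (200 * (n : ℝ) ^ 2) (qW H) χ)| ≤ 2000 * (n * n) * ∑ x, χ x ^ 2 := by
  have h1 : ∀ h : Fin M → Fin 3,
      |(zW (dtab (50 * n)) H h : ℝ) - 10000 * (n * n) * qW H h| ≤ 1000 * (n * n) := by
    intro h
    have h2 := zW_apx (H := H) (50 * n) h
    have h3 : (((H.map fun t => t.1.natAbs).sum : ℕ) : ℝ) ≤ n := by exact_mod_cast hH
    have h4 : (1 : ℝ) ≤ n := by exact_mod_cast hn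
    have h5 := mul_le_mul_of_nonneg_right h3
      (show (0 : ℝ) ≤ 16 * ((50 * n : ℕ) : ℝ) + 4 by positivity)
    have h6 : (2 * ((50 * n : ℕ) : ℝ)) ^ 2 = 10000 * (n * n) := by push_cast; ring
    rw [h6] at h2
    refine (h2.trans h5).trans ?_
    push_cast
    nlinarith
  have h2 : qtE (dT n) (holeW (vR n M H u)) χ - ((dC n * (M * (M - 1)) : ℕ) * ∑ x, χ x ^ 2 +
      20000 * (n * n) * qtE (200 * (n : ℝ) ^ 2) (qW H) χ) =
      ∑ x, 2 * ((zW (dtab (50 * n)) H x : ℝ) - 10000 * (n * n) * qW H x) * χ x ^ 2 := by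
    have h3 : (dT n : ℝ) = 20000 * (n * n) * (200 * (n : ℝ) ^ 2) := by
      rw [dT]; push_cast; ring
    simp only [qtE, holeW_vR hH', h3, add_mul, mul_sub, sub_mul, Finset.sum_add_distrib,
      Finset.sum_sub_distrib, mul_assoc, ← Finset.mul_sum]
    ring
  rw [h2, Finset.mul_sum]
  refine (Finset.abs_sum_le_sum_abs _ _).trans (Finset.sum_le_sum fun x _ => ?_)
  rw [abs_mul, abs_mul, abs_of_nonneg (sq_nonneg (χ x)), abs_two]
  exact mul_le_mul_of_nonneg_right (by linarith [h1 x]) (sq_nonneg _)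

end bounds

theorem disc (n₀ : ℕ) : ∃ red : LH → FM, CT 0 red ∧ ∀ I : LH, I.WF →
    (red I).WF n₀ ∧ (I.Yes → (red I).Yes) ∧ (I.No → (red I).No) := by
  have h1 : CT 0 fun I : LH => I.1 := by fun_prop
  refine ⟨fun I => discFM n₀ I.1.length (min I.2.1 I.1.length) I.2.1 I.2.2,
    ct_discFM n₀ h1.length (CT.min (by fun_prop) h1.length) (by fun_prop) (by fun_prop)
      h1.bd_length (h1.bd_length.of_le fun I => min_le_right _ _), fun I hI => ?_⟩
  obtain ⟨l, M, H⟩ := I
  have hI' := hI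
  obtain ⟨hM, hMn, hH, hH'⟩ := hI'
  dsimp only at hM hMn hH hH' ⊢
  rw [min_eq_left hMn]
  have hn := hM.trans hMn
  have hu : ∀ u : ℝ, (discFM n₀ l.length M M H).1.length ≤ u → (dB l.length M : ℝ) ≤ u := by
    intro u hu
    refine le_trans ?_ hu
    have h0 : (discFM n₀ l.length M M H).1.length = n₀ + dB l.length M := List.length_replicate
    exact_mod_cast h0.ge.trans' (Nat.le_add_left _ _)
  have hnn : (0 : ℝ) ≤ 20000 * ((l.length : ℝ) * l.length) := by positivity
  refine ⟨discFM_wf n₀ hM hn hH, fun hy u hu' => ?_, fun hno u hu' c hc => ?_⟩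
  · obtain ⟨χ, k0, k1⟩ := qutrit_yes hI hy (200 * (l.length : ℝ) ^ 2)
    have k2 := (abs_le.1 (qtE_vR hn hH hH' u χ)).2
    have k3 := mul_le_mul_of_nonneg_left k1 hnn
    obtain ⟨c, c1, c2, c3⟩ := fermi_up (vR_charging hM hH (hu u hu')) k0 (T := dT l.length)
      (e := (dC l.length * (M * (M - 1)) : ℕ) + 42000 * ((l.length : ℝ) * l.length))
      (by linarith)
    refine ⟨c, c1, c2, ?_⟩
    rw [discFM_W n₀ hM hH]
    refine c3.trans_eq ?_
    congr 1
    change _ = 2 * (M : ℝ) * u + (dA l.length M : ℝ)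
    rw [dA, Nat.cast_add, Nat.cast_add _ (42000 * _)]
    generalize ((dC l.length * (M * (M - 1)) : ℕ) : ℝ) = z
    push_cast
    ring
  · rw [discFM_W n₀ hM hH]
    refine le_trans (le_of_eq ?_) (fermi_low (vR_charging hM hH (hu u hu'))
      (Nat.cast_nonneg (dT l.length)) le_rfl (fun χ => ?_) hc)
    · congr 1
      change 2 * (M : ℝ) * u + (dB l.length M : ℝ) = _
      rw [dB, Nat.cast_add]
      generalize ((dC l.length * (M * (M - 1)) + 56000 * (l.length * l.length) : ℕ) : ℝ) = z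
      push_cast
      ring
    · have k1 := qutrit_no hI hno le_rfl χ
      have k2 := (abs_le.1 (qtE_vR hn hH hH' u χ)).1
      have k3 := mul_le_mul_of_nonneg_left k1 hnn
      rw [Nat.cast_add]
      generalize ((dC l.length * (M * (M - 1)) : ℕ) : ℝ) = z at *
      push_cast
      linarith

end Vale.Agent.P370
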