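import Vale.Agent.P370.Geom

/-!
Statements that hold for all large size parameters.
-/

namespace Vale.Agent.P370

/-- Holds for every admissible design of large size. -/
def Ev (P : Geo → (ℕ → ℕ → ℕ) → Prop) : Prop := ∃ n₀, ∀ G V, n₀ ≤ G.n → G.OK V → P G V

lemma Ev.and {P Q : Geo → (ℕ → ℕ → ℕ) → Prop} (hP : Ev P) (hQ : Ev Q) :
    Ev fun G V => P G V ∧ Q G V := by
  obtain ⟨a, ha⟩ := hP
  obtain ⟨b, hb⟩ := hQ
  exact ⟨max a b, fun G V h hG => ⟨ha G V (le_of_max_le_left h) hG,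
    hb G V (le_of_max_le_right h) hG⟩⟩

lemma Ev.mono {P Q : Geo → (ℕ → ℕ → ℕ) → Prop} (hP : Ev P)
    (h : ∀ G V, G.OK V → P G V → Q G V) : Ev Q := by
  obtain ⟨a, ha⟩ := hP
  exact ⟨a, fun G V hn hG => h G V hG (ha G V hn hG)⟩

lemma Ev.const (C : ℝ) : Ev fun G _ => C ≤ G.n :=
  ⟨⌈C⌉₊, fun _ _ h _ => (Nat.le_ceil C).trans (by exact_mod_cast h)⟩

lemma pow_le_two_pow (c : ℕ) : ∃ n₀ : ℕ, ∀ n : ℕ, n₀ ≤ n → (n : ℝ) ^ c ≤ 2 ^ n := by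
  have h := tendsto_pow_const_div_const_pow_of_one_lt c (one_lt_two (α := ℝ))
  obtain ⟨n₀, hn⟩ := Filter.eventually_atTop.1 (h.eventually (gt_mem_nhds one_pos))
  exact ⟨n₀, fun n h => ((div_lt_one (by positivity)).1 (hn n h)).le⟩

lemma Ev.exp (c : ℕ) : Ev fun G _ => (G.n : ℝ) ^ c ≤ 2 ^ G.n := by
  obtain ⟨a, ha⟩ := pow_le_two_pow c
  exact ⟨a, fun G _ h _ => ha _ h⟩

end Vale.Agent.P370
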