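import Vale.Agent.P370.Basic

/-!
Local facts: five electrons on three arms.
-/

namespace Vale.Agent.P370.Fe

open Finset Function

/-- Arms of the five electrons of a molecule. -/
abbrev Loc := Fin 5 → Fin 3

/-- Spin class of a slot. -/
def part (k : Fin 5) : Fin 2 := if k.val < 2 then 0 else 1

/-- The alternating symbol. -/
def eps (a b c : Fin 3) : ℤ := if a = b ∨ b = c ∨ a = c then 0 else if b = a + 1 then 1 else -1

/-- The arm missing in the small class. -/
def hole (β : Loc) : Fin 3 := -(β 0 + β 1)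

/-- Sign of a local configuration. -/
def sg (β : Loc) : ℤ := eps (β 0) (β 1) (hole β) * eps (β 2) (β 3) (β 4)

/-- Canonical configuration with a given hole. -/
def cfg (x : Fin 3) : Loc := ![x + 1, x + 2, 0, 1, 2]

/-- Sign supported on a given hole. -/
def sS (β : Loc) (y : Fin 3) : ℤ := if hole β = y then sg β else 0

/-- Kinetic coefficients. -/
def sA (β : Loc) (k : Fin 5) (y : Fin 3) : ℤ := 3 * sS β y - ∑ z, sS (update β k z) y

theorem sS_sq : ∀ y, ∑ β : Loc, sS β y ^ 2 = 12 := by decide +kernel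

theorem sA_mul : ∀ y y', ∑ k, ∑ β : Loc, sA β k y * sA β k y' = if y = y' then 360 else 36 := by
  decide +kernel

theorem hole_cfg : ∀ x, hole (cfg x) = x := by decide

theorem cfg_inj : ∀ x k k', part k = part k' → cfg x k = cfg x k' → k = k' := by decide

theorem cfg_eq : ∀ x x' k0 k1, part k0 = part 0 → part k1 = part 1 → cfg x k0 = cfg x' 0 →
    cfg x k1 = cfg x' 1 → x = x' := by decide

theorem occ_loc : ∀ β : Loc, sg β ≠ 0 → ∀ y,
    ∑ k, (if β k = y then (1 : ℤ) else 0) = 2 - if hole β = y then 1 else 0 := by decide +kernel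

theorem card_part : ∀ p, (univ.filter fun k => part k = p).card = if p = 0 then 2 else 3 := by
  decide

/-- Action of a word of transpositions. -/
def act : List (Fin 5 × Fin 5) → Loc → Loc
  | [], β => β
  | p :: l, β => act l (β ∘ Equiv.swap p.1 p.2)

/-- Words for the twelve class preserving permutations. -/
def words : List (List (Fin 5 × Fin 5)) :=
  [[], [(2, 3)], [(3, 4)], [(2, 4)], [(2, 3), (3, 4)], [(3, 4), (2, 3)], [(0, 1)],
    [(0, 1), (2, 3)], [(0, 1), (3, 4)], [(0, 1), (2, 4)], [(0, 1), (2, 3), (3, 4)],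
    [(0, 1), (3, 4), (2, 3)]]

theorem words_ok : ∀ w ∈ words, ∀ p ∈ w, p.1 ≠ p.2 ∧ part p.1 = part p.2 := by decide

theorem words_spec : ∀ β : Loc,
    (sg β = 0 ∧ ∃ k k', k ≠ k' ∧ part k = part k' ∧ β ∘ Equiv.swap k k' = β) ∨
      ∃ w ∈ words, act w β = cfg (hole β) ∧ sg β = (-1) ^ w.length := by decide +kernel

theorem act_sign {f : Loc → ℝ}
    (hf : ∀ k k', k ≠ k' → part k = part k' → ∀ β, f (β ∘ Equiv.swap k k') = -f β)
    (w : List (Fin 5 × Fin 5)) (hw : ∀ p ∈ w, p.1 ≠ p.2 ∧ part p.1 = part p.2) (β : Loc) :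
    f β = (-1) ^ w.length * f (act w β) := by
  induction w generalizing β with
  | nil => simp [act]
  | cons p l ih =>
    have h1 := hw p (by simp)
    have h2 := ih (fun q hq => hw q (by simp [hq])) (β ∘ Equiv.swap p.1 p.2)
    rw [hf _ _ h1.1 h1.2] at h2
    rw [act, List.length_cons, pow_succ]
    linarith

theorem loc_struct {f : Loc → ℝ}
    (hf : ∀ k k', k ≠ k' → part k = part k' → ∀ β, f (β ∘ Equiv.swap k k') = -f β) (β : Loc) :
    f β = sg β * f (cfg (hole β)) := by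
  rcases words_spec β with ⟨h0, k, k', h1, h2, h3⟩ | ⟨w, hw, h1, h2⟩
  · have := hf k k' h1 h2 β
    rw [h3] at this
    rw [h0, Int.cast_zero, zero_mul]
    linarith
  · rw [h2, ← h1]
    push_cast
    exact act_sign hf w (words_ok w hw) β

theorem sg_mul (x : Fin 3 → ℝ) (β : Loc) : sg β * x (hole β) = ∑ y, sS β y * x y := by
  simp [sS]

theorem loc_norm (F : Fin 3 → ℝ) : ∑ β : Loc, (sg β : ℝ) ^ 2 * F (hole β) = 12 * ∑ y, F y := by
  have h1 : ∀ β : Loc, (sg β : ℝ) ^ 2 * F (hole β) = ∑ y, ((sS β y ^ 2 : ℤ) : ℝ) * F y := by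
    intro β
    simp [sS]
  simp only [h1]
  rw [sum_comm, mul_sum]
  refine sum_congr rfl fun y _ => ?_
  rw [← sum_mul, ← Int.cast_sum, sS_sq]
  norm_num

theorem loc_kin (x : Fin 3 → ℝ) :
    ∑ k, ∑ β : Loc, (sg β * x (hole β) -
      (∑ z, sg (update β k z) * x (hole (update β k z))) / 3) ^ 2 =
      12 * ∑ y, (3 * x y ^ 2 + ((∑ z, x z) / 3) ^ 2) := by
  have h1 : ∀ (k : Fin 5) (β : Loc), (sg β * x (hole β) -
      (∑ z, sg (update β k z) * x (hole (update β k z))) / 3) ^ 2 =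
      ∑ y, ∑ y', ((sA β k y * sA β k y' : ℤ) : ℝ) * (x y * x y' / 9) := by
    intro k β
    simp only [sg_mul, sA, Fin.sum_univ_three]
    push_cast
    ring
  have h2 : ∀ y y', ∑ k, ∑ β : Loc, ((sA β k y * sA β k y' : ℤ) : ℝ) * (x y * x y' / 9) =
      ((if y = y' then 360 else 36 : ℤ) : ℝ) * (x y * x y' / 9) := by
    intro y y'
    rw [← sA_mul]
    simp only [Int.cast_sum, sum_mul]
  simp only [h1]
  calc _ = ∑ k, ∑ y, ∑ y', ∑ β : Loc, ((sA β k y * sA β k y' : ℤ) : ℝ) * (x y * x y' / 9) :=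
        sum_congr rfl fun k _ => sum_comm.trans (sum_congr rfl fun y _ => sum_comm)
    _ = ∑ y, ∑ y', ∑ k, ∑ β : Loc, ((sA β k y * sA β k y' : ℤ) : ℝ) * (x y * x y' / 9) :=
        sum_comm.trans (sum_congr rfl fun y _ => sum_comm)
    _ = _ := by
      simp only [h2, Fin.sum_univ_three]
      norm_num [Fin.ext_iff]
      ring

end Vale.Agent.P370.Fe
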