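import Vale.Agent.P370.FermiA

/-!
Projections onto the symmetric mode, occupation numbers, and the product structure.
-/

namespace Vale.Agent.P370.Fe

open Finset Function

variable {ι : Type} [Fintype ι] [DecidableEq ι]

theorem sum_update {A : Type} [Fintype A] (G : (ι → A) → ℝ) (i : ι) :
    ∑ a, ∑ x, G (update a i x) = Fintype.card A * ∑ a, G a := by
  have hi : Involutive fun p : (ι → A) × A => (update p.1 i p.2, p.1 i) := fun p => by simp
  have h1 := Equiv.sum_comp hi.toPerm fun p : (ι → A) × A => G p.1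
  rw [Fintype.sum_prod_type, Fintype.sum_prod_type] at h1
  simpa [mul_sum] using h1

/-- Mean over one coordinate. -/
noncomputable def av (d : (ι → Fin 3) → ℝ) (i : ι) (a : ι → Fin 3) : ℝ :=
  (∑ b, d (update a i b)) / 3

omit [Fintype ι] in
theorem av_update (d : (ι → Fin 3) → ℝ) (i : ι) (a : ι → Fin 3) (x : Fin 3) :
    av d i (update a i x) = av d i a := by simp [av]

theorem inner_av (f g : (ι → Fin 3) → ℝ) (i : ι) :
    ∑ a, f a * av g i a = ∑ a, av f i a * av g i a := by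
  have h1 := sum_update (fun a => f a * av g i a) i
  simp only [av_update, ← sum_mul, Fintype.card_fin] at h1
  have h2 : ∑ a, av f i a * av g i a = (∑ a, (∑ x, f (update a i x)) * av g i a) / 3 := by
    rw [sum_div]
    exact sum_congr rfl fun a _ => by rw [av]; ring
  rw [h2, h1]
  push_cast
  ring

theorem kin_eq (d : (ι → Fin 3) → ℝ) (i : ι) :
    ∑ a, (d a - av d i a) ^ 2 = ∑ a, d a ^ 2 - ∑ a, av d i a ^ 2 := by
  have h1 : ∀ a, (d a - av d i a) ^ 2 = d a ^ 2 - 2 * (d a * av d i a) + av d i a * av d i a :=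
    fun a => by ring
  simp only [h1, sum_add_distrib, sum_sub_distrib, ← mul_sum, inner_av d d i, sq]
  ring

omit [Fintype ι] in
theorem av_av {d : (ι → Fin 3) → ℝ} {i j : ι} (hij : i ≠ j)
    (h : ∀ a, d (a ∘ Equiv.swap i j) = -d a) (a : ι → Fin 3) : av (av d j) i a = 0 := by
  have h1 : ∀ x y, d (update (update a i y) j x) = -d (update (update a i x) j y) := by
    intro x y
    rw [← h]
    congr 1
    funext l
    by_cases h1 : l = i
    · subst h1; simp [hij]
    by_cases h2 : l = j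
    · subst h2; simp [hij]
    simp [Equiv.swap_apply_of_ne_of_ne h1 h2, h1, h2]
  have h2 : ∑ x, ∑ y, d (update (update a i x) j y) = -∑ x, ∑ y, d (update (update a i x) j y) := by
    rw [← sum_neg_distrib, sum_comm]
    refine sum_congr rfl fun x _ => ?_
    rw [← sum_neg_distrib]
    exact sum_congr rfl fun y _ => h1 x y
  simp only [av, ← sum_div]
  linarith

theorem bessel {d : (ι → Fin 3) → ℝ} (C : Finset ι)
    (h : ∀ i ∈ C, ∀ j ∈ C, i ≠ j → ∀ a, d (a ∘ Equiv.swap i j) = -d a) :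
    ∑ i ∈ C, ∑ a, av d i a ^ 2 ≤ ∑ a, d a ^ 2 := by
  have h1 : ∀ a, (d a - ∑ i ∈ C, av d i a) ^ 2 = d a ^ 2 - 2 * ∑ i ∈ C, d a * av d i a +
      ∑ i ∈ C, ∑ j ∈ C, av d j a * av d i a := fun a => by
    rw [← mul_sum, sum_comm, ← sum_mul_sum]; ring
  have h2 : ∀ i ∈ C, ∑ j ∈ C, ∑ a, av d j a * av d i a = ∑ a, av d i a ^ 2 := by
    intro i hi
    rw [sum_eq_single_of_mem i hi fun j hj hji => ?_]
    · simp only [sq]
    · rw [inner_av]
      simp only [av_av hji.symm (h i hi j hj hji.symm), zero_mul, sum_const_zero]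
  have h3 : 0 ≤ ∑ a, (d a - ∑ i ∈ C, av d i a) ^ 2 := sum_nonneg fun a _ => sq_nonneg _
  simp only [h1, sum_add_distrib, sum_sub_distrib, ← mul_sum (a := (2 : ℝ))] at h3
  have h4 : ∑ a, ∑ i ∈ C, d a * av d i a = ∑ i ∈ C, ∑ a, av d i a ^ 2 := by
    rw [sum_comm]
    exact sum_congr rfl fun i _ => by simp only [inner_av d d i, sq]
  have h5 : ∑ a, ∑ i ∈ C, ∑ j ∈ C, av d j a * av d i a = ∑ i ∈ C, ∑ a, av d i a ^ 2 := by
    rw [sum_comm]
    exact sum_congr rfl fun i hi => sum_comm.trans (h2 i hi)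
  linarith

theorem kin_low {κ : Type} [Fintype κ] [DecidableEq κ] {d : (ι → Fin 3) → ℝ} (l : ι → κ)
    (h : ∀ i j, i ≠ j → l i = l j → ∀ a, d (a ∘ Equiv.swap i j) = -d a) :
    ((Fintype.card ι : ℝ) - Fintype.card κ) * ∑ a, d a ^ 2 ≤ ∑ i, ∑ a, (d a - av d i a) ^ 2 := by
  have h1 : ∑ i, ∑ a, av d i a ^ 2 ≤ ∑ _c : κ, ∑ a, d a ^ 2 := by
    rw [← sum_fiberwise univ l]
    exact sum_le_sum fun c _ => bessel _ fun i hi j hj hij =>
      h i j hij ((mem_filter.1 hi).2.trans (mem_filter.1 hj).2.symm)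
  simp only [kin_eq, sum_sub_distrib, sum_const, card_univ, nsmul_eq_mul] at h1 ⊢
  linarith

theorem sum_lt_sym {n : ℕ} {F : Fin n → Fin n → ℝ} (h : ∀ i j, F i j = F j i) :
    ∑ i, ∑ j, F i j = 2 * (∑ i, ∑ j, if i < j then F i j else 0) + ∑ i, F i i := by
  have h1 : ∀ i j, F i j = (if i < j then F i j else 0) + (if j < i then F j i else 0) +
      if i = j then F i i else 0 := by
    intro i j
    rcases lt_trichotomy i j with k | rfl | k
    · simp [k, k.ne, k.le]
    · simp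
    · simp [k, k.ne', k.le, h i j]
  calc ∑ i, ∑ j, F i j = ∑ i, ∑ j, ((if i < j then F i j else 0) + (if j < i then F j i else 0) +
        if i = j then F i i else 0) := sum_congr rfl fun i _ => sum_congr rfl fun j _ => h1 i j
    _ = _ := by
      simp only [sum_add_distrib, sum_ite_eq, mem_univ, if_true]
      rw [sum_comm (f := fun i j => if j < i then F j i else 0)]
      ring

/-- Occupation numbers. -/
def occ {A : Type} [DecidableEq A] (α : ι → A) (a : A) : ℤ := ∑ i, if α i = a then 1 else 0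

omit [DecidableEq ι] in
theorem sum_occ {A : Type} [Fintype A] [DecidableEq A] (α : ι → A) (g : A → ℝ) :
    ∑ i, g (α i) = ∑ a, occ α a * g a := by
  simp only [occ, Int.cast_sum, sum_mul]
  rw [sum_comm]
  simp

theorem pot_eq {M : ℕ} {V : Arm M → Arm M → ℝ} {u Γ : ℝ} (hs : ∀ a b, V a b = V b a)
    (hd : ∀ a, V a a = u) (hr : ∀ a, 2 * ∑ b, V a b = 2 * u + Γ) (α : Fin (5 * M) → Arm M) :
    (∑ i, ∑ j, if i < j then V (α i) (α j) else 0) = 3 / 2 * M * u + 2 * M * Γ +
      (∑ a, ∑ b, ((2 - occ α a : ℤ) : ℝ) * ((2 - occ α b : ℤ) : ℝ) * V a b) / 2 := by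
  have h1 := sum_lt_sym (F := fun i j => V (α i) (α j)) fun i j => hs _ _
  have h2 : ∑ i, ∑ j, V (α i) (α j) = ∑ a, occ α a * ∑ b, occ α b * V a b := by
    rw [← sum_occ α fun a => ∑ b, occ α b * V a b]
    exact sum_congr rfl fun i _ => sum_occ α _
  have h3 : ∀ a, ∑ b, V a b = u + Γ / 2 := fun a => by linarith [hr a]
  have h4 : ∑ a, (occ α a : ℝ) = 5 * M := by simpa using (sum_occ α fun _ => 1).symm
  have h5 : ∑ a, ∑ b, (occ α b : ℝ) * V a b = 5 * M * (u + Γ / 2) := by
    rw [sum_comm, ← h4, sum_mul]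
    exact sum_congr rfl fun b _ => by rw [← mul_sum, ← h3 b]; simp only [hs b]
  have h6 : ∀ a, ∑ b, ((2 - occ α a : ℤ) : ℝ) * ((2 - occ α b : ℤ) : ℝ) * V a b =
      4 * (u + Γ / 2) - 2 * (u + Γ / 2) * occ α a - 2 * ∑ b, occ α b * V a b +
        occ α a * ∑ b, occ α b * V a b := by
    intro a
    rw [← h3 a]
    simp only [mul_sum, sum_mul, ← sum_add_distrib, ← sum_sub_distrib]
    exact sum_congr rfl fun b _ => by push_cast; ring
  simp only [h6, sum_add_distrib, sum_sub_distrib, ← mul_sum, h4, h5, ← h2, hd, sum_const,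
    card_univ, Fintype.card_prod, Fintype.card_fin, nsmul_eq_mul] at h1 ⊢
  push_cast at h1 ⊢
  linarith

theorem bad_bound {M : ℕ} {V : Arm M → Arm M → ℝ} {u G : ℝ} (hn : ∀ a b, 0 ≤ V a b)
    (hd : ∀ a, V a a = u) (hi : ∀ a b, a.1 = b.1 → G ≤ V a b) {η : Arm M → ℤ} (h0 : ∀ a, 0 ≤ η a)
    (hs : ∑ a, η a = M) {m : Fin M} (hm : 2 ≤ ∑ y, η (m, y)) :
    M * u + 2 * G ≤ ∑ a, ∑ b, (η a : ℝ) * η b * V a b := by
  have hg : ∀ a b : Arm M, a.1 = b.1 → max G 0 ≤ V a b := fun a b h => max_le (hi a b h) (hn a b)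
  have hu : max G 0 ≤ u := hd (m, 0) ▸ hg _ _ rfl
  have h0' : ∀ a, (0 : ℝ) ≤ η a := fun a => by exact_mod_cast h0 a
  have hz : ∀ z : ℤ, (z : ℝ) ≤ (z : ℝ) ^ 2 := fun z => by exact_mod_cast Int.le_self_sq z
  have h1 : ∀ m', u * ∑ y, (η (m', y) : ℝ) + max G 0 * ((∑ y, (η (m', y) : ℝ)) ^ 2 -
      ∑ y, (η (m', y) : ℝ)) ≤ ∑ y, ∑ b, (η (m', y) : ℝ) * η b * V (m', y) b := by
    intro m'
    have e1 : ∀ y, (u - max G 0) * η (m', y) + max G 0 * (η (m', y) * ∑ y', (η (m', y') : ℝ)) ≤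
        ∑ b, (η (m', y) : ℝ) * η b * V (m', y) b := by
      intro y
      rw [Fintype.sum_prod_type]
      refine le_trans ?_ (single_le_sum (f := fun m'' => ∑ y', (η (m', y) : ℝ) * η (m'', y') *
        V (m', y) (m'', y')) (fun m'' _ => sum_nonneg fun y' _ =>
          mul_nonneg (mul_nonneg (h0' _) (h0' _)) (hn _ _)) (mem_univ m'))
      have e2 : ∑ y', (η (m', y) : ℝ) * η (m', y') * V (m', y) (m', y') =
          ∑ y', (η (m', y) : ℝ) * η (m', y') * (V (m', y) (m', y') - max G 0) +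
            max G 0 * (η (m', y) * ∑ y', (η (m', y') : ℝ)) := by
        simp only [mul_sum, ← sum_add_distrib]
        exact sum_congr rfl fun y' _ => by ring
      have e3 := single_le_sum (f := fun y' => (η (m', y) : ℝ) * η (m', y') *
        (V (m', y) (m', y') - max G 0)) (fun y' _ => mul_nonneg (mul_nonneg (h0' _) (h0' _))
          (sub_nonneg.2 (hg _ _ rfl))) (mem_univ y)
      rw [hd] at e3
      have e4 := mul_le_mul_of_nonneg_left (hz (η (m', y))) (sub_nonneg.2 hu)
      rw [e2]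
      linarith
    refine le_trans (le_of_eq ?_) (sum_le_sum fun y _ => e1 y)
    simp only [sum_add_distrib, ← mul_sum, ← sum_mul]
    ring
  have h2 : ∑ m', ∑ y, (η (m', y) : ℝ) = M := by
    rw [← Fintype.sum_prod_type (f := fun a : Arm M => (η a : ℝ))]
    exact_mod_cast hs
  have h3 := single_le_sum (f := fun m' => (∑ y, (η (m', y) : ℝ)) ^ 2 - ∑ y, (η (m', y) : ℝ))
    (fun m' _ => by
      have := hz (∑ y, η (m', y))
      push_cast at this
      linarith) (mem_univ m)
  have h4 : (2 : ℝ) ≤ ∑ y, (η (m, y) : ℝ) := by exact_mod_cast hm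
  have h5 : 2 ≤ ∑ m', ((∑ y, (η (m', y) : ℝ)) ^ 2 - ∑ y, (η (m', y) : ℝ)) := by nlinarith
  have h6 := sum_le_sum fun m' (_ : m' ∈ univ) => h1 m'
  rw [sum_add_distrib, ← mul_sum, ← mul_sum, h2] at h6
  rw [Fintype.sum_prod_type]
  have h7 := mul_le_mul_of_nonneg_left h5 (le_max_right G 0)
  linarith [le_max_left G 0]

variable {M : ℕ}

/-- Total sign. -/
noncomputable def sgn (B : Fin M → Loc) : ℝ := ∏ m, (sg (B m) : ℝ)

/-- All holes. -/
def holes (B : Fin M → Loc) : Fin M → Fin 3 := fun m => hole (B m)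

theorem prod_norm (F : (Fin M → Fin 3) → ℝ) :
    ∑ B, sgn B ^ 2 * F (holes B) = 12 ^ M * ∑ h, F h := by
  have h1 : ∀ B : Fin M → Loc, sgn B ^ 2 * F (holes B) =
      ∑ h, (∏ m, ((sS (B m) (h m) ^ 2 : ℤ) : ℝ)) * F h := by
    intro B
    rw [sum_eq_single (holes B) (fun h _ hne => ?_) (by simp)]
    · simp [sgn, holes, sS, prod_pow]
    · obtain ⟨m, hm⟩ := Function.ne_iff.1 hne
      rw [prod_eq_zero (mem_univ m) (by simp [sS, show hole (B m) ≠ h m from hm.symm]), zero_mul]
  simp only [h1]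
  rw [sum_comm, mul_sum]
  refine sum_congr rfl fun h _ => ?_
  have h2 := prod_univ_sum (fun _ : Fin M => (univ : Finset Loc))
    fun m β => ((sS β (h m) ^ 2 : ℤ) : ℝ)
  rw [Fintype.piFinset_univ] at h2
  rw [← sum_mul, ← h2]
  simp only [← Int.cast_sum, sS_sq]
  simp

theorem sgn_update (B : Fin M → Loc) (m : Fin M) (β : Loc) :
    sgn (update B m β) = (∏ m' ∈ univ.erase m, (sg (B m') : ℝ)) * sg β := by
  rw [sgn, ← prod_erase_mul univ _ (mem_univ m), update_self]
  congr 1
  exact prod_congr rfl fun m' h => by rw [update_of_ne (ne_of_mem_erase h)]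

theorem holes_update (B : Fin M → Loc) (m : Fin M) (β : Loc) :
    holes (update B m β) = update (holes B) m (hole β) := by
  funext m'
  exact apply_update (fun _ => hole) B m β m'

theorem prod_kin (χ : (Fin M → Fin 3) → ℝ) (m : Fin M) :
    ∑ k, ∑ B : Fin M → Loc, (sgn B * χ (holes B) - (∑ z, sgn (update B m (update (B m) k z)) *
      χ (holes (update B m (update (B m) k z)))) / 3) ^ 2 =
      12 ^ M * ∑ h, (3 * χ h ^ 2 + av χ m h ^ 2) := by
  have hc : (Fintype.card Loc : ℝ) ≠ 0 := by exact_mod_cast Fintype.card_ne_zero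
  refine mul_left_cancel₀ hc ?_
  rw [← prod_norm, sum_comm, ← sum_update _ m, ← sum_update _ m]
  refine sum_congr rfl fun B _ => ?_
  simp only [update_self, update_idem, sgn_update, holes_update, av_update]
  have h1 := loc_kin fun y => χ (update (holes B) m y)
  have h2 := loc_norm fun y => 3 * χ (update (holes B) m y) ^ 2 + av χ m (holes B) ^ 2
  rw [sum_comm] at h1
  simp only [mul_pow, mul_assoc _ ((sg _ : ℝ) ^ 2), ← mul_sum]
  rw [h2, av, ← h1, mul_sum]
  refine sum_congr rfl fun β _ => ?_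
  rw [mul_sum]
  refine sum_congr rfl fun k _ => ?_
  simp only [mul_assoc, ← mul_sum]
  ring

theorem glob_struct {D : (Fin M → Loc) → ℝ} (hD : ∀ m k k', k ≠ k' → part k = part k' → ∀ B,
    D (update B m (B m ∘ Equiv.swap k k')) = -D B) (B : Fin M → Loc) :
    D B = sgn B * D fun m => cfg (holes B m) := by
  have h1 : ∀ t : Finset (Fin M), D B = (∏ m ∈ t, (sg (B m) : ℝ)) *
      D (t.piecewise (fun m => cfg (holes B m)) B) := by
    intro t
    induction t using Finset.induction_on with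
    | empty => simp
    | insert m t hm ih =>
      have h2 := loc_struct (f := fun β => D (update (t.piecewise (fun m => cfg (holes B m)) B)
        m β)) (fun k k' h1 h2 β => by
          have := hD m k k' h1 h2 (update (t.piecewise (fun m => cfg (holes B m)) B) m β)
          rwa [update_self, update_idem] at this) (B m)
      rw [update_eq_self_iff.2 (piecewise_eq_of_notMem _ _ _ hm).symm] at h2
      rw [prod_insert hm, piecewise_insert, ih, h2]
      simp only [holes]
      ring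
  simpa [sgn] using h1 univ

end Vale.Agent.P370.Fe
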