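import Vale.Agent.P370.OneLowC

/-!
The one-body lower bound for the smooth potential.
-/

namespace Vale.Agent.P370

open MeasureTheory Set
open scoped ContDiff

lemma ol_final {κ T γ τ N Y R S D O P hc A p q u : ℝ} (hκ : 0 < κ) (hκ1 : κ ≤ 1 / 100) (hT : 0 ≤ T)
    (hγ : 0 ≤ γ) (hN : 0 ≤ N) (hY : 0 ≤ Y) (hD : 0 ≤ D) (hO : 0 ≤ O) (hP : 0 ≤ P) (hq : 0 ≤ q)
    (h1 : T * hc ≤ (1 + κ) * A + T * ((1 + 1 / κ) * (2 * R + 2 * (u * P))))
    (h2 : A ≤ (1 + 3 * κ) / 2 * D) (h3 : A ≤ 4 * T * P) (h4 : P ≤ N + Y) (h5 : R ≤ Y)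
    (h6 : N - S ≤ Y) (h7 : Y ≤ O + p * D + q * P) (c1 : q ≤ 1 / 2) (c2 : (1 + 1 / κ) * 2 * u ≤ κ)
    (c3 : (1 + 1 / κ) * 2 * T + 21 * κ * T ≤ γ) (c4 : γ ≤ 1 / 8) (c5 : 8 * (γ * p) ≤ κ)
    (c6 : 4 * (γ * q) ≤ κ * T) (c7 : 22 * κ ≤ τ) :
    T * hc + γ * (N - S) ≤ D / 2 + O / 2 + τ * T * N := by
  have k0 : 0 ≤ κ * T := by positivity
  have k1 : (1 - 4 * κ) * A ≤ (1 - κ) / 2 * D := by
    have a1 := mul_le_mul_of_nonneg_left h2 (show 0 ≤ 1 - 4 * κ by linarith)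
    have a2 := mul_nonneg (sq_nonneg κ) hD
    linarith
  have k2 := mul_le_mul_of_nonneg_left h3 hκ.le
  have k3 := mul_le_mul_of_nonneg_left h4 k0
  have k4 := mul_le_mul_of_nonneg_right c2 (mul_nonneg hT hP)
  have k5 := mul_le_mul_of_nonneg_left h5 (show 0 ≤ (1 + 1 / κ) * 2 * T by positivity)
  have k6 := mul_le_mul_of_nonneg_right c3 hY
  have k7 := mul_le_mul_of_nonneg_left h6 hγ
  have k8 : Y ≤ 2 * O + 2 * (p * D) + 2 * (q * N) := by
    have a1 := mul_le_mul_of_nonneg_left h4 hq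
    have a2 := mul_le_mul_of_nonneg_right c1 hY
    linarith
  have k9 := mul_le_mul_of_nonneg_left k8 hγ
  have k10 := mul_le_mul_of_nonneg_right c4 hO
  have k11 := mul_le_mul_of_nonneg_right c5 hD
  have k12 := mul_le_mul_of_nonneg_right c6 hN
  have k13 := mul_le_mul_of_nonneg_right c7 (mul_nonneg hT hN)
  linarith

lemma ol_sqrt_sub {A B : ℝ} (hA : 0 ≤ A) (hB : 0 ≤ B) : (√A - √B) ^ 2 ≤ |A - B| := by
  have h1 := Real.sq_sqrt hA
  have h2 := Real.sq_sqrt hB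
  have h3 := Real.sqrt_nonneg A
  have h4 := Real.sqrt_nonneg B
  rcases le_total (√A) (√B) with h | h
  · refine le_trans ?_ (neg_le_abs _)
    nlinarith
  · refine le_trans ?_ (le_abs_self _)
    nlinarith

lemma Geo.Near.ol_energy {G : Geo} {U : Pt → ℝ} {E e : ℝ} (h : G.Near U E e) (he : 0 ≤ e)
    (hV : Continuous G.Vref) {ψ : Pt → ℝ} (hψ : C1c ψ) :
    qV G.Vref ψ + (E - e) * (∫ x, ψ x ^ 2) + (∫ x in G.olBᶜ, ψ x ^ 2) / 2 ≤ qV U ψ := by
  have mB : MeasurableSet G.olBᶜ := (measurableSet_box _ _ _).compl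
  have i1 := ol_int_sq hψ
  have i2 : Integrable fun x => G.Vref x * ψ x ^ 2 := by
    simp only [sq]
    exact (hV.mul (hψ.1.continuous.mul hψ.1.continuous)).integrable_of_hasCompactSupport
      hψ.2.mul_right.mul_left
  obtain ⟨C, hC⟩ := h.bdd
  have i3 : Integrable fun x => U x * ψ x ^ 2 :=
    i1.bdd_mul (c := C) h.meas.aestronglyMeasurable (Filter.Eventually.of_forall fun x => hC x)
  have i4 : Integrable fun x => 1 / 2 * G.olBᶜ.indicator (fun x => ψ x ^ 2) x :=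
    (i1.indicator mB).const_mul _
  have i5 : Integrable fun x => G.Vref x * ψ x ^ 2 + (E - e) * ψ x ^ 2 := i2.add (i1.const_mul _)
  have h1 : ∫ x, (G.Vref x * ψ x ^ 2 + (E - e) * ψ x ^ 2 +
      1 / 2 * G.olBᶜ.indicator (fun x => ψ x ^ 2) x) ≤ ∫ x, U x * ψ x ^ 2 := by
    refine integral_mono (i5.add i4) i3 fun x => ?_
    by_cases hx : x ∈ G.olBᶜ
    · simp only [indicator_of_mem hx]
      have a1 := mul_le_mul_of_nonneg_right (h.out x hx) (sq_nonneg (ψ x))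
      have a2 := mul_nonneg he (sq_nonneg (ψ x))
      linarith
    · simp only [indicator_of_notMem hx]
      have a1 := mul_le_mul_of_nonneg_right (h.ge x) (sq_nonneg (ψ x))
      linarith
  rw [integral_add i5 i4, integral_add i2 (i1.const_mul _), integral_const_mul, integral_const_mul,
    integral_indicator mB] at h1
  unfold qV
  linarith

lemma Geo.OLG.main {G : Geo} {V : ℕ → ℕ → ℕ} (H : G.OLG V) (hS : Sharp G.φ)
    (hm : ∀ r < 3 * G.M, |G.mass r - 4 * G.J * G.Iz| ≤ G.J * G.Iz / (G.n : ℝ) ^ 18)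
    (hp : ∀ f ∈ G.feats, ∀ g : Pt → ℝ, ContDiff ℝ 1 g →
      ∃ a, G.dev f g a ≤ (G.n : ℝ) ^ 53 * G.dir f g)
    {ψ g : Pt → ℝ} (hψ : C1c ψ) (hg : ContDiff ℝ 1 g) (e : ∀ x, ψ x = G.φ0 x * g x) :
    G.T * hop (co G.φ ψ) + 1 / (G.n : ℝ) ^ 130 * ((∫ x, ψ x ^ 2) - ∑ a, co G.φ ψ a ^ 2) ≤
      G.olD g / 2 + (∫ x in G.olBᶜ, ψ x ^ 2) / 2 + G.T / (G.n : ℝ) ^ 3 * ∫ x, ψ x ^ 2 := by
  have F := H.toOLF
  have hw := F.w_pos
  have hI := F.Iz_pos
  have hκ := F.E_pos (-4)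
  have hL : (100 : ℝ) ≤ G.Lk := by rw [G.ol_Lk]; exact F.E_ge (by norm_num)
  have hJ : (100 : ℝ) ≤ G.J := by rw [G.ol_J]; exact F.E_ge (by norm_num)
  have hD : 0 ≤ G.olD g := integral_nonneg fun x => mul_nonneg (sq_nonneg _) (ol_gsq_nonneg g x)
  obtain ⟨α, hα⟩ : ∃ α : Feat → ℝ, ∀ f ∈ G.feats, G.dev f g (α f) ≤ G.olE 53 * G.olD g := by
    choose! α hα using fun f hf => hp f hf g hg
    refine ⟨α, fun f hf => (hα f hf).trans ?_⟩
    rw [G.olE_nat]
    exact mul_le_mul_of_nonneg_left (H.dir_le hf hg) (F.E_pos _).le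
  set xs : Arm G.M → ℝ := fun a => α (G.wire (row a)) with hxs
  have hSg : 0 ≤ ∑ a, xs a ^ 2 := by positivity
  have hu : ∀ a : Arm G.M, |G.mass (row a) - 4 * G.J * G.Iz| ≤ G.olE (-18) * (G.J * G.Iz) :=
    fun a => by
      have := hm _ (ol_row_lt a)
      rwa [div_eq_mul_one_div, G.olE_inv, mul_comm (G.J * G.Iz : ℝ)] at this
  have hJI : (0 : ℝ) < G.J * G.Iz := by positivity
  have hm3 : ∀ a : Arm G.M, 3 * (G.J * G.Iz) ≤ G.mass (row a) := fun a => by
    have a1 := (abs_le.1 (hu a)).1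
    have a2 := mul_le_mul_of_nonneg_right (F.E_small (a := -18) (by norm_num)) hJI.le
    linarith
  have hm0 : ∀ a : Arm G.M, 0 < G.mass (row a) := fun a => by linarith [hm3 a]
  obtain ⟨iY, eY⟩ := ol_pyth hS hψ fun a => √(G.mass (row a)) * xs a
  have e0 := (ol_pyth hS hψ (co G.φ ψ)).2
  have hNS : 0 ≤ (∫ x, ψ x ^ 2) - ∑ a, co G.φ ψ a ^ 2 := by
    have : 0 ≤ ∫ x, (ψ x - lc G.φ (co G.φ ψ) x) ^ 2 := integral_nonneg fun _ => sq_nonneg _
    simpa [e0] using this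
  have elc : ∀ x, lc G.φ (fun a => √(G.mass (row a)) * xs a) x = G.φ0 x * G.olX xs x := fun x => by
    rw [lc, Geo.olX, Finset.mul_sum]
    refine Finset.sum_congr rfl fun a _ => ?_
    have := (Real.sqrt_pos.2 (hm0 a)).ne'
    by_cases hx : x ∈ G.A (row a)
    · rw [Geo.φ, indicator_of_mem hx, indicator_of_mem hx]
      field_simp
    · rw [Geo.φ, indicator_of_notMem hx, indicator_of_notMem hx, mul_zero, mul_zero]
  have hY : ∫ x, (ψ x - lc G.φ (fun a => √(G.mass (row a)) * xs a) x) ^ 2 ≤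
      (∫ x in G.olBᶜ, ψ x ^ 2) + G.olE 112 * G.olD g +
        G.olE 75 * G.w * (G.J * G.Iz * ∑ a, xs a ^ 2) := by
    have mB : MeasurableSet G.olB := measurableSet_box _ _ _
    rw [← integral_add_compl mB iY]
    have a1 : ∫ x in G.olB, (ψ x - lc G.φ (fun a => √(G.mass (row a)) * xs a) x) ^ 2 =
        ∫ x in G.olB, G.φ0 x ^ 2 * (g x - G.olX xs x) ^ 2 := by
      congr 1
      ext x
      rw [elc, e]
      ring
    have a2 : ∫ x in G.olBᶜ, (ψ x - lc G.φ (fun a => √(G.mass (row a)) * xs a) x) ^ 2 =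
        ∫ x in G.olBᶜ, ψ x ^ 2 := setIntegral_congr_fun mB.compl fun x hx => by
      simp only [elc, F.X_out xs hx, mul_zero, sub_zero]
    have a3 := H.dist_le hg hα hD
    have a4 := mul_le_mul_of_nonneg_right (show (1 : ℝ) ≤ G.J by linarith)
      (mul_nonneg (F.E_pos 75).le (mul_nonneg (mul_pos hw hI).le hSg))
    rw [a1, a2]
    linarith
  have hR : 0 ≤ ∑ a, (co G.φ ψ a - √(G.mass (row a)) * xs a) ^ 2 := by positivity
  have hS0 : 0 ≤ ∑ a, co G.φ ψ a ^ 2 := by positivity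
  have hT : 0 < G.T := by unfold Geo.T; positivity
  have eT : G.T * (4 * G.J * G.Iz) = G.w * G.Iz / G.Lk := by
    unfold Geo.T
    field_simp
  have eT' : 4 * G.T = G.w * G.olE (-9) := by
    have a1 : G.olE (-9) * (G.Lk * G.J) = 1 := by
      rw [G.ol_Lk, G.ol_J, F.E_mul, F.E_mul]
      simp [Geo.olE]
    unfold Geo.T
    field_simp
    linear_combination -a1
  have hTw : G.T ≤ G.olE (-300) := by
    have := mul_le_mul_of_nonneg_left (F.E_small (a := -9) (by norm_num)) hw.le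
    linarith [F.w_le]
  have eκ : 1 / G.olE (-4) = G.olE 4 := by
    rw [div_eq_iff hκ.ne', F.E_mul]
    simp [Geo.olE]
  have hκ' : 1 + 1 / G.olE (-4) ≤ 2 * G.olE 4 := by
    rw [eκ]
    linarith [F.E_ge (b := 4) (by norm_num)]
  have eγ : 1 / (G.n : ℝ) ^ 130 = G.olE (-130) := G.olE_inv 130
  have eτ : 1 / (G.n : ℝ) ^ 3 = G.olE (-3) := G.olE_inv 3
  rw [eγ, div_eq_mul_one_div G.T, eτ, mul_comm G.T (G.olE _)]
  refine ol_final (κ := G.olE (-4)) (A := G.w * G.Iz / G.Lk * hop xs) (u := G.olE (-18))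
    (R := ∑ a, (co G.φ ψ a - √(G.mass (row a)) * xs a) ^ 2) hκ (F.E_small (by norm_num)) hT.le
    (F.E_pos _).le (by linarith) (integral_nonneg fun _ => sq_nonneg _) hD
    (integral_nonneg fun _ => sq_nonneg _) (mul_nonneg hJI.le hSg) (mul_pos (F.E_pos _) hw).le
    ?_ ?_ ?_ ?_ (by linarith) (by linarith) hY ?_ ?_ ?_ ?_ ?_ ?_ ?_
  · have a1 := ol_hop_add (co G.φ ψ) xs (√(4 * G.J * G.Iz)) hκ
    rw [Real.sq_sqrt (by positivity)] at a1
    have a2 : ∑ a, (co G.φ ψ a - √(4 * G.J * G.Iz) * xs a) ^ 2 ≤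
        2 * ∑ a, (co G.φ ψ a - √(G.mass (row a)) * xs a) ^ 2 +
          2 * (G.olE (-18) * (G.J * G.Iz * ∑ a, xs a ^ 2)) := by
      simp only [Finset.mul_sum, ← Finset.sum_add_distrib]
      refine Finset.sum_le_sum fun a _ => ?_
      have b1 := mul_le_mul_of_nonneg_right
        ((ol_sqrt_sub (hm0 a).le (by positivity)).trans (hu a)) (sq_nonneg (xs a))
      nlinarith [sq_nonneg (co G.φ ψ a - √(G.mass (row a)) * xs a -
        (√(G.mass (row a)) - √(4 * G.J * G.Iz)) * xs a)]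
    have a3 := mul_le_mul_of_nonneg_left
      (a1.trans (add_le_add le_rfl (mul_le_mul_of_nonneg_left a2 (by positivity)))) hT.le
    rw [← eT]
    linarith
  · have a1 := mul_le_mul_of_nonneg_left (ol_hop_le xs fun m => α (G.hub m))
      (show 0 ≤ G.w * G.Iz / G.Lk by positivity)
    have a2 := Finset.sum_le_sum fun (a : Arm G.M) (_ : a ∈ Finset.univ) => F.hopping a hg hD
      (hα _ (G.ol_mem_wire (ol_row_lt a))) (hα _ (G.ol_mem_hub a.1.2))
    rw [← Finset.mul_sum, Finset.sum_add_distrib, ← Finset.mul_sum, Finset.sum_const,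
      Finset.card_univ, Fintype.card_prod, Fintype.card_fin, Fintype.card_fin, nsmul_eq_mul] at a2
    push_cast at a2
    have a3 := mul_le_mul_of_nonneg_left (H.links_le hg)
      (show 0 ≤ (1 + 2 * G.olE (-4)) / 2 by positivity)
    have a4 : 6 * (G.M * G.olE (-6)) ≤ G.olE (-4) := by
      refine le_trans (mul_le_mul_of_nonneg_left
        (mul_le_mul_of_nonneg_right F.M_le (F.E_pos _).le) (by norm_num)) ?_
      rw [F.E_mul]
      exact F.E_c (by norm_num) (by norm_num)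
    have a5 := mul_le_mul_of_nonneg_right a4 hD
    linarith
  · have a1 := ol_hop_le xs 0
    simp only [Pi.zero_apply, sub_zero] at a1
    have a2 := mul_le_mul_of_nonneg_left a1 (mul_pos hT hJI).le
    rw [← eT]
    linarith
  · have a1 : 3 * (G.J * G.Iz * ∑ a, xs a ^ 2) ≤ 2 * ∑ a, co G.φ ψ a ^ 2 +
        2 * ∑ a, (co G.φ ψ a - √(G.mass (row a)) * xs a) ^ 2 := by
      simp only [Finset.mul_sum, ← Finset.sum_add_distrib]
      refine Finset.sum_le_sum fun a _ => ?_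
      have b1 := mul_le_mul_of_nonneg_right (hm3 a) (sq_nonneg (xs a))
      have b2 := Real.sq_sqrt (hm0 a).le
      have b3 : (√(G.mass (row a)) * xs a) ^ 2 = G.mass (row a) * xs a ^ 2 := by rw [mul_pow, b2]
      nlinarith [sq_nonneg (2 * co G.φ ψ a - √(G.mass (row a)) * xs a)]
    have := mul_nonneg hJI.le hSg
    linarith
  · refine (mul_le_mul_of_nonneg_left F.w_le (F.E_pos _).le).trans ?_
    rw [F.E_mul]
    exact (F.E_small (by norm_num)).trans (by norm_num)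
  · have a1 := mul_le_mul_of_nonneg_right hκ' (F.E_pos (-18)).le
    have a2 := F.E_c (C := 4) (a := 4 + -18) (b := -4) (by norm_num) (by norm_num)
    rw [← F.E_mul] at a2
    linarith
  · have a1 := mul_le_mul_of_nonneg_right hκ' hT.le
    have a2 := mul_le_mul_of_nonneg_right (F.E_le (a := -4) (b := 4) (by norm_num)) hT.le
    have a3 := mul_le_mul_of_nonneg_left hTw (F.E_pos 4).le
    have a4 := F.E_c (C := 25) (a := 4 + -300) (b := -130) (by norm_num) (by norm_num)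
    rw [← F.E_mul] at a4
    linarith
  · exact (F.E_small (by norm_num)).trans (by norm_num)
  · rw [F.E_mul]
    exact F.E_c (by norm_num) (by norm_num)
  · have a1 := mul_le_mul_of_nonneg_left (F.E_c (C := 16) (a := -130 + 75) (b := -4 + -9)
      (by norm_num) (by norm_num)) hw.le
    rw [← F.E_mul, ← F.E_mul] at a1
    have a2 : 4 * (G.olE (-4) * G.T) = G.w * (G.olE (-4) * G.olE (-9)) := by
      linear_combination G.olE (-4) * eT'
    linarith
  · exact F.E_c (by norm_num) (by norm_num)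

theorem one_low : Ev fun G _ => ∀ (U : Pt → ℝ) (E e : ℝ), 0 ≤ e → G.Near U E e →
    OBlow U G.φ E G.T (1 / (G.n : ℝ) ^ 130) (G.T / (G.n : ℝ) ^ 3 + e) := by
  refine ((((((((((Ev.const 100).and (Ev.exp 120)).and feat_shape).and feat_val).and Iz_bounds).and
    φ0_pos).and mass_bounds).and sharp).and poincare_feat).and (gs_rep.and Vref_facts)).mono ?_
  rintro G V hG ⟨⟨⟨⟨⟨⟨⟨⟨⟨h1, h2⟩, h3⟩, h4⟩, h5⟩, h6⟩, h7⟩, h8⟩, h9⟩, h10, h11⟩ U E e he hU ψ hψ
  have H : G.OLG V := ⟨⟨hG, h1, h2, h3.2.2, h4, h5.1, h5.2.1, h5.2.2.1⟩, h6.1, h6.2.1, h6.2.2.2⟩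
  have hg : C1c fun x => ψ x / G.φ0 x :=
    ⟨hψ.1.div (h6.1.of_le (by exact_mod_cast le_top)) fun x => (h6.2.1 x).ne', by
      simp only [div_eq_mul_inv]
      exact hψ.2.mul_right⟩
  have e1 : ∀ x, ψ x = G.φ0 x * (ψ x / G.φ0 x) := fun x => (mul_div_cancel₀ _ (h6.2.1 x).ne').symm
  have a1 := (h10 _ hg).2
  rw [← funext e1] at a1
  have a2 : G.olD (fun x => ψ x / G.φ0 x) ≤ ∫ x, G.φ0 x ^ 2 * gsq (fun x => ψ x / G.φ0 x) x :=
    setIntegral_le_integral (hg.integrable_gsq.bdd_mul (c := 2)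
      (h6.1.continuous.pow 2).aestronglyMeasurable (Filter.Eventually.of_forall fun x => by
        rw [Real.norm_eq_abs, abs_sq]
        exact h6.2.2.1 x))
      (Filter.Eventually.of_forall fun x => mul_nonneg (sq_nonneg _) (ol_gsq_nonneg _ x))
  have a3 := hU.ol_energy he h11.1 hψ
  have a4 := H.main h8 h7 h9 hψ hg.1 e1
  linarith

end Vale.Agent.P370
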