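import Vale.Agent.P370.OneUpA

/-!
Gradient of the profile functions.
-/

namespace Vale.Agent.P370

open MeasureTheory Set
open scoped ContDiff

lemma pd_prof {p z r α β : ℝ → ℝ} (hp : Differentiable ℝ p) (hz : Differentiable ℝ z)
    (hr : Differentiable ℝ r) (hα : Differentiable ℝ α) (hβ : Differentiable ℝ β) (x : Pt) :
    pd 0 (fun x => p (x 0) * z (x 2) * (r (x 0) * α (x 1) + (1 - r (x 0)) / 3 * β (x 1))) x =
      deriv p (x 0) * z (x 2) * (r (x 0) * α (x 1) + (1 - r (x 0)) / 3 * β (x 1)) +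
        p (x 0) * z (x 2) * (deriv r (x 0) * (α (x 1) - β (x 1) / 3)) ∧
    pd 1 (fun x => p (x 0) * z (x 2) * (r (x 0) * α (x 1) + (1 - r (x 0)) / 3 * β (x 1))) x =
      p (x 0) * z (x 2) * (r (x 0) * deriv α (x 1) + (1 - r (x 0)) / 3 * deriv β (x 1)) ∧
    pd 2 (fun x => p (x 0) * z (x 2) * (r (x 0) * α (x 1) + (1 - r (x 0)) / 3 * β (x 1))) x =
      p (x 0) * deriv z (x 2) * (r (x 0) * α (x 1) + (1 - r (x 0)) / 3 * β (x 1)) := by
  have c : ∀ {g : ℝ → ℝ}, Differentiable ℝ g → ∀ j : Fin 3, HasFDerivAt (fun x : Pt => g (x j))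
      (deriv g (x j) • (ContinuousLinearMap.proj j : Pt →L[ℝ] ℝ)) x := fun hg j =>
    (hg (x j)).hasDerivAt.comp_hasFDerivAt x (hasFDerivAt_apply j x)
  have h := (((c hp 0).fun_mul (c hz 2)).fun_mul (((c hr 0).fun_mul (c hα 1)).fun_add
    ((((c hr 0).const_sub 1).mul_const (3 : ℝ)⁻¹).fun_mul (c hβ 1)))).fderiv
  simp only [pd, div_eq_mul_inv, h]
  refine ⟨?_, ?_, ?_⟩ <;> simp [ek] <;> ring

lemma bmp_diff (a c : ℝ) : Differentiable ℝ fun t => bmp a (t - c) :=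
  ((contDiff_bmp a).differentiable (by simp)).comp (differentiable_id.sub_const c)

lemma bmp_cases {a t : ℝ} (h : |t| < a ∨ a + 1 < |t|) :
    deriv (bmp a) t = 0 ∧ (|t| < a → bmp a t = 1) ∧ (a + 1 < |t| → bmp a t = 0) :=
  ⟨deriv_bmp_eq_zero h, fun k => bmp_one k.le, fun k => bmp_zero k.le⟩

lemma integrable_pt_prod {f g h : ℝ → ℝ} (hf : Integrable f) (hg : Integrable g)
    (hh : Integrable h) : Integrable fun x : Pt => f (x 0) * g (x 1) * h (x 2) := by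
  have := Integrable.fintype_prod (f := ![f, g, h]) (μ := fun _ => volume)
    (by intro i; fin_cases i <;> assumption)
  simp only [Fin.prod_univ_three] at this
  exact this

namespace Geo

variable {G : Geo} {V : ℕ → ℕ → ℕ}

/-- Combination of the profiles. -/
noncomputable def fc (G : Geo) (c : Arm G.M → ℝ) (x : Pt) : ℝ := ∑ a, c a * G.θ a x

lemma UF.θ_smooth (u : G.UF) (a : Arm G.M) : ContDiff ℝ ∞ (G.θ a) := by
  have h1 := u.ramp_smooth
  have h2 := contDiff_bmp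
  unfold θ
  fun_prop

lemma UF.fc_smooth (u : G.UF) (c : Arm G.M → ℝ) : ContDiff ℝ ∞ (G.fc c) :=
  ContDiff.sum fun a _ => contDiff_const.mul (u.θ_smooth a)

lemma UF.pd_fc (u : G.UF) (c : Arm G.M → ℝ) (k : Fin 3) (x : Pt) :
    pd k (G.fc c) x = ∑ a, c a * pd k (G.θ a) x := by
  have hd : ∀ a, DifferentiableAt ℝ (G.θ a) x := fun a =>
    (u.θ_smooth a).differentiable (by simp) x
  have h := (HasFDerivAt.fun_sum (u := Finset.univ) fun a _ =>
    (hd a).hasFDerivAt.const_mul (c a)).fderiv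
  unfold pd fc
  rw [h]
  simp

lemma UF.pd_θ (u : G.UF) (a : Arm G.M) (x : Pt) :
    pd 0 (G.θ a) x = deriv (bmp (G.l / 4)) (x 0) * bmp 1 (x 2) *
        (G.ramp (x 0) * bmp (G.d / 4) (x 1 - G.d * row a) +
          (1 - G.ramp (x 0)) / 3 * bmp (5 * G.d / 4) (x 1 - G.d * (3 * a.1.val + 1))) +
      bmp (G.l / 4) (x 0) * bmp 1 (x 2) * (deriv G.ramp (x 0) *
        (bmp (G.d / 4) (x 1 - G.d * row a) -
          bmp (5 * G.d / 4) (x 1 - G.d * (3 * a.1.val + 1)) / 3)) ∧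
    pd 1 (G.θ a) x = bmp (G.l / 4) (x 0) * bmp 1 (x 2) *
      (G.ramp (x 0) * deriv (bmp (G.d / 4)) (x 1 - G.d * row a) +
        (1 - G.ramp (x 0)) / 3 * deriv (bmp (5 * G.d / 4)) (x 1 - G.d * (3 * a.1.val + 1))) ∧
    pd 2 (G.θ a) x = bmp (G.l / 4) (x 0) * deriv (bmp 1) (x 2) *
      (G.ramp (x 0) * bmp (G.d / 4) (x 1 - G.d * row a) +
        (1 - G.ramp (x 0)) / 3 * bmp (5 * G.d / 4) (x 1 - G.d * (3 * a.1.val + 1))) := by
  have h := pd_prof ((contDiff_bmp (G.l / 4)).differentiable (by simp))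
    ((contDiff_bmp 1).differentiable (by simp)) (u.ramp_smooth.differentiable (by simp))
    (bmp_diff (G.d / 4) (G.d * row a)) (bmp_diff (5 * G.d / 4) (G.d * (3 * a.1.val + 1))) x
  simp only [deriv_comp_sub_const] at h
  exact h

lemma UF.pd_θ_le (u : G.UF) (hC : ∀ a t, |deriv (bmp a) t| ≤ G.n) (a : Arm G.M) (k : Fin 3)
    (x : Pt) : |pd k (G.θ a) x| ≤ 2 * G.n := by
  obtain ⟨h0, h1, h2⟩ := u.pd_θ a x
  have hn := u.one_le
  obtain ⟨r0, r1⟩ := u.ramp_mem (x 0)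
  have r2 : |deriv G.ramp (x 0)| ≤ 1 := (u.ramp_der _).trans (by
    rw [div_le_one (by linarith [u.Lk_ge])]; linarith [u.Lk_ge])
  have p0 := bmp_nonneg (G.l / 4) (x 0)
  have p1 := bmp_le_one (G.l / 4) (x 0)
  have p2 := hC (G.l / 4) (x 0)
  have z0 := bmp_nonneg 1 (x 2)
  have z1 := bmp_le_one 1 (x 2)
  have z2 := hC 1 (x 2)
  have a0 := bmp_nonneg (G.d / 4) (x 1 - G.d * row a)
  have a1 := bmp_le_one (G.d / 4) (x 1 - G.d * row a)
  have a2 := hC (G.d / 4) (x 1 - G.d * row a)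
  have b0 := bmp_nonneg (5 * G.d / 4) (x 1 - G.d * (3 * a.1.val + 1))
  have b1 := bmp_le_one (5 * G.d / 4) (x 1 - G.d * (3 * a.1.val + 1))
  have b2 := hC (5 * G.d / 4) (x 1 - G.d * (3 * a.1.val + 1))
  generalize bmp (G.l / 4) (x 0) = P at *
  generalize deriv (bmp (G.l / 4)) (x 0) = P' at *
  generalize bmp 1 (x 2) = Z at *
  generalize deriv (bmp 1) (x 2) = Z' at *
  generalize bmp (G.d / 4) (x 1 - G.d * row a) = A at *
  generalize deriv (bmp (G.d / 4)) (x 1 - G.d * row a) = A' at *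
  generalize bmp (5 * G.d / 4) (x 1 - G.d * (3 * a.1.val + 1)) = B at *
  generalize deriv (bmp (5 * G.d / 4)) (x 1 - G.d * (3 * a.1.val + 1)) = B' at *
  generalize G.ramp (x 0) = R at *
  generalize deriv G.ramp (x 0) = R' at *
  have c1 : |R * A + (1 - R) / 3 * B| ≤ 1 := by
    rw [abs_of_nonneg (add_nonneg (mul_nonneg r0 a0) (mul_nonneg (by linarith) b0))]
    nlinarith
  have c2 : |A - B / 3| ≤ 1 := by rw [abs_le]; constructor <;> linarith
  have c3 : |R * A' + (1 - R) / 3 * B'| ≤ G.n := by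
    refine (abs_add_le _ _).trans ?_
    rw [abs_mul, abs_mul, abs_of_nonneg r0, abs_of_nonneg (by linarith : 0 ≤ (1 - R) / 3)]
    nlinarith [abs_nonneg B']
  have p3 : |P| ≤ 1 := by rwa [abs_of_nonneg p0]
  have z3 : |Z| ≤ 1 := by rwa [abs_of_nonneg z0]
  fin_cases k
  · refine (le_of_eq (congrArg _ h0)).trans ((abs_add_le _ _).trans ?_)
    simp only [abs_mul]
    calc _ ≤ (G.n : ℝ) * 1 * 1 + 1 * 1 * (1 * 1) := by gcongr
      _ ≤ _ := by linarith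
  · refine (le_of_eq (congrArg _ h1)).trans ?_
    simp only [abs_mul]
    calc _ ≤ 1 * 1 * (G.n : ℝ) := by gcongr
      _ ≤ _ := by linarith
  · refine (le_of_eq (congrArg _ h2)).trans ?_
    simp only [abs_mul]
    calc _ ≤ 1 * (G.n : ℝ) * 1 := by gcongr
      _ ≤ _ := by linarith

lemma OK.gsq_le (h : G.OK V) (u : G.UF) (hC : ∀ a t, |deriv (bmp a) t| ≤ G.n)
    (c : Arm G.M → ℝ) (x : Pt) : gsq (G.fc c) x ≤ (G.n : ℝ) ^ 4 * ∑ a, c a ^ 2 := by
  have hS : 0 ≤ ∑ a, c a ^ 2 := Finset.sum_nonneg fun a _ => sq_nonneg _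
  have hn := u.n_pos
  have h1 : ∀ k, pd k (G.fc c) x ^ 2 ≤ (∑ a, c a ^ 2) * (12 * (G.n : ℝ) ^ 3) := by
    intro k
    rw [u.pd_fc]
    refine (Finset.sum_mul_sq_le_sq_mul_sq _ _ _).trans (mul_le_mul_of_nonneg_left ?_ hS)
    refine (Finset.sum_le_card_nsmul _ _ ((2 * G.n : ℝ) ^ 2) fun a _ => ?_).trans ?_
    · rw [← sq_abs]
      exact pow_le_pow_left₀ (abs_nonneg _) (u.pd_θ_le hC a k x) 2
    · have := h.M_le'
      simp only [Finset.card_univ, Fintype.card_prod, Fintype.card_fin, nsmul_eq_mul]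
      push_cast
      calc _ ≤ G.n * 3 * (2 * G.n : ℝ) ^ 2 := by gcongr
        _ = _ := by ring
  have h2 := u.mul_pow_le (i := 3) (j := 4) (by norm_num)
  have h3 : 0 < (G.n : ℝ) ^ 3 := by positivity
  rw [gsq, Fin.sum_univ_three]
  nlinarith [h1 0, h1 1, h1 2]

lemma UF.gsq_hub (u : G.UF) (c : Arm G.M → ℝ) {x : Pt} (h0 : |x 0| ≤ G.l / 8) (h2 : |x 2| < 1)
    {m : ℕ} (hx : x ∈ rect (G.hub m) G.ξ) : gsq (G.fc c) x = 0 := by
  have hξ := u.ξ_le
  have hd := u.d_ge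
  have hl := u.l_ge
  obtain ⟨k0, k1⟩ := mem_hub.1 hx
  have k2 : x 0 ≤ 1 - G.Lk := by linarith [(abs_le.1 k0).2]
  have e : ∀ a k, pd k (G.θ a) x = 0 := by
    intro a k
    obtain ⟨h0', h1', h2'⟩ := u.pd_θ a x
    have b : deriv (bmp (5 * G.d / 4)) (x 1 - G.d * (3 * a.1.val + 1)) = 0 := by
      refine deriv_bmp_eq_zero ?_
      by_cases hm : a.1.val = m
      · rw [hm]
        exact Or.inl (by linarith)
      · refine Or.inr ?_
        have k3 : (G.d : ℝ) * 1 ≤ G.d * |(a.1.val : ℝ) - m| := by gcongr; exact nat_far hm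
        have k4 : |3 * ((G.d : ℝ) * (a.1.val - m))| ≤
            |x 1 - G.d * (3 * m + 1)| + |x 1 - G.d * (3 * a.1.val + 1)| := by
          rw [show 3 * ((G.d : ℝ) * (a.1.val - m)) =
            (x 1 - G.d * (3 * m + 1)) - (x 1 - G.d * (3 * a.1.val + 1)) by ring]
          exact abs_sub _ _
        rw [abs_mul, abs_mul, abs_of_pos three_pos, abs_of_nonneg (Nat.cast_nonneg _)] at k4
        linarith
    rw [deriv_bmp_eq_zero (Or.inl (by linarith)), u.ramp_der0 _ (Or.inr k2)] at h0'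
    rw [u.ramp_zero _ k2, b] at h1'
    rw [deriv_bmp_eq_zero (Or.inl h2)] at h2'
    fin_cases k
    · simpa using h0'
    · simpa using h1'
    · simpa using h2'
  simp [gsq, u.pd_fc, e]

lemma UF.gsq_row (u : G.UF) (c : Arm G.M → ℝ) {x : Pt} (h0 : |x 0| ≤ G.l / 8) (h2 : |x 2| < 1)
    (b : Arm G.M) (h1 : |x 1 - G.d * row b| ≤ 2) :
    gsq (G.fc c) x = deriv G.ramp (x 0) ^ 2 * (c b - (∑ j, c (b.1, j)) / 3) ^ 2 := by
  have hd := u.d_ge
  have hl := u.l_ge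
  have A : ∀ a : Arm G.M, deriv (bmp (G.d / 4)) (x 1 - G.d * row a) = 0 ∧
      bmp (G.d / 4) (x 1 - G.d * row a) = if a = b then 1 else 0 := by
    intro a
    by_cases k : a = b
    · rw [if_pos k, k]
      exact ⟨deriv_bmp_eq_zero (Or.inl (by linarith)), bmp_one (by linarith)⟩
    · rw [if_neg k]
      have k3 : (G.d : ℝ) * 1 ≤ G.d * |(row a : ℝ) - row b| := by
        gcongr; exact nat_far fun k' => k (row_inj k')
      have k4 : |(G.d : ℝ) * (row a - row b)| ≤ |x 1 - G.d * row b| + |x 1 - G.d * row a| := by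
        rw [show (G.d : ℝ) * (row a - row b) = (x 1 - G.d * row b) - (x 1 - G.d * row a) by ring]
        exact abs_sub _ _
      rw [abs_mul, abs_of_nonneg (Nat.cast_nonneg _)] at k4
      exact ⟨deriv_bmp_eq_zero (Or.inr (by linarith)), bmp_zero (by linarith)⟩
  have hb : |x 1 - G.d * (3 * b.1.val + 1)| ≤ G.d + 2 := by
    have k1 : (b.2.val : ℝ) ≤ 2 := by exact_mod_cast Nat.lt_succ_iff.1 b.2.2
    have k2 : (0 : ℝ) ≤ b.2.val := Nat.cast_nonneg _
    have k3 : (row b : ℝ) = 3 * b.1.val + b.2.val := by rw [row]; push_cast; ring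
    rw [k3, abs_le] at h1
    rw [abs_le]
    constructor <;> nlinarith [h1.1, h1.2]
  have B : ∀ m : Fin G.M, deriv (bmp (5 * G.d / 4)) (x 1 - G.d * (3 * m.val + 1)) = 0 ∧
      bmp (5 * G.d / 4) (x 1 - G.d * (3 * m.val + 1)) = if m = b.1 then 1 else 0 := by
    intro m
    by_cases k : m = b.1
    · rw [if_pos k, k]
      exact ⟨deriv_bmp_eq_zero (Or.inl (by linarith)), bmp_one (by linarith)⟩
    · rw [if_neg k]
      have k3 : (G.d : ℝ) * 1 ≤ G.d * |(m.val : ℝ) - b.1.val| := by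
        gcongr; exact nat_far fun k' => k (Fin.ext k')
      have k4 : |3 * ((G.d : ℝ) * (m.val - b.1.val))| ≤
          |x 1 - G.d * (3 * b.1.val + 1)| + |x 1 - G.d * (3 * m.val + 1)| := by
        rw [show 3 * ((G.d : ℝ) * (m.val - b.1.val)) =
          (x 1 - G.d * (3 * b.1.val + 1)) - (x 1 - G.d * (3 * m.val + 1)) by ring]
        exact abs_sub _ _
      rw [abs_mul, abs_mul, abs_of_pos three_pos, abs_of_nonneg (Nat.cast_nonneg _)] at k4
      exact ⟨deriv_bmp_eq_zero (Or.inr (by linarith)), bmp_zero (by linarith)⟩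
  have e : ∀ a, pd 0 (G.θ a) x = deriv G.ramp (x 0) *
      ((if a = b then 1 else 0) - (if a.1 = b.1 then 1 else 0) / 3) ∧ pd 1 (G.θ a) x = 0 ∧
      pd 2 (G.θ a) x = 0 := by
    intro a
    obtain ⟨h0', h1', h2'⟩ := u.pd_θ a x
    rw [deriv_bmp_eq_zero (Or.inl (by linarith)), bmp_one (by linarith : |x 0| ≤ G.l / 4),
      bmp_one h2.le, (A a).2, (B a.1).2] at h0'
    rw [(A a).1, (B a.1).1] at h1'
    rw [deriv_bmp_eq_zero (Or.inl h2)] at h2'
    exact ⟨by simpa using h0', by simpa using h1', by simpa using h2'⟩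
  have s1 : ∑ a : Arm G.M, c a * (if a = b then 1 else 0) = c b := by simp
  have s2 : ∑ a : Arm G.M, c a * (if a.1 = b.1 then 1 else 0) = ∑ j, c (b.1, j) := by
    rw [Fintype.sum_prod_type, Finset.sum_comm]
    simp
  have s3 : ∑ a, c a * pd 0 (G.θ a) x = deriv G.ramp (x 0) * (c b - (∑ j, c (b.1, j)) / 3) := by
    rw [← s1, ← s2, Finset.sum_div, ← Finset.sum_sub_distrib, Finset.mul_sum]
    exact Finset.sum_congr rfl fun a _ => by rw [(e a).1]; ring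
  simp only [gsq, Fin.sum_univ_three, u.pd_fc, s3, fun a => (e a).2.1, fun a => (e a).2.2]
  simp [mul_pow]

lemma UF.θ_zero (u : G.UF) (a : Arm G.M) {x : Pt} (hx : x ∉ box (G.l / 2) (G.l / 2) 2) :
    G.θ a x = 0 := by
  have h1 : G.η a x = 0 := image_eq_zero_of_notMem_tsupport fun k => hx (u.supp a k)
  have h2 := Real.sqrt_pos.2 (u.mass_pos (row_lt a))
  have h3 := u.φ0_pos x
  simpa [η, h2.ne', h3.ne'] using h1

lemma UF.fc_supp (u : G.UF) (c : Arm G.M → ℝ) :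
    tsupport (G.fc c) ⊆ box (G.l / 2) (G.l / 2) 2 := by
  refine closure_minimal (fun x hx => ?_) (isCompact_box _ _ _).isClosed
  by_contra k
  exact hx (by simp [fc, u.θ_zero _ k])

lemma UF.fc_C1c (u : G.UF) (c : Arm G.M → ℝ) : C1c (G.fc c) :=
  ⟨(u.fc_smooth c).of_le (by simp),
    (isCompact_box _ _ _).of_isClosed_subset (isClosed_tsupport _) (u.fc_supp c)⟩

lemma exists_row {M r : ℕ} (hr : r < 3 * M) : ∃ b : Arm M, row b = r :=
  ⟨(⟨r / 3, by omega⟩, ⟨r % 3, by omega⟩), by simp only [row]; omega⟩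

/-- Indicator of the middle part of a link, with the transverse profile. -/
noncomputable def lk (G : Geo) (a : Arm G.M) (x : Pt) : ℝ :=
  (Icc (1 - G.Lk : ℝ) (-1)).indicator 1 (x 0) *
    (Icc (G.d * row a - (1 + G.ξ)) (G.d * row a + (1 + G.ξ))).indicator 1 (x 1) *
    (Icc (-1 : ℝ) 1).indicator (fun z => Real.exp (-(G.Ω * z ^ 2))) (x 2)

lemma lk_nonneg (a : Arm G.M) (x : Pt) : 0 ≤ G.lk a x :=
  mul_nonneg (mul_nonneg (indicator_nonneg (fun _ _ => zero_le_one) _)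
    (indicator_nonneg (fun _ _ => zero_le_one) _))
    (indicator_nonneg (fun _ _ => (Real.exp_pos _).le) _)

lemma OK.energy_pt (h : G.OK V) (u : G.UF) (hC : ∀ a t, |deriv (bmp a) t| ≤ G.n)
    (c : Arm G.M → ℝ) (x : Pt) :
    G.φ0 x ^ 2 * gsq (G.fc c) x ≤
      (∑ a, (G.w + (G.n : ℝ) ^ 7 * (1 / 2 ^ G.n)) / ((G.Lk : ℝ) - 4) ^ 2 *
        (c a - (∑ j, c (a.1, j)) / 3) ^ 2 * G.lk a x) +
      (box (G.l / 2) (G.l / 2) 2).indicator
        (fun _ => (G.n : ℝ) ^ 7 * (1 / 2 ^ G.n) * ((G.n : ℝ) ^ 4 * ∑ a, c a ^ 2)) x := by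
  have hn := u.n_pos
  have hw := h.w_pos u
  have hξ := u.ξ_le
  have hS : 0 ≤ ∑ a, c a ^ 2 := Finset.sum_nonneg fun a _ => sq_nonneg _
  have t1 : ∀ a ∈ (Finset.univ : Finset (Arm G.M)),
      0 ≤ (G.w + (G.n : ℝ) ^ 7 * (1 / 2 ^ G.n)) / ((G.Lk : ℝ) - 4) ^ 2 *
        (c a - (∑ j, c (a.1, j)) / 3) ^ 2 * G.lk a x := fun a _ =>
    mul_nonneg (by positivity) (lk_nonneg a x)
  have t2 := Finset.sum_nonneg t1
  have t3 : 0 ≤ (box (G.l / 2) (G.l / 2) 2).indicator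
      (fun _ => (G.n : ℝ) ^ 7 * (1 / 2 ^ G.n) * ((G.n : ℝ) ^ 4 * ∑ a, c a ^ 2)) x :=
    indicator_nonneg (fun _ _ => by positivity) _
  have g0 : 0 ≤ gsq (G.fc c) x := Finset.sum_nonneg fun k _ => sq_nonneg _
  by_cases hx : x ∈ box (G.l / 2) (G.l / 2) 2
  swap
  · have : gsq (G.fc c) x = 0 := by
      simp [gsq, pd, fderiv_of_notMem_tsupport ℝ fun k => hx (u.fc_supp c k)]
    rw [this, mul_zero]
    exact add_nonneg t2 t3
  have hsq := u.φ0_sq x (hx.2.2.trans (by norm_num))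
  have small : G.φ0 x ^ 2 ≤ (G.n : ℝ) ^ 7 * (1 / 2 ^ G.n) → G.φ0 x ^ 2 * gsq (G.fc c) x ≤
      (box (G.l / 2) (G.l / 2) 2).indicator
        (fun _ => (G.n : ℝ) ^ 7 * (1 / 2 ^ G.n) * ((G.n : ℝ) ^ 4 * ∑ a, c a ^ 2)) x := by
    intro k
    rw [indicator_of_mem hx]
    exact mul_le_mul k (h.gsq_le u hC c x) g0 (by positivity)
  by_cases h2 : |x 2| < 1
  swap
  · refine (small ?_).trans (le_add_of_nonneg_left t2)
    have k1 := u.Iz_out _ (not_lt.1 h2)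
    have k2 := u.Iz_le
    have k3 := u.pow_ge (j := 7) (by norm_num)
    rw [hsq]
    calc _ ≤ 2 * (2 / 2 ^ G.n : ℝ) :=
          mul_le_mul (u.m_pos x).2 (k1.trans (by gcongr)) (Real.exp_pos _).le two_pos.le
      _ = 4 * (1 / 2 ^ G.n) := by ring
      _ ≤ _ := by gcongr; linarith
  by_cases hf : ∀ f ∈ G.feats, x ∉ rect f G.ξ
  · refine (small ?_).trans (le_add_of_nonneg_left t2)
    have k1 : Real.exp (-(G.Ω * x 2 ^ 2)) ≤ 1 := by
      rw [Real.exp_le_one_iff, neg_nonpos]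
      unfold Ω
      positivity
    rw [hsq]
    exact (mul_le_of_le_one_right (u.m_pos x).1.le k1).trans (u.m_far hf)
  push Not at hf
  obtain ⟨f, hf, hxf⟩ := hf
  have h0 : |x 0| ≤ G.l / 8 := ((u.shape f hf).2.2.2.2.2.2
    (show x ∈ rect f 1 from ⟨by linarith [hxf.1], by linarith [hxf.2]⟩)).1
  rcases h.feat_cases hf with ⟨r, hr, hf'⟩ | ⟨m, -, rfl⟩
  swap
  · rw [u.gsq_hub c h0 h2 hxf, mul_zero]
    exact add_nonneg t2 t3
  obtain ⟨b, rfl⟩ := exists_row hr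
  have h1 : |x 1 - G.d * row b| ≤ 1 + G.ξ := by
    rcases hf' with ⟨s, rfl⟩ | rfl | rfl
    · exact (mem_well.1 hxf).2
    · exact (mem_wire.1 hxf).2
    · exact (mem_link.1 hxf).2
  rw [u.gsq_row c h0 h2 b (by linarith)]
  by_cases k : -1 ≤ x 0 ∨ x 0 ≤ 1 - G.Lk
  · rw [u.ramp_der0 _ k]
    simpa using add_nonneg t2 t3
  push Not at k
  refine le_trans ?_ ((Finset.single_le_sum t1 (Finset.mem_univ b)).trans
    (le_add_of_nonneg_right t3))
  have e : G.lk b x = Real.exp (-(G.Ω * x 2 ^ 2)) := by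
    rw [abs_le] at h1
    rw [lk, indicator_of_mem (show x 0 ∈ Icc _ _ from ⟨k.2.le, k.1.le⟩),
      indicator_of_mem (show x 1 ∈ Icc _ _ from ⟨by linarith [h1.1], by linarith [h1.2]⟩),
      indicator_of_mem (show x 2 ∈ Icc _ _ from abs_le.1 h2.le)]
    simp
  have k1 := h.m_link u hr k.2.le k.1.le (by linarith)
  have k2 : deriv G.ramp (x 0) ^ 2 ≤ (1 / ((G.Lk : ℝ) - 4)) ^ 2 := by
    rw [← sq_abs]
    exact pow_le_pow_left₀ (abs_nonneg _) (u.ramp_der _) 2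
  rw [e, hsq]
  calc _ ≤ (G.w + (G.n : ℝ) ^ 7 * (1 / 2 ^ G.n)) * Real.exp (-(G.Ω * x 2 ^ 2)) *
        ((1 / ((G.Lk : ℝ) - 4)) ^ 2 * (c b - (∑ j, c (b.1, j)) / 3) ^ 2) := by gcongr
    _ = _ := by rw [div_pow]; ring

end Geo

end Vale.Agent.P370
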