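import Vale.Agent.P370.GS
import Vale.Agent.P370.ManyUp
import Vale.Agent.P370.OneUpB

/-!
The one-body upper bound for the smooth potential.
-/

namespace Vale.Agent.P370

open MeasureTheory Set

lemma ou_hop_nonneg {M : ℕ} (x : Arm M → ℝ) : 0 ≤ hop x :=
  Finset.sum_nonneg fun _ _ => sq_nonneg _

lemma ou_hop_le {M : ℕ} (x : Arm M → ℝ) : hop x ≤ ∑ a, x a ^ 2 := by
  unfold hop
  rw [Fintype.sum_prod_type, Fintype.sum_prod_type]
  refine Finset.sum_le_sum fun m _ => ?_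
  simp only [Fin.sum_univ_three]
  nlinarith [sq_nonneg (x (m, 0) + x (m, 1) + x (m, 2))]

lemma ou_hop_add {M : ℕ} (x y : Arm M → ℝ) (k : ℝ) {t : ℝ} (ht : 0 < t) :
    hop (fun a => k * x a + y a) ≤ (1 + t) * k ^ 2 * hop x + (1 + 1 / t) * hop y := by
  unfold hop
  rw [Finset.mul_sum, Finset.mul_sum, ← Finset.sum_add_distrib]
  refine Finset.sum_le_sum fun a _ => ?_
  rw [Finset.sum_add_distrib, ← Finset.mul_sum]
  generalize (∑ b, x (a.1, b)) = X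
  generalize (∑ b, y (a.1, b)) = Y
  have h : 0 ≤ (t * (k * (x a - X / 3)) - (y a - Y / 3)) ^ 2 / t := by positivity
  have e : (t * (k * (x a - X / 3)) - (y a - Y / 3)) ^ 2 / t =
      t * (k * (x a - X / 3)) ^ 2 - 2 * (k * (x a - X / 3)) * (y a - Y / 3) +
        1 / t * (y a - Y / 3) ^ 2 := by
    field_simp
    ring
  nlinarith

lemma ou_sqrt {μ m ε : ℝ} (hμ : 0 < μ) (hε : ε ≤ 1) (h : |m - μ| ≤ μ * ε / 4) :
    (1 / √m - 1 / √μ) ^ 2 ≤ ε ^ 2 / μ := by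
  obtain ⟨h1, h2⟩ := abs_le.1 h
  have hε0 : 0 ≤ ε := by nlinarith
  have hm : 0 < m := by nlinarith
  have a1 := Real.sqrt_pos.2 hm
  have a2 := Real.sqrt_pos.2 hμ
  have b1 := Real.sq_sqrt hm.le
  have b2 := Real.sq_sqrt hμ.le
  generalize √m = s at *
  generalize √μ = r at *
  subst b1 b2
  have c0 : r ≤ 2 * s := by nlinarith
  have c1 : |r - s| ≤ ε * s := by
    have d1 : |r - s| * (r + s) ≤ r ^ 2 * ε / 4 := by
      rw [← abs_of_pos (by linarith : 0 < r + s), ← abs_mul, abs_sub_comm] at *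
      rwa [show (r - s) * (r + s) = r ^ 2 - s ^ 2 by ring]
    have d2 : r ^ 2 * ε / 4 ≤ ε * s * (r + s) := by nlinarith [mul_nonneg hε0 a1.le, mul_nonneg hε0 a2.le]
    exact le_of_mul_le_mul_right (d1.trans d2) (by linarith)
  have c2 : (r - s) ^ 2 ≤ (ε * s) ^ 2 := by
    rw [← sq_abs]
    exact pow_le_pow_left₀ (abs_nonneg _) c1 2
  rw [show 1 / s - 1 / r = (r - s) / (s * r) by field_simp, div_pow,
    div_le_div_iff₀ (by positivity) (by positivity)]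
  nlinarith [sq_nonneg r]

namespace Geo

variable {G : Geo} {V : ℕ → ℕ → ℕ}

lemma integrable_gz (G : Geo) (a b : ℝ) :
    Integrable ((Icc a b).indicator fun z : ℝ => Real.exp (-(G.Ω * z ^ 2))) :=
  (integrable_indicator_iff measurableSet_Icc).2
    ((by fun_prop : Continuous fun z : ℝ => Real.exp (-(G.Ω * z ^ 2))).integrableOn_Icc)

lemma integrable_lk (a : Arm G.M) : Integrable (G.lk a) :=
  integrable_pt_prod ((integrable_indicator_iff measurableSet_Icc).2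
    (continuous_one.integrableOn_Icc)) ((integrable_indicator_iff measurableSet_Icc).2
    (continuous_one.integrableOn_Icc)) (G.integrable_gz _ _)

lemma UF.integral_lk (u : G.UF) (a : Arm G.M) :
    ∫ x, G.lk a x = (G.Lk - 2) * (2 + 2 * G.ξ) * G.Iz := by
  have h1 := u.Lk_ge
  have h2 := u.ξ_pos
  unfold lk
  rw [integral_pt_prod, integral_indicator_one measurableSet_Icc,
    integral_indicator_one measurableSet_Icc, integral_indicator measurableSet_Icc,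
    Real.volume_real_Icc_of_le (by linarith), Real.volume_real_Icc_of_le (by linarith), Iz]
  ring

lemma OK.energy (h : G.OK V) (u : G.UF) (hC : ∀ a t, |deriv (bmp a) t| ≤ G.n)
    (c : Arm G.M → ℝ) :
    ∫ x, G.φ0 x ^ 2 * gsq (G.fc c) x ≤
      (G.w + (G.n : ℝ) ^ 7 * (1 / 2 ^ G.n)) / ((G.Lk : ℝ) - 4) ^ 2 *
        ((G.Lk - 2) * (2 + 2 * G.ξ) * G.Iz) * hop c +
      4 * (G.n : ℝ) ^ 63 * (1 / 2 ^ G.n) * ∑ a, c a ^ 2 := by
  have hl := u.l_ge
  have i1 : ∀ a ∈ (Finset.univ : Finset (Arm G.M)), Integrable fun x =>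
      (G.w + (G.n : ℝ) ^ 7 * (1 / 2 ^ G.n)) / ((G.Lk : ℝ) - 4) ^ 2 *
        (c a - (∑ j, c (a.1, j)) / 3) ^ 2 * G.lk a x := fun a _ => (integrable_lk a).const_mul _
  have i2 : Integrable ((box (G.l / 2) (G.l / 2) 2).indicator
      (fun _ => (G.n : ℝ) ^ 7 * (1 / 2 ^ G.n) * ((G.n : ℝ) ^ 4 * ∑ a, c a ^ 2))) :=
    (integrable_indicator_iff (measurableSet_box _ _ _)).2
      (integrableOn_const (isCompact_box _ _ _).measure_lt_top.ne)
  refine (integral_mono_of_nonneg (Filter.Eventually.of_forall fun x => mul_nonneg (sq_nonneg _)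
    (Finset.sum_nonneg fun k _ => sq_nonneg _)) ((integrable_finsetSum _ i1).add i2)
    (Filter.Eventually.of_forall fun x => h.energy_pt u hC c x)).trans (le_of_eq ?_)
  simp only [Pi.add_apply]
  rw [integral_add (integrable_finsetSum _ i1) i2, integral_finsetSum _ i1,
    integral_indicator_const _ (measurableSet_box _ _ _),
    volume_box (by linarith) (by linarith) (by norm_num), smul_eq_mul, hop,
    Finset.mul_sum (f := fun a => (c a - (∑ b, c (a.1, b)) / 3) ^ 2)]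
  congr 1
  · refine Finset.sum_congr rfl fun a _ => ?_
    rw [integral_const_mul, u.integral_lk]
    ring
  · rw [l]
    push_cast
    ring

lemma UF.hop_le (u : G.UF) (c : Arm G.M → ℝ) :
    hop (fun a => c a / √(G.mass (row a))) ≤
      (hop c + 3 / (G.n : ℝ) ^ 18 * ∑ a, c a ^ 2) / (4 * G.J * G.Iz) := by
  have hn := u.n_pos
  have hJ := u.J_ge
  have hI := u.Iz_pos
  have hμ : 0 < 4 * G.J * G.Iz := by positivity
  have hε : 0 < 1 / (G.n : ℝ) ^ 18 := by positivity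
  have hε1 : 1 / (G.n : ℝ) ^ 18 ≤ 1 := by
    rw [div_le_one (by positivity)]
    exact one_le_pow₀ u.one_le
  have h1 := ou_hop_add c (fun a => c a * (1 / √(G.mass (row a)) - 1 / √(4 * G.J * G.Iz)))
    (1 / √(4 * G.J * G.Iz)) hε
  have e : (fun a => 1 / √(4 * G.J * G.Iz) * c a +
      c a * (1 / √(G.mass (row a)) - 1 / √(4 * G.J * G.Iz))) =
      fun a => c a / √(G.mass (row a)) := funext fun a => by ring
  rw [e, div_pow, Real.sq_sqrt hμ.le, one_pow, one_div_one_div] at h1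
  have h2 : hop (fun a => c a * (1 / √(G.mass (row a)) - 1 / √(4 * G.J * G.Iz))) ≤
      (∑ a, c a ^ 2) * ((1 / (G.n : ℝ) ^ 18) ^ 2 / (4 * G.J * G.Iz)) := by
    refine (ou_hop_le _).trans ?_
    rw [Finset.sum_mul]
    refine Finset.sum_le_sum fun a _ => ?_
    rw [mul_pow]
    refine mul_le_mul_of_nonneg_left (ou_sqrt hμ hε1 ((u.mass _ (row_lt a)).trans (le_of_eq ?_)))
      (sq_nonneg _)
    ring
  have h3 := ou_hop_le c
  have h4 := ou_hop_nonneg c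
  have h5 : (1 + (G.n : ℝ) ^ 18) * (1 / (G.n : ℝ) ^ 18) ^ 2 ≤ 2 * (1 / (G.n : ℝ) ^ 18) := by
    have : (1 + (G.n : ℝ) ^ 18) * (1 / (G.n : ℝ) ^ 18) ^ 2 =
        (1 / (G.n : ℝ) ^ 18) * (1 / (G.n : ℝ) ^ 18) + 1 / (G.n : ℝ) ^ 18 := by
      field_simp
    nlinarith
  have e3 : 3 / (G.n : ℝ) ^ 18 = 3 * (1 / (G.n : ℝ) ^ 18) := by ring
  rw [e3]
  generalize 1 / (G.n : ℝ) ^ 18 = ε at *
  generalize 4 * G.J * G.Iz = μ at *
  generalize ∑ a, c a ^ 2 = S at *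
  refine h1.trans ?_
  calc _ ≤ (1 + ε) * (1 / μ) * hop c + (1 + (G.n : ℝ) ^ 18) * (S * (ε ^ 2 / μ)) := by gcongr
    _ = ((1 + ε) * hop c + (1 + (G.n : ℝ) ^ 18) * ε ^ 2 * S) / μ := by ring
    _ ≤ _ := by
      gcongr ?_ / μ
      nlinarith [mul_le_mul_of_nonneg_right h5 (h4.trans h3)]

lemma OK.kappa (h : G.OK V) (u : G.UF) :
    1 / 2 * ((G.w + (G.n : ℝ) ^ 7 * (1 / 2 ^ G.n)) / ((G.Lk : ℝ) - 4) ^ 2 *
      ((G.Lk - 2) * (2 + 2 * G.ξ) * G.Iz)) / (4 * G.J * G.Iz) ≤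
      G.T * (1 + 11 * (1 / (G.n : ℝ) ^ 5)) := by
  have hn := u.n_pos
  have hJ := u.J_ge
  have hI := u.Iz_pos
  have hw := h.w_pos u
  have hL := u.Lk_ge
  have hξ := u.ξ_pos
  have a0 : 1 / (G.n : ℝ) ^ 5 = 1 / G.Lk := by rw [Lk]; push_cast; rfl
  have a1 : G.ξ ≤ 1 / (G.n : ℝ) ^ 5 :=
    one_div_le_one_div_of_le (by positivity) (u.pow_le (by norm_num))
  have a2 : (G.n : ℝ) ^ 7 * (1 / 2 ^ G.n) ≤ G.w * (1 / (G.n : ℝ) ^ 5) := by
    calc _ ≤ (G.n : ℝ) ^ 7 * (G.w / (G.n : ℝ) ^ 300) :=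
          mul_le_mul_of_nonneg_left (h.two_le u) (by positivity)
      _ = G.w * (1 / (G.n : ℝ) ^ 293) := by field_simp
      _ ≤ _ := by gcongr; exacts [u.one_le, by norm_num]
  rw [a0] at *
  have a3 : (G.Lk - 2 : ℝ) / ((G.Lk : ℝ) - 4) ^ 2 ≤ (1 + 8 * (1 / G.Lk)) / G.Lk := by
    rw [div_le_div_iff₀ (by nlinarith) (by linarith)]
    have : (1 + 8 * (1 / G.Lk : ℝ)) * ((G.Lk : ℝ) - 4) ^ 2 =
        G.Lk ^ 2 - 48 + 128 * (1 / G.Lk) := by
      field_simp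
      ring
    have k : (0 : ℝ) ≤ 1 / G.Lk := by positivity
    nlinarith
  have a4 : (1 / G.Lk : ℝ) ≤ 1 / 1000 := one_div_le_one_div_of_le (by norm_num) hL
  have a5 : (0 : ℝ) < 1 / G.Lk := by positivity
  have e : G.T = G.w / (4 * G.J) / G.Lk := by rw [T]; field_simp
  rw [e]
  generalize (1 / G.Lk : ℝ) = a at *
  calc _ = (G.w + (G.n : ℝ) ^ 7 * (1 / 2 ^ G.n)) * ((G.Lk - 2 : ℝ) / ((G.Lk : ℝ) - 4) ^ 2) *
        (1 + G.ξ) / (4 * G.J) := by field_simp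
    _ ≤ (G.w + G.w * a) * ((1 + 8 * a) / G.Lk) * (1 + a) / (4 * G.J) := by
        have : 0 ≤ (G.Lk - 2 : ℝ) / ((G.Lk : ℝ) - 4) ^ 2 := div_nonneg (by linarith) (sq_nonneg _)
        gcongr
    _ = G.w / (4 * G.J) / G.Lk * ((1 + a) * (1 + 8 * a) * (1 + a)) := by ring
    _ ≤ _ := by
        gcongr
        nlinarith [mul_pos a5 a5]

lemma OK.energy' (h : G.OK V) (u : G.UF) (hC : ∀ a t, |deriv (bmp a) t| ≤ G.n)
    (c : Arm G.M → ℝ) :
    1 / 2 * ∫ x, G.φ0 x ^ 2 * gsq (G.fc fun a => c a / √(G.mass (row a))) x ≤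
      G.T * hop c + G.T / (G.n : ℝ) ^ 3 * ∑ a, c a ^ 2 := by
  have hn := u.n_pos
  have hJ := u.J_ge
  have hI := u.Iz_pos
  have hw := h.w_pos u
  have hL := u.Lk_ge
  have hξ := u.ξ_pos
  have h1 := h.energy u hC fun a => c a / √(G.mass (row a))
  have h2 := u.hop_le c
  have h3 := h.kappa u
  have h4 : ∑ a, (c a / √(G.mass (row a))) ^ 2 ≤ (G.n : ℝ) ^ 52 * ∑ a, c a ^ 2 := by
    rw [Finset.mul_sum]
    refine Finset.sum_le_sum fun a _ => ?_
    rw [div_pow, Real.sq_sqrt (u.mass_pos (row_lt a)).le, div_eq_mul_one_div, mul_comm]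
    exact mul_le_mul_of_nonneg_right (u.inv_mass_le (row_lt a)) (sq_nonneg _)
  have h5 := ou_hop_le c
  have h6 := ou_hop_nonneg c
  have hT : 0 < G.T := by unfold T; positivity
  have h7 : 2 * (G.n : ℝ) ^ 115 * (1 / 2 ^ G.n) ≤ G.T * (1 / (G.n : ℝ) ^ 5) := by
    calc _ ≤ 2 * (G.n : ℝ) ^ 115 * (G.w / (G.n : ℝ) ^ 300) :=
          mul_le_mul_of_nonneg_left (h.two_le u) (by positivity)
      _ = G.w / (4 * (G.n : ℝ) ^ 14) * (8 / (G.n : ℝ) ^ 171) := by field_simp; ring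
      _ ≤ G.w / (4 * (G.n : ℝ) ^ 14) * 1 := by
          gcongr
          rw [div_le_one (by positivity)]
          linarith [u.pow_ge (j := 171) (by norm_num)]
      _ = _ := by rw [T, Lk, J]; push_cast; field_simp
  have h8 : 3 / (G.n : ℝ) ^ 18 ≤ 1 / (G.n : ℝ) ^ 5 := by
    have := u.inv_le (i := 5) (j := 18) (by norm_num)
    have k : 0 < 1 / (G.n : ℝ) ^ 5 := by positivity
    rw [div_eq_mul_one_div]
    linarith
  have h9 := u.inv_le (i := 3) (j := 5) (by norm_num)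
  have h10 := u.inv_le (i := 0) (j := 5) (by norm_num)
  rw [pow_zero] at h10
  have hK : 0 ≤ (G.w + (G.n : ℝ) ^ 7 * (1 / 2 ^ G.n)) / ((G.Lk : ℝ) - 4) ^ 2 *
      ((G.Lk - 2) * (2 + 2 * G.ξ) * G.Iz) :=
    mul_nonneg (by positivity) (mul_nonneg (mul_nonneg (by linarith) (by linarith)) hI.le)
  have hμ : 0 < 4 * G.J * G.Iz := by positivity
  have ha : 0 < 1 / (G.n : ℝ) ^ 5 := by positivity
  rw [div_eq_mul_one_div G.T]
  generalize (G.w + (G.n : ℝ) ^ 7 * (1 / 2 ^ G.n)) / ((G.Lk : ℝ) - 4) ^ 2 *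
      ((G.Lk - 2) * (2 + 2 * G.ξ) * G.Iz) = K at *
  generalize 4 * G.J * G.Iz = μ at *
  generalize 1 / (G.n : ℝ) ^ 5 = a at *
  generalize 1 / (G.n : ℝ) ^ 3 = b at *
  have hS : 0 ≤ ∑ a, c a ^ 2 := h6.trans h5
  calc _ ≤ 1 / 2 * (K * ((hop c + 3 / (G.n : ℝ) ^ 18 * ∑ a, c a ^ 2) / μ) +
        4 * (G.n : ℝ) ^ 63 * (1 / 2 ^ G.n) * ((G.n : ℝ) ^ 52 * ∑ a, c a ^ 2)) := by
        refine mul_le_mul_of_nonneg_left (h1.trans ?_) (by norm_num)
        gcongr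
    _ = 1 / 2 * K / μ * (hop c + 3 / (G.n : ℝ) ^ 18 * ∑ a, c a ^ 2) +
        2 * (G.n : ℝ) ^ 115 * (1 / 2 ^ G.n) * ∑ a, c a ^ 2 := by ring
    _ ≤ G.T * (1 + 11 * a) * (hop c + a * ∑ a, c a ^ 2) + G.T * a * ∑ a, c a ^ 2 := by gcongr
    _ = G.T * hop c + G.T * (11 * a * hop c + ((1 + 11 * a) * a + a) * ∑ a, c a ^ 2) := by ring
    _ ≤ G.T * hop c + G.T * (11 * a * (∑ a, c a ^ 2) + 20 * a * ∑ a, c a ^ 2) := by
        gcongr
        nlinarith
    _ = G.T * hop c + G.T * (31 * a) * ∑ a, c a ^ 2 := by ring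
    _ ≤ _ := by gcongr; linarith

end Geo

theorem one_up : Ev fun G _ => ∀ (U : Pt → ℝ) (E e : ℝ), 0 ≤ e → G.Near U E e →
    OBup U G.η E G.T (G.T / (G.n : ℝ) ^ 3 + 2 * e) := by
  obtain ⟨C, -, hC⟩ := bmp_deriv
  refine (ev_UF.and ((Ev.const C).and (gs_rep.and Vref_facts))).mono ?_
  rintro G V h ⟨u, hCn, hgs, hV, -⟩ U E e he hU c
  have hC' : ∀ a t, |deriv (bmp a) t| ≤ G.n := fun a t => by
    have := hC 1 (by norm_num) a t
    rw [iteratedDeriv_one] at this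
    exact this.trans hCn
  obtain ⟨hc, hq⟩ := hgs _ (u.fc_C1c fun a => c a / √(G.mass (row a)))
  have e1 : lc G.η c = fun x => G.φ0 x * G.fc (fun a => c a / √(G.mass (row a))) x := by
    funext x
    rw [lc, Geo.fc, Finset.mul_sum]
    exact Finset.sum_congr rfl fun a _ => by rw [Geo.η]; ring
  have h1 := h.energy' u hC' c
  rw [← hq, ← e1] at h1
  rw [← e1] at hc
  have h2 : ∫ x, lc G.η c x ^ 2 ≤ 2 * ∑ a, c a ^ 2 := by
    have k1 := u.soft.close c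
    have k2 : (G.n : ℝ) ^ 80 * G.w ≤ 1 := by
      have hn := u.n_pos
      calc _ ≤ (G.n : ℝ) ^ 300 * (1 / (G.n : ℝ) ^ 300) :=
            mul_le_mul (u.pow_le (by norm_num)) h.w_le' (h.w_pos u).le (by positivity)
        _ = 1 := by field_simp
    have hS : 0 ≤ ∑ a, c a ^ 2 := Finset.sum_nonneg fun a _ => sq_nonneg _
    rw [Soft.norm_eq u.sharp u.soft c]
    nlinarith
  have hz : ∀ x, x ∉ box (G.l / 2) (G.l / 2) 2 → lc G.η c x = 0 := fun x hx => by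
    simp [lc, Geo.η, u.θ_zero _ hx]
  have c2 : Continuous fun x => lc G.η c x ^ 2 := hc.1.continuous.pow 2
  have s2 : HasCompactSupport fun x => lc G.η c x ^ 2 :=
    HasCompactSupport.intro (isCompact_box _ _ _) fun x hx => by rw [hz x hx]; simp
  have i1 : Integrable fun x => lc G.η c x ^ 2 := c2.integrable_of_hasCompactSupport s2
  have i2 : Integrable fun x => G.Vref x * lc G.η c x ^ 2 :=
    (hV.mul c2).integrable_of_hasCompactSupport s2.mul_left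
  obtain ⟨B, hB⟩ := hU.bdd
  have i3 : Integrable fun x => U x * lc G.η c x ^ 2 :=
    i1.bdd_mul hU.meas.aestronglyMeasurable (Filter.Eventually.of_forall hB)
  have h3 : ∫ x, U x * lc G.η c x ^ 2 ≤
      (E + e) * (∫ x, lc G.η c x ^ 2) + ∫ x, G.Vref x * lc G.η c x ^ 2 := by
    rw [← integral_const_mul, ← integral_add (i1.const_mul _) i2]
    refine integral_mono i3 ((i1.const_mul _).add i2) fun x => ?_
    by_cases hx : x ∈ box (G.l / 2) (G.l / 2) 2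
    · have := mul_le_mul_of_nonneg_right (hU.le x hx) (sq_nonneg (lc G.η c x))
      simp only
      linarith
    · simp [hz x hx]
  have h4 := mul_le_mul_of_nonneg_left h2 he
  unfold qV at h1 ⊢
  linarith

end Vale.Agent.P370
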