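import Vale.Agent.P370.PointC

/-!
Pointwise, square-integral and form bounds for the discretisation error.
-/

namespace Vale.Agent.P370

open MeasureTheory Set

open Classical in
/-- The singular part: nuclei within twenty mesh lengths. -/
noncomputable def Lat.sing (L : Lat) (x : Pt) : ℝ :=
  ∑ n ∈ (sites L.σ L.R).filter (fun n => ‖x - site L.σ L.R n‖ ≤ 20 * (1 / L.σ)),
    ker (x - site L.σ L.R n) / (L.σ : ℝ) ^ 3

lemma Lat.sing_nonneg (L : Lat) (x : Pt) : 0 ≤ L.sing x :=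
  Finset.sum_nonneg fun _ _ => div_nonneg (ker_nonneg _) (by positivity)

lemma Lat.le_sing (L : Lat) (x : Pt) (m : ℕ × ℕ × ℕ) (hm : m ∈ sites L.σ L.R)
    (h : ‖x - site L.σ L.R m‖ ≤ 20 * (1 / (L.σ : ℝ))) :
    (1 / (L.σ : ℝ)) ^ 3 * ker (x - site L.σ L.R m) ≤ L.sing x := by
  classical
  have e : (1 / (L.σ : ℝ)) ^ 3 * ker (x - site L.σ L.R m) =
      ker (x - site L.σ L.R m) / (L.σ : ℝ) ^ 3 := by ring
  rw [e, Lat.sing]
  exact Finset.single_le_sum (f := fun n => ker (x - site L.σ L.R n) / (L.σ : ℝ) ^ 3)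
    (fun _ _ => div_nonneg (ker_nonneg _) (by positivity)) (Finset.mem_filter.2 ⟨hm, h⟩)

theorem dV_main : ∃ C : ℝ, 0 ≤ C ∧ ∀ (L : Lat) (B : ℝ), L.OK B → ∀ x,
    |L.dV x| ≤ C * B * L.sing x + C * B ^ 4 / (L.τ : ℝ) ^ 7 + C * ∫ y in L.edge, ker (x - y) := by
  obtain ⟨C1, hC1, h1⟩ := pb_cells
  obtain ⟨C2, hC2, h2⟩ := pc_round
  refine ⟨C1 + C2, by positivity, fun L B h x => ?_⟩
  have a1 := h1 L B h x (L.sing x) (L.sing_nonneg x) (L.le_sing x)
  have a2 := h2 L B h x (L.sing x) (L.sing_nonneg x) (L.le_sing x)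
  have hB := h.pbB
  have hτ := h.pbτ
  have hS := L.sing_nonneg x
  have hE0 : 0 ≤ ∫ y in L.edge, ker (x - y) := integral_nonneg fun y => ker_nonneg _
  rw [h.pb_dV_eq x]
  refine (abs_sub _ _).trans ((add_le_add a1 a2).trans ?_)
  have b1 : C2 * L.sing x ≤ C2 * B * L.sing x := by
    rw [mul_assoc]
    exact mul_le_mul_of_nonneg_left (le_mul_of_one_le_left hS (by linarith)) hC2
  have b2 : C2 / (L.τ : ℝ) ^ 7 ≤ C2 * B ^ 4 / (L.τ : ℝ) ^ 7 := by
    gcongr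
    exact le_mul_of_one_le_right hC2 (one_le_pow₀ (by linarith))
  have b3 : 0 ≤ C1 * ∫ y in L.edge, ker (x - y) := by positivity
  have e : (C1 + C2) * B ^ 4 / (L.τ : ℝ) ^ 7 =
      C1 * B ^ 4 / (L.τ : ℝ) ^ 7 + C2 * B ^ 4 / (L.τ : ℝ) ^ 7 := by ring
  rw [e]
  linarith

theorem dV_core' : ∃ C : ℝ, 0 ≤ C ∧ ∀ (L : Lat) (B : ℝ), L.OK B → ∀ x ∈ box L.l L.l 4,
    |L.dV x| ≤ C * B * L.sing x + C * B ^ 4 / (L.τ : ℝ) ^ 7 := by
  obtain ⟨C, hC, h1⟩ := dV_main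
  refine ⟨2001 * C, by positivity, fun L B h x hx => (h1 L B h x).trans ?_⟩
  have hB := h.pbB
  have hτ := h.pbτ
  have hS := L.sing_nonneg x
  have a1 := mul_le_mul_of_nonneg_left (h.pc_edge_core hx) hC
  have a2 : C * (2000 / (L.τ : ℝ) ^ 7) ≤ 2000 * (C * B ^ 4 / (L.τ : ℝ) ^ 7) := by
    have : C / (L.τ : ℝ) ^ 7 ≤ C * B ^ 4 / (L.τ : ℝ) ^ 7 := by
      gcongr
      exact le_mul_of_one_le_right hC (one_le_pow₀ (by linarith))
    calc _ = 2000 * (C / (L.τ : ℝ) ^ 7) := by ring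
      _ ≤ _ := by linarith
  have a3 : 0 ≤ C * B * L.sing x := by positivity
  have e : 2001 * C * B ^ 4 / (L.τ : ℝ) ^ 7 = 2001 * (C * B ^ 4 / (L.τ : ℝ) ^ 7) := by ring
  rw [e]
  linarith

theorem dV_all' : ∃ C : ℝ, 0 ≤ C ∧ ∀ (L : Lat) (B : ℝ), L.OK B → ∀ x,
    |L.dV x| ≤ C * B * L.sing x + C * B ^ 4 / (L.τ : ℝ) ^ 2 := by
  obtain ⟨C, hC, h1⟩ := dV_main
  refine ⟨2001 * C, by positivity, fun L B h x => (h1 L B h x).trans ?_⟩
  have hB := h.pbB
  have hτ := h.pbτ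
  have hS := L.sing_nonneg x
  have a1 := mul_le_mul_of_nonneg_left (h.pc_edge_all x) hC
  have a2 : C * (2000 / (L.τ : ℝ) ^ 2) ≤ 2000 * (C * B ^ 4 / (L.τ : ℝ) ^ 2) := by
    have : C / (L.τ : ℝ) ^ 2 ≤ C * B ^ 4 / (L.τ : ℝ) ^ 2 := by
      gcongr
      exact le_mul_of_one_le_right hC (one_le_pow₀ (by linarith))
    calc _ = 2000 * (C / (L.τ : ℝ) ^ 2) := by ring
      _ ≤ _ := by linarith
  have a3 : 0 ≤ C * B * L.sing x := by positivity
  have a4 : C * B ^ 4 / (L.τ : ℝ) ^ 7 ≤ C * B ^ 4 / (L.τ : ℝ) ^ 2 :=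
    div_le_div_of_nonneg_left (by positivity) (by positivity)
      (pow_le_pow_right₀ (by linarith) (by norm_num))
  have e : 2001 * C * B ^ 4 / (L.τ : ℝ) ^ 2 = 2001 * (C * B ^ 4 / (L.τ : ℝ) ^ 2) := by ring
  rw [e]
  linarith

/-- Pointwise bound in the core. -/
theorem dV_core : ∃ C : ℝ, ∀ (L : Lat) (B : ℝ), L.OK B → ∀ x ∈ box L.l L.l 4,
    (∀ n, x ≠ site L.σ L.R n) → |L.dV x| ≤ C * B * L.sing x + C * B ^ 4 / (L.τ : ℝ) ^ 7 := by
  obtain ⟨C, -, h⟩ := dV_core'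
  exact ⟨C, fun L B hL x hx _ => h L B hL x hx⟩

/-- Pointwise bound everywhere. -/
theorem dV_all : ∃ C : ℝ, ∀ (L : Lat) (B : ℝ), L.OK B → ∀ x,
    (∀ n, x ≠ site L.σ L.R n) → |L.dV x| ≤ C * B * L.sing x + C * B ^ 4 / (L.τ : ℝ) ^ 2 := by
  obtain ⟨C, -, h⟩ := dV_all'
  exact ⟨C, fun L B hL x _ => h L B hL x⟩

/-- A majorant of the square of the singular part in the core. -/
lemma Lat.OK.sing_sq {L : Lat} {B : ℝ} (h : L.OK B) : ∃ g : Pt → ℝ, Integrable g ∧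
    (∀ x, 0 ≤ g x) ∧ (∀ x ∈ box L.l L.l 4, L.sing x ^ 2 ≤ g x) ∧
      ∫ x, g x ≤ 41 ^ 3 * (640 * 192) * (B ^ 2 / (L.τ : ℝ) ^ 14) := by
  classical
  have hs := h.pbs_pos
  have hs1 := h.pbs_le
  have hl := h.pbl
  have hlB := h.l_le
  have hτ := h.pbτ
  have hσ := h.pbσ
  have hcn := fun x S hS => card_near hσ L.R 20 S x hS
  have hcard := fun S hS => pa_card hσ L.R S (measurableSet_box (2 * L.l) (2 * L.l) 6)
    (isCompact_box _ _ _).measure_lt_top.ne hS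
  rw [volume_box (by positivity) (by positivity) (by norm_num)] at hcard
  have hs4 : (1 / (L.σ : ℝ)) ^ 4 ≤ 1 / (L.τ : ℝ) ^ 14 := by
    rw [L.pbs, div_pow, one_pow, ← pow_mul]
    exact one_div_le_one_div_of_le (by positivity) (pow_le_pow_right₀ (by linarith) (by norm_num))
  have hsing : ∀ x, L.sing x = ∑ n ∈ (sites L.σ L.R).filter
      (fun n => ‖x - site L.σ L.R n‖ ≤ 20 * (1 / (L.σ : ℝ))),
      (1 / (L.σ : ℝ)) ^ 3 * ker (x - site L.σ L.R n) := fun x =>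
    Finset.sum_congr rfl fun n _ => by ring
  set s := 1 / (L.σ : ℝ) with hsdef
  set T := (sites L.σ L.R).filter (fun n => site L.σ L.R n ∈ box (L.l + 1) (L.l + 1) 5) with hT
  set H : ℕ × ℕ × ℕ → Pt → ℝ := fun n => {y | nrm (site L.σ L.R n - y) ≤ 40 * s}.indicator
    fun y => nrm (site L.σ L.R n - y) ^ (-(2 : ℝ)) with hH
  have hr := fun n => rpow_in (a := 2) (b := 40 * s) (by norm_num) (by positivity) (site L.σ L.R n)
  have hHi : ∀ n, Integrable (H n) := fun n =>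
    (integrable_indicator_iff (pa_meas_in _ _)).2 (hr n).1
  have hH0 : ∀ n x, 0 ≤ H n x := fun n x =>
    indicator_nonneg (fun y _ => Real.rpow_nonneg (nrm_nonneg _) _) x
  have hHv : ∀ n, ∫ x, H n x ≤ 640 * s := fun n => by
    simp only [hH]
    rw [integral_indicator (pa_meas_in _ _), (hr n).2]
    have := Real.pi_lt_four
    norm_num
    nlinarith
  refine ⟨fun x => 41 ^ 3 * s ^ 6 * ∑ n ∈ T, H n x,
    (integrable_finsetSum _ fun n _ => hHi n).const_mul _,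
    fun x => mul_nonneg (by positivity) (Finset.sum_nonneg fun n _ => hH0 n x), fun x hx => ?_, ?_⟩
  · rw [hsing]
    set N := (sites L.σ L.R).filter (fun n => ‖x - site L.σ L.R n‖ ≤ 20 * s) with hN
    have b1 : (N.card : ℝ) ≤ 41 ^ 3 := by
      have := hcn x N (fun n hn => by exact_mod_cast (Finset.mem_filter.1 hn).2)
      exact_mod_cast this
    have b2 : N ⊆ T := fun n hn => by
      obtain ⟨c1, c2⟩ := Finset.mem_filter.1 hn
      exact Finset.mem_filter.2 ⟨c1, pb_box_near (e := 1) hx (by rw [norm_sub_rev]; linarith)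
        le_rfl le_rfl (by norm_num)⟩
    have b3 : ∑ n ∈ N, (s ^ 3 * ker (x - site L.σ L.R n)) ^ 2 ≤ s ^ 6 * ∑ n ∈ T, H n x := by
      refine le_trans (le_of_eq ?_) (mul_le_mul_of_nonneg_left
        (Finset.sum_le_sum_of_subset_of_nonneg b2 fun n _ _ => hH0 n x) (by positivity))
      rw [Finset.mul_sum]
      refine Finset.sum_congr rfl fun n hn => ?_
      have c2 := (Finset.mem_filter.1 hn).2
      have c3 : x ∈ {y | nrm (site L.σ L.R n - y) ≤ 40 * s} := by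
        have := nrm_le_norm (x - site L.σ L.R n)
        show nrm (site L.σ L.R n - x) ≤ 40 * s
        rw [nrm_sub_comm]
        linarith
      simp only [hH]
      rw [indicator_of_mem c3, Real.rpow_neg (nrm_nonneg _), Real.rpow_two, ker, nrm_sub_comm x]
      ring
    calc _ ≤ N.card * ∑ n ∈ N, (s ^ 3 * ker (x - site L.σ L.R n)) ^ 2 := sq_sum_le_card_mul_sum_sq
      _ ≤ 41 ^ 3 * (s ^ 6 * ∑ n ∈ T, H n x) :=
        mul_le_mul b1 b3 (Finset.sum_nonneg fun _ _ => sq_nonneg _) (by norm_num)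
      _ = _ := by ring
  · rw [integral_const_mul, integral_finsetSum _ fun n _ => hHi n]
    have b1 := Finset.sum_le_card_nsmul T (fun n => ∫ x, H n x) (640 * s) fun n _ => hHv n
    rw [nsmul_eq_mul] at b1
    have b2 := hcard T fun n hn y hy => pb_box_near (Finset.mem_filter.1 hn).2
      (norm_sub_le_of_mem_cell hy) (by linarith) (by linarith) (by linarith)
    have hl2 : (L.l : ℝ) * L.l ≤ B ^ 2 := by nlinarith
    calc _ ≤ 41 ^ 3 * s ^ 6 * (T.card * (640 * s)) := by gcongr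
      _ = 41 ^ 3 * 640 * s ^ 4 * (s ^ 3 * T.card) := by ring
      _ ≤ 41 ^ 3 * 640 * (1 / (L.τ : ℝ) ^ 14) * (192 * B ^ 2) :=
        mul_le_mul (by gcongr) (by linarith) (by positivity) (by positivity)
      _ = _ := by ring

theorem dV_sq : ∃ C : ℝ, ∀ (L : Lat) (B : ℝ), L.OK B →
    IntegrableOn (fun x => L.dV x ^ 2) (box L.l L.l 4) ∧
      ∫ x in box L.l L.l 4, L.dV x ^ 2 ≤ C * B ^ 10 / (L.τ : ℝ) ^ 14 := by
  obtain ⟨C, hC, h1⟩ := dV_core'
  refine ⟨2 * C ^ 2 * (41 ^ 3 * (640 * 192)) + 64 * C ^ 2, fun L B h => ?_⟩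
  obtain ⟨g, hgi, hg0, hg, hgv⟩ := h.sing_sq
  have hB := h.pbB
  have hτ := h.pbτ
  have hl := h.pbl
  have hlB := h.l_le
  have hv := (isCompact_box L.l L.l 4).measure_lt_top (μ := volume).ne
  have hm := measurableSet_box L.l L.l 4
  set a := C * B ^ 4 / (L.τ : ℝ) ^ 7 with ha
  have hI : IntegrableOn (fun x => 2 * (C * B) ^ 2 * g x + 2 * a ^ 2) (box L.l L.l 4) :=
    (hgi.const_mul _).integrableOn.add (integrableOn_const hv)
  have hle : ∀ x ∈ box L.l L.l 4, L.dV x ^ 2 ≤ 2 * (C * B) ^ 2 * g x + 2 * a ^ 2 := fun x hx => by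
    have b1 := pow_le_pow_left₀ (abs_nonneg _) (h1 L B h x hx) 2
    rw [sq_abs] at b1
    have b2 := mul_le_mul_of_nonneg_left (hg x hx) (sq_nonneg (C * B))
    nlinarith [sq_nonneg (C * B * L.sing x - a)]
  have hI2 : IntegrableOn (fun x => L.dV x ^ 2) (box L.l L.l 4) :=
    Integrable.mono' hI ((L.measurable_dV h).pow_const 2).aestronglyMeasurable
      ((ae_restrict_iff' hm).2 (Filter.Eventually.of_forall fun x hx => by
        rw [Real.norm_of_nonneg (sq_nonneg _)]; exact hle x hx))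
  refine ⟨hI2, (setIntegral_mono_on hI2 hI hm hle).trans ?_⟩
  rw [integral_add (hgi.const_mul _).integrableOn (integrableOn_const hv), integral_const_mul,
    setIntegral_const, volume_box (by positivity) (by positivity) (by norm_num), smul_eq_mul]
  have b1 : ∫ x in box L.l L.l 4, g x ≤ 41 ^ 3 * (640 * 192) * (B ^ 2 / (L.τ : ℝ) ^ 14) :=
    (setIntegral_le_integral hgi (Filter.Eventually.of_forall hg0)).trans hgv
  have hl2 : (L.l : ℝ) * L.l ≤ B ^ 2 := by nlinarith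
  have b2 : B ^ 4 ≤ B ^ 10 := pow_le_pow_right₀ (by linarith) (by norm_num)
  have b3 : 2 * (C * B) ^ 2 * ∫ x in box L.l L.l 4, g x ≤
      2 * C ^ 2 * (41 ^ 3 * (640 * 192)) * B ^ 10 / (L.τ : ℝ) ^ 14 := by
    calc _ ≤ 2 * (C * B) ^ 2 * (41 ^ 3 * (640 * 192) * (B ^ 2 / (L.τ : ℝ) ^ 14)) := by gcongr
      _ = 2 * C ^ 2 * (41 ^ 3 * (640 * 192)) * B ^ 4 / (L.τ : ℝ) ^ 14 := by ring
      _ ≤ _ := by gcongr
  have b4 : 8 * (L.l : ℝ) * L.l * 4 * (2 * a ^ 2) ≤ 64 * C ^ 2 * B ^ 10 / (L.τ : ℝ) ^ 14 := by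
    calc _ ≤ 32 * B ^ 2 * (2 * a ^ 2) :=
          mul_le_mul_of_nonneg_right (by linarith) (by positivity)
      _ = _ := by rw [ha]; ring
  calc _ ≤ _ := add_le_add b3 b4
    _ = _ := by ring

/-- The singular part as a quadratic form. -/
lemma sing_form : ∃ C : ℝ, 0 ≤ C ∧ ∀ (L : Lat) (B : ℝ), L.OK B → ∀ ψ, C1c ψ →
    Integrable (fun x => L.sing x * ψ x ^ 2) ∧ ∫ x, L.sing x * ψ x ^ 2 ≤
      C * (1 / (L.σ : ℝ)) ^ 2 * ((∫ x, ψ x ^ 2) + ∫ x, gsq ψ x) := by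
  classical
  obtain ⟨C, hC, hh⟩ := hardy
  refine ⟨C * 81 ^ 3, by positivity, fun L B h ψ hψ => ?_⟩
  have hs := h.pbs_pos
  have hs1 := h.pbs_le
  have hσ := h.pbσ
  have hcn := fun x S hS => card_near hσ L.R 40 S x hS
  have hc2 : Continuous fun x => ψ x ^ 2 := hψ.1.continuous.pow 2
  have hk2 : HasCompactSupport fun x => ψ x ^ 2 :=
    hψ.2.comp_left (g := fun t : ℝ => t ^ 2) (by norm_num)
  have hi2 : Integrable fun x => ψ x ^ 2 := hc2.integrable_of_hasCompactSupport hk2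
  have hi3 : Integrable fun x => ψ x ^ 2 + gsq ψ x := hi2.add hψ.integrable_gsq
  have h30 : ∀ x, 0 ≤ ψ x ^ 2 + gsq ψ x := fun x =>
    add_nonneg (sq_nonneg _) (Finset.sum_nonneg fun _ _ => sq_nonneg _)
  have hmb : ∀ (c : Pt) (r : ℝ), MeasurableSet {x : Pt | ‖x - c‖ ≤ r} := fun c r =>
    (isClosed_le (continuous_id.sub continuous_const).norm continuous_const).measurableSet
  have hsing : ∀ x, L.sing x * ψ x ^ 2 = ∑ n ∈ sites L.σ L.R, (1 / (L.σ : ℝ)) ^ 3 *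
      {x : Pt | ‖x - site L.σ L.R n‖ ≤ 20 * (1 / (L.σ : ℝ))}.indicator
        (fun x => ker (x - site L.σ L.R n) * ψ x ^ 2) x := fun x => by
    rw [Lat.sing, Finset.sum_filter, Finset.sum_mul]
    refine Finset.sum_congr rfl fun n _ => ?_
    simp only [indicator, mem_ofPred_eq]
    split_ifs <;> ring
  set s := 1 / (L.σ : ℝ) with hsdef
  have hi : ∀ n, Integrable fun x => s ^ 3 * {x : Pt | ‖x - site L.σ L.R n‖ ≤ 20 * s}.indicator
      (fun x => ker (x - site L.σ L.R n) * ψ x ^ 2) x := fun n =>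
    ((integrable_ker_mul_cc hc2 hk2 _).indicator (hmb _ _)).const_mul _
  simp only [hsing]
  refine ⟨integrable_finsetSum _ fun n _ => hi n, ?_⟩
  rw [integral_finsetSum _ fun n _ => hi n, ← integral_add hi2 hψ.integrable_gsq]
  have hj : ∀ n, Integrable ({x : Pt | ‖x - site L.σ L.R n‖ ≤ 2 * (20 * s)}.indicator
      fun x => ψ x ^ 2 + gsq ψ x) := fun n => hi3.indicator (hmb _ _)
  have b1 : ∀ n, ∫ x, s ^ 3 * {x : Pt | ‖x - site L.σ L.R n‖ ≤ 20 * s}.indicator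
      (fun x => ker (x - site L.σ L.R n) * ψ x ^ 2) x ≤
      C * s ^ 2 * ∫ x, {x : Pt | ‖x - site L.σ L.R n‖ ≤ 2 * (20 * s)}.indicator
        (fun x => ψ x ^ 2 + gsq ψ x) x := fun n => by
    rw [integral_const_mul, integral_indicator (hmb _ _), integral_indicator (hmb _ _)]
    have c1 := hh ψ (site L.σ L.R n) (20 * s) hψ (by positivity) (by linarith)
    have c2 : 0 ≤ ∫ x in {x : Pt | ‖x - site L.σ L.R n‖ ≤ 2 * (20 * s)}, (ψ x ^ 2 + gsq ψ x) :=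
      integral_nonneg h30
    calc _ ≤ s ^ 3 * (C / (20 * s) * ∫ x in {x : Pt | ‖x - site L.σ L.R n‖ ≤ 2 * (20 * s)},
          (ψ x ^ 2 + gsq ψ x)) := by gcongr
      _ = C * s ^ 2 / 20 * ∫ x in {x : Pt | ‖x - site L.σ L.R n‖ ≤ 2 * (20 * s)},
          (ψ x ^ 2 + gsq ψ x) := by field_simp
      _ ≤ _ := by
        have : 0 ≤ C * s ^ 2 := by positivity
        gcongr
        linarith
  refine (Finset.sum_le_sum fun n _ => b1 n).trans ?_
  rw [← Finset.mul_sum, ← integral_finsetSum _ fun n _ => hj n]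
  have b2 : ∫ x, ∑ n ∈ sites L.σ L.R, {x : Pt | ‖x - site L.σ L.R n‖ ≤ 2 * (20 * s)}.indicator
      (fun x => ψ x ^ 2 + gsq ψ x) x ≤ 81 ^ 3 * ∫ x, (ψ x ^ 2 + gsq ψ x) := by
    rw [← integral_const_mul]
    refine integral_mono (integrable_finsetSum _ fun n _ => hj n) (hi3.const_mul _) fun x => ?_
    simp only [indicator, mem_ofPred_eq]
    rw [← Finset.sum_filter, Finset.sum_const, nsmul_eq_mul]
    refine mul_le_mul_of_nonneg_right ?_ (h30 x)
    have := hcn x ((sites L.σ L.R).filter fun n => ‖x - site L.σ L.R n‖ ≤ 2 * (20 * s))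
      (fun n hn => by
        have := (Finset.mem_filter.1 hn).2
        push_cast
        linarith)
    exact_mod_cast this
  calc _ ≤ C * s ^ 2 * (81 ^ 3 * ∫ x, (ψ x ^ 2 + gsq ψ x)) := by gcongr
    _ = _ := by ring

theorem dV_form : ∃ C : ℝ, ∀ (L : Lat) (B : ℝ), L.OK B → ∀ ψ, C1c ψ →
    -(C * B ^ 4 / (L.τ : ℝ) ^ 2 * ((∫ x, ψ x ^ 2) + ∫ x, gsq ψ x)) ≤ ∫ x, L.dV x * ψ x ^ 2 := by
  obtain ⟨C, hC, h1⟩ := dV_all'
  obtain ⟨D, hD, h2⟩ := sing_form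
  refine ⟨C * D + C, fun L B h ψ hψ => ?_⟩
  obtain ⟨hi, hv⟩ := h2 L B h ψ hψ
  have hB := h.pbB
  have hτ := h.pbτ
  have hc2 : Continuous fun x => ψ x ^ 2 := hψ.1.continuous.pow 2
  have hk2 : HasCompactSupport fun x => ψ x ^ 2 :=
    hψ.2.comp_left (g := fun t : ℝ => t ^ 2) (by norm_num)
  have hi2 : Integrable fun x => ψ x ^ 2 := hc2.integrable_of_hasCompactSupport hk2
  set a := C * B ^ 4 / (L.τ : ℝ) ^ 2 with ha
  have b1 : ∫ x, -(C * B * (L.sing x * ψ x ^ 2) + a * ψ x ^ 2) ≤ ∫ x, L.dV x * ψ x ^ 2 :=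
    integral_mono ((hi.const_mul _).add (hi2.const_mul _)).neg (L.integrable_dV_mul h hc2 hk2)
      fun x => by
        have c1 := mul_le_mul_of_nonneg_right (abs_le.1 (h1 L B h x)).1 (sq_nonneg (ψ x))
        simp only
        linarith
  rw [integral_neg, integral_add (hi.const_mul _) (hi2.const_mul _), integral_const_mul,
    integral_const_mul] at b1
  refine le_trans (neg_le_neg ?_) b1
  have p1 : 0 ≤ ∫ x, ψ x ^ 2 := integral_nonneg fun x => sq_nonneg _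
  have p2 : 0 ≤ ∫ x, gsq ψ x := integral_nonneg fun x => Finset.sum_nonneg fun _ _ => sq_nonneg _
  have c1 : B * (1 / (L.σ : ℝ)) ^ 2 ≤ B ^ 4 / (L.τ : ℝ) ^ 2 := by
    have d1 : B ≤ B ^ 4 := by
      calc B = B ^ 1 := (pow_one B).symm
        _ ≤ B ^ 4 := pow_le_pow_right₀ (by linarith) (by norm_num)
    have d2 : (1 / (L.σ : ℝ)) ^ 2 ≤ 1 / (L.τ : ℝ) ^ 2 := h.pb_s2'.trans
      (one_div_le_one_div_of_le (by positivity) (pow_le_pow_right₀ (by linarith) (by norm_num)))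
    rw [div_eq_mul_one_div (B ^ 4)]
    gcongr
  set P := (∫ x, ψ x ^ 2) + ∫ x, gsq ψ x with hP
  have hP0 : 0 ≤ P := by positivity
  have c2 : C * B * ∫ x, L.sing x * ψ x ^ 2 ≤ C * D * (B ^ 4 / (L.τ : ℝ) ^ 2) * P := by
    calc _ ≤ C * B * (D * (1 / (L.σ : ℝ)) ^ 2 * P) := by gcongr
      _ = C * D * (B * (1 / (L.σ : ℝ)) ^ 2) * P := by ring
      _ ≤ _ := by gcongr
  have c3 : a * ∫ x, ψ x ^ 2 ≤ a * P := mul_le_mul_of_nonneg_left (by linarith) (by positivity)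
  calc _ ≤ _ := add_le_add c2 c3
    _ = _ := by rw [ha]; ring

end Vale.Agent.P370
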