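import Vale.Agent.P370.Inst
import Vale.Agent.P370.Point
import Vale.Agent.P370.Comb
import Vale.Agent.P370.OneLow
import Vale.Agent.P370.OneUp

/-!
One-body bounds for the potential of the nuclei of the instance.
-/

namespace Vale.Agent.P370

open MeasureTheory

lemma pw {n : ℝ} (hn : 1 ≤ n) {a b c : ℕ} (h : a + c ≤ b) : n ^ a / n ^ b ≤ 1 / n ^ c := by
  rw [div_le_div_iff₀ (by positivity) (by positivity), one_mul, ← pow_add]
  exact pow_le_pow_right₀ hn h

lemma OBlow.mono {M : ℕ} {V : Pt → ℝ} {φ : Arm M → Pt → ℝ} {E T γ ε ε' : ℝ}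
    (h : OBlow V φ E T γ ε) (hε : ε ≤ ε') : OBlow V φ E T γ ε' := by
  intro ψ hψ
  have h0 : 0 ≤ ∫ x, ψ x ^ 2 := integral_nonneg fun x => sq_nonneg _
  have := h ψ hψ
  nlinarith [mul_le_mul_of_nonneg_right hε h0]

lemma OBup.mono {M : ℕ} {V : Pt → ℝ} {η : Arm M → Pt → ℝ} {E T ε ε' : ℝ}
    (h : OBup V η E T ε) (hε : ε ≤ ε') : OBup V η E T ε' := by
  intro c
  have h0 : 0 ≤ ∑ a, c a ^ 2 := Finset.sum_nonneg fun a _ => sq_nonneg _
  have := h c
  nlinarith [mul_le_mul_of_nonneg_right hε h0]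

lemma box_mono {a b c a' b' c' : ℝ} (h1 : a ≤ a') (h2 : b ≤ b') (h3 : c ≤ c') :
    box a b c ⊆ box a' b' c' := fun _ hx => ⟨hx.1.trans h1, hx.2.1.trans h2, hx.2.2.trans h3⟩

/-- Square integral of a rough potential against a bounded function supported in a box. -/
lemma sq_bound {W f : Pt → ℝ} {σ A B l : ℝ} (hW : Measurable W) (hf : Continuous f)
    (hs : tsupport f ⊆ box l l 4) (hB : ∀ x, f x * f x ≤ B) (hl : 0 ≤ l)
    (hi : IntegrableOn (fun x => W x ^ 2) (box l l 4)) (hA : ∫ x in box l l 4, W x ^ 2 ≤ A) :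
    Integrable (fun x => ((W x + σ) * f x) ^ 2) ∧
      ∫ x, ((W x + σ) * f x) ^ 2 ≤ B * (2 * A + 2 * σ ^ 2 * (32 * l ^ 2)) := by
  have hB0 : 0 ≤ B := (mul_self_nonneg _).trans (hB 0)
  have hm := measurableSet_box l l 4
  have hfin : volume (box l l 4) ≠ ⊤ := (isCompact_box l l 4).measure_lt_top.ne
  have hg : IntegrableOn (fun x => B * (2 * W x ^ 2 + 2 * σ ^ 2)) (box l l 4) :=
    ((hi.const_mul 2).add (integrableOn_const hfin)).const_mul B
  have hle : ∀ x, ((W x + σ) * f x) ^ 2 ≤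
      (box l l 4).indicator (fun x => B * (2 * W x ^ 2 + 2 * σ ^ 2)) x := by
    intro x
    by_cases hx : x ∈ box l l 4
    · rw [Set.indicator_of_mem hx, mul_pow, mul_comm B]
      refine mul_le_mul (by nlinarith [sq_nonneg (W x - σ)]) (by rw [sq]; exact hB x)
        (sq_nonneg _) (by positivity)
    · rw [Set.indicator_of_notMem hx, image_eq_zero_of_notMem_tsupport fun h => hx (hs h)]
      simp
  have hI := (integrable_indicator_iff hm).2 hg
  have hint : Integrable fun x => ((W x + σ) * f x) ^ 2 := by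
    refine hI.mono' (((hW.add_const σ).mul hf.measurable).pow_const 2).aestronglyMeasurable
      (ae_of_all _ fun x => ?_)
    rw [Real.norm_eq_abs, abs_of_nonneg (sq_nonneg _)]
    exact hle x
  refine ⟨hint, (integral_mono hint hI hle).trans ?_⟩
  rw [integral_indicator hm, integral_const_mul, integral_add (hi.const_mul 2)
    (integrableOn_const hfin), integral_const_mul, setIntegral_const, volume_box hl hl (by norm_num)]
  refine mul_le_mul_of_nonneg_left ?_ hB0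
  rw [smul_eq_mul]
  nlinarith

/-- The energy unit. -/
noncomputable def FM.U (I : FM) : ℝ := 1 / (I.n : ℝ) ^ 48014

/-- The one-body reference energy. -/
noncomputable def FM.E (I : FM) : ℝ :=
  I.geo.E1 I.R - Real.pi * I.geo.ρ / (6 * (I.σ : ℝ) ^ 2)

lemma FM.τ_cast (I : FM) : (I.τ : ℝ) = (I.n : ℝ) ^ 4000 := by simp [FM.τ]

lemma FM.σ_cast (I : FM) : (I.σ : ℝ) = (I.n : ℝ) ^ 16000 := by
  rw [FM.σ, Nat.cast_pow, FM.τ_cast, ← pow_mul]

lemma FM.lam_cast (I : FM) : (I.lam : ℝ) = (I.n : ℝ) ^ 48000 := by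
  rw [FM.lam, Nat.cast_pow, FM.σ_cast, ← pow_mul]

lemma FM.R_cast (I : FM) : (I.R : ℝ) = (I.n : ℝ) ^ 96000 := by
  rw [FM.R, Nat.cast_pow, FM.τ_cast, ← pow_mul]

lemma FM.w_cast (I : FM) (hn : 0 < I.n) :
    (I.geo.w : ℝ) = 4 * I.2.2.2.1 * (I.n : ℝ) ^ 9 * I.U := by
  have h : (0 : ℝ) < I.n := by exact_mod_cast hn
  simp only [FM.geo, FM.U]
  push_cast
  rw [FM.lam_cast]
  field_simp

lemma FM.T_eq (I : FM) (hn : 0 < I.n) : I.geo.T = I.U * I.2.2.2.1 := by
  have h : (0 : ℝ) < I.n := by exact_mod_cast hn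
  rw [Geo.T, I.w_cast hn]
  simp only [Geo.Lk, Geo.J, FM.geo]
  push_cast
  field_simp

end Vale.Agent.P370
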