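import Vale.Agent.P370.FinA

/-!
One-body bounds for the potential of the nuclei of the instance.
-/

namespace Vale.Agent.P370

open MeasureTheory

lemma pw' {n : ℝ} (hn : 1 ≤ n) {a b c : ℕ} (h : a + c + 48014 ≤ b) :
    n ^ a / n ^ b ≤ 1 / n ^ 48014 / n ^ c := by
  rw [div_div, ← pow_add]
  exact pw hn (by omega)

lemma cpow_le {n C : ℝ} (hn : 1 ≤ n) (hC : C ≤ n) (a b : ℕ) :
    C * (n ^ a) ^ b ≤ n ^ (a * b + 1) := by
  rw [← pow_mul, pow_succ']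
  exact mul_le_mul_of_nonneg_right hC (by positivity)

lemma arith_e0 {n P : ℝ} (hn : 1000 ≤ n) (hP : n ^ 96000 ≤ P) :
    0 ≤ n ^ 300 / n ^ 96000 + n ^ 300 / P ∧
      2 * (n ^ 300 / n ^ 96000 + n ^ 300 / P) ≤ 1 / n ^ 48014 / n ^ 2 := by
  have h1 : (1 : ℝ) ≤ n := by linarith
  have hP0 : 0 < P := lt_of_lt_of_le (by positivity) hP
  refine ⟨by positivity, ?_⟩
  have h2 : n ^ 300 / P ≤ n ^ 300 / n ^ 96000 :=
    div_le_div_of_nonneg_left (by positivity) (by positivity) hP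
  have h3 : 4 * (n ^ 300 / n ^ 96000) ≤ n ^ 301 / n ^ 96000 := by
    rw [← mul_div_assoc, pow_succ' n 300]
    gcongr
    linarith
  have h4 := pw' (a := 301) (b := 96000) (c := 2) h1 (by norm_num)
  linarith

lemma arith_eps {n U t M e : ℝ} (hn : 1000 ≤ n) (hU : U = 1 / n ^ 48014) (ht0 : 0 ≤ t)
    (ht : t ≤ n) (hM0 : 0 ≤ M) (hM : M ≤ n) (he0 : 0 ≤ e) (he : e ≤ 2 * (U / n ^ 2)) :
    e + 3 * M * (n ^ 6001 / n ^ 64000) + 100 * (n ^ 2401 / n ^ 8000 *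
      (U * t + e + n ^ 113 * (n ^ 80 * (4 * t * n ^ 9 * U))) +
      M * (n ^ 3400 / n ^ 28000) ^ 2 / (1 / n ^ 130) +
      1 / n ^ 130 * (n ^ 80 * (4 * t * n ^ 9 * U))) ≤ 6 * (U / n ^ 2) := by
  have h1 : (1 : ℝ) ≤ n := by linarith
  have hU0 : 0 < U := by rw [hU]; positivity
  have a1 : 3 * M * (n ^ 6001 / n ^ 64000) ≤ U / n ^ 2 := by
    calc _ ≤ n * n * (n ^ 6001 / n ^ 64000) := by gcongr; linarith
      _ = n ^ 6003 / n ^ 64000 := by ring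
      _ ≤ _ := by rw [hU]; exact pw' h1 (by norm_num)
  have a3 : 100 * (M * (n ^ 3400 / n ^ 28000) ^ 2 / (1 / n ^ 130)) ≤ U / n ^ 2 := by
    calc _ ≤ n * (n * (n ^ 3400 / n ^ 28000) ^ 2 / (1 / n ^ 130)) := by gcongr; linarith
      _ = n ^ 6932 / n ^ 56000 := by field_simp
      _ ≤ _ := by rw [hU]; exact pw' h1 (by norm_num)
  clear hU
  have b0 : U / n ^ 2 ≤ U := div_le_self hU0.le (one_le_pow₀ h1)
  have b1 : U * t + e + n ^ 113 * (n ^ 80 * (4 * t * n ^ 9 * U)) ≤ n ^ 204 * U := by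
    have c1 : t ≤ n ^ 203 := ht.trans (le_self_pow₀ h1 (by norm_num))
    have c2 : (1 : ℝ) ≤ n ^ 203 := one_le_pow₀ h1
    have c3 : n ^ 113 * (n ^ 80 * (4 * t * n ^ 9 * U)) ≤ 4 * n ^ 203 * U := by
      calc _ ≤ n ^ 113 * (n ^ 80 * (4 * n * n ^ 9 * U)) := by gcongr
        _ = _ := by ring
    have c4 : 7 * n ^ 203 * U ≤ n ^ 204 * U := by
      rw [pow_succ' n 203]; gcongr; linarith
    nlinarith [mul_le_mul_of_nonneg_left c1 hU0.le, mul_le_mul_of_nonneg_left c2 hU0.le]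
  have a2 : 100 * (n ^ 2401 / n ^ 8000 *
      (U * t + e + n ^ 113 * (n ^ 80 * (4 * t * n ^ 9 * U)))) ≤ U / n ^ 2 := by
    have n0 : (0 : ℝ) < n := by linarith
    have d1 : 0 ≤ n ^ 2401 / n ^ 8000 := div_nonneg (pow_pos n0 _).le (pow_pos n0 _).le
    have d0 : 0 ≤ U * t + e + n ^ 113 * (n ^ 80 * (4 * t * n ^ 9 * U)) :=
      add_nonneg (add_nonneg (mul_nonneg hU0.le ht0) he0) (mul_nonneg (pow_pos n0 _).le
        (mul_nonneg (pow_pos n0 _).le (mul_nonneg (mul_nonneg (by linarith) (pow_pos n0 _).le)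
          hU0.le)))
    calc _ ≤ n * (n ^ 2401 / n ^ 8000 * (n ^ 204 * U)) :=
          mul_le_mul (by linarith) (mul_le_mul_of_nonneg_left b1 d1) (mul_nonneg d1 d0) n0.le
      _ = n ^ 2606 / n ^ 8000 * U := by ring
      _ ≤ 1 / n ^ 2 * U := mul_le_mul_of_nonneg_right (pw h1 (by norm_num)) hU0.le
      _ = _ := by ring
  have a4 : 100 * (1 / n ^ 130 * (n ^ 80 * (4 * t * n ^ 9 * U))) ≤ U / n ^ 2 := by
    calc _ = 400 * (t * (n ^ 89 / n ^ 130 * U)) := by ring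
      _ ≤ n * (n * (n ^ 89 / n ^ 130 * U)) := by gcongr; linarith
      _ = n ^ 91 / n ^ 130 * U := by ring
      _ ≤ 1 / n ^ 2 * U := mul_le_mul_of_nonneg_right (pw h1 (by norm_num)) hU0.le
      _ = _ := by ring
  linarith

lemma arith_a {n A σ : ℝ} (hn : 1000 ≤ n) (hA : A ≤ n ^ 6001 / n ^ 56000) (hσ0 : 0 ≤ σ)
    (hσ : σ ≤ n ^ 220 / n ^ 32000) :
    n ^ 600 * (2 * A + 2 * σ ^ 2 * (32 * (n ^ 26) ^ 2)) ≤ (n ^ 3400 / n ^ 28000) ^ 2 := by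
  have h1 : (1 : ℝ) ≤ n := by linarith
  have c1 : 2 * σ ^ 2 * (32 * (n ^ 26) ^ 2) ≤ n ^ 6001 / n ^ 56000 := by
    calc _ = 64 * (σ ^ 2 * n ^ 52) := by ring
      _ ≤ n * ((n ^ 220 / n ^ 32000) ^ 2 * n ^ 52) := by gcongr; linarith
      _ = n ^ 493 / n ^ 64000 := by field_simp
      _ ≤ n ^ 6001 / n ^ 56000 := by gcongr <;> first | exact h1 | norm_num
  calc _ ≤ n ^ 600 * (3 * (n ^ 6001 / n ^ 56000)) := by gcongr; linarith
    _ ≤ n ^ 600 * (n * (n ^ 6001 / n ^ 56000)) := by gcongr; linarith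
    _ = n ^ 6602 / n ^ 56000 := by ring
    _ ≤ n ^ 6800 / n ^ 56000 := by gcongr <;> first | exact h1 | norm_num
    _ = _ := by rw [div_pow, ← pow_mul, ← pow_mul]

end Vale.Agent.P370
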