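import Vale.Agent.P370.FinB

/-!
One-body bounds for the potential of the nuclei of the instance.
-/

namespace Vale.Agent.P370

open MeasureTheory

lemma FM.WF.mono {n₀ n₁ : ℕ} {I : FM} (h : I.WF n₁) (h' : n₀ ≤ n₁) : I.WF n₀ :=
  ⟨h'.trans h.1, h.2⟩

lemma Ev.inst {P : Geo → (ℕ → ℕ → ℕ) → Prop} (h : Ev P) :
    ∃ n₀, ∀ I : FM, I.WF n₀ → P I.geo I.V := by
  obtain ⟨a, ha⟩ := h
  obtain ⟨b, hb⟩ := geo_ok
  exact ⟨max a b, fun I hI => ha _ _ ((le_max_left _ _).trans hI.1)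
    (hb I (hI.mono (le_max_right _ _)))⟩

theorem ob_inst {fp : ℕ → ℚ} (hp : Apx Real.pi fp) : ∃ n₀, ∀ I : FM, I.WF n₀ →
    OBlow (pot (I.nucS fp)) I.geo.φ I.E I.geo.T (1 / (I.n : ℝ) ^ 130 / 2)
        (6 * (I.U / (I.n : ℝ) ^ 2)) ∧
      OBup (pot (I.nucS fp)) I.geo.η I.E I.geo.T (6 * (I.U / (I.n : ℝ) ^ 2)) := by
  obtain ⟨C1, hC1⟩ := first_order
  obtain ⟨C2, hC2⟩ := dV_sq
  obtain ⟨C3, hC3⟩ := dV_form
  obtain ⟨n1, h1⟩ := (near_slab.and (Vref_facts.and (one_low.and (one_up.and (sharp.and (soft.and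
    (η_db.and (η_supp.and ((Ev.const C1).and ((Ev.const C2).and ((Ev.const C3).and
    ((Ev.const 1000).and (Ev.exp 96000))))))))))))).inst
  obtain ⟨n2, h2⟩ := lat_ok hp
  refine ⟨max n1 n2, fun I hI => ?_⟩
  obtain ⟨hnear, hVr, hlow, hup, hsh, hso, hdb, hsupp, c1, c2, c3, hn, hexp⟩ :=
    h1 I (hI.mono (le_max_left _ _))
  have hL := h2 I (hI.mono (le_max_right _ _))
  obtain ⟨-, -, hM, -, -, -, hT, -⟩ := hI
  have gn : I.geo.n = I.n := rfl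
  simp only [gn] at hnear hVr hlow hup hso hdb c1 c2 c3 hn hexp
  have hn1 : (1 : ℝ) ≤ I.n := by linarith
  have n0 : (0 : ℝ) < I.n := by linarith
  have hn0 : 0 < I.n := by exact_mod_cast n0
  have hM' : (I.geo.M : ℝ) ≤ I.n := by exact_mod_cast hM
  have hT' : (I.2.2.2.1 : ℝ) ≤ I.n := by exact_mod_cast hT
  have hT0 : (0 : ℝ) ≤ I.2.2.2.1 := Nat.cast_nonneg _
  have hU0 : 0 < I.U := one_div_pos.2 (pow_pos n0 _)
  have hR : I.n ^ 300 ≤ I.R := by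
    have : (I.n : ℝ) ^ 300 ≤ I.R := by rw [I.R_cast]; exact pow_le_pow_right₀ hn1 (by norm_num)
    exact_mod_cast this
  have hN := hnear I.R hR
  rw [I.R_cast] at hN
  obtain ⟨e0, e1⟩ := arith_e0 hn hexp
  set e := (I.n : ℝ) ^ 300 / (I.n : ℝ) ^ 96000 + (I.n : ℝ) ^ 300 / 2 ^ I.n
  have hU : I.U = 1 / (I.n : ℝ) ^ 48014 := rfl
  rw [← hU] at e1
  have hUn : I.U / (I.n : ℝ) ^ 2 ≤ 1 := by
    rw [hU, div_div, div_le_one (mul_pos (pow_pos n0 _) (pow_pos n0 _)), ← pow_add]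
    exact one_le_pow₀ hn1
  have hT3 : I.geo.T / (I.n : ℝ) ^ 3 ≤ I.U / (I.n : ℝ) ^ 2 := by
    rw [I.T_eq hn0, div_le_div_iff₀ (pow_pos n0 _) (pow_pos n0 _), mul_assoc, pow_succ' _ 2]
    exact mul_le_mul_of_nonneg_left (mul_le_mul_of_nonneg_right hT' (pow_pos n0 _).le) hU0.le
  have hGT : 0 ≤ I.geo.T := by rw [I.T_eq hn0]; exact mul_nonneg hU0.le hT0
  have hT30 : 0 ≤ I.geo.T / (I.n : ℝ) ^ 3 := div_nonneg hGT (pow_pos n0 _).le
  set L := I.lat fp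
  have hτ : (L.τ : ℝ) = (I.n : ℝ) ^ 4000 := I.τ_cast
  have hl : (L.l : ℝ) = (I.n : ℝ) ^ 26 := by simp [L, FM.lat, Geo.l, gn]
  have hρ : (L.ρ : ℝ) = (I.n : ℝ) ^ 220 := by
    simp only [L, FM.lat, Geo.ρ, Geo.om, gn]; push_cast; rw [← pow_mul]
  have hσ : (L.σ : ℝ) = (I.n : ℝ) ^ 16000 := I.σ_cast
  have hVs : (fun x => -(I.geo.ρ * slab I.R x) + I.geo.F x) = L.Vs := rfl
  have hVs' : (fun x => -(I.geo.ρ * slab ((I.n : ℝ) ^ 96000) x) + I.geo.F x) = L.Vs := by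
    rw [← I.R_cast]; rfl
  rw [hVs'] at hN
  have hpot : pot (I.nucS fp) = fun x => L.Vs x + L.dV x := by
    rw [pot_nucS]; funext x; simp [Lat.dV, L]
  have hVi : ∀ f : Pt → ℝ, Continuous f → HasCompactSupport f →
      Integrable fun x => L.Vs x * f x := fun f hf hc => by
    obtain ⟨C, hC⟩ := hN.bdd
    exact (hf.integrable_of_hasCompactSupport hc).bdd_mul hN.meas.aestronglyMeasurable
      (ae_of_all _ hC)
  have hWi : ∀ f : Pt → ℝ, Continuous f → HasCompactSupport f →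
      Integrable fun x => L.dV x * f x := fun f hf hc => L.integrable_dV_mul hL hf hc
  have hl0 : (0 : ℝ) ≤ L.l := Nat.cast_nonneg _
  have hbox : ∀ a, tsupport (I.geo.η a) ⊆ box L.l L.l 4 := fun a =>
    (hsupp a).trans (box_mono (half_le_self hl0) (half_le_self hl0) (by norm_num))
  have hW1 : ∀ i j, |(∫ x, L.dV x * (I.geo.η i x * I.geo.η j x)) +
      Real.pi * L.ρ / (6 * (L.σ : ℝ) ^ 2) * ∫ x, I.geo.η i x * I.geo.η j x| ≤
      (I.n : ℝ) ^ 6001 / (I.n : ℝ) ^ 64000 := fun i j => by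
    refine (hC1 L _ hL _ (hdb i j) (tsupport_mul_subset_left.trans (hbox i))).trans ?_
    rw [hτ, ← pow_mul _ 4000]
    exact div_le_div_of_nonneg_right (cpow_le hn1 c1 600 10) (pow_pos n0 _).le
  have hs0 : 0 ≤ Real.pi * L.ρ / (6 * (L.σ : ℝ) ^ 2) :=
    div_nonneg (mul_nonneg Real.pi_pos.le (Nat.cast_nonneg _))
      (mul_nonneg (by norm_num) (sq_nonneg _))
  have hs1 : Real.pi * L.ρ / (6 * (L.σ : ℝ) ^ 2) ≤ (I.n : ℝ) ^ 220 / (I.n : ℝ) ^ 32000 := by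
    rw [hρ, hσ, ← pow_mul, mul_div_mul_comm]
    exact mul_le_of_le_one_left (div_nonneg (pow_pos n0 _).le (pow_pos n0 _).le)
      (by linarith [Real.pi_le_four])
  have hlowU := (hlow _ _ _ e0 hN).mono (ε' := I.geo.T / (I.n : ℝ) ^ 3 + 2 * e) (by linarith)
  have hupU := hup _ _ _ e0 hN
  have hE : I.E = I.geo.E1 I.R - Real.pi * L.ρ / (6 * (L.σ : ℝ) ^ 2) := rfl
  have hε := arith_eps hn hU hT0 hT' (Nat.cast_nonneg _) hM' (add_nonneg hT30 (by linarith))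
    (e := I.geo.T / (I.n : ℝ) ^ 3 + 2 * e) (by linarith)
  have hδ : (I.n : ℝ) ^ 80 * I.geo.w = (I.n : ℝ) ^ 80 * (4 * I.2.2.2.1 * (I.n : ℝ) ^ 9 * I.U) := by
    rw [I.w_cast hn0]
  have hδ0 : 0 ≤ (I.n : ℝ) ^ 80 * (4 * I.2.2.2.1 * (I.n : ℝ) ^ 9 * I.U) :=
    mul_nonneg (pow_pos n0 _).le (mul_nonneg (mul_nonneg (by linarith) (pow_pos n0 _).le) hU0.le)
  rw [hδ] at hso
  rw [hpot, hE]
  constructor
  · refine (comb_low hsh hso (B := (I.n : ℝ) ^ 113) (a := (I.n : ℝ) ^ 3400 / (I.n : ℝ) ^ 28000)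
      (b := (I.n : ℝ) ^ 2401 / (I.n : ℝ) ^ 8000) hVi hWi hlowU hupU (fun x => ?_) hW1
      (fun i => ?_) (fun ψ hψ => ?_) hs0 hGT (by linarith) hδ0 ?_
      (div_nonneg (pow_pos n0 _).le (pow_pos n0 _).le)
      (div_nonneg (pow_pos n0 _).le (pow_pos n0 _).le) (one_le_pow₀ hn1)
      (one_div_pos.2 (pow_pos n0 _)) ((div_le_one (pow_pos n0 _)).2 (one_le_pow₀ hn1)) ?_).mono
      (by rw [I.T_eq hn0] at hε ⊢; exact hε)
    · have a1 := hN.ge x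
      have a2 := hVr.2.1 x
      have a3 : (1 : ℝ) ≤ (I.n : ℝ) ^ 112 := one_le_pow₀ hn1
      have a4 : 2 * (I.n : ℝ) ^ 112 ≤ (I.n : ℝ) ^ 113 := by
        rw [pow_succ' _ 112]; exact mul_le_mul_of_nonneg_right (by linarith) (by linarith)
      linarith
    · obtain ⟨q1, q2⟩ := hC2 L _ hL
      have q3 : ∀ x, I.geo.η i x * I.geo.η i x ≤ (I.n : ℝ) ^ 600 := fun x => by
        have := (hdb i i).2 0 (by norm_num) x
        rw [norm_iteratedFDeriv_zero, Real.norm_eq_abs] at this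
        exact (le_abs_self _).trans this
      obtain ⟨q4, q5⟩ := sq_bound (σ := Real.pi * L.ρ / (6 * (L.σ : ℝ) ^ 2)) (L.measurable_dV hL)
        (hso.smooth i).1.continuous (hbox i) q3 hl0 q1 q2
      refine ⟨q4, q5.trans ?_⟩
      rw [hl]
      refine arith_a hn ?_ hs0 hs1
      rw [hτ, ← pow_mul _ 4000]
      exact div_le_div_of_nonneg_right (cpow_le hn1 c2 600 10) (pow_pos n0 _).le
    · refine le_trans (neg_le_neg (mul_le_mul_of_nonneg_right ?_ (add_nonneg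
        (integral_nonneg fun x => sq_nonneg _) (integral_nonneg fun x =>
          Finset.sum_nonneg fun k _ => sq_nonneg _)))) (hC3 L _ hL ψ hψ)
      rw [hτ, ← pow_mul _ 4000]
      exact div_le_div_of_nonneg_right (cpow_le hn1 c3 600 4) (pow_pos n0 _).le
    · calc _ ≤ (I.n : ℝ) ^ 80 * (I.n * I.n * (I.n : ℝ) ^ 9 * I.U) :=
            mul_le_mul_of_nonneg_left (mul_le_mul_of_nonneg_right (mul_le_mul_of_nonneg_right
              (mul_le_mul (by linarith) hT' hT0 n0.le) (pow_pos n0 _).le) hU0.le) (pow_pos n0 _).le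
        _ = (I.n : ℝ) ^ 91 / (I.n : ℝ) ^ 48014 := by rw [hU]; ring
        _ ≤ 1 := (pw (c := 0) hn1 (by norm_num)).trans (by simp)
    · calc _ ≤ I.n * ((I.n : ℝ) ^ 2401 / (I.n : ℝ) ^ 8000) * (I.n : ℝ) ^ 113 :=
            mul_le_mul_of_nonneg_right (mul_le_mul_of_nonneg_right (by linarith)
              (div_nonneg (pow_pos n0 _).le (pow_pos n0 _).le)) (pow_pos n0 _).le
        _ = (I.n : ℝ) ^ 2515 / (I.n : ℝ) ^ 8000 := by ring
        _ ≤ _ := pw hn1 (by norm_num)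
  · refine (comb_up hso hVi hWi hupU hW1).mono (le_trans ?_ hε)
    refine le_add_of_nonneg_right (mul_nonneg (by norm_num) (add_nonneg (add_nonneg
      (mul_nonneg (div_nonneg (pow_pos n0 _).le (pow_pos n0 _).le) (add_nonneg (add_nonneg
        (mul_nonneg hU0.le hT0) (by linarith)) (mul_nonneg (pow_pos n0 _).le hδ0)))
      (div_nonneg (mul_nonneg (Nat.cast_nonneg _) (sq_nonneg _))
        (one_div_pos.2 (pow_pos n0 _)).le)) (mul_nonneg (one_div_pos.2 (pow_pos n0 _)).le hδ0)))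

end Vale.Agent.P370
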