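import Vale.Agent.P370.ManyLowB

/-!
Many-body lower bound.
-/

namespace Vale.Agent.P370

open MeasureTheory

open ML Function in
/-- the estimate for one spin component -/
theorem ML.comp_low {N M : ℕ} (nuc : List (Pt × ℝ)) {φ : Arm M → Pt → ℝ} (hφ : Sharp φ) {r : ℝ}
    (hr0 : 0 < r) (hr : ∀ a x, r < ‖x‖ → φ a x = 0) {E T γ ε g Λ ε₂ A B : ℝ}
    {V : Arm M → Arm M → ℝ} (h1 : OBlow (pot nuc) φ E T γ ε) (h2 : TBlow φ Λ V ε₂) (hT : 0 ≤ T)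
    (hg : 0 ≤ g) (hΛ : 0 ≤ Λ) (hγ : 0 ≤ γ) (hε₂ : 0 ≤ ε₂) (hA : 0 ≤ A) (hB : 0 ≤ B)
    (hAB : 0 < N → (g * Λ) ^ 2 ≤ A * B) (hB2 : N ^ 2 * B ≤ γ / 2) {Ψ : (Fin N → Pt) → ℝ}
    (hΨ : ContDiff ℝ 1 Ψ) (hc : HasCompactSupport Ψ)
    (hs : tsupport Ψ ⊆ Metric.closedBall 0 r) :
    ∑ α, coef (fun _ => mu r) (fun _ => φ) Ψ α ^ 2 ≤ ∫ x, Ψ x ^ 2 ∧
    (N * (E - ε) - N ^ 2 * (g * ε₂ + A)) * (∫ x, Ψ x ^ 2) +
      fmE1 T (fun a b => g * V a b) (coef (fun _ => mu r) (fun _ => φ) Ψ) +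
      γ / 2 * ((∫ x, Ψ x ^ 2) - ∑ α, coef (fun _ => mu r) (fun _ => φ) Ψ α ^ 2) ≤
      rE nuc g Ψ := by
  have hON := on_mu (N := N) hφ hr
  have hb := bm_cc hΨ.continuous hc
  have h0 : ∀ x, r < ‖x‖ → Ψ x = 0 := fun x hx => image_eq_zero_of_notMem_tsupport fun h =>
    absurd (mem_closedBall_zero_iff.1 (hs h)) (not_le.2 hx)
  have e1 : ∫ x, Ψ x ^ 2 ∂(Measure.pi fun _ => mu r) = ∫ x, Ψ x ^ 2 :=
    int_pi fun x hx => by rw [h0 x hx, sq, mul_zero]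
  have h3 := Finset.sum_le_sum fun i (_ : i ∈ Finset.univ) =>
    one_low nuc hφ hr0 hr h1 hT hΨ hc hs i
  have h4 := mul_le_mul_of_nonneg_left (efron_stein hON (fun _ => mu_pos hr0) hb) hγ
  have h5 := proj_sq hON hb
  have h6 := fun i j (hij : i < j) => pair_low hφ hr h2 hg hΛ hA hB (hAB (Fin.pos i)) hb hij.ne
  rw [e1] at h3 h4 h5 h6
  generalize coef (fun _ => mu r) (fun _ => φ) Ψ = c at h3 h4 h5 h6 ⊢
  have hd : 0 ≤ (∫ x, Ψ x ^ 2) - ∑ α, c α ^ 2 := h5 ▸ integral_nonneg fun x => sq_nonneg _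
  have hp : 0 ≤ ∑ α, c α ^ 2 := Finset.sum_nonneg fun α _ => sq_nonneg _
  have hA' : 0 ≤ g * ε₂ + A := by positivity
  have h7 := sum_pairs_le (N := N) (add_nonneg (mul_nonneg hA' hp) (mul_nonneg hB hd))
  have h8 : ∑ i : Fin N, ∑ j : Fin N, ((∑ α : Fin N → Arm M,
      (if i < j then g * V (α i) (α j) else 0) * c α ^ 2) - if i < j then
        (g * ε₂ + A) * ∑ α, c α ^ 2 + B * ((∫ x, Ψ x ^ 2) - ∑ α, c α ^ 2) else 0) ≤
      ∑ i : Fin N, ∑ j : Fin N, g * if i < j then ∫ x, ker (x i - x j) * Ψ x ^ 2 else 0 := by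
    refine Finset.sum_le_sum fun i _ => Finset.sum_le_sum fun j _ => ?_
    split_ifs with hij
    · have h9 := h6 i j hij
      rw [int_pi fun x hx => by rw [h0 x hx, sq, mul_zero, mul_zero]] at h9
      linarith
    · simp
  have e2 : ∑ α : Fin N → Arm M, (∑ i, ∑ j, if i < j then g * V (α i) (α j) else 0) * c α ^ 2 =
      ∑ i : Fin N, ∑ j : Fin N, ∑ α : Fin N → Arm M,
        (if i < j then g * V (α i) (α j) else 0) * c α ^ 2 := by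
    simp only [Finset.sum_mul]
    rw [Finset.sum_comm]
    exact Finset.sum_congr rfl fun i _ => Finset.sum_comm
  simp only [Finset.sum_sub_distrib, ← Finset.mul_sum] at h8
  simp only [Finset.sum_add_distrib, ← Finset.mul_sum, Finset.sum_const, Finset.card_univ,
    Fintype.card_fin, nsmul_eq_mul] at h3
  have h9 := mul_le_mul_of_nonneg_right hB2 hd
  have h10 := mul_nonneg (mul_nonneg (sq_nonneg (N : ℝ)) hA') hd
  refine ⟨by linarith, ?_⟩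
  unfold rE fmE1
  rw [e2]
  linarith

theorem many_low {N M : ℕ} (nuc : List (Pt × ℝ)) {φ : Arm M → Pt → ℝ} (hφ : Sharp φ)
    {E T γ ε g Λ ε₂ e : ℝ} {V : Arm M → Arm M → ℝ} (h1 : OBlow (pot nuc) φ E T γ ε)
    (h2 : TBlow φ Λ V ε₂) (hT : 0 ≤ T) (hg : 0 ≤ g) (hΛ : 0 ≤ Λ) (hγ : 0 < γ) (hε₂ : 0 ≤ ε₂)
    (he : e ≤ γ / 2)
    (hF : ∀ c : (Fin N → Fin 2) → (Fin N → Arm M) → ℝ, Anti c →
      e * fmN c ≤ fmE T (fun a b => g * V a b) c)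
    {Ψ : (Fin N → Fin 2) → (Fin N → Pt) → ℝ} (hΨ : RCore Ψ) :
    (N * E + e - N * ε - g * N ^ 2 * ε₂ - 2 * (g * N ^ 2 * Λ) ^ 2 / γ) * ∑ s, ∫ x, Ψ s x ^ 2 ≤
      ∑ s, rE nuc g (Ψ s) := by
  obtain ⟨r₀, hr₀⟩ := hφ.bdd
  obtain ⟨r, hr1, hr⟩ := (Bornology.isBounded_iUnion.2 fun s => (hΨ.1 s).2.isCompact.isBounded
    ).subset_closedBall_lt |r₀| 0
  have hr0 := (abs_nonneg r₀).trans_lt hr1
  have hr' : ∀ a x, r < ‖x‖ → φ a x = 0 := fun a x hx => by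
    by_contra h
    linarith [hr₀ a x h, le_abs_self r₀]
  have h3 := fun s => ML.comp_low nuc hφ hr0 hr' (A := 2 * (g * N * Λ) ^ 2 / γ)
    (B := γ / (2 * N ^ 2)) h1 h2 hT hg hΛ hγ.le hε₂ (by positivity) (by positivity)
    (fun hN => le_of_eq (by field_simp)) (by
      rcases N.eq_zero_or_pos with rfl | hN
      · simpa using half_pos hγ |>.le
      · exact le_of_eq (by field_simp)) (hΨ.1 s).1 (hΨ.1 s).2 ((Set.subset_iUnion _ s).trans hr)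
  have h4 := hF _ (ML.anti_coef (r := r) (φ := φ) hΨ)
  have h5 := Finset.sum_le_sum fun s (_ : s ∈ Finset.univ) => (h3 s).1
  have h6 := Finset.sum_le_sum fun s (_ : s ∈ Finset.univ) => (h3 s).2
  simp only [Finset.sum_add_distrib, Finset.sum_sub_distrib, ← Finset.mul_sum] at h6
  unfold fmN fmE at h4
  have h7 := mul_le_mul_of_nonneg_right he (sub_nonneg.2 h5)
  have e1 : (N : ℝ) ^ 2 * (g * ε₂ + 2 * (g * N * Λ) ^ 2 / γ) =
      g * N ^ 2 * ε₂ + 2 * (g * N ^ 2 * Λ) ^ 2 / γ := by ring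
  rw [e1] at h6
  linarith

end Vale.Agent.P370
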