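import Vale.Agent.P370.OneUpA
import Vale.Agent.P370.TwoBodyA

/-!
Planar weights of the rows and their Coulomb integrals.
-/

namespace Vale.Agent.P370

open MeasureTheory Set

namespace Geo

/-- Planar region of a row. -/
def Ap (G : Geo) (r : ℕ) : Set (ℝ × ℝ) :=
  {q | -1 ≤ q.1 ∧ q.1 ≤ G.l / 4 ∧ |q.2 - G.d * r| ≤ G.d / 4}

/-- Planar weight of a row. -/
noncomputable def mr (G : Geo) (r : ℕ) : ℝ × ℝ → ℝ :=
  (G.Ap r).indicator fun q => G.m ![q.1, q.2, 0]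

/-- Transverse profile on an interval. -/
noncomputable def gz (G : Geo) (c : ℝ) : ℝ → ℝ :=
  (Icc (-c) c).indicator fun z => Real.exp (-(G.Ω * z ^ 2))

/-- Shrunk wells. -/
noncomputable def sw (G : Geo) (s r : ℕ) : ℝ × ℝ → ℝ := chi (G.D * (s + 1)) (G.d * r) (1 - G.ξ)

/-- Main part of the weight of a row. -/
noncomputable def Wr (G : Geo) (r : ℕ) (q : ℝ × ℝ) : ℝ :=
  (1 - 2 / 2 ^ G.n) * ∑ s ∈ G.sts r, G.sw s r q

variable {G : Geo} {V : ℕ → ℕ → ℕ}

lemma m_pl (x : Pt) : G.m ![(pl x).1, (pl x).2, 0] = G.m x := rfl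

lemma tb_measurableSet_Ap (r : ℕ) : MeasurableSet (G.Ap r) := by
  unfold Ap
  measurability

lemma tb_measurableSet_A (r : ℕ) : MeasurableSet (G.A r) := by
  unfold A
  measurability

lemma gz_nonneg (c z : ℝ) : 0 ≤ G.gz c z := indicator_nonneg (fun _ _ => (Real.exp_pos _).le) _

lemma integrable_gz' (c : ℝ) : Integrable (G.gz c) :=
  (integrable_indicator_iff measurableSet_Icc).2
    ((by fun_prop : Continuous fun z : ℝ => Real.exp (-(G.Ω * z ^ 2))).integrableOn_Icc)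

lemma integral_gz_one : ∫ z, G.gz 1 z = G.Iz := integral_indicator measurableSet_Icc

lemma UF.mr_mem (u : G.UF) (r : ℕ) (q : ℝ × ℝ) : 0 ≤ G.mr r q ∧ G.mr r q ≤ 2 := by
  unfold mr
  by_cases h : q ∈ G.Ap r
  · rw [indicator_of_mem h]
    exact ⟨(u.m_pos _).1.le, (u.m_pos _).2⟩
  · rw [indicator_of_notMem h]
    exact ⟨le_rfl, zero_le_two⟩

lemma UF.measurable_mr (u : G.UF) (r : ℕ) : Measurable (G.mr r) := by
  have := u.m_smooth.continuous
  exact Measurable.indicator (Continuous.measurable (by fun_prop)) (tb_measurableSet_Ap r)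

lemma UF.ind_sq (u : G.UF) (r : ℕ) (x : Pt) :
    (G.A r).indicator (fun x => G.φ0 x ^ 2) x = G.mr r (pl x) * G.gz 1 (x 2) := by
  unfold mr gz
  by_cases h : x ∈ G.A r
  · rw [indicator_of_mem h, indicator_of_mem (show pl x ∈ G.Ap r from ⟨h.1, h.2.1, h.2.2.1⟩),
      indicator_of_mem (show x 2 ∈ Icc (-1 : ℝ) 1 from abs_le.1 h.2.2.2), m_pl,
      u.φ0_sq x (h.2.2.2.trans (by norm_num))]
  · rw [indicator_of_notMem h]
    by_cases k : pl x ∈ G.Ap r
    · rw [indicator_of_notMem (show x 2 ∉ Icc (-1 : ℝ) 1 from fun k' =>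
        h ⟨k.1, k.2.1, k.2.2, abs_le.2 k'⟩), mul_zero]
    · rw [indicator_of_notMem k, zero_mul]

lemma UF.mass_eq (u : G.UF) (r : ℕ) : G.mass r = (∫ q, G.mr r q) * G.Iz := by
  rw [Geo.mass, ← integral_indicator (tb_measurableSet_A r), ← integral_gz_one, ← tb_split]
  exact integral_congr_ae (Filter.Eventually.of_forall (u.ind_sq r))

lemma UF.φ_sq (u : G.UF) (a : Arm G.M) (x : Pt) :
    G.φ a x ^ 2 = G.mr (row a) (pl x) * G.gz 1 (x 2) / G.mass (row a) := by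
  rw [← u.ind_sq, φ]
  by_cases h : x ∈ G.A (row a)
  · rw [indicator_of_mem h, indicator_of_mem h, div_pow,
      Real.sq_sqrt (u.mass_pos (row_lt a)).le]
  · rw [indicator_of_notMem h, indicator_of_notMem h]
    simp

lemma UF.integrable_mr (u : G.UF) {r : ℕ} (hr : r < 3 * G.M) : Integrable (G.mr r) := by
  refine Integrable.of_integral_ne_zero fun h => (u.mass_pos hr).ne' ?_
  rw [u.mass_eq, h, zero_mul]

lemma UF.integral_mr (u : G.UF) {r : ℕ} (hr : r < 3 * G.M) :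
    G.J * (4 - 1 / (G.n : ℝ) ^ 18) ≤ ∫ q, G.mr r q ∧
      ∫ q, G.mr r q ≤ G.J * (4 + 1 / (G.n : ℝ) ^ 18) := by
  obtain ⟨h1, h2⟩ := abs_le.1 (u.mass r hr)
  rw [u.mass_eq] at h1 h2
  have e : G.J * G.Iz / (G.n : ℝ) ^ 18 = G.J * (1 / (G.n : ℝ) ^ 18) * G.Iz := by ring
  rw [e] at h1 h2
  exact ⟨le_of_mul_le_mul_right (by linarith) u.Iz_pos,
    le_of_mul_le_mul_right (by linarith) u.Iz_pos⟩

lemma OK.t_le (h : G.OK V) (u : G.UF) : 0 ≤ 2 / (2 : ℝ) ^ G.n ∧ 2 / (2 : ℝ) ^ G.n ≤ G.ξ := by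
  refine ⟨by positivity, ?_⟩
  have h1 := h.two_le' u
  have h2 := u.inv_le (i := 20) (j := 300) (by norm_num)
  have h3 := u.ξ_pos
  rw [div_eq_mul_one_div]
  unfold ξ at h3 ⊢
  linarith

lemma UF.ξ_le' (u : G.UF) : G.ξ ≤ 1 / (G.n : ℝ) ^ 19 / 1000 :=
  u.inv_le (i := 19) (j := 20) (by norm_num)

lemma OK.Wr_nonneg (h : G.OK V) (u : G.UF) (r : ℕ) (q : ℝ × ℝ) : 0 ≤ G.Wr r q :=
  mul_nonneg (by linarith [(h.t_le u).2, u.ξ_le]) (Finset.sum_nonneg fun _ _ => chi_nonneg _ _ _ _)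

lemma measurable_Wr (r : ℕ) : Measurable (G.Wr r) :=
  (Finset.measurable_sum _ fun _ _ => measurable_chi _ _ _).const_mul _

lemma integrable_Wr (r : ℕ) : Integrable (G.Wr r) :=
  (integrable_finsetSum _ fun _ _ => integrable_chi _ _ _).const_mul _

lemma OK.integral_Wr (h : G.OK V) (u : G.UF) {r : ℕ} (hr : r < 3 * G.M) :
    ∫ q, G.Wr r q = (1 - 2 / 2 ^ G.n) * (G.J * (4 * (1 - G.ξ) ^ 2)) := by
  unfold Wr sw
  rw [integral_const_mul, integral_finsetSum _ fun _ _ => integrable_chi _ _ _,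
    Finset.sum_congr rfl fun s _ => integral_chi _ _ (by linarith [u.ξ_le]), Finset.sum_const,
    h.card_sts hr, nsmul_eq_mul]

lemma OK.Wr_le (h : G.OK V) (u : G.UF) {r : ℕ} (hr : r < 3 * G.M) (q : ℝ × ℝ) :
    G.Wr r q ≤ G.mr r q := by
  have hξ := u.ξ_pos
  unfold Wr mr
  by_cases hq : q ∈ G.Ap r
  · rw [indicator_of_mem hq, Finset.mul_sum]
    refine le_trans (Finset.sum_le_sum fun s hs => ?_) (h.wells_le_m u hr _)
    rcases chi_cases (G.D * (s + 1)) (G.d * r) (1 - G.ξ) q with k | ⟨k, k1, k2⟩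
    · rw [sw, k, mul_zero]
      exact (u.val _ (well_mem hs) _).1
    · have := (u.val _ (well_mem hs) ![q.1, q.2, 0]).2.2.1 (mem_well.2 ⟨k1, k2⟩)
      rw [sw, k, mul_one]
      simpa [well] using this
  · rw [indicator_of_notMem hq, Finset.sum_eq_zero, mul_zero]
    intro s hs
    rcases chi_cases (G.D * (s + 1)) (G.d * r) (1 - G.ξ) q with k | ⟨-, k1, k2⟩
    · exact k
    · refine absurd ⟨?_, ?_, ?_⟩ hq
      · have : (0 : ℝ) ≤ G.D * (s + 1) := by positivity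
        linarith [(abs_le.1 k1).1]
      · have k3 : |q.1| ≤ G.l / 8 := ((u.shape _ (well_mem hs)).2.2.2.2.2.2
          (show ![q.1, q.2, 0] ∈ rect (G.well s r) 1 from mem_well.2
            ⟨k1.trans (by linarith), k2.trans (by linarith)⟩)).1
        linarith [le_abs_self q.1, u.l_ge]
      · linarith [u.d_ge]

lemma WW_expand {k : (ℝ × ℝ) × (ℝ × ℝ) → ℝ}
    (hk : ∀ a b a' b' r, Integrable fun p : (ℝ × ℝ) × (ℝ × ℝ) =>
      k p * (chi a b r p.1 * chi a' b' r p.2)) (r r' : ℕ) :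
    Integrable (fun p : (ℝ × ℝ) × (ℝ × ℝ) => k p * (G.Wr r p.1 * G.Wr r' p.2)) ∧
    ∫ p : (ℝ × ℝ) × (ℝ × ℝ), k p * (G.Wr r p.1 * G.Wr r' p.2) = (1 - 2 / 2 ^ G.n) ^ 2 *
      ∑ s ∈ G.sts r, ∑ s' ∈ G.sts r',
        ∫ p : (ℝ × ℝ) × (ℝ × ℝ), k p * (G.sw s r p.1 * G.sw s' r' p.2) := by
  have e : (fun p : (ℝ × ℝ) × (ℝ × ℝ) => k p * (G.Wr r p.1 * G.Wr r' p.2)) = fun p =>
      (1 - 2 / 2 ^ G.n) ^ 2 * ∑ s ∈ G.sts r, ∑ s' ∈ G.sts r',
        k p * (G.sw s r p.1 * G.sw s' r' p.2) := by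
    funext p
    simp only [← Finset.mul_sum, ← Finset.sum_mul, Wr]
    ring
  have i1 : ∀ s, Integrable fun p : (ℝ × ℝ) × (ℝ × ℝ) => ∑ s' ∈ G.sts r',
      k p * (G.sw s r p.1 * G.sw s' r' p.2) := fun s =>
    integrable_finsetSum _ fun s' _ => hk _ _ _ _ _
  rw [e]
  refine ⟨(integrable_finsetSum _ fun s _ => i1 s).const_mul _, ?_⟩
  rw [integral_const_mul, integral_finsetSum _ fun s _ => i1 s]
  congr 1
  exact Finset.sum_congr rfl fun s _ => integral_finsetSum _ fun s' _ => hk _ _ _ _ _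

lemma OK.card_inter' (h : G.OK V) {a b : Arm G.M} (hab : a ≠ b) :
    ((G.sts (row a) ∩ G.sts (row b)).card : ℝ) =
      V (row a) (row b) * |(row a : ℝ) - row b| := by
  rcases lt_or_gt_of_ne (fun k => hab (row_inj k)) with k | k
  · have k' : (row a : ℝ) ≤ row b := by exact_mod_cast k.le
    rw [h.card_inter k (row_lt b), Nat.cast_mul, Nat.cast_sub k.le, abs_sub_comm,
      abs_of_nonneg (sub_nonneg.2 k')]
  · have k' : (row b : ℝ) ≤ row a := by exact_mod_cast k.le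
    rw [Finset.inter_comm, h.card_inter k (row_lt a), Nat.cast_mul, Nat.cast_sub k.le, h.symm,
      abs_of_nonneg (sub_nonneg.2 k')]

lemma OK.Vm_off (h : G.OK V) (u : G.UF) (r r' : ℕ) :
    (V r r' : ℝ) / (G.J ^ 2 * G.d) / G.d ≤ 1 / (G.n : ℝ) ^ 19 := by
  have hn := u.n_pos
  have h1 : (V r r' : ℝ) ≤ G.n := by exact_mod_cast h.V_le r r'
  rw [J, d]
  push_cast
  calc _ ≤ (G.n : ℝ) / (((G.n : ℝ) ^ 4) ^ 2 * (G.n : ℝ) ^ 6) / (G.n : ℝ) ^ 6 := by gcongr
    _ = _ := by field_simp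

lemma OK.Vm_mem (h : G.OK V) (u : G.UF) (a b : Arm G.M) : 0 ≤ G.Vm V a b ∧ G.Vm V a b ≤ 1 := by
  have hJ := u.J_ge
  have hd := u.d_ge
  unfold Vm
  split_ifs
  · exact ⟨div_nonneg (by linarith [cU_mem.1]) (by linarith),
      (div_le_one (by linarith)).2 (by linarith [cU_mem.2])⟩
  · refine ⟨by positivity, (div_le_one (by positivity)).2 ?_⟩
    have h1 : (V (row a) (row b) : ℝ) ≤ G.n := by exact_mod_cast h.V_le _ _
    have h2 : (G.n : ℝ) ≤ G.d := by rw [d]; push_cast; exact le_self_pow₀ u.one_le (by norm_num)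
    have h3 : (1 : ℝ) ≤ (G.J : ℝ) ^ 2 := by nlinarith
    nlinarith

lemma OK.X_ge (h : G.OK V) (u : G.UF) (a b : Arm G.M) :
    16 * G.J ^ 2 * (G.Vm V a b - 7 * (1 / (G.n : ℝ) ^ 19)) ≤
      ∫ p : (ℝ × ℝ) × (ℝ × ℝ), kerE (2 * G.ξ) (p.1 - p.2) *
        (G.Wr (row a) p.1 * G.Wr (row b) p.2) := by
  have hξ := u.ξ_pos
  have hξ1 := u.ξ_le
  have hξ2 := u.ξ_le'
  have hJ := u.J_ge
  have hd := u.d_ge
  obtain ⟨t0, t1⟩ := h.t_le u
  obtain ⟨v0, v1⟩ := h.Vm_mem u a b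
  have key : ∀ c : ℝ, (∀ s, c ≤ ∫ p : (ℝ × ℝ) × (ℝ × ℝ), kerE (2 * G.ξ) (p.1 - p.2) *
      (G.sw s (row a) p.1 * G.sw s (row b) p.2)) →
      (G.sts (row a) ∩ G.sts (row b)).card * c ≤ ∑ s ∈ G.sts (row a), ∑ s' ∈ G.sts (row b),
        ∫ p : (ℝ × ℝ) × (ℝ × ℝ), kerE (2 * G.ξ) (p.1 - p.2) *
          (G.sw s (row a) p.1 * G.sw s' (row b) p.2) := by
    intro c hc
    have n : ∀ s s', 0 ≤ ∫ p : (ℝ × ℝ) × (ℝ × ℝ), kerE (2 * G.ξ) (p.1 - p.2) *
        (G.sw s (row a) p.1 * G.sw s' (row b) p.2) := fun s s' => integral_nonneg fun p =>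
      mul_nonneg (kerE_nonneg _ _) (mul_nonneg (chi_nonneg _ _ _ _) (chi_nonneg _ _ _ _))
    refine le_trans ?_ (Finset.sum_le_sum_of_subset_of_nonneg
      (Finset.inter_subset_left (s₂ := G.sts (row b))) fun s _ _ =>
        Finset.sum_nonneg fun s' _ => n s s')
    rw [← nsmul_eq_mul]
    exact Finset.card_nsmul_le_sum _ _ _ fun s hs => (hc s).trans
      (Finset.single_le_sum (fun s' _ => n s s') (Finset.mem_inter.1 hs).2)
  have main : 16 * G.J ^ 2 * (G.Vm V a b - 6 * (1 / (G.n : ℝ) ^ 19)) ≤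
      ∑ s ∈ G.sts (row a), ∑ s' ∈ G.sts (row b),
        ∫ p : (ℝ × ℝ) × (ℝ × ℝ), kerE (2 * G.ξ) (p.1 - p.2) *
          (G.sw s (row a) p.1 * G.sw s' (row b) p.2) := by
    by_cases hab : a = b
    · subst hab
      refine le_trans ?_ (key _ fun s => chi_self_ge _ _ (by linarith) (by linarith))
      rw [Finset.inter_self, h.card_sts (row_lt a), Vm, if_pos rfl]
      have c1 := cU_mem.1
      have c2 := cU_mem.2
      have c3 := Real.pi_lt_d2
      have c4 := Real.pi_pos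
      have k1 : 1 - 3 * G.ξ ≤ (1 - G.ξ) ^ 3 := by nlinarith [sq_nonneg G.ξ]
      have k2 : (1 - G.ξ) ^ 2 ≤ 1 := by nlinarith
      have k3 : 16 * cU - 150 * G.ξ ≤
          16 * (1 - G.ξ) ^ 3 * cU - 2 * Real.pi * (2 * G.ξ) * (4 * (1 - G.ξ) ^ 2) := by
        have d1 : (1 - 3 * G.ξ) * cU ≤ (1 - G.ξ) ^ 3 * cU := by gcongr
        have d2 : Real.pi * G.ξ * (1 - G.ξ) ^ 2 ≤ 3.15 * G.ξ * 1 := by gcongr
        nlinarith
      have e : 16 * (G.J : ℝ) ^ 2 * (cU / G.J - 6 * (1 / (G.n : ℝ) ^ 19)) =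
          G.J * (16 * cU - 96 * G.J * (1 / (G.n : ℝ) ^ 19)) := by
        field_simp
        ring
      rw [e]
      refine mul_le_mul_of_nonneg_left (le_trans ?_ k3) (by linarith)
      nlinarith
    · refine le_trans ?_ (key _ fun s => chi_near_ge (by linarith) (by linarith))
      have k0 := nat_far fun k => hab (row_inj k)
      have k1 := h.Vm_off u (row a) (row b)
      rw [Vm, if_neg hab] at v0 v1
      rw [h.card_inter' hab, Vm, if_neg hab, ← mul_sub (G.d : ℝ), abs_mul, Nat.abs_cast]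
      generalize |(row a : ℝ) - row b| = Δ at *
      have k2 : (1 - 5 / G.d) / G.d ≤ Δ * (G.d * Δ + 4 * (1 - G.ξ) + 2 * G.ξ)⁻¹ := by
        rw [← div_eq_mul_inv, div_le_div_iff₀ (by linarith) (by nlinarith)]
        have d1 : (1 - 5 / G.d : ℝ) * (G.d * Δ + 4 * (1 - G.ξ) + 2 * G.ξ) =
            G.d * Δ + (4 - 2 * G.ξ) - 5 * Δ - 5 / G.d * (4 - 2 * G.ξ) := by
          field_simp
          ring
        have d2 : 0 ≤ 5 / (G.d : ℝ) * (4 - 2 * G.ξ) := mul_nonneg (by positivity) (by linarith)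
        nlinarith
      have k3 : 1 - 4 * G.ξ ≤ (1 - G.ξ) ^ 4 := by
        nlinarith [sq_nonneg G.ξ, sq_nonneg (G.ξ * (G.ξ - 2))]
      have k4 : 0 ≤ (1 - 5 / G.d : ℝ) := by
        rw [sub_nonneg, div_le_one (by linarith)]; linarith
      calc _ ≤ 16 * (G.J : ℝ) ^ 2 * (V (row a) (row b) / (G.J ^ 2 * G.d) * (1 - 5 / G.d) *
            (1 - 4 * G.ξ)) := by
            refine mul_le_mul_of_nonneg_left ?_ (by positivity)
            have e : (V (row a) (row b) : ℝ) / (G.J ^ 2 * G.d) * (1 - 5 / G.d) =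
                V (row a) (row b) / (G.J ^ 2 * G.d) -
                  5 * (V (row a) (row b) / (G.J ^ 2 * G.d) / G.d) := by ring
            have d3 : (V (row a) (row b) : ℝ) / (G.J ^ 2 * G.d) * (1 - 5 / G.d) ≤ 1 :=
              mul_le_one₀ v1 k4 (by
                have : (0 : ℝ) ≤ 5 / G.d := by positivity
                linarith)
            nlinarith
        _ = V (row a) (row b) * ((1 - 5 / G.d) / G.d) * (16 * (1 - 4 * G.ξ)) := by field_simp
        _ ≤ V (row a) (row b) * (Δ * (G.d * Δ + 4 * (1 - G.ξ) + 2 * G.ξ)⁻¹) *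
            (16 * (1 - G.ξ) ^ 4) := by
            have : 0 ≤ 1 - 4 * G.ξ := by linarith
            have : 0 ≤ Δ * (G.d * Δ + 4 * (1 - G.ξ) + 2 * G.ξ)⁻¹ :=
              le_trans (div_nonneg k4 (by linarith)) k2
            gcongr
        _ = _ := by ring
  rw [(WW_expand (fun _ _ _ _ _ => integrable_kerE_mul (by linarith) (integrable_chi _ _ _)
    (integrable_chi _ _ _)) _ _).2]
  refine le_trans ?_ (mul_le_mul_of_nonneg_left main (sq_nonneg _))
  rw [mul_left_comm]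
  refine mul_le_mul_of_nonneg_left ?_ (by positivity)
  generalize 2 / (2 : ℝ) ^ G.n = t at *
  generalize 1 / (G.n : ℝ) ^ 19 = δ at *
  have k5 : 0 ≤ 2 * t - t ^ 2 := by nlinarith
  have k6 : 0 ≤ δ := by linarith
  nlinarith [mul_nonneg k5 k6, mul_le_mul_of_nonneg_left v1 k5]

lemma OK.WW_le (h : G.OK V) (u : G.UF) (a b : Arm G.M) :
    ∫ p : (ℝ × ℝ) × (ℝ × ℝ), ker2 (p.1 - p.2) * (G.Wr (row a) p.1 * G.Wr (row b) p.2) ≤
      16 * G.J ^ 2 * (G.Vm V a b + 3 * (1 / (G.n : ℝ) ^ 18)) := by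
  have hξ := u.ξ_pos
  have hξ1 := u.ξ_le
  have hJ := u.J_ge
  have hd := u.d_ge
  have hD := u.D_ge
  obtain ⟨t0, t1⟩ := h.t_le u
  have r4 : (1 - G.ξ) ^ 4 ≤ 1 := pow_le_one₀ (by linarith) (by linarith)
  have eD : 1 / (G.n : ℝ) ^ 18 = 1 / G.D := by rw [D]; push_cast; rfl
  have e19 := u.inv_le (i := 18) (j := 19) (by norm_num)
  have key : ∀ c : ℝ, (∀ s, ∫ p : (ℝ × ℝ) × (ℝ × ℝ), ker2 (p.1 - p.2) *
      (G.sw s (row a) p.1 * G.sw s (row b) p.2) ≤ c) →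
      ∑ s ∈ G.sts (row a), ∑ s' ∈ G.sts (row b), ∫ p : (ℝ × ℝ) × (ℝ × ℝ), ker2 (p.1 - p.2) *
        (G.sw s (row a) p.1 * G.sw s' (row b) p.2) ≤
      (G.sts (row a) ∩ G.sts (row b)).card * c + G.J * (G.J * (32 * (1 / G.D))) := by
    intro c hc
    have b1 : ∀ s s', ∫ p : (ℝ × ℝ) × (ℝ × ℝ), ker2 (p.1 - p.2) *
        (G.sw s (row a) p.1 * G.sw s' (row b) p.2) ≤ (if s = s' then c else 0) + 32 * (1 / G.D) := by
      intro s s'
      by_cases k : s = s'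
      · subst k
        rw [if_pos rfl]
        exact (hc s).trans (le_add_of_nonneg_right (by positivity))
      · rw [if_neg k, zero_add]
        refine (chi_far_le (c := G.D / 2) (by linarith) (by linarith) (Or.inl ?_)).trans ?_
        · rw [← mul_sub, abs_mul, abs_of_nonneg (Nat.cast_nonneg G.D), add_sub_add_right_eq_sub]
          have := mul_le_mul_of_nonneg_left (nat_far k) (Nat.cast_nonneg G.D : (0 : ℝ) ≤ G.D)
          linarith
        · calc _ ≤ ((G.D : ℝ) / 2)⁻¹ * (16 * 1) := by gcongr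
            _ = _ := by field_simp; ring
    refine (Finset.sum_le_sum fun s _ => Finset.sum_le_sum fun s' _ => b1 s s').trans (le_of_eq ?_)
    simp only [Finset.sum_add_distrib, Finset.sum_ite_eq, Finset.sum_ite_mem, Finset.sum_const,
      nsmul_eq_mul, h.card_sts (row_lt a), h.card_sts (row_lt b)]
  have main : ∑ s ∈ G.sts (row a), ∑ s' ∈ G.sts (row b), ∫ p : (ℝ × ℝ) × (ℝ × ℝ),
      ker2 (p.1 - p.2) * (G.sw s (row a) p.1 * G.sw s' (row b) p.2) ≤
      16 * G.J ^ 2 * (G.Vm V a b + 3 * (1 / (G.n : ℝ) ^ 18)) := by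
    by_cases hab : a = b
    · subst hab
      have r3 : (1 - G.ξ) ^ 3 ≤ 1 := pow_le_one₀ (by linarith) (by linarith)
      have c1 := cU_mem.1
      refine (key (16 * cU) fun s => (chi_self _ _ (by linarith)).le.trans (by nlinarith)).trans ?_
      rw [Finset.inter_self, h.card_sts (row_lt a), Vm, if_pos rfl, eD]
      have e : 16 * (G.J : ℝ) ^ 2 * (cU / G.J + 3 * (1 / G.D)) =
          G.J * (16 * cU) + G.J * (G.J * (48 * (1 / G.D))) := by field_simp; ring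
      rw [e]
      gcongr
      norm_num
    · have k0 := nat_far fun k => hab (row_inj k)
      have k1 := h.Vm_off u (row a) (row b)
      have k2 : (G.d : ℝ) * 1 ≤ G.d * |(row a : ℝ) - row b| := by gcongr
      refine (key _ fun s => chi_far_le (c := G.d * |(row a : ℝ) - row b| - 2) (by linarith)
        (by linarith) (Or.inr ?_)).trans ?_
      · rw [← mul_sub, abs_mul, Nat.abs_cast]
        linarith
      rw [h.card_inter' hab, Vm, if_neg hab, ← eD]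
      generalize |(row a : ℝ) - row b| = Δ at *
      have k3 : Δ * (G.d * Δ - 2)⁻¹ ≤ (1 + 3 / G.d) / G.d := by
        rw [← div_eq_mul_inv, div_le_div_iff₀ (by linarith) (by linarith)]
        have d1 : (1 + 3 / G.d : ℝ) * (G.d * Δ - 2) = G.d * Δ - 2 + 3 * Δ - 6 / G.d := by
          field_simp
          ring
        have d2 : 6 / (G.d : ℝ) ≤ 1 := by rw [div_le_one (by linarith)]; linarith
        nlinarith
      have k4 : 0 ≤ Δ * (G.d * Δ - 2)⁻¹ := mul_nonneg (by linarith) (inv_nonneg.2 (by linarith))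
      calc _ = V (row a) (row b) * (Δ * (G.d * Δ - 2)⁻¹) * (16 * (1 - G.ξ) ^ 4) +
            16 * (G.J : ℝ) ^ 2 * (2 * (1 / (G.n : ℝ) ^ 18)) := by ring
        _ ≤ V (row a) (row b) * ((1 + 3 / G.d) / G.d) * (16 * 1) +
            16 * (G.J : ℝ) ^ 2 * (2 * (1 / (G.n : ℝ) ^ 18)) := by gcongr
        _ = 16 * (G.J : ℝ) ^ 2 * (V (row a) (row b) / (G.J ^ 2 * G.d) +
            (3 * (V (row a) (row b) / (G.J ^ 2 * G.d) / G.d) + 2 * (1 / (G.n : ℝ) ^ 18))) := by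
            field_simp
            ring
        _ ≤ _ := by
            have : 0 < 1 / (G.n : ℝ) ^ 18 := by have := u.n_pos; positivity
            gcongr 16 * (G.J : ℝ) ^ 2 * (_ + ?_)
            linarith
  rw [(WW_expand (fun _ _ _ _ _ => integrable_ker2_chi _ _ _ _ _) _ _).2]
  refine le_trans (mul_le_of_le_one_left (Finset.sum_nonneg fun s _ => Finset.sum_nonneg
    fun s' _ => integral_nonneg fun p => mul_nonneg (ker2_nonneg _)
      (mul_nonneg (chi_nonneg _ _ _ _) (chi_nonneg _ _ _ _)))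
    (pow_le_one₀ (by linarith) (by linarith))) main

lemma OK.Y_le (h : G.OK V) (u : G.UF) (a b : Arm G.M) :
    Integrable (fun p : (ℝ × ℝ) × (ℝ × ℝ) =>
      ker2 (p.1 - p.2) * (G.mr (row a) p.1 * G.mr (row b) p.2)) ∧
    ∫ p : (ℝ × ℝ) × (ℝ × ℝ), ker2 (p.1 - p.2) * (G.mr (row a) p.1 * G.mr (row b) p.2) ≤
      16 * G.J ^ 2 * (G.Vm V a b + 5 * (1 / (G.n : ℝ) ^ 18)) := by
  have hξ := u.ξ_pos
  have hξ1 := u.ξ_le
  have hξ2 := u.ξ_le'
  have e19 := u.inv_le (i := 18) (j := 19) (by norm_num)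
  have e18 := u.inv_le (i := 0) (j := 18) (by norm_num)
  rw [pow_zero] at e18
  have hJ := u.J_ge
  obtain ⟨t0, t1⟩ := h.t_le u
  have pot : ∀ r < 3 * G.M, ∀ x, Integrable (fun y => ker2 (x - y) * G.mr r y) ∧
      ∫ y, ker2 (x - y) * G.mr r y ≤ 6 * G.J := fun r hr x => by
    obtain ⟨k1, k2⟩ := tb_pot2 (u.measurable_mr r) (fun y => (u.mr_mem r y).1)
      (fun y => (u.mr_mem r y).2) (u.integrable_mr hr) x
    refine ⟨k1, k2.trans ?_⟩
    have := (u.integral_mr hr).2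
    nlinarith
  have err : ∀ r < 3 * G.M, ∫ q, (G.mr r q - G.Wr r q) ≤ 2 * G.J * (1 / (G.n : ℝ) ^ 18) := by
    intro r hr
    rw [integral_sub (u.integrable_mr hr) (integrable_Wr r), h.integral_Wr u hr]
    have k1 := (u.integral_mr hr).2
    have k2 : 1 - 3 * G.ξ ≤ (1 - 2 / 2 ^ G.n) * (1 - G.ξ) ^ 2 := by
      have : (1 - G.ξ) * (1 - G.ξ) ^ 2 ≤ (1 - 2 / 2 ^ G.n) * (1 - G.ξ) ^ 2 := by gcongr
      nlinarith [sq_nonneg G.ξ]
    have k3 := mul_le_mul_of_nonneg_left k2 (by linarith : (0 : ℝ) ≤ 4 * G.J)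
    have k4 : 12 * G.ξ ≤ 1 / (G.n : ℝ) ^ 18 := by linarith
    have k5 := mul_le_mul_of_nonneg_left k4 (by linarith : (0 : ℝ) ≤ G.J)
    nlinarith
  have i0 := (tb_pot tb_mk (fun _ => ker2_nonneg _) (u.measurable_mr (row a))
    (u.measurable_mr (row b)) (fun y => (u.mr_mem _ y).1) (fun y => (u.mr_mem _ y).1)
    (u.integrable_mr (row_lt a)) (pot _ (row_lt b))).1
  have i1 := (WW_expand (G := G) (fun _ _ _ _ _ => integrable_ker2_chi _ _ _ _ _) (row a) (row b)).1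
  obtain ⟨i2, j2⟩ := tb_pot tb_mk (fun _ => ker2_nonneg _)
    ((u.measurable_mr (row a)).sub (measurable_Wr (row a))) (u.measurable_mr (row b))
    (fun y => sub_nonneg.2 (h.Wr_le u (row_lt a) y)) (fun y => (u.mr_mem _ y).1)
    ((u.integrable_mr (row_lt a)).sub (integrable_Wr _)) (pot _ (row_lt b))
  obtain ⟨i3, j3⟩ := tb_pot' tb_mk (fun _ => ker2_nonneg _) (fun x y => ker2_comm x y)
    ((u.measurable_mr (row b)).sub (measurable_Wr (row b))) (u.measurable_mr (row a))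
    (fun y => sub_nonneg.2 (h.Wr_le u (row_lt b) y)) (fun y => (u.mr_mem _ y).1)
    ((u.integrable_mr (row_lt b)).sub (integrable_Wr _)) (pot _ (row_lt a))
  simp only [Pi.sub_apply] at i2 j2 i3 j3
  have i12 : Integrable fun p : (ℝ × ℝ) × (ℝ × ℝ) =>
      ker2 (p.1 - p.2) * (G.Wr (row a) p.1 * G.Wr (row b) p.2) +
      ker2 (p.1 - p.2) * ((G.mr (row a) p.1 - G.Wr (row a) p.1) * G.mr (row b) p.2) := i1.add i2
  refine ⟨i0, (integral_mono i0 (i12.add i3) fun p => ?_).trans ?_⟩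
  · have k1 := mul_nonneg (sub_nonneg.2 (h.Wr_le u (row_lt a) p.1))
      (sub_nonneg.2 (h.Wr_le u (row_lt b) p.2))
    simp only [Pi.add_apply, ← mul_add]
    exact mul_le_mul_of_nonneg_left (by nlinarith) (ker2_nonneg _)
  · simp only [Pi.add_apply]
    rw [integral_add i12 i3, integral_add i1 i2]
    have k1 := h.WW_le u a b
    have k2 := mul_le_mul_of_nonneg_left (err _ (row_lt a)) (by linarith : (0 : ℝ) ≤ 6 * G.J)
    have k3 := mul_le_mul_of_nonneg_left (err _ (row_lt b)) (by linarith : (0 : ℝ) ≤ 6 * G.J)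
    have k4 : 0 ≤ (G.J : ℝ) ^ 2 * (1 / (G.n : ℝ) ^ 18) := by positivity
    nlinarith

end Geo

end Vale.Agent.P370
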