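import Vale.Agent.P370.Mass
import Vale.Agent.P370.Box
import Vale.Agent.P370.TwoBodyB

/-!
Coulomb matrix elements of the orbitals.
-/

namespace Vale.Agent.P370

open MeasureTheory Set

lemma Sharp.integrable_sq {M : ℕ} {φ : Arm M → Pt → ℝ} (h : Sharp φ) (a : Arm M) :
    Integrable fun x => φ a x ^ 2 :=
  Integrable.of_integral_ne_zero (by rw [h.one]; exact one_ne_zero)

lemma tb_point {M : ℕ} {φ η : Arm M → Pt → ℝ} {δ : ℝ} (hφ : Sharp φ) (hη : Soft φ η δ)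
    (d : Arm M → Arm M → ℝ) (x y : Pt) :
    (∑ a, ∑ b, d a b * (η a x * η b y)) ^ 2 ≤
      (∑ a, ∑ b, d a b ^ 2 * (φ a x ^ 2 * φ b y ^ 2)) + (∑ a, ∑ b, d a b ^ 2) *
        ((∑ a, (η a x - φ a x) ^ 2) * (∑ a, η a y ^ 2) +
          (∑ a, η a x ^ 2) * ∑ a, (η a y - φ a y) ^ 2) := by
  have n1 : 0 ≤ ∑ a, ∑ b, d a b ^ 2 * (φ a x ^ 2 * φ b y ^ 2) := by positivity
  have n2 : 0 ≤ ∑ a, ∑ b, d a b ^ 2 := by positivity
  have n3 : 0 ≤ (∑ a, (η a x - φ a x) ^ 2) * ∑ a, η a y ^ 2 := by positivity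
  have n4 : 0 ≤ (∑ a, η a x ^ 2) * ∑ a, (η a y - φ a y) ^ 2 := by positivity
  have cs : (∑ a, ∑ b, d a b * (η a x * η b y)) ^ 2 ≤
      (∑ a, ∑ b, d a b ^ 2) * ((∑ a, η a x ^ 2) * ∑ a, η a y ^ 2) := by
    have := Finset.sum_mul_sq_le_sq_mul_sq Finset.univ (fun p : Arm M × Arm M => d p.1 p.2)
      fun p => η p.1 x * η p.2 y
    rw [Finset.sum_mul_sum]
    simpa only [mul_pow, Fintype.sum_prod_type (α₁ := Arm M) (α₂ := Arm M)] using this
  by_cases hx : ∀ a, φ a x = 0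
  · simp only [hx, sub_zero] at n1 n3 ⊢
    nlinarith [mul_nonneg n2 n4]
  by_cases hy : ∀ a, φ a y = 0
  · simp only [hy, sub_zero] at n1 n4 ⊢
    nlinarith [mul_nonneg n2 n3]
  push Not at hx hy
  obtain ⟨a0, ha⟩ := hx
  obtain ⟨b0, hb⟩ := hy
  have e : ∑ a, ∑ b, d a b * (η a x * η b y) = d a0 b0 * (φ a0 x * φ b0 y) := by
    rw [Finset.sum_eq_single a0, Finset.sum_eq_single b0, hη.agree a0 a0 x ha,
      hη.agree b0 b0 y hb]
    · intro b _ hbb
      rw [hη.agree b b0 y hb, (mul_eq_zero.1 (hφ.disj b b0 y hbb)).resolve_right hb]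
      simp
    · simp
    · intro a _ haa
      rw [hη.agree a a0 x ha, (mul_eq_zero.1 (hφ.disj a a0 x haa)).resolve_right ha]
      simp
    · simp
  have k : d a0 b0 ^ 2 * (φ a0 x ^ 2 * φ b0 y ^ 2) ≤
      ∑ a, ∑ b, d a b ^ 2 * (φ a x ^ 2 * φ b y ^ 2) :=
    (Finset.single_le_sum (f := fun b => d a0 b ^ 2 * (φ a0 x ^ 2 * φ b y ^ 2))
      (fun b _ => by positivity) (Finset.mem_univ b0)).trans
      (Finset.single_le_sum (f := fun a => ∑ b, d a b ^ 2 * (φ a x ^ 2 * φ b y ^ 2))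
        (fun a _ => by positivity) (Finset.mem_univ a0))
  rw [e, mul_pow, mul_pow]
  nlinarith [mul_nonneg n2 (add_nonneg n3 n4)]

namespace Geo

variable {G : Geo} {V : ℕ → ℕ → ℕ}

lemma UF.mass_mem (u : G.UF) {r : ℕ} (hr : r < 3 * G.M) :
    G.J * (4 - 1 / (G.n : ℝ) ^ 18) * G.Iz ≤ G.mass r ∧
      G.mass r ≤ G.J * (4 + 1 / (G.n : ℝ) ^ 18) * G.Iz := by
  rw [u.mass_eq]
  exact ⟨mul_le_mul_of_nonneg_right (u.integral_mr hr).1 u.Iz_pos.le,
    mul_le_mul_of_nonneg_right (u.integral_mr hr).2 u.Iz_pos.le⟩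

lemma OK.two_low (h : G.OK V) (u : G.UF) :
    TBlow G.φ ((G.n : ℝ) ^ 20) (G.Vm V) (1 / (G.n : ℝ) ^ 17) := by
  intro a b
  have hn := u.n_pos
  have hξ := u.ξ_pos
  have hξ1 := u.ξ_le
  have hξ2 := u.ξ_le'
  have hJ := u.J_ge
  have hI := u.Iz_pos
  have e19 := u.inv_le (i := 18) (j := 19) (by norm_num)
  have e18 := u.inv_le (i := 17) (j := 18) (by norm_num)
  have e17 := u.inv_le (i := 0) (j := 17) (by norm_num)
  rw [pow_zero] at e17
  have ma := u.mass_pos (row_lt a)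
  have mb := u.mass_pos (row_lt b)
  obtain ⟨i1, j1⟩ := tb_int (integrable_kerE_mul (e := 2 * G.ξ) (by linarith)
    (integrable_Wr (G := G) (row a)) (integrable_Wr (G := G) (row b)))
    (integrable_gz' (G := G) G.ξ) (integrable_gz' (G := G) G.ξ)
  have i2 : Integrable fun p : Pt × Pt =>
      min (ker (p.1 - p.2)) ((G.n : ℝ) ^ 20) * (G.φ a p.1 ^ 2 * G.φ b p.2 ^ 2) :=
    ((u.sharp.integrable_sq a).mul_prod (u.sharp.integrable_sq b)).bdd_mul
      ((measurable_ker.comp (measurable_fst.sub measurable_snd)).min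
        measurable_const).aestronglyMeasurable
      (Filter.Eventually.of_forall fun p => by
        rw [Real.norm_of_nonneg (le_min (ker_nonneg _) (by positivity))]
        exact min_le_right _ _)
  refine le_trans ?_ (integral_mono_ae (i1.div_const (G.mass (row a) * G.mass (row b))) i2 ?_)
  · rw [integral_div, j1]
    have k1 := h.X_ge u a b
    have k2 : (1 - G.ξ) * G.Iz ≤ ∫ z, G.gz G.ξ z := by
      rw [gz, integral_indicator measurableSet_Icc]
      exact u.Iz_in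
    have k3 := (u.mass_mem (row_lt a)).2
    have k4 := (u.mass_mem (row_lt b)).2
    have k5 : 0 ≤ ∫ p : (ℝ × ℝ) × (ℝ × ℝ), kerE (2 * G.ξ) (p.1 - p.2) *
        (G.Wr (row a) p.1 * G.Wr (row b) p.2) := integral_nonneg fun p =>
      mul_nonneg (kerE_nonneg _ _) (mul_nonneg (h.Wr_nonneg u _ _) (h.Wr_nonneg u _ _))
    obtain ⟨v0, v1⟩ := h.Vm_mem u a b
    generalize (∫ p : (ℝ × ℝ) × (ℝ × ℝ), kerE (2 * G.ξ) (p.1 - p.2) *
        (G.Wr (row a) p.1 * G.Wr (row b) p.2)) = X at *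
    have p19 : 0 < 1 / (G.n : ℝ) ^ 19 := by positivity
    generalize 1 / (G.n : ℝ) ^ 19 = δ at *
    generalize 1 / (G.n : ℝ) ^ 18 = ε at *
    generalize 1 / (G.n : ℝ) ^ 17 = γ at *
    have hε : 0 < ε := by linarith
    have k6 : 0 ≤ (1 - G.ξ) * G.Iz := mul_nonneg (by linarith) hI.le
    have k7 : (1 - ε) / 16 ≤ (1 - G.ξ) ^ 2 / (4 + ε) ^ 2 := by
      rw [div_le_div_iff₀ (by norm_num) (by positivity)]
      nlinarith [sq_nonneg G.ξ, mul_pos hε hε, mul_pos hε (mul_pos hε hε)]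
    calc _ ≤ (G.Vm V a b - 7 * δ) * (1 - ε) := by nlinarith [mul_pos p19 hε]
      _ = 16 * G.J ^ 2 * (G.Vm V a b - 7 * δ) / G.J ^ 2 * ((1 - ε) / 16) := by field_simp
      _ ≤ X / G.J ^ 2 * ((1 - ε) / 16) :=
          mul_le_mul_of_nonneg_right (by gcongr) (by linarith)
      _ ≤ X / G.J ^ 2 * ((1 - G.ξ) ^ 2 / (4 + ε) ^ 2) := by gcongr
      _ = X * ((1 - G.ξ) * G.Iz * ((1 - G.ξ) * G.Iz)) /
          (G.J * (4 + ε) * G.Iz * (G.J * (4 + ε) * G.Iz)) := by field_simp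
      _ ≤ _ := by
          have := k6.trans k2
          gcongr
  · filter_upwards [tb_ae] with p hp
    have n : 0 ≤ min (ker (p.1 - p.2)) ((G.n : ℝ) ^ 20) * (G.φ a p.1 ^ 2 * G.φ b p.2 ^ 2) :=
      mul_nonneg (le_min (ker_nonneg _) (by positivity)) (by positivity)
    have g : ∀ z, G.gz G.ξ z = 0 ∨ (G.gz G.ξ z = G.gz 1 z ∧ |z| ≤ G.ξ) := by
      intro z
      by_cases k : z ∈ Icc (-G.ξ) G.ξ
      · refine Or.inr ⟨?_, abs_le.2 k⟩
        rw [gz, gz, indicator_of_mem k, indicator_of_mem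
          (show z ∈ Icc (-1 : ℝ) 1 from ⟨by linarith [k.1], by linarith [k.2]⟩)]
      · exact Or.inl (indicator_of_notMem k _)
    rcases g (p.1 2) with g1 | ⟨g1, z1⟩
    · simpa [g1] using n
    rcases g (p.2 2) with g2 | ⟨g2, z2⟩
    · simpa [g2] using n
    have k1 : kerE (2 * G.ξ) (pl p.1 - pl p.2) ≤ min (ker (p.1 - p.2)) ((G.n : ℝ) ^ 20) := by
      refine le_min (kerE_le_ker hp ((abs_sub _ _).trans (by linarith)))
        ((kerE_le (by linarith) _).trans ?_)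
      rw [ξ, inv_le_comm₀ (by positivity) (by positivity), ← one_div]
      have : 0 < 1 / (G.n : ℝ) ^ 20 := by positivity
      linarith
    have k2 := h.Wr_le u (row_lt a) (pl p.1)
    have k3 := h.Wr_le u (row_lt b) (pl p.2)
    have k4 := h.Wr_nonneg u (row a) (pl p.1)
    have k5 := h.Wr_nonneg u (row b) (pl p.2)
    have k6 := gz_nonneg (G := G) 1 (p.1 2)
    have k7 := gz_nonneg (G := G) 1 (p.2 2)
    have k8 := (kerE_nonneg _ _).trans k1
    have k9 := k4.trans k2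
    rw [g1, g2, u.φ_sq, u.φ_sq]
    calc _ ≤ min (ker (p.1 - p.2)) ((G.n : ℝ) ^ 20) * (G.mr (row a) (pl p.1) *
          G.mr (row b) (pl p.2)) * (G.gz 1 (p.1 2) * G.gz 1 (p.2 2)) /
          (G.mass (row a) * G.mass (row b)) := by gcongr
      _ = _ := by field_simp

lemma OK.diag_up (h : G.OK V) (u : G.UF) (a b : Arm G.M) : ∃ F : Pt × Pt → ℝ, Integrable F ∧
    (∀ p : Pt × Pt, p.1 0 ≠ p.2 0 → ker (p.1 - p.2) * (G.φ a p.1 ^ 2 * G.φ b p.2 ^ 2) ≤ F p) ∧
    ∫ p, F p ≤ G.Vm V a b + 7 * (1 / (G.n : ℝ) ^ 18) := by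
  have hn := u.n_pos
  have hJ := u.J_ge
  have hI := u.Iz_pos
  have e18 := u.inv_le (i := 0) (j := 18) (by norm_num)
  rw [pow_zero] at e18
  have ma := u.mass_pos (row_lt a)
  have mb := u.mass_pos (row_lt b)
  obtain ⟨i0, j0⟩ := h.Y_le u a b
  obtain ⟨i1, j1⟩ := tb_int i0 (integrable_gz' (G := G) 1) (integrable_gz' (G := G) 1)
  refine ⟨_, i1.div_const (G.mass (row a) * G.mass (row b)), fun p hp => ?_, ?_⟩
  · have k1 := ker_le_ker2 hp
    have k2 := (u.mr_mem (row a) (pl p.1)).1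
    have k3 := (u.mr_mem (row b) (pl p.2)).1
    have k6 := gz_nonneg (G := G) 1 (p.1 2)
    have k7 := gz_nonneg (G := G) 1 (p.2 2)
    rw [u.φ_sq, u.φ_sq]
    calc _ = ker (p.1 - p.2) * (G.mr (row a) (pl p.1) * G.mr (row b) (pl p.2)) *
          (G.gz 1 (p.1 2) * G.gz 1 (p.2 2)) / (G.mass (row a) * G.mass (row b)) := by field_simp
      _ ≤ _ := by gcongr
  · rw [integral_div, j1, integral_gz_one]
    have k3 := (u.mass_mem (row_lt a)).1
    have k4 := (u.mass_mem (row_lt b)).1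
    obtain ⟨v0, v1⟩ := h.Vm_mem u a b
    have hε : 0 < 1 / (G.n : ℝ) ^ 18 := by positivity
    generalize 1 / (G.n : ℝ) ^ 18 = ε at *
    have k5 : 0 < 4 - ε := by linarith
    have k7 : 16 / (4 - ε) ^ 2 ≤ 1 + ε := by
      rw [div_le_iff₀ (by positivity)]
      nlinarith [mul_pos hε hε, mul_pos hε (mul_pos hε hε)]
    calc _ ≤ 16 * G.J ^ 2 * (G.Vm V a b + 5 * ε) * (G.Iz * G.Iz) /
          (G.J * (4 - ε) * G.Iz * (G.J * (4 - ε) * G.Iz)) := by gcongr
      _ = (G.Vm V a b + 5 * ε) * (16 / (4 - ε) ^ 2) := by field_simp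
      _ ≤ (G.Vm V a b + 5 * ε) * (1 + ε) := by gcongr
      _ ≤ _ := by nlinarith

lemma OK.off_up (h : G.OK V) (u : G.UF) :
    Integrable (fun p : Pt × Pt => ker (p.1 - p.2) *
      ((∑ a, (G.η a p.1 - G.φ a p.1) ^ 2) * (∑ a, G.η a p.2 ^ 2) +
        (∑ a, G.η a p.1 ^ 2) * ∑ a, (G.η a p.2 - G.φ a p.2) ^ 2)) ∧
    ∫ p : Pt × Pt, ker (p.1 - p.2) *
      ((∑ a, (G.η a p.1 - G.φ a p.1) ^ 2) * (∑ a, G.η a p.2 ^ 2) +
        (∑ a, G.η a p.1 ^ 2) * ∑ a, (G.η a p.2 - G.φ a p.2) ^ 2) ≤ 1 / (G.n : ℝ) ^ 18 := by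
  have hn := u.n_pos
  have hM := h.M_le'
  have hw := h.w_pos u
  have mη : ∀ a, Measurable (G.η a) := fun a => (u.soft.smooth a).1.continuous.measurable
  have mφ : ∀ a, Measurable (G.φ a) := fun a => (u.sharp.bm a).1
  have m1 : Measurable fun x => ∑ a, (G.η a x - G.φ a x) ^ 2 := by fun_prop
  have m2 : Measurable fun x => ∑ a, G.η a x ^ 2 := by fun_prop
  have mk : Measurable fun p : Pt × Pt => ker (p.1 - p.2) :=
    measurable_ker.comp (measurable_fst.sub measurable_snd)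
  have i1 : ∀ a, Integrable fun x => (G.η a x - G.φ a x) ^ 2 := fun a => by
    have k1 : Integrable fun x => G.η a x ^ 2 := by
      simp only [pow_two]
      exact ((u.soft.smooth a).1.continuous.mul
        (u.soft.smooth a).1.continuous).integrable_of_hasCompactSupport (u.soft.smooth a).2.mul_left
    refine ((k1.add (u.sharp.integrable_sq a)).const_mul 2).mono'
      (((mη a).sub (mφ a)).pow_const 2).aestronglyMeasurable
      (Filter.Eventually.of_forall fun x => ?_)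
    rw [Real.norm_of_nonneg (sq_nonneg _), Pi.add_apply]
    nlinarith [sq_nonneg (G.η a x + G.φ a x)]
  have i2 : Integrable fun x => ∑ a, (G.η a x - G.φ a x) ^ 2 :=
    integrable_finsetSum _ fun a _ => i1 a
  have j2 : ∫ x, ∑ a, (G.η a x - G.φ a x) ^ 2 ≤ 3 * (G.n : ℝ) ^ 81 * (1 / (G.n : ℝ) ^ 300) := by
    rw [integral_finsetSum _ fun a _ => i1 a]
    refine (Finset.sum_le_card_nsmul _ _ ((G.n : ℝ) ^ 80 * G.w) fun a _ => ?_).trans ?_
    · simpa [lc, Pi.single_apply] using u.soft.close (Pi.single a 1)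
    · have := h.w_le'
      simp only [Finset.card_univ, Fintype.card_prod, Fintype.card_fin, nsmul_eq_mul]
      push_cast
      calc _ ≤ G.n * 3 * ((G.n : ℝ) ^ 80 * (1 / (G.n : ℝ) ^ 300)) := by gcongr
        _ = _ := by ring
  have b2 : ∀ x, ∑ a, G.η a x ^ 2 ≤ 6 * (G.n : ℝ) ^ 53 := fun x => by
    refine (Finset.sum_le_card_nsmul _ _ (2 * (G.n : ℝ) ^ 52) fun a _ => ?_).trans ?_
    · have k1 : G.θ a x ^ 2 ≤ 1 := pow_le_one₀ (u.θ_mem a x).1 (u.θ_mem a x).2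
      have k2 := u.φ0_le x
      have k3 := u.inv_mass_le (row_lt a)
      have k4 := u.mass_pos (row_lt a)
      rw [η, div_pow, mul_pow, Real.sq_sqrt k4.le, div_eq_mul_one_div]
      calc _ ≤ 2 * 1 * (G.n : ℝ) ^ 52 := by gcongr
        _ = _ := by ring
    · simp only [Finset.card_univ, Fintype.card_prod, Fintype.card_fin, nsmul_eq_mul]
      push_cast
      calc _ ≤ G.n * 3 * (2 * (G.n : ℝ) ^ 52) := by gcongr
        _ = _ := by ring
  have hl := u.l_ge
  have pot := tb_pot3 m2 (fun x => by positivity) b2 (measurableSet_box (G.l / 2) (G.l / 2) 2)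
    (isCompact_box _ _ _).measure_lt_top.ne fun x hx => Finset.sum_eq_zero fun a _ => by
      rw [image_eq_zero_of_notMem_tsupport fun k => hx (u.supp a k)]
      simp
  rw [volume_box (by linarith) (by linarith) (by norm_num)] at pot
  obtain ⟨i3, j3⟩ := tb_pot mk (fun _ => ker_nonneg _) m1 m2 (fun x => by positivity)
    (fun x => by positivity) i2 pot
  obtain ⟨i4, j4⟩ := tb_pot' mk (fun _ => ker_nonneg _) (fun x y => ker_sub_comm x y) m1 m2
    (fun x => by positivity) (fun x => by positivity) i2 pot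
  simp only [mul_add (ker _)]
  refine ⟨i3.add i4, ?_⟩
  rw [integral_add i3 i4]
  have k1 : 6 * (G.n : ℝ) ^ 53 * (7 + 8 * (G.l / 2) * (G.l / 2) * 2) ≤ (G.n : ℝ) ^ 106 := by
    have c1 : (8 * (G.l / 2) * (G.l / 2) * 2 : ℝ) = 4 * (G.n : ℝ) ^ 52 := by
      rw [l]; push_cast; ring
    have c2 := u.pow_ge (j := 52) (by norm_num)
    have c3 := u.mul_pow_le (i := 105) (j := 106) (by norm_num)
    have c4 : 0 < (G.n : ℝ) ^ 105 := by positivity
    rw [c1]
    calc _ ≤ 6 * (G.n : ℝ) ^ 53 * (5 * (G.n : ℝ) ^ 52) := by gcongr; linarith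
      _ = 30 * (G.n : ℝ) ^ 105 := by ring
      _ ≤ _ := by linarith
  have k2 : 6 * (G.n : ℝ) ^ 53 * (7 + 8 * (G.l / 2) * (G.l / 2) * 2) *
      ∫ x, ∑ a, (G.η a x - G.φ a x) ^ 2 ≤ 3 * (1 / (G.n : ℝ) ^ 113) := by
    calc _ ≤ (G.n : ℝ) ^ 106 * (3 * (G.n : ℝ) ^ 81 * (1 / (G.n : ℝ) ^ 300)) :=
          mul_le_mul k1 j2 (integral_nonneg fun x => by positivity) (by positivity)
      _ = _ := by field_simp
  have k3 := u.inv_le (i := 18) (j := 113) (by norm_num)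
  have k4 : 0 < 1 / (G.n : ℝ) ^ 18 := by positivity
  linarith

lemma OK.two_up (h : G.OK V) (u : G.UF) : TBup G.η (G.Vm V) (1 / (G.n : ℝ) ^ 17) := by
  intro d
  choose F hF1 hF2 hF3 using h.diag_up u
  obtain ⟨i1, j1⟩ := h.off_up u
  have i2 : ∀ a, Integrable fun p => ∑ b, d a b ^ 2 * F a b p := fun a =>
    integrable_finsetSum _ fun b _ => (hF1 a b).const_mul _
  have i3 : Integrable fun p => ∑ a, ∑ b, d a b ^ 2 * F a b p :=
    integrable_finsetSum _ fun a _ => i2 a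
  have i4 := i1.const_mul (∑ a, ∑ b, d a b ^ 2)
  refine (integral_mono_of_nonneg (Filter.Eventually.of_forall fun p =>
    mul_nonneg (ker_nonneg _) (sq_nonneg _)) (i3.add i4) ?_).trans ?_
  · filter_upwards [tb_ae] with p hp
    refine (mul_le_mul_of_nonneg_left (tb_point u.sharp u.soft d p.1 p.2) (ker_nonneg _)).trans ?_
    rw [mul_add, Pi.add_apply, mul_left_comm, Finset.mul_sum]
    refine add_le_add (Finset.sum_le_sum fun a _ => ?_) le_rfl
    rw [Finset.mul_sum]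
    refine Finset.sum_le_sum fun b _ => ?_
    rw [mul_left_comm]
    exact mul_le_mul_of_nonneg_left (hF2 a b p hp) (sq_nonneg _)
  · simp only [Pi.add_apply]
    rw [integral_add i3 i4, integral_const_mul, integral_finsetSum _ fun a _ => i2 a]
    refine (add_le_add le_rfl (mul_le_mul_of_nonneg_left j1 (by positivity))).trans ?_
    rw [Finset.sum_mul, ← Finset.sum_add_distrib]
    refine Finset.sum_le_sum fun a _ => ?_
    rw [integral_finsetSum _ fun b _ => (hF1 a b).const_mul _, Finset.sum_mul,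
      ← Finset.sum_add_distrib]
    refine Finset.sum_le_sum fun b _ => ?_
    rw [integral_const_mul, ← mul_add, mul_comm]
    refine mul_le_mul_of_nonneg_right ?_ (sq_nonneg _)
    have k1 := u.inv_le (i := 17) (j := 18) (by norm_num)
    have k2 : 0 < 1 / (G.n : ℝ) ^ 17 := by have := u.n_pos; positivity
    linarith [hF3 a b]

end Geo

theorem two_low : Ev fun G V =>
    TBlow G.φ ((G.n : ℝ) ^ 20) (G.Vm V) (1 / (G.n : ℝ) ^ 17) :=
  ev_UF.mono fun _ _ h u => h.two_low u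

theorem two_up : Ev fun G V => TBup G.η (G.Vm V) (1 / (G.n : ℝ) ^ 17) :=
  ev_UF.mono fun _ _ h u => h.two_up u

end Vale.Agent.P370
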