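import Vale.Agent.P370.FinC
import Vale.Agent.P370.ManyLow
import Vale.Agent.P370.TwoBody

/-!
The ground energy of the instance in terms of the fermion model.
-/

namespace Vale.Agent.P370

open MeasureTheory

lemma fmE_scale {N M : ℕ} (U T : ℝ) (W : Arm M → Arm M → ℝ)
    (c : (Fin N → Fin 2) → (Fin N → Arm M) → ℝ) :
    fmE (U * T) (fun a b => U * W a b) c = U * fmE T W c := by
  simp only [fmE, fmE1, Finset.mul_sum, mul_add, mul_assoc, Finset.sum_mul, mul_ite, mul_zero,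
    ite_mul, zero_mul]

lemma FM.Vm_eq (I : FM) (hn : 0 < I.n) :
    (fun a b => (I.lam : ℝ)⁻¹ * I.geo.Vm I.V a b) =
      fun a b => I.U * I.W (cU * (I.n : ℝ) ^ 10) a b := by
  have h : (0 : ℝ) < I.n := by exact_mod_cast hn
  funext a b
  have e1 : (I.geo.J : ℝ) = (I.n : ℝ) ^ 4 := Nat.cast_pow _ _
  have e2 : (I.geo.d : ℝ) = (I.n : ℝ) ^ 6 := Nat.cast_pow _ _
  by_cases hab : a = b
  · rw [Geo.Vm, if_pos hab, show I.W (cU * (I.n : ℝ) ^ 10) a b = _ from if_pos hab, e1, FM.U,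
      FM.lam_cast]
    field_simp
  · rw [Geo.Vm, if_neg hab, show I.W (cU * (I.n : ℝ) ^ 10) a b = _ from if_neg hab, e1, e2, FM.U,
      FM.lam_cast]
    field_simp
    rfl

lemma arith_low {n U N : ℝ} (hn : 1000 ≤ n) (hU : U = 1 / n ^ 48014) (hN0 : 0 ≤ N)
    (hN : N ≤ 5 * n) :
    N * (6 * (U / n ^ 2)) + (n ^ 48000)⁻¹ * N ^ 2 * (1 / n ^ 17) ≤ U / 10 ∧
      2 * ((n ^ 48000)⁻¹ * N ^ 2 * n ^ 20) ^ 2 / (1 / n ^ 130 / 2) ≤ U / 100 := by
  have h1 : (1 : ℝ) ≤ n := by linarith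
  have n0 : (0 : ℝ) < n := by linarith
  have hU0 : 0 < U := by rw [hU]; exact one_div_pos.2 (pow_pos n0 _)
  have hUn : U / n ≤ U / 1000 := div_le_div_of_nonneg_left hU0.le (by norm_num) hn
  have hN2 : N ^ 2 ≤ (5 * n) ^ 2 := pow_le_pow_left₀ hN0 hN 2
  have i0 : 0 ≤ (n ^ 48000)⁻¹ := (inv_pos.2 (pow_pos n0 _)).le
  constructor
  · have a1 : N * (6 * (U / n ^ 2)) ≤ 30 * (U / n) := by
      calc _ ≤ 5 * n * (6 * (U / n ^ 2)) := mul_le_mul_of_nonneg_right hN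
            (mul_nonneg (by norm_num) (div_nonneg hU0.le (pow_pos n0 _).le))
        _ = _ := by clear hU; field_simp; ring
    have a2 : (n ^ 48000)⁻¹ * N ^ 2 * (1 / n ^ 17) ≤ 25 * (U / n) := by
      calc _ ≤ (n ^ 48000)⁻¹ * (5 * n) ^ 2 * (1 / n ^ 17) := mul_le_mul_of_nonneg_right
            (mul_le_mul_of_nonneg_left hN2 i0) (one_div_pos.2 (pow_pos n0 _)).le
        _ = _ := by rw [hU]; field_simp; ring
    linarith
  · calc _ ≤ 2 * ((n ^ 48000)⁻¹ * (5 * n) ^ 2 * n ^ 20) ^ 2 / (1 / n ^ 130 / 2) := by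
          refine div_le_div_of_nonneg_right (mul_le_mul_of_nonneg_left (pow_le_pow_left₀
            (mul_nonneg (mul_nonneg i0 (sq_nonneg _)) (pow_pos n0 _).le)
            (mul_le_mul_of_nonneg_right (mul_le_mul_of_nonneg_left hN2 i0) (pow_pos n0 _).le) 2)
            (by norm_num)) (half_pos (one_div_pos.2 (pow_pos n0 _))).le
      _ = 2500 * (n ^ 174 / n ^ 96000) := by clear hU; field_simp; ring
      _ ≤ n * n * (n ^ 174 / n ^ 96000) := mul_le_mul_of_nonneg_right (by nlinarith)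
          (div_nonneg (pow_pos n0 _).le (pow_pos n0 _).le)
      _ = n ^ 176 / n ^ 96000 := by ring
      _ ≤ U / n ^ 1 := by rw [hU]; exact pw' h1 (by norm_num)
      _ ≤ _ := by rw [pow_one]; linarith

lemma arith_e {n U e M t : ℝ} (hn : 1000 ≤ n) (hU0 : 0 < U) (hM0 : 0 ≤ M) (hM : M ≤ n)
    (ht0 : 0 ≤ t) (ht : t ≤ n) (he : e = U * (2 * M * (cU * n ^ 10) + t)) :
    0 ≤ e ∧ e ≤ n ^ 12 * U := by
  have h1 : (1 : ℝ) ≤ n := by linarith
  have n0 : (0 : ℝ) < n := by linarith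
  obtain ⟨c1, c2⟩ := cU_mem
  have p := pow_pos n0 10
  have a0 : 0 ≤ 2 * M * (cU * n ^ 10) := by positivity
  have a1 : 2 * M * (cU * n ^ 10) ≤ 2 * n * (2 * n ^ 10) := by gcongr
  have a2 : t ≤ n * n ^ 10 := ht.trans (le_mul_of_one_le_right n0.le (one_le_pow₀ h1))
  have a3 : 5 * (n * n ^ 10) ≤ n * (n * n ^ 10) :=
    mul_le_mul_of_nonneg_right (by linarith) (by positivity)
  rw [he, mul_comm U]
  exact ⟨by positivity, mul_le_mul_of_nonneg_right (by nlinarith) hU0.le⟩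

lemma arith_up {n U δ e t : ℝ} {N : ℕ} (hn : 1000 ≤ n) (hU : U = 1 / n ^ 48014)
    (hN : (N : ℝ) ≤ 5 * n) (ht0 : 0 ≤ t) (ht : t ≤ n) (hδ : δ = n ^ 80 * (4 * t * n ^ 9 * U))
    (he0 : 0 ≤ e) (he : e ≤ 2 * n ^ 12 * U) : (1 + δ) ^ N * e ≤ e + U / 100 := by
  have h1 : (1 : ℝ) ≤ n := by linarith
  have n0 : (0 : ℝ) < n := by linarith
  have hU0 : 0 < U := by rw [hU]; exact one_div_pos.2 (pow_pos n0 _)
  have hδ0 : 0 ≤ δ := by
    rw [hδ]
    exact mul_nonneg (pow_pos n0 _).le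
      (mul_nonneg (mul_nonneg (by linarith) (pow_pos n0 _).le) hU0.le)
  have hδ1 : δ ≤ n ^ 80 * (n * n * n ^ 9 * U) := by
    rw [hδ]
    exact mul_le_mul_of_nonneg_left (mul_le_mul_of_nonneg_right (mul_le_mul_of_nonneg_right
      (mul_le_mul (by linarith) ht ht0 n0.le) (pow_pos n0 _).le) hU0.le) (pow_pos n0 _).le
  have a1 : N * δ ≤ 1 / n ^ 14 := by
    calc _ ≤ n * n * (n ^ 80 * (n * n * n ^ 9 * U)) :=
          mul_le_mul (by nlinarith) hδ1 hδ0 (mul_pos n0 n0).le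
      _ = n ^ 93 / n ^ 48014 := by rw [hU]; ring
      _ ≤ _ := pw h1 (by norm_num)
  clear hU hδ hδ1
  have a0 : 0 ≤ N * δ := mul_nonneg (Nat.cast_nonneg _) hδ0
  have a2 : 1 / n ^ 14 ≤ 1 := (div_le_one (pow_pos n0 _)).2 (one_le_pow₀ h1)
  have a3 : (1 + δ) ^ N ≤ 1 + 2 * (N * δ) := by
    calc _ ≤ Real.exp δ ^ N := pow_le_pow_left₀ (by linarith) (by linarith [Real.add_one_le_exp δ]) N
      _ = Real.exp (N * δ) := (Real.exp_nat_mul δ N).symm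
      _ ≤ _ := by
        have := Real.abs_exp_sub_one_le (x := N * δ) (by rw [abs_of_nonneg a0]; linarith)
        rw [abs_of_nonneg a0] at this
        linarith [le_abs_self (Real.exp (N * δ) - 1)]
  have a4 : 2 * (N * δ) * e ≤ 2 * (1 / n ^ 14) * (2 * n ^ 12 * U) :=
    mul_le_mul (by linarith) he he0 (by positivity)
  have a5 : 2 * (1 / n ^ 14) * (2 * n ^ 12 * U) = 4 * U / n ^ 2 := by field_simp; ring
  have a6 : 4 * U / n ^ 2 ≤ U / 100 := by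
    rw [div_le_div_iff₀ (pow_pos n0 _) (by norm_num)]
    nlinarith [mul_le_mul_of_nonneg_left (show (400 : ℝ) ≤ n ^ 2 by nlinarith) hU0.le]
  nlinarith [mul_le_mul_of_nonneg_right a3 he0]

theorem ground_inst {fp : ℕ → ℚ} (hp : Apx Real.pi fp) : ∃ n₀, ∀ I : FM, I.WF n₀ →
    (I.Yes → ground (5 * I.M) (unscale I.lam (I.nucS fp)) ≤ (((I.lam : ℝ) ^ 2 * (5 * I.M * I.E +
      I.U * (2 * I.M * (cU * (I.n : ℝ) ^ 10) + I.2.2.2.2.1) + I.U / 8) : ℝ) : EReal)) ∧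
    (I.No → (((I.lam : ℝ) ^ 2 * (5 * I.M * I.E +
      I.U * (2 * I.M * (cU * (I.n : ℝ) ^ 10) + I.2.2.2.2.2) - I.U / 8) : ℝ) : EReal) ≤
      ground (5 * I.M) (unscale I.lam (I.nucS fp))) := by
  obtain ⟨n1, h1⟩ := (sharp.and (soft.and (two_low.and (two_up.and (Ev.const 1000))))).inst
  obtain ⟨n2, h2⟩ := ob_inst hp
  refine ⟨max n1 n2, fun I hI => ?_⟩
  obtain ⟨hsh, hso, hlow, hup, hn⟩ := h1 I (hI.mono (le_max_left _ _))
  obtain ⟨o1, o2⟩ := h2 I (hI.mono (le_max_right _ _))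
  obtain ⟨-, -, hM, -, -, -, hT, hA, hB⟩ := hI
  have gn : I.geo.n = I.n := rfl
  simp only [gn] at hso hlow hup hn
  have hn1 : (1 : ℝ) ≤ I.n := by linarith
  have n0 : (0 : ℝ) < I.n := by linarith
  have hn0 : 0 < I.n := by exact_mod_cast n0
  have hM' : (I.M : ℝ) ≤ I.n := by exact_mod_cast hM
  have hT' : (I.2.2.2.1 : ℝ) ≤ I.n := by exact_mod_cast hT
  have hB' : (I.2.2.2.2.2 : ℝ) ≤ I.n := by exact_mod_cast hB
  have hA' : (I.2.2.2.2.1 : ℝ) ≤ I.n := by exact_mod_cast hA.le.trans hB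
  have hU : I.U = 1 / (I.n : ℝ) ^ 48014 := rfl
  have hU0 : 0 < I.U := one_div_pos.2 (pow_pos n0 _)
  have hl0 : (0 : ℝ) < I.lam := by rw [I.lam_cast]; exact pow_pos n0 _
  have hN : ((5 * I.M : ℕ) : ℝ) ≤ 5 * I.n := by push_cast; linarith
  have hGT : 0 ≤ I.geo.T := by rw [I.T_eq hn0]; exact mul_nonneg hU0.le (Nat.cast_nonneg _)
  have hu : (I.1.length : ℝ) ≤ cU * (I.n : ℝ) ^ 10 :=
    (le_self_pow₀ hn1 (by norm_num)).trans (le_mul_of_one_le_left (pow_pos n0 10).le cU_mem.1)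
  obtain ⟨l1, l2⟩ := arith_low hn hU (Nat.cast_nonneg _) hN
  rw [← I.lam_cast] at l1 l2
  have hε : 0 ≤ 6 * (I.U / (I.n : ℝ) ^ 2) :=
    mul_nonneg (by norm_num) (div_nonneg hU0.le (pow_pos n0 _).le)
  constructor
  · intro hy
    obtain ⟨c, hc, hc0, hE⟩ := hy _ hu
    obtain ⟨e0, e1⟩ := arith_e hn hU0 (Nat.cast_nonneg _) hM' (Nat.cast_nonneg _) hA' rfl
    have hδ : (I.n : ℝ) ^ 80 * I.geo.w =
        (I.n : ℝ) ^ 80 * (4 * I.2.2.2.1 * (I.n : ℝ) ^ 9 * I.U) := by rw [I.w_cast hn0]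
    have hδ0 : 0 ≤ (I.n : ℝ) ^ 80 * I.geo.w := by
      rw [hδ]
      exact mul_nonneg (pow_pos n0 _).le (mul_nonneg (mul_nonneg
        (mul_nonneg (by norm_num) (Nat.cast_nonneg _)) (pow_pos n0 _).le) hU0.le)
    have hV : ∀ a b, 0 ≤ I.geo.Vm I.V a b := fun a b => by
      unfold Geo.Vm
      split_ifs
      · exact div_nonneg (zero_le_one.trans cU_mem.1) (Nat.cast_nonneg _)
      · exact div_nonneg (Nat.cast_nonneg _) (mul_nonneg (sq_nonneg _) (Nat.cast_nonneg _))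
    obtain ⟨Ψ, hΨ, hΨ0, hle⟩ := many_up (N := 5 * I.M) (g := (I.lam : ℝ)⁻¹) (I.nucS fp) hsh hso o2
      hup hGT (inv_pos.2 hl0).le hε (one_div_pos.2 (pow_pos n0 _)).le hδ0 hV e0 hc hc0
      (by
        rw [I.Vm_eq hn0, I.T_eq hn0, mul_assoc]
        exact (fmE_scale _ _ _ c).trans_le (mul_le_mul_of_nonneg_left hE hU0.le))
    · refine (ground_le _ hl0 hΨ hΨ0 hle).trans (EReal.coe_le_coe_iff.2
        (mul_le_mul_of_nonneg_left ?_ (sq_nonneg _)))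
      have l0 : 0 ≤ ((5 * I.M : ℕ) : ℝ) * (6 * (I.U / (I.n : ℝ) ^ 2)) +
          (I.lam : ℝ)⁻¹ * ((5 * I.M : ℕ) : ℝ) ^ 2 * (1 / (I.n : ℝ) ^ 17) :=
        add_nonneg (mul_nonneg (Nat.cast_nonneg _) hε) (mul_nonneg (mul_nonneg (inv_pos.2 hl0).le
          (sq_nonneg _)) (one_div_pos.2 (pow_pos n0 _)).le)
      have u1 : I.U ≤ (I.n : ℝ) ^ 12 * I.U := le_mul_of_one_le_left hU0.le (one_le_pow₀ hn1)
      have := arith_up hn hU hN (Nat.cast_nonneg _) hT' hδ (add_nonneg e0 l0) (by linarith)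
      rw [← add_assoc] at this
      rw [show ((5 * I.M : ℕ) : ℝ) * I.E = 5 * I.M * I.E by push_cast; ring]
      linarith
  · intro hno
    obtain ⟨e0, e1⟩ := arith_e hn hU0 (Nat.cast_nonneg _) hM' (Nat.cast_nonneg _) hB' rfl
    refine le_trans (EReal.coe_le_coe_iff.2 (mul_le_mul_of_nonneg_left ?_ (sq_nonneg _)))
      (ground_ge (I.nucS fp) hl0 fun Ψ hΨ => many_low (N := 5 * I.M) (I.nucS fp) hsh o1 hlow hGT
        (inv_pos.2 hl0).le (pow_pos n0 _).le (half_pos (one_div_pos.2 (pow_pos n0 _)))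
        (one_div_pos.2 (pow_pos n0 _)).le (e1.trans ?_) (fun c hc => ?_) hΨ)
    · rw [show ((5 * I.M : ℕ) : ℝ) * I.E = 5 * I.M * I.E by push_cast; ring]
      linarith
    · calc _ = (I.n : ℝ) ^ 12 / (I.n : ℝ) ^ 48014 := by rw [hU]; ring
        _ ≤ 1 / (I.n : ℝ) ^ 131 := pw hn1 (by norm_num)
        _ ≤ _ := by
          rw [div_div, div_div, pow_succ _ 130]
          exact one_div_le_one_div_of_le (mul_pos (pow_pos n0 _) (by norm_num))
            (mul_le_mul_of_nonneg_left (by linarith) (pow_pos n0 _).le)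
    · rw [I.Vm_eq hn0, I.T_eq hn0, mul_assoc]
      exact (mul_le_mul_of_nonneg_left (hno _ hu c hc) hU0.le).trans_eq (fmE_scale _ _ _ c).symm

end Vale.Agent.P370
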