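import Vale.Agent.P370.InstDef
import Vale.Agent.P370.Num

/-!
The instance is computed in polynomial time.
-/

namespace Vale.Agent.P370

open Vale.Agent.Lib.TM Vale.Agent.P049

/-- Truncation that makes all unary loops polynomial on every input. -/
def FM.cut (I : FM) : FM :=
  (I.1, min I.2.1 I.1.length, I.2.2.1.map (fun r => r.map fun v => min v I.1.length), I.2.2.2)

theorem FM.cut_self {n₀ : ℕ} {I : FM} (h : I.WF n₀) : I.cut = I := by
  obtain ⟨-, -, h1, -, h2, -⟩ := h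
  have h3 : I.2.2.1.map (fun r => r.map fun v => min v I.1.length) = I.2.2.1 := by
    refine (List.map_congr_left fun r hr => ?_).trans (List.map_id _)
    refine (List.map_congr_left fun v hv => ?_).trans (List.map_id _)
    obtain ⟨a, ha, rfl⟩ := List.getElem_of_mem hr
    obtain ⟨b, hb, rfl⟩ := List.getElem_of_mem hv
    have h4 := h2 a b
    rw [FM.V, List.getD_eq_getElem _ _ ha, List.getD_eq_getElem _ _ hb] at h4
    exact min_eq_left h4
  rw [FM.cut, h3, min_eq_left h1]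

theorem FM.cut_eq {n₀ : ℕ} {I : FM} (h : I.WF n₀) {fp fs fL fU : ℕ → ℚ} :
    I.cut.inst fp fs fL fU = I.inst fp fs fL fU := by
  rw [FM.cut_self h]

section

variable {α β : Type} [Enc α] [Enc β]

/-- Computable and polynomially bounded. -/
def CB (f : α → ℕ) : Prop := CT 0 f ∧ Bd 0 f

lemma CB.const (c : ℕ) : CB fun _ : α => c := ⟨CT.const c, Bd.const c⟩

lemma CB.mul {f g : α → ℕ} (hf : CB f) (hg : CB g) : CB fun a => f a * g a :=
  ⟨hf.1.mul hg.1, hf.2.mul hg.2⟩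

lemma CB.add {f g : α → ℕ} (hf : CB f) (hg : CB g) : CB fun a => f a + g a :=
  ⟨hf.1.add hg.1, hf.2.add hg.2⟩

lemma CB.sub {f g : α → ℕ} (hf : CB f) (hg : CT 0 g) : CB fun a => f a - g a :=
  ⟨hf.1.sub hg, hf.2.of_le fun _ => Nat.sub_le _ _⟩

lemma CB.pow {f : α → ℕ} (hf : CB f) (c : ℕ) : CB fun a => f a ^ c :=
  ⟨hf.1.pow (CT.const c) (Bd.const c), Bd.npow hf.2 c⟩

lemma CB.min {f g : α → ℕ} (hf : CT 0 f) (hg : CB g) : CB fun a => min (f a) (g a) :=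
  ⟨hf.min hg.1, hg.2.of_le fun _ => min_le_right _ _⟩

lemma CB.comp {f : α → ℕ} (hf : CB f) {g : β → α} (hg : CT 0 g) : CB fun b => f (g b) :=
  ⟨hf.1.comp hg, hf.2.comp hg.size⟩

lemma CB.range {f : α → ℕ} (hf : CB f) : CT 0 fun a => List.range (f a) := hf.1.range hf.2

lemma CB.cast {f : α → ℕ} (hf : CB f) : CT 0 fun a => (f a : ℚ) := ct_natCast hf.1

lemma CB.qpow {k : α → ℕ} (hk : CB k) {x : α → ℚ} (hx : CT 0 x) : CT 0 fun a => x a ^ k a :=
  ct_qpow' hx hk.1 hk.2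

lemma ict_fst : CT 0 fun p : α × β => p.1 := CT.id.fst

lemma ict_snd : CT 0 fun p : α × β => p.2 := CT.id.snd

/-! ### The plateau functions and sums over features -/

lemma ct_pp {k : α → ℕ} (hk : CB k) {t : α → ℚ} (ht : CT 0 t) : CT 0 fun a => pp ℚ (k a) (t a) :=
  ct_qdiv (CT.const 1) (ct_qadd (CT.const 1) (((CB.const 2).mul hk).qpow ht))

lemma ct_pp1 {k : α → ℕ} (hk : CB k) {t : α → ℚ} (ht : CT 0 t) :
    CT 0 fun a => pp1 ℚ (k a) (t a) :=
  ct_qneg (ct_qmul (ct_qmul (ct_qmul (CT.const 2) hk.cast)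
    ((((CB.const 2).mul hk).sub (CT.const 1)).qpow ht)) (ct_qpow 2 (ct_pp hk ht)))

lemma ct_pp2 {k : α → ℕ} (hk : CB k) {t : α → ℚ} (ht : CT 0 t) :
    CT 0 fun a => pp2 ℚ (k a) (t a) :=
  ct_qadd (ct_qneg (ct_qmul (ct_qmul (ct_qmul (ct_qmul (CT.const 2) hk.cast)
    (ct_qsub (ct_qmul (CT.const 2) hk.cast) (CT.const 1)))
    ((((CB.const 2).mul hk).sub (CT.const 2)).qpow ht)) (ct_qpow 2 (ct_pp hk ht))))
    (ct_qmul (ct_qmul (ct_qmul (CT.const 8) (ct_qpow 2 hk.cast))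
      ((((CB.const 4).mul hk).sub (CT.const 2)).qpow ht)) (ct_qpow 3 (ct_pp hk ht)))

lemma ct_fsum {fs : α → List Feat} {P Q : α → ℚ → ℚ → ℚ} {x y : α → ℚ} (hf : CT 0 fs)
    (hP : CT 0 fun p : α × ℚ × ℚ => P p.1 p.2.1 p.2.2)
    (hQ : CT 0 fun p : α × ℚ × ℚ => Q p.1 p.2.1 p.2.2) (hx : CT 0 x) (hy : CT 0 y) :
    CT 0 fun a => fsum ℚ (fs a) (P a) (Q a) (x a) (y a) := by
  have h1 : CT 0 fun p : α × Feat => P p.1 ((x p.1 - p.2.2.1) / p.2.2.2.1) p.2.2.2.1 :=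
    hP.comp (g := fun p : α × Feat => (p.1, (x p.1 - p.2.2.1) / p.2.2.2.1, p.2.2.2.1))
      (by fun_prop)
  have h2 : CT 0 fun p : α × Feat => Q p.1 ((y p.1 - p.2.2.2.2.1) / p.2.2.2.2.2) p.2.2.2.2.2 :=
    hQ.comp (g := fun p : α × Feat => (p.1, (y p.1 - p.2.2.2.2.1) / p.2.2.2.2.2, p.2.2.2.2.2))
      (by fun_prop)
  exact ct_qsum (CT.map (f := fun a (f : Feat) => f.1 * P a ((x a - f.2.1) / f.2.2.1) f.2.2.1 *
    Q a ((y a - f.2.2.2.1) / f.2.2.2.2) f.2.2.2.2)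
    (ct_qmul (ct_qmul ict_snd.fst h1) h2) hf)

lemma ct_vK {k : α → ℕ} (hk : CB k) {fs : α → List Feat} {x y : α → ℚ} (hf : CT 0 fs)
    (hx : CT 0 x) (hy : CT 0 y) : CT 0 fun a => vK ℚ (k a) (fs a) (x a) (y a) := by
  have hk' : CB fun p : α × ℚ × ℚ => k p.1 := hk.comp ict_fst
  have p0 : CT 0 fun p : α × ℚ × ℚ => pp ℚ (k p.1) p.2.1 := ct_pp hk' ict_snd.fst
  have p1 : CT 0 fun p : α × ℚ × ℚ => pp1 ℚ (k p.1) p.2.1 / p.2.2 :=
    ct_qdiv (ct_pp1 hk' ict_snd.fst) ict_snd.snd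
  have p2 : CT 0 fun p : α × ℚ × ℚ => pp2 ℚ (k p.1) p.2.1 / p.2.2 ^ 2 :=
    ct_qdiv (ct_pp2 hk' ict_snd.fst) (ct_qpow 2 ict_snd.snd)
  have m := ct_fsum (P := fun a t _ => pp ℚ (k a) t) (Q := fun a t _ => pp ℚ (k a) t) hf p0 p0 hx hy
  have s1 := ct_fsum (P := fun a t h => pp2 ℚ (k a) t / h ^ 2) (Q := fun a t _ => pp ℚ (k a) t)
    hf p2 p0 hx hy
  have s2 := ct_fsum (P := fun a t _ => pp ℚ (k a) t) (Q := fun a t h => pp2 ℚ (k a) t / h ^ 2)
    hf p0 p2 hx hy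
  have s3 := ct_fsum (P := fun a t h => pp1 ℚ (k a) t / h) (Q := fun a t _ => pp ℚ (k a) t)
    hf p1 p0 hx hy
  have s4 := ct_fsum (P := fun a t _ => pp ℚ (k a) t) (Q := fun a t h => pp1 ℚ (k a) t / h)
    hf p0 p1 hx hy
  exact ct_qsub (ct_qdiv (ct_qadd s1 s2) (ct_qmul (CT.const 4) m))
    (ct_qdiv (ct_qadd (ct_qpow 2 s3) (ct_qpow 2 s4)) (ct_qmul (CT.const 8) (ct_qpow 2 m)))

lemma ct_FK {k κ l : α → ℕ} (hk : CB k) (hκ : CT 0 κ) (hl : CT 0 l) {fs : α → List Feat}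
    {x y z : α → ℚ} (hf : CT 0 fs) (hx : CT 0 x) (hy : CT 0 y) (hz : CT 0 z) :
    CT 0 fun a => FK ℚ (k a) (fs a) (κ a) (l a) (x a) (y a) (z a) :=
  ct_qmul (ct_qsub (ct_vK hk hf hx hy) (ct_natCast hκ))
    (ct_qmul (ct_qmul (ct_pp hk (ct_qdiv hx (ct_natCast hl))) (ct_pp hk (ct_qdiv hy (ct_natCast hl))))
      (ct_pp hk (ct_qdiv hz (CT.const 4))))

lemma ct_feats {G : α → Geo} (hn : CB fun a => (G a).n) (hM : CB fun a => (G a).M)
    (hs : CT 0 fun a => (G a).st) (hw : CT 0 fun a => (G a).w) : CT 0 fun a => (G a).feats := by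
  have hD : CT 0 fun a => (G a).D := (hn.pow 18).1
  have hd : CT 0 fun a => (G a).d := (hn.pow 6).1
  have hL : CT 0 fun a => (G a).Lk := (hn.pow 5).1
  have hX : CT 0 fun a => (G a).X := hD.mul (hs.length.add (CT.const 1))
  have hwell : CT 0 fun p : α × ℕ × ℕ => (G p.1).well p.2.1 p.2.2 :=
    (CT.const 1).mk ((ct_natCast ((hD.comp ict_fst).mul (ict_snd.fst.add (CT.const 1)))).mk
      ((CT.const 1).mk ((ct_natCast ((hd.comp ict_fst).mul ict_snd.snd)).mk (CT.const 1))))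
  have hget : CT 0 fun p : α × ℕ => (G p.1).st.getD p.2 (0, 0) :=
    (hs.comp ict_fst).getD ict_snd (CT.const _)
  have w1 := hwell.comp (ict_fst.mk (ict_snd.mk hget.fst))
  have w2 := hwell.comp (ict_fst.mk (ict_snd.mk hget.snd))
  have h1 : CT 0 fun a => (G a).wells :=
    CT.flatMap (f := fun a s => bif ((G a).st.getD s (0, 0)).1 == ((G a).st.getD s (0, 0)).2 then
      [(G a).well s ((G a).st.getD s (0, 0)).1] else
      [(G a).well s ((G a).st.getD s (0, 0)).1, (G a).well s ((G a).st.getD s (0, 0)).2])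
      ((hget.fst.beqNat hget.snd).cond (w1.cons (CT.const [])) (w1.cons (w2.cons (CT.const []))))
      hs.range_length
  have qn : CT 0 fun p : α × ℕ => ((G p.1).n : ℚ) := hn.cast.comp ict_fst
  have qX : CT 0 fun p : α × ℕ => ((G p.1).X : ℚ) / 2 :=
    ct_qdiv (ct_natCast (hX.comp ict_fst)) (CT.const 2)
  have qL : CT 0 fun p : α × ℕ => ((G p.1).Lk : ℚ) := ct_natCast (hL.comp ict_fst)
  have qw : CT 0 fun p : α × ℕ => (G p.1).w := hw.comp ict_fst
  have nd : CT 0 fun p : α × ℕ => (G p.1).d := hd.comp ict_fst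
  have qd := (ct_natCast (nd.mul ict_snd)).mk (CT.const (1 : ℚ))
  have h2 : CT 0 fun p : α × ℕ => (G p.1).wire p.2 :=
    (ct_qdiv (CT.const 1) (ct_qpow 50 qn)).mk (qX.mk (qX.mk qd))
  have h3 : CT 0 fun p : α × ℕ => (G p.1).link p.2 :=
    qw.mk ((ct_qneg (ct_qdiv qL (CT.const 2))).mk
      ((ct_qadd (ct_qdiv qL (CT.const 2)) (CT.const 1)).mk qd))
  have h4 : CT 0 fun p : α × ℕ => (G p.1).hub p.2 :=
    (ct_qmul qw (ct_qpow 60 qn)).mk ((ct_qneg (ct_qadd qL (CT.const 1))).mk ((CT.const 1).mk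
      ((ct_natCast (nd.mul (((CT.const 3).mul ict_snd).add (CT.const 1)))).mk
        (ct_qadd (ct_natCast nd) (CT.const 1)))))
  have h5 := ((CB.const 3).mul hM).range
  have m2 := CT.map (f := fun a => (G a).wire) h2 h5
  have m3 := CT.map (f := fun a => (G a).link) h3 h5
  have m4 := CT.map (f := fun a => (G a).hub) h4 hM.range
  unfold Geo.feats
  exact ((h1.append m2).append m3).append m4

/-! ### The data of an instance -/

/-- Computable families of truncated instances. -/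
structure Good (I : α → FM) : Prop where
  ct : CT 0 I
  M_le : ∀ a, (I a).M ≤ (I a).n
  V_le : ∀ a x y, (I a).V x y ≤ (I a).n

namespace Good

variable {I : α → FM}

lemma comp (h : Good I) {g : β → α} (hg : CT 0 g) : Good fun b => I (g b) :=
  ⟨h.ct.comp hg, fun _ => h.M_le _, fun _ => h.V_le _⟩

lemma fst (h : Good I) : Good fun p : α × β => I p.1 := h.comp ict_fst

lemma n (h : Good I) : CB fun a => (I a).n := ⟨h.ct.fst.length, h.ct.fst.bd_length⟩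

lemma M (h : Good I) : CB fun a => (I a).M := ⟨h.ct.snd.fst, h.n.2.of_le h.M_le⟩

lemma τ (h : Good I) : CB fun a => (I a).τ := h.n.pow 4000

lemma σ (h : Good I) : CB fun a => (I a).σ := h.τ.pow 4

lemma lam (h : Good I) : CB fun a => (I a).lam := h.σ.pow 3

lemma R (h : Good I) : CB fun a => (I a).R := h.τ.pow 24

lemma V (h : Good I) {x y : α → ℕ} (hx : CT 0 x) (hy : CT 0 y) :
    CB fun a => (I a).V (x a) (y a) :=
  ⟨(h.ct.snd.snd.fst.getD hx (CT.const [])).getD hy (CT.const 0),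
    h.n.2.of_le fun a => h.V_le a _ _⟩

lemma rows (h : Good I) : CT 0 fun a => List.range (3 * (I a).M) := ((CB.const 3).mul h.M).range

lemma used (h : Good I) {x : α → ℕ} (hx : CT 0 x) : CT 0 fun a => (I a).used (x a) := by
  have h1 : CT 0 fun p : α × ℕ => x p.1 := hx.comp ict_fst
  exact (CT.map (f := fun a b => (I a).V (x a) b * (x a - b + (b - x a)))
    ((h.fst.V h1 ict_snd).1.mul ((h1.sub ict_snd).add (ict_snd.sub h1))) h.rows).sum

lemma st (h : Good I) : CT 0 fun a => (I a).st := by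
  have h1 := ((h.fst (β := ℕ)).n.pow 4).sub (h.fst.used ict_snd)
  have h2 := (((h.fst (β := ℕ)).fst (β := ℕ)).V ict_fst.snd ict_snd).mul
    (CB.min (ict_snd.sub ict_fst.snd) ((CB.const 3).mul h.fst.fst.M))
  have h3 := CT.flatMap (f := fun (p : α × ℕ) b => List.replicate ((I p.1).V p.2 b *
    min (b - p.2) (3 * (I p.1).M)) (p.2, b)) (ct_replicate h2.1 h2.2 (ict_fst.snd.mk ict_snd))
    h.fst.rows
  refine (CT.flatMap (f := fun a x => List.replicate ((I a).n ^ 4 - (I a).used x) (x, x) ++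
    (List.range (3 * (I a).M)).flatMap fun b => List.replicate ((I a).V x b *
      min (b - x) (3 * (I a).M)) (x, b))
    ((ct_replicate h1.1 h1.2 (ict_snd.mk ict_snd)).append h3) h.rows).of_eq fun a => ?_
  refine List.flatMap_congr fun x _ => congrArg _ (List.flatMap_congr fun b hb => ?_)
  rw [min_eq_left ((Nat.sub_le _ _).trans (List.mem_range.1 hb).le)]

lemma feats (h : Good I) : CT 0 fun a => (I a).geo.feats :=
  ct_feats (G := fun a => (I a).geo) h.n h.M h.st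
    (ct_qdiv (ct_qmul (ct_qmul (CT.const 4) (ct_natCast h.ct.snd.snd.snd.fst)) (ct_qpow 5 h.n.cast))
      (ct_qmul h.lam.cast (ct_qpow 10 h.n.cast)))

lemma l (h : Good I) : CB fun a => (I a).geo.l := h.n.pow 26

lemma om (h : Good I) : CB fun a => (I a).geo.om := h.n.pow 110

lemma κ (h : Good I) : CB fun a => (I a).geo.κ := (CB.const 5).mul h.om

lemma ρ (h : Good I) : CB fun a => (I a).geo.ρ := h.om.pow 2

lemma siteQ (h : Good I) {p : α → ℕ × ℕ × ℕ} (hp : CT 0 p) : CT 0 fun a => (I a).siteQ (p a) := by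
  have h1 := h.σ.1
  have h2 := h.R.1
  unfold FM.siteQ
  fun_prop

lemma FQ (h : Good I) {x y z : α → ℚ} (hx : CT 0 x) (hy : CT 0 y) (hz : CT 0 z) :
    CT 0 fun a => (I a).FQ (x a) (y a) (z a) :=
  ct_FK (h.n.pow 50) h.κ.1 h.l.1 h.feats hx hy hz

lemma lapQ (h : Good I) {x : α → ℚ × ℚ × ℚ} (hx : CT 0 x) : CT 0 fun a => (I a).lapQ (x a) := by
  have e := ct_qdiv (CT.const 1) (ct_qpow 10 h.τ.cast)
  have x1 := hx.fst
  have x2 := hx.snd.fst
  have x3 := hx.snd.snd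
  exact ct_qmul (ct_qsub (ct_qadd (ct_qadd (ct_qadd (ct_qadd (ct_qadd
    (h.FQ (ct_qadd x1 e) x2 x3) (h.FQ (ct_qsub x1 e) x2 x3)) (h.FQ x1 (ct_qadd x2 e) x3))
    (h.FQ x1 (ct_qsub x2 e) x3)) (h.FQ x1 x2 (ct_qadd x3 e))) (h.FQ x1 x2 (ct_qsub x3 e)))
    (ct_qmul (CT.const 6) (h.FQ x1 x2 x3))) (ct_qpow 20 h.τ.cast)

lemma apx (h : Good I) {c : ℝ} {f : ℕ → ℚ} (hf : Apx c f) (k : ℕ) :
    CT 0 fun a => f ((I a).τ ^ k) := hf.ct (h.τ.pow k).1 (h.τ.pow k).2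

variable {c₁ c₂ c₃ c₄ : ℝ} {fp fs fL fU : ℕ → ℚ}

lemma KQ (h : Good I) (hf : Apx c₁ fp) {p : α → ℕ × ℕ × ℕ} (hp : CT 0 p) :
    CT 0 fun a => (I a).KQ fp (p a) := by
  have s := h.siteQ hp
  have l2 := ct_qmul (CT.const 2) h.l.cast
  exact ((((((ct_qle s.fst l2).and (ct_qle (ct_qneg s.fst) l2)).and (ct_qle s.snd.fst l2)).and
    (ct_qle (ct_qneg s.snd.fst) l2)).and (ct_qle s.snd.snd (CT.const 7))).and
    (ct_qle (ct_qneg s.snd.snd) (CT.const 7))).cond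
    (ct_qdiv (h.lapQ s) (ct_qmul (CT.const 4) (h.apx hf 20))) (CT.const 0)

lemma SQ (h : Good I) (hf : Apx c₁ fp) {i : α → ℕ} {q : α → ℕ × ℕ} (hi : CB i) (hq : CT 0 q) :
    CT 0 fun a => (I a).SQ fp (i a, q a) := by
  have h1 := hi.1
  have h2 : CT 0 fun r : α × ℕ => (i r.1 - 1 - r.2) * (i r.1 - 2 - r.2) * (i r.1 - 3 - r.2) / 6 := by
    fun_prop
  exact ct_qsum (CT.map (f := fun a j =>
    (((i a - 1 - j) * (i a - 2 - j) * (i a - 3 - j) / 6 : ℕ) : ℚ) * (I a).KQ fp (j, q a))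
    (ct_qmul (ct_natCast h2) (h.fst.KQ hf (ict_snd.mk (hq.comp ict_fst)))) hi.range)

lemma ZQ (h : Good I) (hf : Apx c₁ fp) {i : α → ℕ} {q : α → ℕ × ℕ} (hi : CB i) (hq : CT 0 q) :
    CT 0 fun a => (I a).ZQ fp (i a, q a) := by
  have u : ∀ c : ℕ, CT 0 fun a => ⌊(I a).SQ fp (i a + c, q a) + 1 / 2⌋ := fun c =>
    ct_floor (ct_qadd (h.SQ hf (hi.add (CB.const c)) hq) (CT.const _))
  refine (ct_iadd (ct_intCast h.ρ.1) (ct_iadd (ct_iadd (ct_iadd (ct_iadd (u 4)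
    (ct_imul (CT.const (-4)) (u 3))) (ct_imul (CT.const 6) (u 2))) (ct_imul (CT.const (-4)) (u 1)))
    (u 0))).of_eq fun a => ?_
  simp only [FM.ZQ, d4, add_zero]
  ring

lemma side (h : Good I) : CB fun a => 2 * (I a).R * (I a).σ := ((CB.const 2).mul h.R).mul h.σ

lemma idx (h : Good I) : CT 0 fun a => (I a).idx := by
  have h1 : CT 0 fun q : (α × ℕ) × ℕ => (List.range (20 * (I q.1.1).σ)).map fun l =>
      (q.1.2, q.2, l) :=
    CT.map (f := fun (q : (α × ℕ) × ℕ) l => (q.1.2, q.2, l)) (by fun_prop)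
      ((CB.const 20).mul h.fst.fst.σ).range
  exact CT.flatMap (f := fun a i => (List.range (2 * (I a).R * (I a).σ)).flatMap fun j =>
    (List.range (20 * (I a).σ)).map fun l => (i, j, l))
    (CT.flatMap (f := fun (p : α × ℕ) j => (List.range (20 * (I p.1).σ)).map fun l => (p.2, j, l))
      h1 h.fst.side.range) h.side.range

lemma nuc (h : Good I) (hf : Apx c₁ fp) : CT 0 fun a => (I a).nuc fp := by
  have g := h.fst (β := ℕ × ℕ × ℕ)
  have s := g.siteQ ict_snd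
  have z := ct_toNat (g.ZQ hf (CB.min ict_snd.fst g.side) ict_snd.snd)
  refine (CT.map (f := fun a (p : ℕ × ℕ × ℕ) => ((((I a).siteQ p).1 / (I a).lam,
    ((I a).siteQ p).2.1 / (I a).lam, ((I a).siteQ p).2.2 / (I a).lam),
    ((I a).ZQ fp (min p.1 (2 * (I a).R * (I a).σ), p.2)).toNat))
    (((ct_qdiv s.fst g.lam.cast).mk ((ct_qdiv s.snd.fst g.lam.cast).mk
      (ct_qdiv s.snd.snd g.lam.cast))).mk z) h.idx).of_eq fun a => ?_
  refine List.map_congr_left fun p hp => ?_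
  obtain ⟨i, hi, hp⟩ := List.mem_flatMap.1 hp
  obtain ⟨j, -, hp⟩ := List.mem_flatMap.1 hp
  obtain ⟨l, -, rfl⟩ := List.mem_map.1 hp
  rw [min_eq_left (List.mem_range.1 hi).le]

lemma EQ (h : Good I) (hp : Apx c₁ fp) (hs : Apx c₂ fs) (hL : Apx c₃ fL) :
    CT 0 fun a => (I a).EQ fp fs fL :=
  ct_qsub (ct_qadd (ct_qsub (ct_qneg (ct_qmul h.ρ.cast (ct_qsub
    (ct_qmul (ct_qmul (CT.const 160) h.R.cast) (h.apx hL 40))
    (ct_qmul (CT.const 200) (h.apx hp 40))))) h.κ.cast) (ct_qmul h.om.cast (h.apx hs 40)))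
    (ct_qdiv (ct_qmul (h.apx hp 40) h.ρ.cast) (ct_qmul (CT.const 6) (ct_qpow 2 h.σ.cast)))

lemma thr (h : Good I) (hp : Apx c₁ fp) (hs : Apx c₂ fs) (hL : Apx c₃ fL) (hU : Apx c₄ fU)
    {e : α → ℚ} (he : CT 0 e) : CT 0 fun a => (I a).thr fp fs fL fU (e a) :=
  ct_qmul (ct_qpow 2 h.lam.cast) (ct_qadd (ct_qmul (ct_qmul (CT.const 5) h.M.cast) (h.EQ hp hs hL))
    (ct_qdiv (ct_qadd (ct_qmul (ct_qmul (CT.const 2) h.M.cast)
      (ct_qmul (h.apx hU 40) (ct_qpow 10 h.n.cast))) he)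
      (ct_qmul h.lam.cast (ct_qpow 14 h.n.cast))))

lemma inst (h : Good I) (hp : Apx c₁ fp) (hs : Apx c₂ fs) (hL : Apx c₃ fL) (hU : Apx c₄ fU) :
    CT 0 fun a => (I a).inst fp fs fL fU :=
  ct_inst (h.nuc hp) ((CB.const 5).mul h.M).1 ((CB.const 5).mul h.M).2
    (h.thr hp hs hL hU (ct_qadd (ct_natCast h.ct.snd.snd.snd.snd.fst) (CT.const _)))
    (h.thr hp hs hL hU (ct_qsub (ct_natCast h.ct.snd.snd.snd.snd.snd) (CT.const _)))

end Good

end

lemma good_cut : Good FM.cut := by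
  refine ⟨?_, fun I => min_le_right _ _, fun I x y => ?_⟩
  · have h1 : CT 0 fun I : FM => I.2.2.1.map (fun r => r.map fun v => min v I.1.length) :=
      CT.map (f := fun (I : FM) (r : List ℕ) => r.map fun v => min v I.1.length)
        (CT.map (f := fun (p : FM × List ℕ) v => min v p.1.1.length) (by fun_prop) ict_snd)
        (by fun_prop)
    exact ict_fst.mk ((ict_snd.fst.min ict_fst.length).mk (h1.mk ict_snd.snd.snd))
  · simp only [FM.V, FM.cut, FM.n, List.getD_eq_getElem?_getD, List.getElem?_map]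
    cases I.2.2.1[x]? with
    | none => simp
    | some r =>
      simp only [Option.map_some, Option.getD_some, List.getElem?_map]
      cases r[y]? <;> simp

theorem inst_ct {a b c d : ℝ} {fp fs fL fU : ℕ → ℚ} (hp : Apx a fp) (hs : Apx b fs)
    (hL : Apx c fL) (hU : Apx d fU) : CT 0 fun I : FM => I.cut.inst fp fs fL fU :=
  good_cut.inst hp hs hL hU

end Vale.Agent.P370
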