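import Vale.Agent.P370.KClockB
import Vale.Agent.P370.Num

/-!
The two-local Hamiltonian of a verifier.
-/

namespace Vale.Agent.P370

open Vale.Agent.Lib.TM Vale.Agent.P049

section CT

variable {α : Type} [Enc α]

theorem kct_cm (c : ℤ) {m : α → ℕ} (hm : CT 0 m) : CT 0 fun a => c * (m a : ℤ) :=
  ct_imul (CT.const c) (ct_intCast hm)

theorem kct_s (c : ℕ) {m : α → ℕ} (hm : CT 0 m) : CT 0 fun a => m a + c := hm.add (CT.const c)

theorem kct_J4 {t : α → ℕ} (ht : CT 0 t) : CT 0 fun a => J4 (t a) :=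
  (CT.const 6).mul (kct_s 1 ht)

theorem kct_J3 {t : α → ℕ} (ht : CT 0 t) : CT 0 fun a => J3 (t a) :=
  ((CT.const 1000).mul ((kct_s 1 ht).mul (kct_s 1 ht))).of_eq fun _ => by rw [J3, sq]

theorem kct_J2 {t : α → ℕ} (ht : CT 0 t) : CT 0 fun a => J2 (t a) :=
  ((kct_J3 ht).add (((CT.const (10 ^ 5)).mul ((kct_J3 ht).mul (kct_J3 ht))).mul
    (kct_s 1 ht))).of_eq fun _ => by rw [J2, sq]

theorem kct_kN {q T s : α → ℕ} {k : α → ℤ} {p : α → ℕ × ℕ} (h1 : CT 0 q) (h2 : CT 0 T)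
    (h3 : CT 0 k) (h4 : CT 0 p) (h5 : CT 0 s) :
    CT 0 fun a => kN (q a) (T a) (k a) (p a) (s a) :=
  ((h5.ble h2).cond h3 (CT.const 0)).mk
    (((h1.add ((h5.sub (CT.const 1)).min (h2.sub (CT.const 1)))).mk
      ((h5.beqNat (CT.const 0)).cond (CT.const 0) (CT.const 1))).mk h4)

theorem kct_kA {q s : α → ℕ} {k : α → ℤ} {p : α → ℕ × ℕ} (h1 : CT 0 q) (h3 : CT 0 k)
    (h4 : CT 0 p) (h5 : CT 0 s) : CT 0 fun a => kA (q a) (k a) (p a) (s a) :=
  h3.mk (h4.mk ((h1.add h5).mk (CT.const 2)))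

theorem kct_kX {q s : α → ℕ} {k : α → ℤ} (h1 : CT 0 q) (h3 : CT 0 k) (h5 : CT 0 s) :
    CT 0 fun a => kX (q a) (k a) (s a) :=
  h3.mk (((h1.add h5).mk (CT.const 2)).mk ((h1.add (kct_s 1 h5)).mk (CT.const 2)))

theorem kct_kStep {q T t : α → ℕ} {s : α → Step} (h1 : CT 0 q) (h2 : CT 0 T) (h3 : CT 0 s)
    (h4 : CT 0 t) : CT 0 fun a => kStep (q a) (T a) (s a) (t a) := by
  have j3 := kct_J3 h2
  have j2 := kct_J2 h2
  have z : CT 0 fun _ : α => ((0, 0) : ℕ × ℕ) := CT.const _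
  have m1 := h4.sub (CT.const 1)
  have m2 := h4.sub (CT.const 2)
  exact h3.fst.cond ((kct_kN h1 h2 (kct_cm 8 j3) z h4).cons <|
    (kct_kN h1 h2 (kct_cm (-8) j3) z (kct_s 2 h4)).cons <|
    (kct_kA h1 (ct_intCast j3) z m2).cons <| (kct_kA h1 (ct_intCast j3) z m1).cons <|
    (kct_kX h1 (kct_cm 2 j3) m2).cons <| (kct_kA h1 (ct_intCast j3) z (kct_s 1 h4)).cons <|
    (kct_kA h1 (ct_intCast j3) z (kct_s 2 h4)).cons <|
    (kct_kX h1 (kct_cm 2 j3) (kct_s 1 h4)).cons <| (kct_kA h1 (kct_cm (-4) j3) z h4).cons <|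
    (kct_kA h1 (kct_cm (-6) j3) h3.snd.fst h4).cons <|
    (kct_kA h1 (kct_cm (-6) j3) h3.snd.snd h4).cons (CT.const []))
    ((kct_kN h1 h2 (ct_intCast j2) z h4).cons <|
      (kct_kN h1 h2 (kct_cm (-1) j2) z (kct_s 2 h4)).cons <|
      (kct_kA h1 (kct_cm (-1) j2) h3.snd.fst h4).cons (CT.const []))

theorem kct_fst {β γ : Type} [Enc β] [Enc γ] {f : α → β} (h : CT 0 f) :
    CT 0 fun p : α × γ => f p.1 := h.comp CT.id.fst

theorem kct_kH0 {w a : α → ℕ} {L : α → List Step} (h1 : CT 0 w) (h2 : CT 0 a) (hB : Bd 0 a)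
    (h3 : CT 0 L) : CT 0 fun x => kH0 (w x) (a x) (L x) := by
  have q := kct_s 1 (h1.add h2)
  have T := h3.length
  have i : CT 0 fun p : α × ℕ => p.2 := CT.id.snd
  have p := ((kct_fst h1).add i).mk (CT.const (1 : ℕ))
  have k : CT 0 fun p : α × ℕ => kStep (w p.1 + a p.1 + 1) (L p.1).length (stp (L p.1) p.2) p.2 :=
    kct_kStep (kct_fst q) (kct_fst T) ((kct_fst h3).getD i (CT.const _)) i
  exact (CT.flatMap (f := fun x t => kStep (w x + a x + 1) (L x).length (stp (L x) t) t) k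
    h3.range_length).append ((CT.flatMap
      ((kct_kN (kct_fst q) (kct_fst T) (ct_intCast (kct_J3 (kct_fst T))) p (CT.const 0)).cons <|
        (kct_kN (kct_fst q) (kct_fst T) (kct_cm (-1) (kct_J3 (kct_fst T))) p (CT.const 1)).cons
        (CT.const [])) (h2.range hB)).append
      ((kct_kN q T (ct_intCast (kct_J4 T)) (CT.const _) T).cons <|
        (kct_kN q T (kct_cm (-1) (kct_J4 T)) (CT.const _) T).cons (CT.const [])))

theorem kct_kH1 {q T J : α → ℕ} (h1 : CT 0 q) (h2 : CT 0 T) (hB : Bd 0 T) (h3 : CT 0 J) :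
    CT 0 fun x => kH1 (q x) (T x) (J x) := by
  have i : CT 0 fun p : α × ℕ => p.2 := CT.id.snd
  have p := ((kct_fst h1).add (kct_s 1 i)).mk (CT.const (1 : ℕ))
  exact CT.flatMap (((ct_intCast (kct_fst h3)).mk (p.mk (CT.const _))).cons <|
    ((kct_cm (-1) (kct_fst h3)).mk ((((kct_fst h1).add i).mk (CT.const 1)).mk p)).cons
      (CT.const [])) ((h2.sub (CT.const 1)).range (hB.of_le fun _ => Nat.sub_le _ _))

theorem kct_blk {A B : α → ℕ × ℕ} (hA : CT 0 A) (hB : CT 0 B) : CT 0 fun x => blk (A x) (B x) :=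
  have a := (CT.const false).mk (hA.mk hA)
  have b := (CT.const false).mk (hB.mk hB)
  a.cons <| b.cons <| ((CT.const true).mk (hA.mk hB)).cons <| a.cons <| b.cons (CT.const [])

theorem kct_gate {r : α → ℕ} {g : α → ℕ × ℕ × ℕ} (hr : CT 0 r) (hg : CT 0 g) :
    CT 0 fun x => gateSteps (r x) (g x) :=
  have a := fun k : ℕ => hg.snd.fst.mk (CT.const k)
  (hg.fst.beqNat (CT.const 0)).cond (((CT.const false).mk ((a 4).mk (a 4))).cons (CT.const []))
    ((hg.fst.beqNat (CT.const 1)).cond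
      ((kct_blk (a 3) (hr.mk (CT.const 3))).append (kct_blk (a 3) (hr.mk (CT.const 4))))
      (kct_blk (a 3) (hg.snd.snd.mk (CT.const 2))))

theorem kct_kRed {w a : α → ℕ} {L : α → List Step} (h1 : CT 0 w) (hB1 : Bd 0 w) (h2 : CT 0 a)
    (hB : Bd 0 a) (h3 : CT 0 L) : CT 0 fun x => kRed (w x) (a x) (L x) := by
  have k0 := kct_kH0 h1 h2 hB h3
  have bT := h3.bd_length
  have b3 : Bd 0 fun x => J3 (L x).length :=
    (Bd.const _).mul (Bd.npow (bT.add (Bd.const 1)) 2)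
  have bW : Bd 0 fun x => kW (w x) (a x) (L x) :=
    k0.bd_length.mul (((b3.add (((Bd.const _).mul (Bd.npow b3 2)).mul (bT.add (Bd.const 1)))).add
      ((Bd.const 8).mul b3)).add ((Bd.const 6).mul (bT.add (Bd.const 1))))
  have cW : CT 0 fun x => kW (w x) (a x) (L x) :=
    k0.length.mul (((kct_J2 h3.length).add ((CT.const 8).mul (kct_J3 h3.length))).add
      (kct_J4 h3.length))
  have cJ : CT 0 fun x => kJ (w x) (a x) (L x) :=
    (cW.mul (((CT.const 2).mul cW).add (CT.const 3))).add (CT.const 3)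
  have cM := ((h1.add h2).add (CT.const 1)).add h3.length
  have bJ : Bd 0 fun x => kJ (w x) (a x) (L x) :=
    (bW.mul (((Bd.const 2).mul bW).add (Bd.const 3))).add (Bd.const 3)
  have k1 := kct_kH1 (kct_s 1 (h1.add h2)) h3.length bT cJ
  exact (ct_replicate ((cM.add cW).add (k1.length.mul cJ))
    (((((hB1.add hB).add (Bd.const 1)).add bT).add bW).add (k1.bd_length.mul bJ))
    (CT.const true)).mk (cM.mk (k0.append k1))

end CT

theorem kkr : ∃ red : Circuit → LH, CT 0 red ∧ ∀ C : Circuit, C.WF →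
    (red C).WF ∧ (C.Yes → (red C).Yes) ∧ (C.No → (red C).No) := by
  refine ⟨fun C => kRed C.w C.a C.steps, ?_, fun C hC => ⟨kRed_wf (steps_ok hC), fun hy => ?_,
    fun hn => kRed_no (steps_ok hC) (real_no hC hn)⟩⟩
  · have cw : CT 0 Circuit.w := ct_circuit.fst.length.of_eq fun _ => List.length_replicate
    have ca : CT 0 Circuit.a := ct_circuit.snd.fst.length.of_eq fun _ => List.length_replicate
    refine kct_kRed cw (ct_circuit.fst.bd_length.of_le fun _ => by simp) ca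
      (ct_circuit.snd.fst.bd_length.of_le fun _ => by simp) ?_
    exact (CT.const _).cons (CT.flatMap (kct_gate (kct_fst (cw.add ca)) CT.id.snd)
      ct_circuit.snd.snd)
  · obtain ⟨ψ, h1, h2, h3⟩ := real_yes hC hy
    exact kRed_yes (steps_ok hC) h1 h2 h3

end Vale.Agent.P370
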