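import Vale.Agent.P370.Defs

/-!
Polynomial-time maps compose.
-/

set_option backward.isDefEq.respectTransparency false

namespace Vale.Agent.P370

open Turing Turing.TM2 Function

namespace TMC

/-- `f` leads from `a` to `b` in `n` steps. -/
def Run {σ : Type} (f : σ → Option σ) (n : ℕ) (a b : σ) : Prop :=
  (flip bind f)^[n] (some a) = some b

theorem Run.succ_iff {σ : Type} {f : σ → Option σ} {n : ℕ} {a b : σ} :
    Run f (n + 1) a b ↔ ∃ c, f a = some c ∧ Run f n c b := by
  have h0 : ∀ m, (flip bind f)^[m] (none : Option σ) = none := fun m =>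
    Function.iterate_fixed rfl m
  change (flip bind f)^[n] (f a) = some b ↔ _
  cases f a with
  | none => rw [h0]; simp
  | some c => simp [Run]

theorem Run.zero_iff {σ : Type} {f : σ → Option σ} {a b : σ} : Run f 0 a b ↔ a = b :=
  Option.some_inj

theorem Run.trans {σ : Type} {f : σ → Option σ} {m n : ℕ} {a b c : σ} (h : Run f m a b)
    (h' : Run f n b c) : Run f (n + m) a c := by
  unfold Run at *
  rw [Function.iterate_add_apply, h, h']

theorem Run.sim {σ τ : Type} {f : σ → Option σ} {g : τ → Option τ} (e : σ → τ)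
    (he : ∀ a b, f a = some b → g (e a) = some (e b)) {n : ℕ} {a b : σ} (h : Run f n a b) :
    Run g n (e a) (e b) := by
  induction n generalizing a with
  | zero => rw [Run.zero_iff.1 h]; rfl
  | succ n ih =>
    obtain ⟨c, h1, h2⟩ := Run.succ_iff.1 h
    exact Run.succ_iff.2 ⟨e c, he _ _ h1, ih h2⟩

section len
variable {K : Type} [DecidableEq K] {Γ : K → Type} {Λ σ : Type}

/-- The number of pushes in a statement. -/
def pushes : Stmt Γ Λ σ → ℕ
  | .push _ _ q => pushes q + 1
  | .peek _ _ q => pushes q
  | .pop _ _ q => pushes q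
  | .load _ q => pushes q
  | .branch _ q r => pushes q + pushes r
  | .goto _ => 0
  | .halt => 0

theorem len_stepAux (q : Stmt Γ Λ σ) (v : σ) (S : ∀ k, List (Γ k)) (k : K) :
    ((stepAux q v S).stk k).length ≤ (S k).length + pushes q := by
  induction q generalizing v S with
  | push j f q ih =>
    refine (ih _ _).trans ?_
    by_cases h : k = j
    · subst h; simp only [update_self, List.length_cons, pushes]; omega
    · simp only [update_of_ne h, pushes]; omega
  | peek j f q ih => exact ih _ _
  | pop j f q ih =>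
    refine (ih _ _).trans ?_
    by_cases h : k = j
    · subst h; simp only [update_self, List.length_tail, pushes]; omega
    · simp only [update_of_ne h, pushes]; omega
  | load a q ih => exact ih _ _
  | branch f q r ih ih' =>
    have h1 := ih v S
    have h2 := ih' v S
    simp only [stepAux, pushes]
    cases f v <;> simp only [cond_true, cond_false] <;> omega
  | goto f => simp [stepAux]
  | halt => simp [stepAux]

theorem len_run {M : Λ → Stmt Γ Λ σ} {C : ℕ} (hC : ∀ l, pushes (M l) ≤ C) (k : K) {n : ℕ}
    {a b : Cfg Γ Λ σ} (h : Run (step M) n a b) :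
    (b.stk k).length ≤ (a.stk k).length + C * n := by
  induction n generalizing a with
  | zero => rw [Run.zero_iff.1 h]; omega
  | succ n ih =>
    obtain ⟨c, h1, h2⟩ := Run.succ_iff.1 h
    obtain ⟨_ | l, v, S⟩ := a
    · simp [step] at h1
    · have h3 := len_stepAux (M l) v S k
      have h4 := ih h2
      have h5 := hC l
      rw [← Option.some_inj.1 h1] at h4
      simp only [Nat.mul_succ]
      omega

end len

variable (A B : FinTM2)

/-- Stack alphabets of the composite machine. -/
@[reducible] def Gm : A.K ⊕ B.K ⊕ Unit → Type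
  | .inl k => A.Γ k
  | .inr (.inl k) => B.Γ k
  | .inr (.inr _) => Bool

/-- Labels of the composite machine. -/
abbrev Lb : Type := A.Λ ⊕ B.Λ ⊕ Bool

/-- States of the composite machine. -/
abbrev St : Type := A.σ × B.σ × Option Bool

variable {A B}

/-- The stacks of the composite machine. -/
def stk (S : ∀ k, List (A.Γ k)) (T : ∀ k, List (B.Γ k)) (U : List Bool) : ∀ k, List (Gm A B k)
  | .inl k => S k
  | .inr (.inl k) => T k
  | .inr (.inr _) => U

theorem upd1 (S : ∀ k, List (A.Γ k)) (T : ∀ k, List (B.Γ k)) (U : List Bool) (k : A.K)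
    (x : List (A.Γ k)) : update (stk S T U) (.inl k) x = stk (update S k x) T U := by
  funext j
  rcases j with j | j | j
  · by_cases h : j = k
    · subst h; simp only [update_self, stk]
    · rw [update_of_ne (by simpa using h)]; simp only [stk, update_of_ne h]
  · rw [update_of_ne (by simp)]; rfl
  · rw [update_of_ne (by simp)]; rfl

theorem upd2 (S : ∀ k, List (A.Γ k)) (T : ∀ k, List (B.Γ k)) (U : List Bool) (k : B.K)
    (x : List (B.Γ k)) : update (stk S T U) (.inr (.inl k)) x = stk S (update T k x) U := by
  funext j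
  rcases j with j | j | j
  · rw [update_of_ne (by simp)]; rfl
  · by_cases h : j = k
    · subst h; simp only [update_self, stk]
    · rw [update_of_ne (by simpa using h)]; simp only [stk, update_of_ne h]
  · rw [update_of_ne (by simp)]; rfl

theorem upd3 (S : ∀ k, List (A.Γ k)) (T : ∀ k, List (B.Γ k)) (U x : List Bool) :
    update (stk S T U) (.inr (.inr ())) x = stk S T x := by
  funext j
  rcases j with j | j | j
  · rw [update_of_ne (by simp)]; rfl
  · rw [update_of_ne (by simp)]; rfl
  · simp only [update_self, stk]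

variable (B) in
/-- Translation of the statements of the first machine. -/
def tr1 : Stmt A.Γ A.Λ A.σ → Stmt (Gm A B) (Lb A B) (St A B)
  | .push k f q => .push (.inl k) (fun s => f s.1) (tr1 q)
  | .peek k f q => .peek (.inl k) (fun s x => (f s.1 x, s.2)) (tr1 q)
  | .pop k f q => .pop (.inl k) (fun s x => (f s.1 x, s.2)) (tr1 q)
  | .load a q => .load (fun s => (a s.1, s.2)) (tr1 q)
  | .branch f q r => .branch (fun s => f s.1) (tr1 q) (tr1 r)
  | .goto f => .goto (fun s => .inl (f s.1))
  | .halt => .goto (fun _ => .inr (.inr false))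

variable (A) in
/-- Translation of the statements of the second machine. -/
def tr2 : Stmt B.Γ B.Λ B.σ → Stmt (Gm A B) (Lb A B) (St A B)
  | .push k f q => .push (.inr (.inl k)) (fun s => f s.2.1) (tr2 q)
  | .peek k f q => .peek (.inr (.inl k)) (fun s x => (s.1, f s.2.1 x, s.2.2)) (tr2 q)
  | .pop k f q => .pop (.inr (.inl k)) (fun s x => (s.1, f s.2.1 x, s.2.2)) (tr2 q)
  | .load a q => .load (fun s => (s.1, a s.2.1, s.2.2)) (tr2 q)
  | .branch f q r => .branch (fun s => f s.2.1) (tr2 q) (tr2 r)
  | .goto f => .goto (fun s => .inr (.inl (f s.2.1)))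
  | .halt => .halt

variable (B) in
/-- Configurations of the first phase. -/
def cfg1 (c : Cfg A.Γ A.Λ A.σ) : Cfg (Gm A B) (Lb A B) (St A B) :=
  ⟨some (c.l.elim (.inr (.inr false)) .inl), (c.var, B.initialState, none),
    stk c.stk (fun _ => []) []⟩

variable (A) in
/-- Configurations of the last phase. -/
def cfg2 (c : Cfg B.Γ B.Λ B.σ) : Cfg (Gm A B) (Lb A B) (St A B) :=
  ⟨c.l.map (fun l => .inr (.inl l)), (A.initialState, c.var, none), stk (fun _ => []) c.stk []⟩

theorem step1 (q : Stmt A.Γ A.Λ A.σ) (v : A.σ) (S : ∀ k, List (A.Γ k)) :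
    stepAux (tr1 B q) (v, B.initialState, none) (stk S (fun _ => []) []) =
      cfg1 B (stepAux q v S) := by
  induction q generalizing v S with
  | push k f q ih => exact (congrArg _ (upd1 _ _ _ _ _)).trans (ih _ _)
  | peek k f q ih => exact ih _ _
  | pop k f q ih => exact (congrArg _ (upd1 _ _ _ _ _)).trans (ih _ _)
  | load a q ih => exact ih _ _
  | branch f q r ih ih' =>
    simp only [tr1, stepAux]
    cases f v
    exacts [ih' _ _, ih _ _]
  | goto f => rfl
  | halt => rfl

theorem step2 (q : Stmt B.Γ B.Λ B.σ) (v : B.σ) (S : ∀ k, List (B.Γ k)) :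
    stepAux (tr2 A q) (A.initialState, v, none) (stk (fun _ => []) S []) =
      cfg2 A (stepAux q v S) := by
  induction q generalizing v S with
  | push k f q ih => exact (congrArg _ (upd2 _ _ _ _ _)).trans (ih _ _)
  | peek k f q ih => exact ih _ _
  | pop k f q ih => exact (congrArg _ (upd2 _ _ _ _ _)).trans (ih _ _)
  | load a q ih => exact ih _ _
  | branch f q r ih ih' =>
    simp only [tr2, stepAux]
    cases f v
    exacts [ih' _ _, ih _ _]
  | goto f => rfl
  | halt => rfl

variable (o : A.Γ A.k₁ ≃ Bool) (i : B.Γ B.k₀ ≃ Bool)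

/-- The program of the composite machine. -/
def prog : Lb A B → Stmt (Gm A B) (Lb A B) (St A B)
  | .inl l => tr1 B (A.m l)
  | .inr (.inl l) => tr2 A (B.m l)
  | .inr (.inr false) =>
      .pop (.inl A.k₁) (fun s x => (s.1, s.2.1, Option.map o x)) <|
        .branch (fun s => s.2.2.isSome)
          (.push (.inr (.inr ())) (fun s => s.2.2.getD false) <|
            .load (fun s => (s.1, s.2.1, none)) <| .goto fun _ => .inr (.inr false))
          (.goto fun _ => .inr (.inr true))
  | .inr (.inr true) =>
      .pop (.inr (.inr ())) (fun s x => (s.1, s.2.1, x)) <|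
        .branch (fun s => s.2.2.isSome)
          (.push (.inr (.inl B.k₀)) (fun s => i.symm (s.2.2.getD false)) <|
            .load (fun s => (s.1, s.2.1, none)) <| .goto fun _ => .inr (.inr true))
          (.goto fun _ => .inr (.inl B.main))

theorem sim1 {n : ℕ} {a b : Cfg A.Γ A.Λ A.σ} (h : Run (step A.m) n a b) :
    Run (step (prog o i)) n (cfg1 B a) (cfg1 B b) := by
  refine h.sim _ ?_
  rintro ⟨_ | l, v, S⟩ b h
  · simp [step] at h
  · rw [← Option.some_inj.1 h]
    exact congrArg some (step1 _ _ _)

theorem sim2 {n : ℕ} {a b : Cfg B.Γ B.Λ B.σ} (h : Run (step B.m) n a b) :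
    Run (step (prog o i)) n (cfg2 A a) (cfg2 A b) := by
  refine h.sim _ ?_
  rintro ⟨_ | l, v, S⟩ b h
  · simp [step] at h
  · rw [← Option.some_inj.1 h]
    exact congrArg some (step2 _ _ _)

theorem copy1 (v : A.σ) (w : B.σ) (T : ∀ k, List (B.Γ k)) (L U : List Bool) :
    Run (step (prog o i)) (L.length + 1)
      ⟨some (.inr (.inr false)), (v, w, none), stk (update (fun _ => []) A.k₁ (L.map o.symm)) T U⟩
      ⟨some (.inr (.inr true)), (v, w, none), stk (fun _ => []) T (L.reverse ++ U)⟩ := by
  induction L generalizing U with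
  | nil =>
    refine Run.succ_iff.2 ⟨_, rfl, Run.zero_iff.2 ?_⟩
    simp [prog, stk, upd1]
  | cons x L ih =>
    refine Run.succ_iff.2 ⟨_, ?_, by simpa using ih (x :: U)⟩
    simp [prog, stk, upd1, upd3]

theorem copy2 (v : A.σ) (w : B.σ) (S : ∀ k, List (A.Γ k)) (L U : List Bool) :
    Run (step (prog o i)) (L.length + 1)
      ⟨some (.inr (.inr true)), (v, w, none), stk S (update (fun _ => []) B.k₀ (U.map i.symm)) L⟩
      ⟨some (.inr (.inl B.main)), (v, w, none),
        stk S (update (fun _ => []) B.k₀ ((L.reverse ++ U).map i.symm)) []⟩ := by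
  induction L generalizing U with
  | nil =>
    refine Run.succ_iff.2 ⟨_, rfl, Run.zero_iff.2 ?_⟩
    simp [prog, stk, upd3]
  | cons x L ih =>
    refine Run.succ_iff.2 ⟨_, ?_, by simpa using ih (x :: U)⟩
    simp [prog, stk, upd2, upd3]

theorem init_stk (M : FinTM2) (s : List (M.Γ M.k₀)) :
    (initList M s).stk = update (fun _ => []) M.k₀ s := by
  funext k
  by_cases h : k = M.k₀
  · subst h; simp [initList]
  · simp [initList, h]

theorem halt_stk (M : FinTM2) (s : List (M.Γ M.k₁)) :
    (haltList M s).stk = update (fun _ => []) M.k₁ s := by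
  funext k
  by_cases h : k = M.k₁
  · subst h; simp [haltList]
  · simp [haltList, h]

/-- The composite machine. -/
def mach : FinTM2 where
  K := A.K ⊕ B.K ⊕ Unit
  kFin := by have := A.kFin; have := B.kFin; infer_instance
  k₀ := .inl A.k₀
  k₁ := .inr (.inl B.k₁)
  Γ := Gm A B
  Λ := Lb A B
  main := .inl A.main
  ΛFin := by have := A.ΛFin; have := B.ΛFin; infer_instance
  σ := St A B
  initialState := (A.initialState, B.initialState, none)
  σFin := by have := A.σFin; have := B.σFin; infer_instance
  Γk₀Fin := A.Γk₀Fin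
  m := prog o i

theorem stk_nil : stk (A := A) (B := B) (fun _ => []) (fun _ => []) [] = fun _ => [] := by
  funext k
  rcases k with k | k | k <;> rfl

theorem run_mach {s : List (A.Γ A.k₀)} {L : List Bool} {t : List (B.Γ B.k₁)} {m n : ℕ}
    (h₁ : Run A.step m (initList A s) (haltList A (L.map o.symm)))
    (h₂ : Run B.step n (initList B (L.map i.symm)) (haltList B t)) :
    Run (mach o i).step (n + (L.length + 1 + (L.length + 1 + m)))
      (initList (mach o i) s) (haltList (mach o i) t) := by
  have e1 : initList (mach o i) s = cfg1 B (initList A s) := by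
    have h := init_stk (mach o i) s
    refine congrArg (Cfg.mk _ _) (h.trans ?_)
    rw [init_stk, ← upd1, stk_nil]
    rfl
  have e2 : haltList (mach o i) t = cfg2 A (haltList B t) := by
    have h := halt_stk (mach o i) t
    refine congrArg (Cfg.mk _ _) (h.trans ?_)
    rw [halt_stk, ← upd2, stk_nil]
    rfl
  have k1 := sim1 o i h₁
  have k2 := copy1 o i A.initialState B.initialState (fun _ => []) L []
  have k3 := copy2 o i A.initialState B.initialState (fun _ => []) L.reverse []
  have k4 := sim2 o i h₂
  simp only [List.append_nil, List.reverse_reverse, List.length_reverse, List.map_nil,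
    update_eq_self] at k2 k3
  rw [cfg1.eq_1 B (haltList _ _), halt_stk] at k1
  rw [cfg2.eq_1 A (initList _ _), init_stk] at k4
  rw [e1, e2]
  exact ((k1.trans k2).trans k3).trans k4

theorem eval_mono (p : Polynomial ℕ) {a b : ℕ} (h : a ≤ b) : p.eval a ≤ p.eval b := by
  rw [Polynomial.eval_eq_sum_range, Polynomial.eval_eq_sum_range]
  gcongr

end TMC

open TMC in
theorem PolyTime.comp {α β γ : Type} {ca : α → List Bool} {cb : β → List Bool}
    {cc : γ → List Bool} {f : α → β} {g : β → γ} (hf : PolyTime ca cb f)
    (hg : PolyTime cb cc g) : PolyTime ca cc (g ∘ f) := by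
  obtain ⟨M, hM⟩ := hf
  obtain ⟨N, hN⟩ := hg
  have := M.tm.ΛFin
  obtain ⟨C, hC⟩ := (Set.finite_range fun l => pushes (M.tm.m l)).bddAbove
  have hC' : ∀ l, pushes (M.tm.m l) ≤ C := fun l => hC ⟨l, rfl⟩
  let P : Polynomial ℕ := Polynomial.X + Polynomial.C C * M.time
  refine ⟨⟨⟨mach M.outputAlphabet N.inputAlphabet, M.inputAlphabet, N.outputAlphabet⟩,
    N.time.comp P + (P + 1 + (P + 1 + M.time)), fun a =>
      ⟨⟨_, run_mach _ _ (M.outputsFun a).evals_in_steps (N.outputsFun (f a)).evals_in_steps⟩,
        ?_⟩⟩, ?_⟩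
  · have h1 := (M.outputsFun a).steps_le_m
    have h2 := (N.outputsFun (f a)).steps_le_m
    have h3 := len_run hC' M.tm.k₁ (M.outputsFun a).evals_in_steps
    have h4 : ((initList M.tm ((ca a).map M.inputAlphabet.invFun)).stk M.tm.k₁).length ≤
        (ca a).length := by
      rw [init_stk]
      by_cases h : M.tm.k₁ = M.tm.k₀
      · rw [h]; simp
      · simp [h]
    rw [halt_stk, update_self, List.length_map] at h3
    have h5 : (cb (f a)).length ≤ P.eval (ca a).length := by
      have := Nat.mul_le_mul_left C h1
      simp only [P, Polynomial.eval_add, Polynomial.eval_X, Polynomial.eval_mul, Polynomial.eval_C]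
      omega
    have h6 := eval_mono N.time h5
    simp only [Polynomial.eval_add, Polynomial.eval_comp, Polynomial.eval_one]
    omega
  · rintro (k | k | k)
    exacts [hM k, hN k, inferInstanceAs (Finite Bool)]

end Vale.Agent.P370
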