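import Vale.Agent.P370.FinD
import Vale.Agent.P370.InstCT
import Vale.Agent.P370.Disc
import Vale.Agent.P370.KClock
import Vale.Agent.P370.TMComp

/-!
Assembly of the reduction.
-/

namespace Vale.Agent.P370

open Vale.Agent.Lib.TM Vale.Agent.P049

lemma arith_thr {n U N M p s l u : ℝ} (hn : 1000 ≤ n) (hU : U = 1 / n ^ 48014) (hM0 : 0 ≤ M)
    (hM : M ≤ n) (hN : N = 5 * M) (hp : |p| ≤ 1 / n ^ 160000) (hs : |s| ≤ 1 / n ^ 160000)
    (hl : |l| ≤ 1 / n ^ 160000) (hu : |u| ≤ 1 / n ^ 160000) :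
    |N * (-(n ^ 220 * (160 * n ^ 96000 * l - 200 * p)) + n ^ 110 * s -
      p * n ^ 220 / (6 * (n ^ 16000) ^ 2)) + U * (2 * M * (u * n ^ 10))| ≤ U / 8 := by
  have h1 : (1 : ℝ) ≤ n := by linarith
  have n0 : (0 : ℝ) < n := by linarith
  have hU0 : 0 < U := by rw [hU]; exact one_div_pos.2 (pow_pos n0 _)
  have hU1 : U ≤ 1 := by rw [hU]; exact (div_le_one (pow_pos n0 _)).2 (one_le_pow₀ h1)
  have key : n ^ 96224 * (1 / n ^ 160000) ≤ U / 8 := by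
    calc _ = n ^ 96224 / n ^ 160000 := by ring
      _ ≤ U / n ^ 1 := by rw [hU]; exact pw' h1 (by norm_num)
      _ ≤ _ := div_le_div_of_nonneg_left hU0.le (by norm_num) (by rw [pow_one]; linarith)
  have q1 : n ^ 220 ≤ n ^ 96220 := pow_le_pow_right₀ h1 (by norm_num)
  have q2 : n ^ 110 ≤ n ^ 96220 := pow_le_pow_right₀ h1 (by norm_num)
  have q3 : n ^ 10 ≤ n ^ 96220 := pow_le_pow_right₀ h1 (by norm_num)
  have q4 : n ^ 220 / (6 * (n ^ 16000) ^ 2) ≤ n ^ 96220 :=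
    (div_le_self (pow_pos n0 _).le
      (by linarith [one_le_pow₀ (n := 2) (one_le_pow₀ (n := 16000) h1)])).trans q1
  have q0 : 0 ≤ n ^ 220 / (6 * (n ^ 16000) ^ 2) :=
    div_nonneg (pow_pos n0 _).le (mul_nonneg (by norm_num) (sq_nonneg _))
  have q5 : n ^ 96224 = n ^ 4 * n ^ 96220 := by rw [← pow_add]
  have q6 : n ^ 220 * n ^ 96000 = n ^ 96220 := by rw [← pow_add]
  have e : N * (-(n ^ 220 * (160 * n ^ 96000 * l - 200 * p)) + n ^ 110 * s -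
      p * n ^ 220 / (6 * (n ^ 16000) ^ 2)) + U * (2 * M * (u * n ^ 10)) =
      M * (-800 * ((n ^ 220 * n ^ 96000) * l) + 1000 * (n ^ 220 * p) + 5 * (n ^ 110 * s) -
        5 * (n ^ 220 / (6 * (n ^ 16000) ^ 2) * p) + 2 * (U * (n ^ 10 * u))) := by
    rw [hN]; clear hU key; generalize n ^ 96000 = A; generalize (n ^ 16000) ^ 2 = B; ring
  rw [e, q6]
  rw [q5] at key
  have p220 := pow_pos n0 220
  have p110 := pow_pos n0 110
  have p10 := pow_pos n0 10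
  have n4 : n * 2000 ≤ n ^ 4 := by
    rw [pow_succ' n 3]
    exact mul_le_mul_of_nonneg_left (le_trans (by norm_num)
      (pow_le_pow_left₀ (by norm_num) hn 3)) n0.le
  have hQ : 0 < n ^ 96220 := pow_pos n0 _
  clear hU e q5 q6
  generalize n ^ 220 / (6 * (n ^ 16000) ^ 2) = A at *
  generalize n ^ 96220 = Q at *
  generalize 1 / n ^ 160000 = d at *
  generalize n ^ 220 = a at *
  generalize n ^ 110 = b at *
  generalize n ^ 10 = c at *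
  have d0 : 0 ≤ d := (abs_nonneg _).trans hp
  have t : ∀ {x y : ℝ}, 0 ≤ x → x ≤ Q → |y| ≤ d → |x * y| ≤ Q * d := fun hx hx' hy => by
    rw [abs_mul, abs_of_nonneg hx]
    exact mul_le_mul hx' hy (abs_nonneg _) hQ.le
  have t1 := abs_le.1 (t hQ.le le_rfl hl)
  have t2 := abs_le.1 (t p220.le q1 hp)
  have t3 := abs_le.1 (t p110.le q2 hs)
  have t4 := abs_le.1 (t q0 q4 hp)
  have t5 : |U * (c * u)| ≤ Q * d := by
    rw [abs_mul, abs_of_pos hU0]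
    exact (mul_le_of_le_one_left (abs_nonneg _) hU1).trans (t p10.le q3 hu)
  have t6 := abs_le.1 t5
  have Qd : 0 ≤ Q * d := mul_nonneg hQ.le d0
  rw [abs_mul, abs_of_nonneg hM0]
  calc _ ≤ n * (2000 * (Q * d)) := mul_le_mul hM (abs_le.2 ⟨by linarith, by linarith⟩)
        (abs_nonneg _) n0.le
    _ ≤ n ^ 4 * Q * d := by rw [← mul_assoc, mul_assoc _ Q]; exact mul_le_mul_of_nonneg_right n4 Qd
    _ ≤ _ := key

theorem thr_close {fp fs fL fU : ℕ → ℚ} (hp : Apx Real.pi fp) (hs : Apx (√Real.pi) fs)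
    (hL : Apx cL fL) (hU : Apx cU fU) {I : FM} (hI : I.WF 1000) (e : ℚ) : ∃ r, |r| ≤ I.U / 8 ∧
    (I.thr fp fs fL fU e : ℝ) = (I.lam : ℝ) ^ 2 * (5 * I.M * I.E +
      I.U * (2 * I.M * (cU * (I.n : ℝ) ^ 10) + e) + r) := by
  have hn : (1000 : ℝ) ≤ I.n := by exact_mod_cast hI.1
  have n0 : (0 : ℝ) < I.n := by linarith
  have hM' : (I.M : ℝ) ≤ I.n := by exact_mod_cast hI.2.2.1
  have hq : 1 ≤ I.τ ^ 40 := Nat.one_le_pow _ _ (pow_pos (by exact_mod_cast n0) _)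
  have hc : ((I.τ ^ 40 : ℕ) : ℝ) = (I.n : ℝ) ^ 160000 := by
    rw [Nat.cast_pow, I.τ_cast, ← pow_mul]
  have a1 := hp.1 _ hq
  have a2 := hs.1 _ hq
  have a3 := hL.1 _ hq
  have a4 := hU.1 _ hq
  rw [hc] at a1 a2 a3 a4
  refine ⟨_, arith_thr hn rfl (Nat.cast_nonneg _) hM' rfl a1 a2 a3 a4, ?_⟩
  have hρ : (I.geo.ρ : ℝ) = (I.n : ℝ) ^ 220 := by
    simp only [Geo.ρ, Geo.om, FM.geo]; push_cast; rw [← pow_mul]
  have ho : (I.geo.om : ℝ) = (I.n : ℝ) ^ 110 := Nat.cast_pow _ _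
  have hu : ((I.lam : ℝ) * (I.n : ℝ) ^ 14)⁻¹ = 1 / (I.n : ℝ) ^ 48014 := by
    rw [I.lam_cast, ← pow_add, one_div]
  simp only [FM.thr, FM.EQ, FM.E, Geo.E1, Geo.Ω, FM.U]
  push_cast
  rw [div_eq_mul_inv _ (_ * (I.n : ℝ) ^ 14), hu, hρ, ho, I.R_cast, I.σ_cast]
  generalize 1 / (I.n : ℝ) ^ 48014 = U
  generalize (I.n : ℝ) ^ 96000 = A
  generalize ((I.n : ℝ) ^ 16000) ^ 2 = B
  ring

theorem cont : ∃ n₀, ∃ red : FM → Inst, CT 0 red ∧ ∀ I : FM, I.WF n₀ → (red I).Valid 1 ∧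
    (I.Yes → (red I).E0 ≤ (((red I).a : ℝ) : EReal)) ∧
    (I.No → (((red I).b : ℝ) : EReal) ≤ (red I).E0) := by
  obtain ⟨fp, hp⟩ := apx_pi
  obtain ⟨fs, hs⟩ := apx_sqrt_pi
  obtain ⟨fL, hL⟩ := apx_cL
  obtain ⟨fU, hU⟩ := apx_cU
  obtain ⟨n1, h1⟩ := ground_inst hp
  obtain ⟨n2, h2⟩ := inst_valid (fs := fs) (fL := fL) (fU := fU) hp
  obtain ⟨n3, h3⟩ := ZQ_pos hp
  refine ⟨max (max n1 n2) (max n3 1000), _, inst_ct hp hs hL hU, fun I hI => ?_⟩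
  have hI' : I.WF 1000 := hI.mono (by omega)
  rw [FM.cut_eq hI]
  obtain ⟨y, n⟩ := h1 I (hI.mono (by omega))
  rw [inst_E0 I (lt_of_lt_of_le (by norm_num) hI'.1) (h3 I (hI.mono (by omega)))]
  refine ⟨h2 I (hI.mono (by omega)), fun hy => (y hy).trans (EReal.coe_le_coe_iff.2 ?_),
    fun hn => le_trans (EReal.coe_le_coe_iff.2 ?_) (n hn)⟩
  · obtain ⟨r, hr, he⟩ := thr_close hp hs hL hU hI' (I.2.2.2.2.1 + 1 / 4)
    refine le_trans (mul_le_mul_of_nonneg_left ?_ (sq_nonneg _)) he.ge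
    push_cast
    linarith [(abs_le.1 hr).1]
  · obtain ⟨r, hr, he⟩ := thr_close hp hs hL hU hI' (I.2.2.2.2.2 - 1 / 4)
    refine he.le.trans (mul_le_mul_of_nonneg_left ?_ (sq_nonneg _))
    push_cast
    linarith [(abs_le.1 hr).2]

theorem hard (Y Z : Set (List Bool)) (h : InQMA Y Z) :
    ∃ f : List Bool → Inst, PolyTime id Inst.code f ∧ (∀ x, (f x).Valid 1) ∧
      (∀ x ∈ Y, (f x).E0 ≤ (((f x).a : ℝ) : EReal)) ∧
      ∀ x ∈ Z, (((f x).b : ℝ) : EReal) ≤ (f x).E0 := by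
  obtain ⟨V, hV, hW, hY, hZ⟩ := h
  obtain ⟨n₀, r3, c3, h3⟩ := cont
  obtain ⟨r2, c2, h2⟩ := disc n₀
  obtain ⟨r1, c1, h1⟩ := kkr
  refine ⟨(fun C => r3 (r2 (r1 C))) ∘ V, hV.comp (ct_polyTime (c3.comp (c2.comp c1))),
    fun x => ?_, fun x hx => ?_, fun x hx => ?_⟩
  · exact (h3 _ (h2 _ (h1 _ (hW x)).1).1).1
  · exact (h3 _ (h2 _ (h1 _ (hW x)).1).1).2.1 ((h2 _ (h1 _ (hW x)).1).2.1
      ((h1 _ (hW x)).2.1 (hY x hx)))
  · exact (h3 _ (h2 _ (h1 _ (hW x)).1).1).2.2 ((h2 _ (h1 _ (hW x)).1).2.2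
      ((h1 _ (hW x)).2.2 (hZ x hx)))

end Vale.Agent.P370
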