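import Vale.Agent.P370.Cub
import Vale.Agent.P370.Box

/-!
Auxiliary estimates for the first-order discretisation error: Fubini for the Coulomb kernel,
cubature on a box, far-field sums.
-/

namespace Vale.Agent.P370

open MeasureTheory Set

lemma fs_ker_neg (w : Pt) : ker (-w) = ker w := by simp only [ker, nrm_neg]

lemma fs_norm_le {a b c r : ℝ} {x : Pt} (hx : x ∈ box a b c) (ha : a ≤ r) (hb : b ≤ r)
    (hc : c ≤ r) : ‖x‖ ≤ r := by
  refine (pi_norm_le_iff_of_nonneg ((abs_nonneg _).trans (hx.1.trans ha))).2 fun k => ?_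
  fin_cases k
  · exact hx.1.trans ha
  · exact hx.2.1.trans hb
  · exact hx.2.2.trans hc

lemma fs_mem_box {r : ℝ} {x : Pt} (hx : ‖x‖ ≤ r) : x ∈ box r r r :=
  ⟨(norm_le_pi_norm x 0).trans hx, (norm_le_pi_norm x 1).trans hx, (norm_le_pi_norm x 2).trans hx⟩

lemma fs_box_ne_top (a b c : ℝ) : volume (box a b c) ≠ ⊤ := (isCompact_box a b c).measure_lt_top.ne

lemma fs_DB_abs {r : ℕ} {f : Pt → ℝ} {B : ℝ} (h : DB r f B) (x : Pt) : |f x| ≤ B := by
  have := h.2 0 (Nat.zero_le _) x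
  rwa [norm_iteratedFDeriv_zero, Real.norm_eq_abs] at this

lemma fs_two_le : (2 : WithTop ℕ∞) ≤ ((⊤ : ℕ∞) : WithTop ℕ∞) :=
  ENat.natCast_le_of_coe_top_le_withTop le_rfl 2

lemma fs_cc {f : Pt → ℝ} {a b c : ℝ} (h : tsupport f ⊆ box a b c) : HasCompactSupport f :=
  (isCompact_box a b c).of_isClosed_subset (isClosed_tsupport f) h

lemma fs_zero {f : Pt → ℝ} {E : Set Pt} (h : tsupport f ⊆ E) {x : Pt} (hx : x ∉ E) : f x = 0 :=
  image_eq_zero_of_notMem_tsupport fun h' => hx (h h')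

lemma fs_ker_box {r : ℝ} : IntegrableOn ker (box r r r) := by
  simpa only [zero_sub, fs_ker_neg] using integrableOn_ker (fs_box_ne_top r r r) 0

/-- Near-field bound. -/
lemma fs_kw {Φ : Pt → ℝ} {M r : ℝ} (hr : 0 ≤ r) (hM : ∀ w, |Φ w| ≤ M)
    (h0 : ∀ w, r < ‖w‖ → Φ w = 0) : |∫ w, ker w * Φ w| ≤ M * (7 + 8 * r ^ 3) := by
  have hM0 : 0 ≤ M := (abs_nonneg _).trans (hM 0)
  have hi : Integrable ((box r r r).indicator fun w => M * ker w) :=
    (integrable_indicator_iff (measurableSet_box r r r)).2 (fs_ker_box.const_mul M)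
  rw [← Real.norm_eq_abs]
  refine (norm_integral_le_of_norm_le hi (Filter.Eventually.of_forall fun w => ?_)).trans ?_
  · by_cases hw : w ∈ box r r r
    · rw [indicator_of_mem hw, Real.norm_eq_abs, abs_mul, abs_of_nonneg (ker_nonneg w), mul_comm]
      exact mul_le_mul_of_nonneg_right (hM w) (ker_nonneg w)
    · rw [indicator_of_notMem hw, h0 w (not_le.1 fun h => hw (fs_mem_box h))]
      simp
  · rw [integral_indicator (measurableSet_box r r r), integral_const_mul]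
    refine mul_le_mul_of_nonneg_left ?_ hM0
    have := coulomb_le (measurableSet_box r r r) (fs_box_ne_top r r r) 0 one_pos
    rw [volume_box hr hr hr] at this
    simp only [zero_sub, fs_ker_neg] at this
    linarith

/-- Far-field bound. -/
lemma fs_gx {Ψ g : Pt → ℝ} {M B l : ℝ} (hl : 0 ≤ l) (hM : ∀ x ∈ box l l 4, |Ψ x| ≤ M)
    (hB : ∀ x, |g x| ≤ B) (h0 : ∀ x, x ∉ box l l 4 → g x = 0) :
    |∫ x, Ψ x * g x| ≤ M * B * (32 * l ^ 2) := by
  rw [← setIntegral_eq_integral_of_forall_compl_eq_zero (s := box l l 4)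
    fun x hx => by rw [h0 x hx, mul_zero], ← Real.norm_eq_abs]
  refine (norm_setIntegral_le_of_norm_le_const (C := M * B) (fs_box_ne_top l l 4).lt_top
    fun x hx => ?_).trans (le_of_eq ?_)
  · rw [Real.norm_eq_abs, abs_mul]
    exact mul_le_mul (hM x hx) (hB x) (abs_nonneg _) ((abs_nonneg _).trans (hM x hx))
  · rw [volume_box hl hl (by norm_num)]; ring

/-- Bounded, measurable, with bounded support. -/
def FsBS (φ : Pt → ℝ) : Prop :=
  Measurable φ ∧ (∃ M, ∀ y, |φ y| ≤ M) ∧ ∃ a, ∀ y, a < ‖y‖ → φ y = 0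

lemma fs_bs_of {f : Pt → ℝ} {a b c : ℝ} (hf : Continuous f) (h : tsupport f ⊆ box a b c) :
    FsBS f := by
  obtain ⟨M, hM⟩ := hf.bounded_above_of_compact_support (fs_cc h)
  exact ⟨hf.measurable, ⟨M, hM⟩, max a (max b c), fun y hy => fs_zero h fun hy' =>
    not_le.2 hy (fs_norm_le hy' (le_max_left _ _) (le_max_of_le_right (le_max_left _ _))
      (le_max_of_le_right (le_max_right _ _)))⟩

lemma fs_bs_box (a b c : ℝ) : FsBS ((box a b c).indicator fun _ => (1 : ℝ)) := by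
  refine ⟨measurable_const.indicator (measurableSet_box a b c), ⟨1, fun y => ?_⟩,
    max a (max b c), fun y hy => indicator_of_notMem (fun hy' =>
    not_le.2 hy (fs_norm_le hy' (le_max_left _ _) (le_max_of_le_right (le_max_left _ _))
      (le_max_of_le_right (le_max_right _ _)))) _⟩
  by_cases hy : y ∈ box a b c <;> simp [hy]

lemma fs_pot_eq (ψ : Pt → ℝ) (y : Pt) : ∫ w, ker w * ψ (y - w) = ∫ x, ker (y - x) * ψ x := by
  rw [← integral_sub_left_eq_self (fun x => ker (y - x) * ψ x) volume y]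
  simp only [sub_sub_cancel]

lemma fs_prod_int {φ ψ : Pt → ℝ} (hφ : FsBS φ) (hψ : FsBS ψ) :
    Integrable (fun p : Pt × Pt => ker p.1 * (φ p.2 * ψ (p.2 - p.1))) (volume.prod volume) := by
  obtain ⟨m1, ⟨M, hM⟩, a, ha⟩ := hφ
  obtain ⟨m2, ⟨N, hN⟩, b, hb⟩ := hψ
  have i1 : Integrable ((box (a + b) (a + b) (a + b)).indicator ker) :=
    (integrable_indicator_iff (measurableSet_box _ _ _)).2 fs_ker_box
  have i2 : Integrable ((box a a a).indicator fun _ => M * N) :=
    (integrable_indicator_iff (measurableSet_box _ _ _)).2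
      (integrableOn_const (fs_box_ne_top a a a))
  refine (i1.mul_prod i2).mono' ((measurable_ker.comp measurable_fst).mul
    ((m1.comp measurable_snd).mul (m2.comp (measurable_snd.sub measurable_fst)))).aestronglyMeasurable
    (Filter.Eventually.of_forall fun p => ?_)
  have hM0 : 0 ≤ M := (abs_nonneg _).trans (hM 0)
  have hN0 : 0 ≤ N := (abs_nonneg _).trans (hN 0)
  have hpos : 0 ≤ (box (a + b) (a + b) (a + b)).indicator ker p.1 *
      (box a a a).indicator (fun _ => M * N) p.2 :=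
    mul_nonneg (indicator_nonneg (fun w _ => ker_nonneg w) _)
      (indicator_nonneg (fun _ _ => mul_nonneg hM0 hN0) _)
  by_cases h1 : a < ‖p.2‖
  · rw [ha _ h1]; simpa using hpos
  by_cases h2 : b < ‖p.2 - p.1‖
  · rw [hb _ h2]; simpa using hpos
  have h3 : ‖p.1‖ ≤ a + b := by
    have := norm_sub_le p.2 (p.2 - p.1)
    rw [sub_sub_cancel] at this
    linarith [not_lt.1 h1, not_lt.1 h2]
  rw [indicator_of_mem (fs_mem_box h3), indicator_of_mem (fs_mem_box (not_lt.1 h1)),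
    Real.norm_eq_abs, abs_mul, abs_mul, abs_of_nonneg (ker_nonneg _)]
  exact mul_le_mul_of_nonneg_left (mul_le_mul (hM _) (hN _) (abs_nonneg _) hM0) (ker_nonneg _)

lemma fs_conv_int {φ ψ : Pt → ℝ} (hφ : FsBS φ) (hψ : FsBS ψ) :
    Integrable fun w => ker w * ∫ y, φ y * ψ (y - w) := by
  simpa only [integral_const_mul] using (fs_prod_int hφ hψ).integral_prod_left

lemma fs_conv_eq {φ ψ : Pt → ℝ} (hφ : FsBS φ) (hψ : FsBS ψ) :
    ∫ w, ker w * ∫ y, φ y * ψ (y - w) = ∫ y, φ y * ∫ x, ker (y - x) * ψ x := by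
  have := integral_integral_swap (f := fun w y : Pt => ker w * (φ y * ψ (y - w)))
    (fs_prod_int hφ hψ)
  simp only [integral_const_mul] at this
  rw [this]
  refine integral_congr_ae (Filter.Eventually.of_forall fun y => ?_)
  beta_reduce
  rw [← fs_pot_eq, ← integral_const_mul]
  exact integral_congr_ae (Filter.Eventually.of_forall fun w => by ring)

lemma fs_conv_eq' {φ ψ : Pt → ℝ} (hφ : FsBS φ) (hψ : FsBS ψ) :
    ∫ w, ker w * ∫ y, φ y * ψ (y - w) = ∫ x, ψ x * ∫ y, ker (x - y) * φ y := by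
  rw [← fs_conv_eq hψ hφ, ← integral_neg_eq_self]
  refine integral_congr_ae (Filter.Eventually.of_forall fun w => ?_)
  beta_reduce
  rw [fs_ker_neg, ← integral_sub_right_eq_self _ w]
  congr 1
  refine integral_congr_ae (Filter.Eventually.of_forall fun y => ?_)
  beta_reduce
  rw [sub_neg_eq_add, sub_add_cancel, mul_comm]

lemma fs_pot_int {ψ : Pt → ℝ} (hψ : FsBS ψ) (y : Pt) : Integrable fun w => ker w * ψ (y - w) := by
  obtain ⟨m, ⟨N, hN⟩, b, hb⟩ := hψ
  have := (integrable_ker_mul m.aestronglyMeasurable hN (fs_box_ne_top b b b)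
    (fun x hx => hb x (not_le.1 fun h => hx (fs_mem_box h))) y).comp_sub_left y
  simpa only [sub_sub_cancel] using this

open Classical in
/-- Sites in the central box. -/
noncomputable def fsS (σ R a : ℕ) : Finset (ℕ × ℕ × ℕ) :=
  (sites σ R).filter (fun n => site σ R n ∈ box a a 10)

lemma fs_sum1 {σ : ℕ} (hσ : 0 < σ) {R a : ℕ} (ha : a ≤ R) {f : Pt → ℝ}
    (hf : IntegrableOn f (box a a 10)) :
    ∑ n ∈ fsS σ R a, ∫ y in cell (site σ R n) (1 / σ), f y = ∫ y in box a a 10, f y := by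
  have h := cells_ae_eq' hσ ha
  rw [fsS, sum_cells hσ R _ (hf.congr_set_ae h), setIntegral_congr_set h]

lemma fs_sum0 {σ : ℕ} (hσ : 0 < σ) (R : ℕ) {f : Pt → ℝ} (hf : IntegrableOn f (box R R 10)) :
    ∑ n ∈ sites σ R, ∫ y in cell (site σ R n) (1 / σ), f y = ∫ y in box R R 10, f y := by
  have h := cells_ae_eq hσ R
  rw [sum_cells hσ R _ (hf.congr_set_ae h), setIntegral_congr_set h]

lemma fs_card {σ : ℕ} (hσ : 0 < σ) {R a : ℕ} (ha : a ≤ R) :
    (1 / (σ : ℝ)) ^ 3 * (fsS σ R a).card = 80 * (a : ℝ) ^ 2 := by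
  have := fs_sum1 hσ ha (f := fun _ => (1 : ℝ)) (integrableOn_const (fs_box_ne_top _ _ _))
  simp only [setIntegral_const, smul_eq_mul, mul_one] at this
  rw [volume_box (Nat.cast_nonneg a) (Nat.cast_nonneg a) (by norm_num),
    Finset.sum_congr rfl fun n _ => volume_cell (site σ R n) (by positivity), Finset.sum_const,
    nsmul_eq_mul] at this
  linarith

lemma fs_sum_le {σ : ℕ} (hσ : 0 < σ) {R a : ℕ} (ha : a ≤ R) {e : ℕ × ℕ × ℕ → ℝ} {M : ℝ}
    (h : ∀ n ∈ fsS σ R a, |e n| ≤ M) :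
    |(1 / (σ : ℝ)) ^ 3 * ∑ n ∈ fsS σ R a, e n| ≤ M * (80 * (a : ℝ) ^ 2) := by
  rw [← fs_card hσ ha, abs_mul, abs_of_nonneg (by positivity), mul_left_comm]
  refine mul_le_mul_of_nonneg_left ((Finset.abs_sum_le_sum_abs _ _).trans ?_) (by positivity)
  refine (Finset.sum_le_sum h).trans (le_of_eq ?_)
  rw [Finset.sum_const, nsmul_eq_mul, mul_comm]

/-- Cubature on the central box. -/
lemma fs_cub_box {σ : ℕ} (hσ : 0 < σ) {R a : ℕ} (ha : a ≤ R) {f : Pt → ℝ} {M : ℝ}
    (h : DB 4 f M) :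
    |(1 / (σ : ℝ)) ^ 3 * (∑ n ∈ fsS σ R a, f (site σ R n)) +
      (1 / (σ : ℝ)) ^ 2 / 24 * (∫ y in box a a 10, lap f y) - ∫ y in box a a 10, f y| ≤
      2 * (1 / (σ : ℝ)) ^ 4 * M * (80 * (a : ℝ) ^ 2) := by
  have hs : (0 : ℝ) < 1 / σ := by positivity
  have i1 : IntegrableOn f (box a a 10) :=
    h.1.continuous.continuousOn.integrableOn_compact (isCompact_box _ _ _)
  have i2 : IntegrableOn (lap f) (box a a 10) :=
    (continuous_lap (h.1.of_le fs_two_le)).continuousOn.integrableOn_compact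
      (isCompact_box _ _ _)
  rw [← fs_sum1 hσ ha i1, ← fs_sum1 hσ ha i2, Finset.mul_sum, Finset.mul_sum,
    ← Finset.sum_add_distrib, ← Finset.sum_sub_distrib, ← fs_card hσ ha]
  refine (Finset.abs_sum_le_sum_abs _ _).trans ((Finset.sum_le_sum fun n _ =>
    cub4' hs h).trans (le_of_eq ?_))
  rw [Finset.sum_const, nsmul_eq_mul]
  ring

lemma fs_nrm_cell {c y : Pt} {s : ℝ} (hy : ‖y - c‖ ≤ s / 2) (x : Pt) :
    nrm (x - c) ≤ nrm (x - y) + s ∧ nrm (x - y) ≤ nrm (x - c) + s := by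
  have h1 : nrm (y - c) ≤ s := (nrm_le_norm _).trans (by linarith)
  have h2 := nrm_add_le (x - y) (y - c)
  have h3 := nrm_add_le (x - c) (c - y)
  rw [sub_add_sub_cancel] at h2 h3
  rw [nrm_sub_comm c y] at h3
  constructor <;> linarith

/-- Far-field lattice sums. -/
lemma fs_far_sum {σ : ℕ} (hσ : 0 < σ) (R : ℕ) (S : Finset (ℕ × ℕ × ℕ)) (x : Pt)
    (h : ∀ n ∈ S, 2 ≤ nrm (x - site σ R n)) :
    (1 / (σ : ℝ)) ^ 3 * ∑ n ∈ S, 1 / nrm (x - site σ R n) ^ 5 ≤ 256 := by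
  obtain ⟨hi, he⟩ := rpow_out (a := 5) (b := 1) (by norm_num) one_pos x
  have hs1 : (1 : ℝ) / σ ≤ 1 := by
    rw [div_le_one (by positivity)]; exact_mod_cast hσ
  have hm : MeasurableSet {y | 1 ≤ nrm (x - y)} :=
    (isClosed_le continuous_const (continuous_nrm.comp (by fun_prop))).measurableSet
  refine (sum_le_integral hσ R S (g := fun y => 32 * nrm (x - y) ^ (-5 : ℝ)) hm (hi.const_mul 32)
    (fun y _ => mul_nonneg (by norm_num) (Real.rpow_nonneg (nrm_nonneg _) _))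
    (fun n hn y hy => ?_) fun n hn y hy => ?_).trans ?_
  · have := (fs_nrm_cell (norm_sub_le_of_mem_cell hy) x).1
    have := h n hn
    show 1 ≤ nrm (x - y)
    linarith
  · obtain ⟨h1, h2⟩ := fs_nrm_cell (norm_sub_le_of_mem_cell hy) x
    have h3 := h n hn
    have h4 : 0 < nrm (x - y) := by linarith
    rw [Real.rpow_neg h4.le, show (5 : ℝ) = (5 : ℕ) by norm_num, Real.rpow_natCast,
      ← div_eq_mul_inv, div_le_div_iff₀ (by positivity) (by positivity)]
    calc 1 * nrm (x - y) ^ 5 ≤ 1 * (2 * nrm (x - site σ R n)) ^ 5 := by gcongr; linarith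
      _ = _ := by ring
  · rw [integral_const_mul, he, Real.one_rpow]
    have := Real.pi_le_four
    linarith

lemma fs_far_dist {σ R l : ℕ} (hl : 10 ≤ l) {n : ℕ × ℕ × ℕ} (hσ : 0 < σ) (hn : n ∈ sites σ R)
    (hn' : n ∉ fsS σ R (4 * l)) {x : Pt} (hx : x ∈ box l l 4) : 30 ≤ nrm (x - site σ R n) := by
  have hl' : (10 : ℝ) ≤ l := by exact_mod_cast hl
  have h2 : |site σ R n 2| ≤ 10 := by
    have h3 : n.2.2 < 20 * σ := by
      simp only [sites, Finset.mem_product, Finset.mem_range] at hn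
      exact hn.2.2
    have h4 : (n.2.2 : ℝ) + 1 ≤ 20 * σ := by exact_mod_cast h3
    have hs : (0 : ℝ) < σ := by exact_mod_cast hσ
    have h5 : ((n.2.2 : ℝ) + 1 / 2) / σ ≤ 20 := by rw [div_le_iff₀ hs]; linarith
    have h6 : 0 ≤ ((n.2.2 : ℝ) + 1 / 2) / σ := by positivity
    show |((n.2.2 : ℝ) + 1 / 2) / σ - 10| ≤ 10
    rw [abs_le]; constructor <;> linarith
  by_contra hc
  classical
  refine hn' (Finset.mem_filter.2 ⟨hn, ?_, ?_, h2⟩)
  · have h3 := abs_le_nrm (x - site σ R n) 0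
    have h4 := abs_le.1 hx.1
    rw [Pi.sub_apply, abs_le] at h3
    push_cast
    rw [abs_le]; constructor <;> linarith [not_le.1 hc]
  · have h3 := abs_le_nrm (x - site σ R n) 1
    have h4 := abs_le.1 hx.2.1
    rw [Pi.sub_apply, abs_le] at h3
    push_cast
    rw [abs_le]; constructor <;> linarith [not_le.1 hc]

/-- Derivative bound for the kernel near a far point. -/
lemma fs_ker_bd {C : ℝ} (hC1 : 1 ≤ C) (hC : ∀ j ≤ 4, ∀ x y : Pt, y ≠ x →
    ‖iteratedFDeriv ℝ j (fun y => ker (x - y)) y‖ ≤ C / nrm (x - y) ^ (j + 1)) {x c y : Pt}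
    (h1 : 30 ≤ nrm (x - c)) (h2 : nrm (x - c) ≤ nrm (x - y) + 8) :
    ContDiffAt ℝ 4 (fun y => ker (x - y)) y ∧
      ‖iteratedFDeriv ℝ 4 (fun y => ker (x - y)) y‖ ≤ 32 * C * (1 / nrm (x - c) ^ 5) := by
  have hy : y ≠ x := by
    rintro rfl
    have := nrm_le_norm (y - y)
    simp only [sub_self, norm_zero, mul_zero] at this h2
    linarith
  refine ⟨contDiffAt_ker hy 4, (hC 4 le_rfl x y hy).trans ?_⟩
  have h3 : 0 < nrm (x - y) := by linarith
  rw [mul_one_div, div_le_div_iff₀ (by positivity) (by positivity)]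
  calc C * nrm (x - c) ^ 5 ≤ C * (2 * nrm (x - y)) ^ 5 := by gcongr; linarith
    _ = _ := by ring

end Vale.Agent.P370
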