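import Vale.Agent.P370.FirstA

/-!
The pieces of the first-order discretisation error.
-/

namespace Vale.Agent.P370

open MeasureTheory Set

/-- Potential of a density. -/
noncomputable def fsU (g : Pt → ℝ) (y : Pt) : ℝ := ∫ x, ker (x - y) * g x

lemma fs_iadd {f g : Pt → ℝ} (hf : Integrable f) (hg : Integrable g) :
    Integrable fun x => f x + g x := hf.add hg

lemma fs_isub {f g : Pt → ℝ} (hf : Integrable f) (hg : Integrable g) :
    Integrable fun x => f x - g x := hf.sub hg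

lemma fsU_eq (g : Pt → ℝ) (y : Pt) : fsU g y = ∫ w, ker w * g (y - w) := by
  rw [fs_pot_eq, fsU]
  simp only [ker_sub_comm y]

lemma fs_out {l : ℕ} (hl : 10 ≤ l) {y w : Pt} (hy : ‖y‖ ≤ 4 * l + 4) (hw : 6 * (l : ℝ) < ‖w‖) :
    y - w ∉ box l l 4 := by
  have hl' : (10 : ℝ) ≤ l := by exact_mod_cast hl
  intro h
  have h1 := fs_norm_le h le_rfl le_rfl (by linarith)
  have h2 := norm_sub_le y (y - w)
  rw [sub_sub_cancel] at h2
  linarith

lemma fs_big {l : ℕ} (hl : 10 ≤ l) {y : Pt} (hy : y ∈ box (4 * l : ℕ) (4 * l : ℕ) 10) :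
    ‖y‖ ≤ 4 * l := by
  have hl' : (10 : ℝ) ≤ l := by exact_mod_cast hl
  exact fs_norm_le hy (by push_cast; rfl) (by push_cast; rfl) (by linarith)

lemma fs_sub1 {l : ℕ} : box l l 4 ⊆ box (4 * l : ℕ) (4 * l : ℕ) 10 := fun x hx => by
  have : (0 : ℝ) ≤ l := Nat.cast_nonneg l
  refine ⟨hx.1.trans ?_, hx.2.1.trans ?_, hx.2.2.trans (by norm_num)⟩ <;> push_cast <;> linarith

lemma fs_sub3 {l : ℕ} : box (3 * l) (3 * l) 9 ⊆ box (4 * l : ℕ) (4 * l : ℕ) 10 := fun x hx => by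
  have : (0 : ℝ) ≤ l := Nat.cast_nonneg l
  refine ⟨hx.1.trans ?_, hx.2.1.trans ?_, hx.2.2.trans (by norm_num)⟩ <;> push_cast <;> linarith

lemma fs_site_mem {σ R a : ℕ} {n : ℕ × ℕ × ℕ} (hn : n ∈ fsS σ R a) : site σ R n ∈ box a a 10 := by
  classical
  exact (Finset.mem_filter.1 hn).2

lemma fs_subset (σ R a : ℕ) : fsS σ R a ⊆ sites σ R := by
  classical
  exact Finset.filter_subset _ _

lemma fs_ind (E : Set Pt) (hE : MeasurableSet E) (f : Pt → ℝ) :
    ∫ y in E, f y = ∫ y, E.indicator (fun _ => (1 : ℝ)) y * f y := by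
  rw [← integral_indicator hE]
  refine integral_congr_ae (Filter.Eventually.of_forall fun y => ?_)
  by_cases hy : y ∈ E <;> simp [hy]

lemma fs_nearA {σ R l : ℕ} (hσ : 0 < σ) (hl : 10 ≤ l) (hR : 4 * l ≤ R) {g : Pt → ℝ} {B : ℝ}
    (hg : DB 4 g B) (hs : tsupport g ⊆ box l l 4) :
    |(1 / (σ : ℝ)) ^ 3 * (∑ n ∈ fsS σ R (4 * l), fsU g (site σ R n)) -
      Real.pi * (1 / (σ : ℝ)) ^ 2 / 6 * (∫ x, g x) -
      ∫ x, (∫ y in box (4 * l : ℕ) (4 * l : ℕ) 10, ker (x - y)) * g x| ≤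
      2 * (1 / (σ : ℝ)) ^ 4 * B * (80 * ((4 * l : ℕ) : ℝ) ^ 2) * (7 + 8 * (6 * (l : ℝ)) ^ 3) := by
  set Q := box (4 * l : ℕ) (4 * l : ℕ) 10 with hQ
  have hQm : MeasurableSet Q := measurableSet_box _ _ _
  have hg2 : ContDiff ℝ 2 g := hg.1.of_le fs_two_le
  have b1 : FsBS g := fs_bs_of hg.1.continuous hs
  have hs2 : tsupport (lap g) ⊆ box l l 4 := (tsupport_lap g).trans hs
  have b2 : FsBS (lap g) := fs_bs_of (continuous_lap hg2) hs2
  have b0 : FsBS (Q.indicator fun _ => (1 : ℝ)) := fs_bs_box _ _ _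
  have key := fs_kw (r := 6 * l) (Φ := fun w =>
    (1 / (σ : ℝ)) ^ 3 * (∑ n ∈ fsS σ R (4 * l), g (site σ R n - w)) +
      (1 / (σ : ℝ)) ^ 2 / 24 * (∫ y in Q, lap g (y - w)) - ∫ y in Q, g (y - w))
    (by positivity) (fun w => by
      simpa only [lap_translate] using fs_cub_box hσ hR (hg.translate w)) (fun w hw => by
      rw [Finset.sum_eq_zero fun n hn =>
          fs_zero hs (fs_out hl (by linarith [fs_big hl (fs_site_mem hn)]) hw),
        setIntegral_eq_zero_of_forall_eq_zero fun y hy =>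
          fs_zero hs2 (fs_out hl (by linarith [fs_big hl hy]) hw),
        setIntegral_eq_zero_of_forall_eq_zero fun y hy =>
          fs_zero hs (fs_out hl (by linarith [fs_big hl hy]) hw)]
      simp)
  refine le_trans (le_of_eq ?_) key
  congr 1
  have i1 : Integrable fun w => (1 / (σ : ℝ)) ^ 3 *
      ∑ n ∈ fsS σ R (4 * l), ker w * g (site σ R n - w) :=
    (integrable_finsetSum _ fun n _ => fs_pot_int b1 _).const_mul _
  have i2 := (fs_conv_int b0 b2).const_mul ((1 / (σ : ℝ)) ^ 2 / 24)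
  have i3 := fs_conv_int b0 b1
  have e2 : ∫ w, ker w * ∫ y, Q.indicator (fun _ => (1 : ℝ)) y * lap g (y - w) =
      -(4 * Real.pi) * ∫ x, g x := by
    rw [fs_conv_eq b0 b2, ← integral_const_mul]
    refine integral_congr_ae (Filter.Eventually.of_forall fun y => ?_)
    beta_reduce
    rw [newton hg2 (fs_cc hs)]
    by_cases hy : y ∈ Q
    · rw [indicator_of_mem hy]; ring
    · rw [fs_zero hs fun h => hy (fs_sub1 h)]; ring
  have e3 : ∫ w, ker w * ∫ y, Q.indicator (fun _ => (1 : ℝ)) y * g (y - w) =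
      ∫ x, (∫ y in Q, ker (x - y)) * g x := by
    rw [fs_conv_eq' b0 b1]
    refine integral_congr_ae (Filter.Eventually.of_forall fun x => ?_)
    beta_reduce
    rw [fs_ind Q hQm, mul_comm]
    simp only [mul_comm (ker _)]
  have e : ∀ w, ker w * ((1 / (σ : ℝ)) ^ 3 * (∑ n ∈ fsS σ R (4 * l), g (site σ R n - w)) +
      (1 / (σ : ℝ)) ^ 2 / 24 * (∫ y in Q, lap g (y - w)) - ∫ y in Q, g (y - w)) =
      (1 / (σ : ℝ)) ^ 3 * (∑ n ∈ fsS σ R (4 * l), ker w * g (site σ R n - w)) +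
      (1 / (σ : ℝ)) ^ 2 / 24 * (ker w * ∫ y, Q.indicator (fun _ => (1 : ℝ)) y * lap g (y - w)) -
      ker w * ∫ y, Q.indicator (fun _ => (1 : ℝ)) y * g (y - w) := by
    intro w
    rw [fs_ind Q hQm, fs_ind Q hQm, ← Finset.mul_sum]
    ring
  simp only [e]
  rw [integral_sub (fs_iadd i1 i2) i3, integral_add i1 i2, integral_const_mul, integral_const_mul,
    integral_finsetSum _ fun n _ => fs_pot_int b1 _, e2, e3]
  simp only [fsU_eq]
  ring

lemma fs_farA {C : ℝ} (hC1 : 1 ≤ C) (hC : ∀ j ≤ 4, ∀ x y : Pt, y ≠ x →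
    ‖iteratedFDeriv ℝ j (fun y => ker (x - y)) y‖ ≤ C / nrm (x - y) ^ (j + 1))
    {σ R l : ℕ} (hσ : 0 < σ) (hl : 10 ≤ l) (hR : 4 * l ≤ R) {x : Pt} (hx : x ∈ box l l 4) :
    |(1 / (σ : ℝ)) ^ 3 * (∑ n ∈ sites σ R \ fsS σ R (4 * l), ker (x - site σ R n)) -
      (slab R x - ∫ y in box (4 * l : ℕ) (4 * l : ℕ) 10, ker (x - y))| ≤
      (1 / (σ : ℝ)) ^ 4 * (32 * C) * 256 := by
  have hs : (0 : ℝ) < 1 / σ := by positivity
  have hs1 : (1 : ℝ) / σ ≤ 1 := by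
    rw [div_le_one (by positivity)]; exact_mod_cast hσ
  have hd : ∀ n ∈ sites σ R \ fsS σ R (4 * l), 30 ≤ nrm (x - site σ R n) := fun n hn =>
    fs_far_dist hl hσ (Finset.mem_sdiff.1 hn).1 (Finset.mem_sdiff.1 hn).2 hx
  rw [slab, ← fs_sum0 hσ R (integrableOn_ker (fs_box_ne_top _ _ _) x),
    ← fs_sum1 hσ hR (integrableOn_ker (fs_box_ne_top _ _ _) x),
    ← Finset.sum_sdiff (fs_subset σ R (4 * l)), add_sub_cancel_right, Finset.mul_sum,
    ← Finset.sum_sub_distrib]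
  have h1 : ∀ n ∈ sites σ R \ fsS σ R (4 * l), |(1 / (σ : ℝ)) ^ 3 * ker (x - site σ R n) -
      ∫ y in cell (site σ R n) (1 / σ), ker (x - y)| ≤
      (1 / (σ : ℝ)) ^ 7 * (32 * C * (1 / nrm (x - site σ R n) ^ 5)) := by
    intro n hn
    have h2 := cub4 (f := fun y => ker (x - y)) (c := site σ R n) hs fun y hy =>
      fs_ker_bd hC1 hC (hd n hn) (by linarith [(fs_nrm_cell hy x).1])
    have h3 : site σ R n ≠ x := by
      intro h
      have h4 := hd n hn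
      have h5 := nrm_le_norm (x - site σ R n)
      rw [h, sub_self] at h4 h5
      rw [norm_zero] at h5
      linarith
    rwa [lap_ker h3, mul_zero, add_zero] at h2
  refine (Finset.abs_sum_le_sum_abs _ _).trans ((Finset.sum_le_sum h1).trans ?_)
  have h2 := fs_far_sum hσ R _ x fun n hn => le_trans (by norm_num) (hd n hn)
  rw [← Finset.mul_sum, ← Finset.mul_sum]
  calc _ = (1 / (σ : ℝ)) ^ 4 * (32 * C) * ((1 / (σ : ℝ)) ^ 3 *
        ∑ n ∈ sites σ R \ fsS σ R (4 * l), 1 / nrm (x - site σ R n) ^ 5) := by ring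
    _ ≤ _ := mul_le_mul_of_nonneg_left h2 (by positivity)

lemma fs_setpot_int {E : Set Pt} (hm : MeasurableSet E) (hE : volume E ≠ ⊤) {g : Pt → ℝ}
    (hg : Integrable g) : Integrable fun x => (∫ y in E, ker (x - y)) * g x := by
  refine hg.bdd_mul (c := 7 * 1 ^ 2 + volume.real E / 1) ?_ (Filter.Eventually.of_forall fun x => ?_)
  · exact (StronglyMeasurable.integral_prod_right' (f := fun p : Pt × Pt => ker (p.1 - p.2))
      (measurable_ker.comp (measurable_fst.sub measurable_snd)).stronglyMeasurable).aestronglyMeasurable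
  · rw [Real.norm_eq_abs, abs_of_nonneg (integral_nonneg fun y => ker_nonneg _)]
    exact coulomb_le hm hE x one_pos

/-- The background part. -/
lemma fs_partA {C : ℝ} (hC1 : 1 ≤ C) (hC : ∀ j ≤ 4, ∀ x y : Pt, y ≠ x →
    ‖iteratedFDeriv ℝ j (fun y => ker (x - y)) y‖ ≤ C / nrm (x - y) ^ (j + 1))
    {σ R l : ℕ} (hσ : 0 < σ) (hl : 10 ≤ l) (hR : 4 * l ≤ R) {g : Pt → ℝ} {B : ℝ}
    (hg : DB 4 g B) (hs : tsupport g ⊆ box l l 4) :
    |(1 / (σ : ℝ)) ^ 3 * (∑ n ∈ sites σ R, fsU g (site σ R n)) -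
      Real.pi * (1 / (σ : ℝ)) ^ 2 / 6 * (∫ x, g x) - ∫ x, slab R x * g x| ≤
      2 * (1 / (σ : ℝ)) ^ 4 * B * (80 * ((4 * l : ℕ) : ℝ) ^ 2) * (7 + 8 * (6 * (l : ℝ)) ^ 3) +
      (1 / (σ : ℝ)) ^ 4 * (32 * C) * 256 * B * (32 * (l : ℝ) ^ 2) := by
  have h1 := fs_nearA hσ hl hR hg hs
  have h2 := fs_gx (Nat.cast_nonneg l) (fun x hx => fs_farA hC1 hC hσ hl hR hx) (fs_DB_abs hg)
    fun x hx => fs_zero hs hx
  have hc := hg.1.continuous
  have hi : Integrable g := hc.integrable_of_hasCompactSupport (fs_cc hs)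
  have i1 : ∀ n, Integrable fun x => ker (x - site σ R n) * g x := fun n =>
    integrable_ker_mul_cc hc (fs_cc hs) _
  have i2 : Integrable fun x => slab R x * g x :=
    fs_setpot_int (measurableSet_box _ _ _) (fs_box_ne_top _ _ _) hi
  have i3 := fs_setpot_int (measurableSet_box (4 * l : ℕ) (4 * l : ℕ) 10) (fs_box_ne_top _ _ _) hi
  simp only [sub_mul, mul_assoc ((1 / (σ : ℝ)) ^ 3), Finset.sum_mul] at h2
  rw [integral_sub ((integrable_finsetSum _ fun n _ => i1 n).const_mul _) (fs_isub i2 i3),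
    integral_sub i2 i3, integral_const_mul, integral_finsetSum _ fun n _ => i1 n] at h2
  rw [← Finset.sum_sdiff (fs_subset σ R (4 * l))]
  refine le_trans (le_of_eq ?_) ((abs_add_le _ _).trans (add_le_add h1 h2))
  congr 1
  simp only [fsU]
  ring

/-- The part carried by the smooth correction. -/
lemma fs_partC {σ R l : ℕ} (hσ : 0 < σ) (hl : 10 ≤ l) (hR : 4 * l ≤ R) {g F : Pt → ℝ} {B : ℝ}
    (hg : DB 4 g B) (hs : tsupport g ⊆ box l l 4) (hF : DB 6 F B)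
    (hFs : tsupport F ⊆ box (3 * l) (3 * l) 9) :
    |(1 / (σ : ℝ)) ^ 3 * (∑ n ∈ sites σ R, lap F (site σ R n) * fsU g (site σ R n)) +
      4 * Real.pi * ∫ x, F x * g x| ≤
      2 * (1 / (σ : ℝ)) ^ 4 * (2 ^ 4 * (3 * B) * B) * (80 * ((4 * l : ℕ) : ℝ) ^ 2) *
        (7 + 8 * (6 * (l : ℝ)) ^ 3) := by
  have hF2 : ContDiff ℝ 2 F := hF.1.of_le fs_two_le
  have hs2 : tsupport (lap F) ⊆ box (3 * l) (3 * l) 9 := (tsupport_lap F).trans hFs
  have b1 : FsBS g := fs_bs_of hg.1.continuous hs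
  have b2 : FsBS (lap F) := fs_bs_of (continuous_lap hF2) hs2
  have key := fs_kw (r := 6 * l) (Φ := fun w =>
    (1 / (σ : ℝ)) ^ 3 * (∑ n ∈ fsS σ R (4 * l), lap F (site σ R n) * g (site σ R n - w)) -
      ∫ y, lap F y * g (y - w)) (by positivity) (fun w => by
      have hH := (DB.lap (r := 4) hF).mul (hg.translate w)
      have h3 : tsupport (fun y => lap F y * g (y - w)) ⊆ box (3 * l) (3 * l) 9 :=
        (tsupport_mul_subset_left (f := lap F) (g := fun y => g (y - w))).trans hs2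
      have h4 := fs_cub_box hσ hR hH
      rwa [setIntegral_eq_integral_of_forall_compl_eq_zero fun y hy =>
          fs_zero ((tsupport_lap _).trans h3) fun h => hy (fs_sub3 h),
        setIntegral_eq_integral_of_forall_compl_eq_zero fun y hy =>
          fs_zero h3 fun h => hy (fs_sub3 h),
        integral_lap (hH.1.of_le fs_two_le) (fs_cc h3), mul_zero, add_zero] at h4) (fun w hw => by
      have h0 : ∀ y, lap F y * g (y - w) = 0 := fun y => by
        by_cases hy : y ∈ box (3 * l) (3 * l) 9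
        · rw [fs_zero hs (fs_out hl (by linarith [fs_big hl (fs_sub3 hy)]) hw), mul_zero]
        · rw [fs_zero hs2 hy, zero_mul]
      simp [h0])
  refine le_trans (le_of_eq ?_) key
  congr 1
  have i0 : ∀ n, Integrable fun w => lap F (site σ R n) * (ker w * g (site σ R n - w)) :=
    fun n => (fs_pot_int b1 _).const_mul _
  have i1 := (integrable_finsetSum (fsS σ R (4 * l)) fun n _ => i0 n).const_mul
    ((1 / (σ : ℝ)) ^ 3)
  have e : ∀ w, ker w * ((1 / (σ : ℝ)) ^ 3 *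
      (∑ n ∈ fsS σ R (4 * l), lap F (site σ R n) * g (site σ R n - w)) -
      ∫ y, lap F y * g (y - w)) = (1 / (σ : ℝ)) ^ 3 *
      (∑ n ∈ fsS σ R (4 * l), lap F (site σ R n) * (ker w * g (site σ R n - w))) -
      ker w * ∫ y, lap F y * g (y - w) := by
    intro w
    simp only [mul_left_comm (lap F _) (ker w)]
    rw [← Finset.mul_sum]
    ring
  simp only [e]
  rw [integral_sub i1 (fs_conv_int b2 b1), integral_const_mul,
    integral_finsetSum _ fun n _ => i0 n, fs_conv_eq' b2 b1,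
    ← Finset.sum_subset (fs_subset σ R (4 * l)) fun n hn hn' => ?_]
  · simp only [newton hF2 (fs_cc hFs), integral_const_mul, fsU_eq, mul_neg, integral_neg,
      sub_neg_eq_add]
    congr 1
    rw [← integral_const_mul]
    exact integral_congr_ae (Filter.Eventually.of_forall fun x => by ring)
  · classical
    rw [fs_zero hs2 fun h => hn' (Finset.mem_filter.2 ⟨hn, fs_sub3 h⟩), zero_mul]

lemma fs_U_le {l : ℕ} (hl : 10 ≤ l) {g : Pt → ℝ} {B : ℝ} (hg : DB 4 g B)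
    (hs : tsupport g ⊆ box l l 4) {y : Pt} (hy : y ∈ box (4 * l : ℕ) (4 * l : ℕ) 10) :
    |fsU g y| ≤ B * (7 + 8 * (6 * (l : ℝ)) ^ 3) := by
  rw [fsU_eq]
  exact fs_kw (by positivity) (fun w => fs_DB_abs hg _) fun w hw =>
    fs_zero hs (fs_out hl (by linarith [fs_big hl hy]) hw)

lemma fs_d4_int {F : ℕ × ℕ × ℕ → Pt → ℝ} (hF : ∀ m, Integrable (F m)) (n : ℕ × ℕ × ℕ) :
    d4 (fun m => ∫ x, F m x) n = ∫ x, d4 (fun m => F m x) n := by
  simp only [d4]
  rw [integral_add (fs_isub (fs_iadd (fs_isub (hF _) ((hF _).const_mul _)) ((hF _).const_mul _))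
      ((hF _).const_mul _)) (hF _),
    integral_sub (fs_iadd (fs_isub (hF _) ((hF _).const_mul _)) ((hF _).const_mul _))
      ((hF _).const_mul _),
    integral_add (fs_isub (hF _) ((hF _).const_mul _)) ((hF _).const_mul _),
    integral_sub (hF _) ((hF _).const_mul _), integral_const_mul, integral_const_mul,
    integral_const_mul]

lemma fs_d4_integrable {F : ℕ × ℕ × ℕ → Pt → ℝ} (hF : ∀ m, Integrable (F m)) (n : ℕ × ℕ × ℕ) :
    Integrable fun x => d4 (fun m => F m x) n :=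
  fs_iadd (fs_isub (fs_iadd (fs_isub (hF _) ((hF _).const_mul _)) ((hF _).const_mul _))
      ((hF _).const_mul _)) (hF _)

lemma fs_d4_mul (F : ℕ × ℕ × ℕ → ℝ) (c : ℝ) (n : ℕ × ℕ × ℕ) :
    d4 (fun m => c * F m) n = c * d4 F n := by
  simp only [d4]; ring

lemma fs_d4_cut {A : ℕ} (G : ℕ × ℕ × ℕ → ℝ) {n : ℕ × ℕ × ℕ} (hn : n.1 + 4 < A) :
    d4 (fun m => if m.1 < A then G m else 0) n = d4 G n := by
  simp only [d4]
  rw [if_pos hn, if_pos (by omega), if_pos (by omega), if_pos (by omega), if_pos (by omega)]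

lemma fs_d4_le {σ : ℕ} (hσ : 0 < σ) (R : ℕ) {f : Pt → ℝ} {M : ℝ} (n : ℕ × ℕ × ℕ)
    (h : ∀ y, ‖y - site σ R n‖ ≤ 4 → ContDiffAt ℝ 4 f y ∧ ‖iteratedFDeriv ℝ 4 f y‖ ≤ M) :
    |d4 (fun m => f (site σ R m)) n| ≤ 30 * (1 / (σ : ℝ)) ^ 4 * M := by
  have hs : (0 : ℝ) < 1 / σ := by positivity
  have hs1 : (1 : ℝ) / σ ≤ 1 := by
    rw [div_le_one (by positivity)]; exact_mod_cast hσ
  have := diff4 (f := f) (c := site σ R n) hs fun t ht => h _ (by
    rw [add_sub_cancel_left, norm_smul, ek, Pi.norm_single, norm_one, mul_one, Real.norm_eq_abs,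
      abs_of_nonneg ht.1]
    linarith [ht.2])
  simp only [d4, site_succ hσ]
  push_cast
  rwa [one_mul]

lemma fs_d4_zero {σ : ℕ} (hσ : 0 < σ) (R : ℕ) {f : Pt → ℝ} (n : ℕ × ℕ × ℕ)
    (h : ∀ y, ‖y - site σ R n‖ ≤ 4 → f y = 0) : d4 (fun m => f (site σ R m)) n = 0 := by
  have hs : (0 : ℝ) < 1 / σ := by positivity
  have hs1 : (1 : ℝ) / σ ≤ 1 := by
    rw [div_le_one (by positivity)]; exact_mod_cast hσ
  have h1 : ∀ i : ℕ, i ≤ 4 → f (site σ R (n.1 + i, n.2)) = 0 := fun i hi => h _ (by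
    have : (i : ℝ) ≤ 4 := by exact_mod_cast hi
    rw [site_succ hσ, add_sub_cancel_left, norm_smul, ek, Pi.norm_single, norm_one, mul_one,
      Real.norm_eq_abs, abs_of_nonneg (by positivity)]
    nlinarith)
  have h0 : f (site σ R n) = 0 := h1 0 (by norm_num)
  simp only [d4, h0, h1 1 (by norm_num), h1 2 (by norm_num), h1 3 (by norm_num), h1 4 le_rfl]
  ring

lemma fs_near_idx {σ R l : ℕ} (hσ : 0 < σ) (hl : 10 ≤ l) (hR : 10 * l ≤ R) {n : ℕ × ℕ × ℕ}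
    (hn : n ∈ fsS σ R (4 * l)) : n.1 + 4 < 2 * R * σ := by
  have h1 : ((n.1 : ℝ) + 1 / 2) / σ - R ≤ (4 * l : ℕ) := (abs_le.1 (fs_site_mem hn).1).2
  have hs : (1 : ℝ) ≤ σ := by exact_mod_cast hσ
  have hl' : (10 : ℝ) ≤ l := by exact_mod_cast hl
  have hR' : (10 : ℝ) * l ≤ R := by exact_mod_cast hR
  rw [sub_le_iff_le_add, div_le_iff₀ (by linarith)] at h1
  push_cast at h1
  have : (n.1 : ℝ) + 4 < 2 * R * σ := by nlinarith
  exact_mod_cast this

lemma fs_nearE {σ R l : ℕ} (hσ : 0 < σ) (hl : 10 ≤ l) {g : Pt → ℝ} {B : ℝ}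
    (hg : DB 4 g B) (hs : tsupport g ⊆ box l l 4) {n : ℕ × ℕ × ℕ} (hn : n ∈ fsS σ R (4 * l)) :
    |d4 (fun m => fsU g (site σ R m)) n| ≤
      30 * (1 / (σ : ℝ)) ^ 4 * B * (7 + 8 * (6 * (l : ℝ)) ^ 3) := by
  simp only [fsU_eq]
  rw [fs_d4_int fun m => fs_pot_int (fs_bs_of hg.1.continuous hs) _]
  simp only [fs_d4_mul]
  refine fs_kw (by positivity) (fun w => fs_d4_le hσ R (f := fun y => g (y - w)) n fun y _ =>
    ⟨((hg.translate w).1.of_le (ENat.natCast_le_of_coe_top_le_withTop le_rfl 4)).contDiffAt,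
      (hg.translate w).2 4 le_rfl y⟩) fun w hw =>
    fs_d4_zero hσ R (f := fun y => g (y - w)) n fun y hy => fs_zero hs (fs_out hl ?_ hw)
  have h1 := norm_add_le (y - site σ R n) (site σ R n)
  rw [sub_add_cancel] at h1
  linarith [fs_big hl (fs_site_mem hn)]

lemma fs_edge_card {σ R l : ℕ} (hσ : 0 < σ) (hl : 10 ≤ l) (S : Finset (ℕ × ℕ × ℕ))
    (hS : ∀ n ∈ S, n ∈ sites σ R ∧ 2 * R * σ ≤ n.1 + 4 ∧ |site σ R n 1| ≤ 3 * l) :
    (1 / (σ : ℝ)) ^ 3 * ∑ _n ∈ S, (1 : ℝ) ≤ 1760 * l := by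
  have hs : (1 : ℝ) ≤ σ := by exact_mod_cast hσ
  have hs1 : (1 : ℝ) / σ ≤ 1 := by rw [div_le_one (by positivity)]; exact hs
  have hl' : (10 : ℝ) ≤ l := by exact_mod_cast hl
  set E : Set Pt := (fun y => y + -(R : ℝ) • ek 0) ⁻¹' box 5 (4 * l) 11 with hE
  have hv : volume E = volume (box 5 (4 * l) 11) := measure_preimage_add_right _ _ _
  refine (sum_le_integral hσ R S (g := fun _ => 1) (E := E)
    ((measurableSet_box _ _ _).preimage (by fun_prop))
    (integrableOn_const (by rw [hv]; exact fs_box_ne_top _ _ _)) (fun _ _ => zero_le_one)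
    (fun n hn y hy => ?_) fun _ _ _ _ => le_rfl).trans (le_of_eq ?_)
  · obtain ⟨h1, h2, h3⟩ := hS n hn
    simp only [sites, Finset.mem_product, Finset.mem_range] at h1
    have a1 : (n.1 : ℝ) + 1 ≤ 2 * R * σ := by exact_mod_cast h1.1
    have a2 : (2 : ℝ) * R * σ ≤ n.1 + 4 := by exact_mod_cast h2
    have a3 : (n.2.2 : ℝ) + 1 ≤ 20 * σ := by exact_mod_cast h1.2.2
    have b1 : ((n.1 : ℝ) + 1 / 2) / σ ≤ 2 * R := by rw [div_le_iff₀ (by linarith)]; linarith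
    have b2 : 2 * R - 4 ≤ ((n.1 : ℝ) + 1 / 2) / σ := by rw [le_div_iff₀ (by linarith)]; linarith
    have b3 : ((n.2.2 : ℝ) + 1 / 2) / σ ≤ 20 := by rw [div_le_iff₀ (by linarith)]; linarith
    have b4 : 0 ≤ ((n.2.2 : ℝ) + 1 / 2) / σ := by positivity
    have c0 : ((n.1 : ℝ) + 1 / 2) / σ - R - 1 / σ / 2 ≤ y 0 ∧
      y 0 < ((n.1 : ℝ) + 1 / 2) / σ - R + 1 / σ / 2 := hy 0
    have c1 := hy 1
    have c2 : ((n.2.2 : ℝ) + 1 / 2) / σ - 10 - 1 / σ / 2 ≤ y 2 ∧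
      y 2 < ((n.2.2 : ℝ) + 1 / 2) / σ - 10 + 1 / σ / 2 := hy 2
    rw [abs_le] at h3
    have d0 : (y + -(R : ℝ) • ek 0) 0 = y 0 - R := by simp [ek, sub_eq_add_neg]
    have d1 : (y + -(R : ℝ) • ek 0) 1 = y 1 := by simp [ek]
    have d2 : (y + -(R : ℝ) • ek 0) 2 = y 2 := by simp [ek]
    refine ⟨?_, ?_, ?_⟩ <;> beta_reduce
    · rw [d0, abs_le]; constructor <;> linarith [c0.1, c0.2]
    · rw [d1, abs_le]; constructor <;> linarith [c1.1, c1.2]
    · rw [d2, abs_le]; constructor <;> linarith [c2.1, c2.2]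
  · rw [setIntegral_const, smul_eq_mul, mul_one, Measure.real, hv, ← Measure.real,
      volume_box (by norm_num) (by positivity) (by norm_num)]
    ring

lemma fs_edge_ker {σ R l : ℕ} (hσ : 0 < σ) (hl : 10 ≤ l) (hR : 10 * l ≤ R) {x : Pt}
    (hx : x ∈ box l l 4) {m : ℕ × ℕ × ℕ} (hm : 2 * R * σ ≤ m.1 + 4) :
    ker (x - site σ R m) ≤ 2 / R := by
  have hs : (1 : ℝ) ≤ σ := by exact_mod_cast hσ
  have hl' : (10 : ℝ) ≤ l := by exact_mod_cast hl
  have hR' : (10 : ℝ) * l ≤ R := by exact_mod_cast hR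
  have a2 : (2 : ℝ) * R * σ ≤ m.1 + 4 := by exact_mod_cast hm
  have b2 : 2 * R - 4 ≤ ((m.1 : ℝ) + 1 / 2) / σ := by rw [le_div_iff₀ (by linarith)]; linarith
  have h1 : |x 0 - (((m.1 : ℝ) + 1 / 2) / σ - R)| ≤ nrm (x - site σ R m) :=
    abs_le_nrm (x - site σ R m) 0
  have h2 := (abs_le.1 hx.1).2
  have h3 := (abs_le.1 h1).1
  rw [ker, inv_eq_one_div, div_le_div_iff₀ (by linarith) (by linarith)]
  linarith

lemma fs_site1 (σ R i : ℕ) (n : ℕ × ℕ × ℕ) : site σ R (i, n.2) 1 = site σ R n 1 := by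
  simp only [site, Matrix.cons_val_one, Matrix.cons_val_zero]

lemma fs_d4_crude {G : ℕ × ℕ × ℕ → ℝ} {n : ℕ × ℕ × ℕ} {M : ℝ}
    (h : ∀ i : ℕ, 0 ≤ G (n.1 + i, n.2) ∧ G (n.1 + i, n.2) ≤ M) : |d4 G n| ≤ 16 * M := by
  have a0 : 0 ≤ G n ∧ G n ≤ M := h 0
  rw [d4, abs_le]
  constructor <;> linarith [a0.1, a0.2, (h 1).1, (h 1).2, (h 2).1, (h 2).2, (h 3).1,
    (h 3).2, (h 4).1, (h 4).2]

lemma fs_farE {C : ℝ} (hC1 : 1 ≤ C) (hC : ∀ j ≤ 4, ∀ x y : Pt, y ≠ x →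
    ‖iteratedFDeriv ℝ j (fun y => ker (x - y)) y‖ ≤ C / nrm (x - y) ^ (j + 1))
    {σ R l : ℕ} (hσ : 0 < σ) (hl : 10 ≤ l) (hR : 10 * l ≤ R) {u : ℕ × ℕ × ℕ → ℝ}
    (hu : ∀ n, |u n| ≤ 1) (hu0 : ∀ n, 3 * (l : ℝ) < |site σ R n 1| → u n = 0)
    {x : Pt} (hx : x ∈ box l l 4) :
    |(1 / (σ : ℝ)) ^ 3 * ∑ n ∈ sites σ R \ fsS σ R (4 * l), u (n.1 + 4, n.2) *
      d4 (fun m => if m.1 < 2 * R * σ then ker (x - site σ R m) else 0) n| ≤
      30 * (1 / (σ : ℝ)) ^ 4 * (32 * C) * 256 + 32 / R * (1760 * l) := by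
  classical
  have hR0 : (0 : ℝ) < R := by exact_mod_cast (by omega : 0 < R)
  have hd : ∀ n ∈ sites σ R \ fsS σ R (4 * l), 30 ≤ nrm (x - site σ R n) := fun n hn =>
    fs_far_dist hl hσ (Finset.mem_sdiff.1 hn).1 (Finset.mem_sdiff.1 hn).2 hx
  have h1 : ∀ n ∈ sites σ R \ fsS σ R (4 * l), |u (n.1 + 4, n.2) *
      d4 (fun m => if m.1 < 2 * R * σ then ker (x - site σ R m) else 0) n| ≤
      30 * (1 / (σ : ℝ)) ^ 4 * (32 * C) * (1 / nrm (x - site σ R n) ^ 5) +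
      32 / R * if 2 * R * σ ≤ n.1 + 4 ∧ |site σ R n 1| ≤ 3 * l then 1 else 0 := by
    intro n hn
    have hp : 0 ≤ 30 * (1 / (σ : ℝ)) ^ 4 * (32 * C) * (1 / nrm (x - site σ R n) ^ 5) := by
      have := nrm_nonneg (x - site σ R n)
      positivity
    rw [abs_mul]
    by_cases h4 : n.1 + 4 < 2 * R * σ
    · rw [fs_d4_cut _ h4, if_neg fun h => by omega, mul_zero, add_zero, mul_assoc _ (32 * C)]
      refine (mul_le_of_le_one_left (abs_nonneg _) (hu _)).trans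
        (fs_d4_le hσ R (f := fun y => ker (x - y)) n fun y hy => fs_ker_bd hC1 hC (hd n hn) ?_)
      exact (fs_nrm_cell (s := 8) (by linarith) x).1
    · by_cases h5 : |site σ R n 1| ≤ 3 * l
      · rw [if_pos ⟨not_lt.1 h4, h5⟩, mul_one]
        refine (mul_le_of_le_one_left (abs_nonneg _) (hu _)).trans (le_add_of_nonneg_of_le hp ?_)
        rw [show (32 : ℝ) / R = 16 * (2 / R) by ring]
        refine fs_d4_crude fun i => ?_
        split_ifs
        · exact ⟨ker_nonneg _, fs_edge_ker hσ hl hR hx (by dsimp only; omega)⟩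
        · exact ⟨le_rfl, by positivity⟩
      · rw [hu0 (n.1 + 4, n.2) (by rw [fs_site1]; exact not_le.1 h5), if_neg fun h => h5 h.2]
        simp only [abs_zero, zero_mul, mul_zero, add_zero]
        exact hp
  rw [abs_mul, abs_of_nonneg (by positivity)]
  refine (mul_le_mul_of_nonneg_left ((Finset.abs_sum_le_sum_abs _ _).trans
    (Finset.sum_le_sum h1)) (by positivity)).trans ?_
  have h2 := fs_far_sum hσ R _ x fun n hn => le_trans (by norm_num) (hd n hn)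
  have h3 := fs_edge_card (R := R) hσ hl ((sites σ R \ fsS σ R (4 * l)).filter fun n =>
      2 * R * σ ≤ n.1 + 4 ∧ |site σ R n 1| ≤ 3 * l) fun n hn =>
    ⟨(Finset.mem_sdiff.1 (Finset.mem_filter.1 hn).1).1, (Finset.mem_filter.1 hn).2⟩
  rw [Finset.sum_filter] at h3
  rw [Finset.sum_add_distrib, ← Finset.mul_sum, ← Finset.mul_sum, mul_add,
    mul_left_comm _ (30 * _ * _), mul_left_comm _ (32 / _)]
  exact add_le_add (mul_le_mul_of_nonneg_left h2 (by positivity))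
    (mul_le_mul_of_nonneg_left h3 (by positivity))

/-- The rounding part. -/
lemma fs_partE {C : ℝ} (hC1 : 1 ≤ C) (hC : ∀ j ≤ 4, ∀ x y : Pt, y ≠ x →
    ‖iteratedFDeriv ℝ j (fun y => ker (x - y)) y‖ ≤ C / nrm (x - y) ^ (j + 1))
    {σ R l : ℕ} (hσ : 0 < σ) (hl : 10 ≤ l) (hR : 10 * l ≤ R) {u : ℕ × ℕ × ℕ → ℝ}
    (hu : ∀ n, |u n| ≤ 1) (hu0 : ∀ n, 3 * (l : ℝ) < |site σ R n 1| → u n = 0)
    (hu1 : ∀ n, n.1 < 4 → u n = 0) {g : Pt → ℝ} {B : ℝ}
    (hg : DB 4 g B) (hs : tsupport g ⊆ box l l 4) :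
    |(1 / (σ : ℝ)) ^ 3 * ∑ n ∈ sites σ R, d4 u n * fsU g (site σ R n)| ≤
      30 * (1 / (σ : ℝ)) ^ 4 * B * (7 + 8 * (6 * (l : ℝ)) ^ 3) * (80 * ((4 * l : ℕ) : ℝ) ^ 2) +
      (30 * (1 / (σ : ℝ)) ^ 4 * (32 * C) * 256 + 32 / R * (1760 * l)) * B *
        (32 * (l : ℝ) ^ 2) := by
  have h0 : ∑ n ∈ sites σ R, d4 u n * fsU g (site σ R n) = ∑ n ∈ sites σ R, u (n.1 + 4, n.2) *
      d4 (fun m => if m.1 < 2 * R * σ then fsU g (site σ R m) else 0) n := sum_d4 _ _ u _ hu1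
  rw [h0, ← Finset.sum_sdiff (fs_subset σ R (4 * l)), mul_add, add_comm]
  refine (abs_add_le _ _).trans (add_le_add (fs_sum_le hσ (by omega) fun n hn => ?_) ?_)
  · rw [fs_d4_cut _ (fs_near_idx hσ hl hR hn), abs_mul]
    exact (mul_le_of_le_one_left (abs_nonneg _) (hu _)).trans (fs_nearE hσ hl hg hs hn)
  · refine le_trans (le_of_eq ?_) (fs_gx (Nat.cast_nonneg l)
      (fun x hx => fs_farE hC1 hC hσ hl hR hu hu0 hx) (fs_DB_abs hg) fun x hx => fs_zero hs hx)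
    congr 1
    have i1 : ∀ m : ℕ × ℕ × ℕ, Integrable fun x =>
        g x * if m.1 < 2 * R * σ then ker (x - site σ R m) else 0 := fun m => by
      split_ifs
      · simpa only [mul_comm] using integrable_ker_mul_cc hg.1.continuous (fs_cc hs) (site σ R m)
      · simp
    have e1 : ∀ m : ℕ × ℕ × ℕ, (if m.1 < 2 * R * σ then fsU g (site σ R m) else 0) =
        ∫ x, g x * if m.1 < 2 * R * σ then ker (x - site σ R m) else 0 := fun m => by
      split_ifs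
      · simp only [fsU, mul_comm]
      · simp
    simp only [e1, fs_d4_int i1, ← integral_const_mul]
    rw [← integral_finsetSum _ fun n _ => (fs_d4_integrable i1 n).const_mul _,
      ← integral_const_mul]
    refine integral_congr_ae (Filter.Eventually.of_forall fun x => ?_)
    simp only [fs_d4_mul]
    rw [mul_assoc ((1 / (σ : ℝ)) ^ 3), Finset.sum_mul]
    congr 1
    exact Finset.sum_congr rfl fun n _ => by ring

end Vale.Agent.P370
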