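import Vale.Agent.P370.OB

/-!
Many-body lower bound: the reference measure and the one-body terms.
-/

namespace Vale.Agent.P370

open MeasureTheory Function

namespace ML

section bm

variable {Y : Type} [MeasurableSpace Y] {f g : Y → ℝ}

theorem bm_const (c : ℝ) : BM fun _ : Y => c := ⟨measurable_const, |c|, fun _ => le_rfl⟩

theorem bm_mul (hf : BM f) (hg : BM g) : BM fun y => f y * g y := by
  obtain ⟨h1, C, hC⟩ := hf
  obtain ⟨h2, D, hD⟩ := hg
  refine ⟨h1.mul h2, C * D, fun y => ?_⟩
  rw [abs_mul]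
  exact mul_le_mul (hC y) (hD y) (abs_nonneg _) ((abs_nonneg _).trans (hC y))

theorem bm_add (hf : BM f) (hg : BM g) : BM fun y => f y + g y := by
  obtain ⟨h1, C, hC⟩ := hf
  obtain ⟨h2, D, hD⟩ := hg
  exact ⟨h1.add h2, C + D, fun y => (abs_add_le _ _).trans (add_le_add (hC y) (hD y))⟩

theorem bm_sub (hf : BM f) (hg : BM g) : BM fun y => f y - g y := by
  obtain ⟨h1, C, hC⟩ := hf
  obtain ⟨h2, D, hD⟩ := hg
  exact ⟨h1.sub h2, C + D, fun y => (abs_sub _ _).trans (add_le_add (hC y) (hD y))⟩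

theorem bm_sq (hf : BM f) : BM fun y => f y ^ 2 := by
  simpa only [sq] using bm_mul hf hf

theorem bm_sum {κ : Type} (s : Finset κ) {F : κ → Y → ℝ} (h : ∀ k, BM (F k)) :
    BM fun y => ∑ k ∈ s, F k y := by
  classical
  induction s using Finset.induction_on with
  | empty => simpa using bm_const 0
  | insert a s ha ih => simpa only [Finset.sum_insert ha] using bm_add (h a) ih

theorem bm_prod {κ : Type} (s : Finset κ) {F : κ → Y → ℝ} (h : ∀ k, BM (F k)) :
    BM fun y => ∏ k ∈ s, F k y := by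
  classical
  induction s using Finset.induction_on with
  | empty => simpa using bm_const 1
  | insert a s ha ih => simpa only [Finset.prod_insert ha] using bm_mul (h a) ih

theorem bm_comp {Z : Type} [MeasurableSpace Z] (hf : BM f) {u : Z → Y} (hu : Measurable u) :
    BM fun z => f (u z) := ⟨hf.1.comp hu, hf.2.imp fun _ h _ => h _⟩

theorem bm_int (hf : BM f) (μ : Measure Y) [IsFiniteMeasure μ] : Integrable f μ := by
  obtain ⟨h1, C, hC⟩ := hf
  exact Integrable.of_bound h1.aestronglyMeasurable C (Filter.Eventually.of_forall hC)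

theorem int_mul {μ : Measure Y} (hf : Integrable f μ) (hg : BM g) :
    Integrable (fun y => f y * g y) μ := by
  obtain ⟨h1, C, hC⟩ := hg
  exact hf.mul_bdd h1.aestronglyMeasurable (Filter.Eventually.of_forall hC)

theorem bm_cc [TopologicalSpace Y] [OpensMeasurableSpace Y] (hf : Continuous f)
    (hc : HasCompactSupport f) : BM f :=
  ⟨hf.measurable, hf.bounded_above_of_compact_support hc⟩

end bm

/-- Lebesgue measure on a closed ball. -/
noncomputable def mu (r : ℝ) : Measure Pt := volume.restrict (Metric.closedBall 0 r)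

instance (r : ℝ) : IsFiniteMeasure (mu r) :=
  isFiniteMeasure_restrict.2 measure_closedBall_lt_top.ne

theorem mu_pos {r : ℝ} (hr : 0 < r) : 0 < (mu r).real Set.univ := by
  rw [mu, measureReal_restrict_apply_univ]
  exact ENNReal.toReal_pos (Metric.measure_closedBall_pos _ _ hr).ne' measure_closedBall_lt_top.ne

theorem int_mu {r : ℝ} {f : Pt → ℝ} (h : ∀ y, r < ‖y‖ → f y = 0) : ∫ y, f y ∂mu r = ∫ y, f y :=
  setIntegral_eq_integral_of_forall_compl_eq_zero fun y hy => h y (by simpa using hy)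

theorem int_pi {N : ℕ} {r : ℝ} {f : (Fin N → Pt) → ℝ} (h : ∀ x, r < ‖x‖ → f x = 0) :
    ∫ x, f x ∂Measure.pi (fun _ => mu r) = ∫ x, f x := by
  unfold mu
  rw [← Measure.restrict_pi_pi, ← volume_pi]
  refine setIntegral_eq_integral_of_forall_compl_eq_zero fun x hx => h x ?_
  by_contra h1
  exact hx fun i _ => mem_closedBall_zero_iff.2 ((norm_le_pi_norm x i).trans (not_lt.1 h1))

theorem int_prod {r : ℝ} {f : Pt × Pt → ℝ} (h : ∀ p, r < ‖p.1‖ ∨ r < ‖p.2‖ → f p = 0) :
    ∫ p, f p ∂(mu r).prod (mu r) = ∫ p, f p := by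
  unfold mu
  rw [Measure.prod_restrict, ← Measure.volume_eq_prod]
  refine setIntegral_eq_integral_of_forall_compl_eq_zero fun p hp => h p ?_
  simpa [Set.mem_prod, imp_iff_not_or] using hp

variable {N M : ℕ} {φ : Arm M → Pt → ℝ} {r : ℝ} {Ψ : (Fin N → Pt) → ℝ}

theorem on_mu (hφ : Sharp φ) (hr : ∀ a x, r < ‖x‖ → φ a x = 0) :
    ON (fun _ : Fin N => mu r) (fun _ => φ) := by
  refine ⟨fun _ a => hφ.bm a, fun _ a b => ?_⟩
  beta_reduce
  split_ifs with h
  · subst h
    rw [int_mu fun y hy => by rw [hr a y hy, mul_zero], ← hφ.one a]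
    simp only [sq]
  · simp [hφ.disj a b _ h]

theorem sum_w (a : Arm M) (f : Arm M → ℝ) :
    ∑ a' : Arm M, ((if a' = a then 1 else 0) - if a'.1 = a.1 then 1 / 3 else 0) * f a' =
      f a - (∑ b, f (a.1, b)) / 3 := by
  simp only [sub_mul, Finset.sum_sub_distrib, ite_mul, one_mul, zero_mul, Finset.sum_ite_eq',
    Finset.mem_univ, if_true]
  rw [Fintype.sum_prod_type, Finset.sum_eq_single a.1 (fun m _ hm => by simp [hm]) (by simp),
    Finset.sum_div]
  simp only [if_true]
  congr 1
  exact Finset.sum_congr rfl fun b _ => by ring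

theorem hop_le (hφ : ON (fun _ : Fin N => mu r) (fun _ => φ)) (hr : 0 < r) (hΨ : BM Ψ)
    (i : Fin N) :
    ∑ α : Fin N → Arm M, (coef (fun _ => mu r) (fun _ => φ) Ψ α -
      (∑ b, coef (fun _ => mu r) (fun _ => φ) Ψ (update α i ((α i).1, b))) / 3) ^ 2 ≤
    (∫ x, hop (fun a => slice (fun _ => mu r) (fun _ => φ) Ψ i a x)
      ∂Measure.pi fun _ => mu r) / (mu r).real Set.univ := by
  rw [← Finset.sum_fiberwise Finset.univ fun α : Fin N → Arm M => α i]
  unfold hop
  rw [integral_finsetSum _ fun a _ => bm_int (bm_sq (bm_sub (hΨ.slice hφ i a)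
    (by simpa only [div_eq_mul_inv] using
      bm_mul (bm_sum _ fun b => hΨ.slice hφ i (a.1, b)) (bm_const _)))) _, Finset.sum_div]
  refine Finset.sum_le_sum fun a _ => ?_
  have h := bessel_slice hφ (fun _ => mu_pos hr) hΨ i a
    fun a' => (if a' = a then 1 else 0) - if a'.1 = a.1 then 1 / 3 else 0
  simp only [sum_w] at h
  refine le_trans (le_of_eq (Finset.sum_congr rfl fun α hα => ?_)) h
  rw [← (Finset.mem_filter.1 hα).2, update_eq_self]

theorem pd_slice (hΨ : ContDiff ℝ 1 Ψ) (x : Fin N → Pt) (i : Fin N) (k : Fin 3) (y : Pt) :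
    pd k (fun y => Ψ (update x i y)) y =
      fderiv ℝ Ψ (update x i y) (Pi.single i (Pi.single k 1)) := by
  have h := ((hΨ.differentiable one_ne_zero (update x i y)).hasFDerivAt.comp y
    (hasFDerivAt_update (𝕜 := ℝ) x y)).fderiv
  unfold pd
  rw [show (fun y => Ψ (update x i y)) = Ψ ∘ update x i from rfl, h,
    ContinuousLinearMap.comp_apply]
  congr 1
  ext j l
  rcases eq_or_ne j i with rfl | hj
  · simp [ek]
  · simp [hj]

/-- the one-body estimate in the coordinate `i` -/
theorem one_low (nuc : List (Pt × ℝ)) (hφ : Sharp φ) (hr0 : 0 < r)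
    (hr : ∀ a x, r < ‖x‖ → φ a x = 0) {E T γ ε : ℝ} (h1 : OBlow (pot nuc) φ E T γ ε) (hT : 0 ≤ T)
    (hΨ : ContDiff ℝ 1 Ψ) (hc : HasCompactSupport Ψ) (hs : tsupport Ψ ⊆ Metric.closedBall 0 r)
    (i : Fin N) :
    (E - ε) * (∫ x, Ψ x ^ 2 ∂Measure.pi fun _ => mu r) +
      T * ∑ α : Fin N → Arm M, (coef (fun _ => mu r) (fun _ => φ) Ψ α -
        (∑ b, coef (fun _ => mu r) (fun _ => φ) Ψ (update α i ((α i).1, b))) / 3) ^ 2 +
      γ * ((∫ x, Ψ x ^ 2 ∂Measure.pi fun _ => mu r) -
        (∑ a, ∫ x, slice (fun _ => mu r) (fun _ => φ) Ψ i a x ^ 2 ∂Measure.pi fun _ => mu r) /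
          (mu r).real Set.univ) ≤
    1 / 2 * (∑ k, ∫ x, fderiv ℝ Ψ x (Pi.single i (Pi.single k 1)) ^ 2) +
      ∫ x, pot nuc (x i) * Ψ x ^ 2 := by
  have hON := on_mu (N := N) hφ hr
  have hm := mu_pos hr0
  have hB := bm_cc hΨ.continuous hc
  have hn : ∀ x, r < ‖x‖ → x ∉ tsupport Ψ := fun x hx h =>
    absurd (mem_closedBall_zero_iff.1 (hs h)) (not_le.2 hx)
  have h0 : ∀ x, r < ‖x‖ → Ψ x = 0 := fun x hx => image_eq_zero_of_notMem_tsupport (hn x hx)
  have h0' : ∀ x, r < ‖x‖ → fderiv ℝ Ψ x = 0 := fun x hx =>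
    notMem_support.1 fun h => hn x hx (support_fderiv_subset ℝ h)
  have hu : ∀ (x : Fin N → Pt) y, r < ‖y‖ → r < ‖update x i y‖ := fun x y hy =>
    hy.trans_le (by simpa using norm_le_pi_norm (update x i y) i)
  have hD : ∀ k : Fin 3, BM fun x => fderiv ℝ Ψ x (Pi.single i (Pi.single k 1)) ^ 2 := fun k =>
    bm_sq (bm_cc ((hΨ.continuous_fderiv one_ne_zero).clm_apply continuous_const)
      (hc.fderiv_apply ℝ _))
  have i1 := bm_int (bm_sq hB) (Measure.pi fun _ => mu r)
  have i2 := bm_int (bm_sum Finset.univ hD) (Measure.pi fun _ => mu r)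
  have i3 : Integrable (fun x => pot nuc (x i) * Ψ x ^ 2) (Measure.pi fun _ => mu r) :=
    int_mul (integrable_comp_eval (μ := fun _ => mu r) (i := i)
      ((locallyIntegrable_pot nuc).integrableOn_isCompact (isCompact_closedBall 0 r))) (bm_sq hB)
  have j1 := (integrable_update _ i i1).integral_prod_left
  have j2 := (integrable_update _ i i2).integral_prod_left
  have j3 := (integrable_update _ i i3).integral_prod_left
  have j4 : Integrable (fun x => hop fun a => slice (fun _ => mu r) (fun _ => φ) Ψ i a x)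
      (Measure.pi fun _ => mu r) :=
    bm_int (bm_sum _ fun a => bm_sq (bm_sub (hB.slice hON i a) (by
      simpa only [div_eq_mul_inv] using
        bm_mul (bm_sum _ fun b => hB.slice hON i (a.1, b)) (bm_const _)))) _
  have j5 : ∀ a, Integrable (fun x => slice (fun _ => mu r) (fun _ => φ) Ψ i a x ^ 2)
      (Measure.pi fun _ => mu r) := fun a => bm_int (bm_sq (hB.slice hON i a)) _
  have j6 := integrable_finsetSum Finset.univ fun a _ => j5 a
  have key := integral_mono (((j1.const_mul (E - ε)).add (j4.const_mul T)).add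
    ((j1.sub j6).const_mul γ)) ((j2.const_mul (1 / 2)).add j3) fun x => by
      have h2 := h1 (fun y => Ψ (update x i y)) ⟨hΨ.comp (contDiff_update 1 x i),
        HasCompactSupport.intro (isCompact_closedBall 0 r) fun y hy =>
          h0 _ (hu x y (by simpa using hy))⟩
      have e1 : co φ (fun y => Ψ (update x i y)) =
          fun a => slice (fun _ => mu r) (fun _ => φ) Ψ i a x := funext fun a =>
        (int_mu fun y hy => by rw [hr a y hy, zero_mul]).symm
      unfold qV gsq at h2
      simp only [pd_slice hΨ] at h2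
      rw [e1, ← int_mu (r := r) fun y hy => by rw [h0 _ (hu x y hy), sq, mul_zero],
        ← int_mu (r := r) fun y hy => by simp [h0' _ (hu x y hy)],
        ← int_mu (r := r) (f := fun y => pot nuc y * Ψ (update x i y) ^ 2) fun y hy => by
          rw [h0 _ (hu x y hy), sq, mul_zero, mul_zero]] at h2
      simpa only [Pi.add_apply, Pi.sub_apply, update_self] using h2
  rw [integral_add' ((j1.const_mul _).add (j4.const_mul T)) ((j1.sub j6).const_mul γ),
    integral_add' (j1.const_mul _) (j4.const_mul T), integral_add' (j2.const_mul _) j3,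
    integral_const_mul, integral_const_mul, integral_const_mul, integral_const_mul,
    integral_sub' j1 j6, integral_update _ i i1, integral_update _ i i2, integral_update _ i i3,
    integral_finsetSum _ fun a _ => j5 a,
    integral_finsetSum _ fun k _ => bm_int (hD k) _] at key
  rw [← int_pi (r := r) (f := fun x => pot nuc (x i) * Ψ x ^ 2) fun x hx => by
    rw [h0 x hx, sq, mul_zero, mul_zero],
    Finset.sum_congr rfl fun k _ => (int_pi (r := r)
      (f := fun x => fderiv ℝ Ψ x (Pi.single i (Pi.single k 1)) ^ 2) fun x hx => by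
        simp [h0' x hx]).symm]
  have h3 := mul_le_mul_of_nonneg_left (hop_le hON hr0 hB i) hT
  refine le_trans (add_le_add_left (add_le_add_right h3 _) _) (le_of_mul_le_mul_left ?_ hm)
  refine le_trans (le_of_eq ?_) (key.trans (le_of_eq ?_))
  · field_simp
  · ring

end ML

end Vale.Agent.P370
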