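import Vale.Agent.P370.OB

/-!
From real wave functions in scaled units to the ground energy.
-/

namespace Vale.Agent.P370

open MeasureTheory

/-- Physical nuclei from scaled ones: positions are divided and charges multiplied by `lam`. -/
noncomputable def unscale (lam : ℝ) (nuc : List (Pt × ℝ)) : List (Pt × ℝ) :=
  nuc.map fun p => (lam⁻¹ • p.1, lam * p.2)

section
variable {N : ℕ}

lemma sc_int_ball {g f : (Fin N → Pt) → ℝ} (hf : Continuous f) (hc : HasCompactSupport f)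
    (hg : ∀ r, Integrable g
      (Measure.pi fun _ : Fin N => volume.restrict (Metric.closedBall (0 : Pt) r))) :
    Integrable fun x => g x * f x := by
  obtain ⟨C, hC⟩ := hf.bounded_above_of_compact_support hc
  obtain ⟨r, hr0, hr⟩ := hc.isCompact.isBounded.subset_closedBall_lt 0 0
  rw [← integrableOn_iff_integrable_of_support_subset (s := Metric.closedBall 0 r)]
  · refine Integrable.mul_bdd ?_ hf.aestronglyMeasurable (ae_of_all _ hC)
    rw [closedBall_pi _ hr0.le, volume_pi, Measure.restrict_pi_pi]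
    exact hg r
  · exact fun x hx => hr (subset_tsupport f (right_ne_zero_of_mul hx))

lemma sc_fin (r : ℝ) : IsFiniteMeasure (volume.restrict (Metric.closedBall (0 : Pt) r)) :=
  isFiniteMeasure_restrict.mpr (isCompact_closedBall _ _).measure_lt_top.ne

lemma sc_int_one {f : (Fin N → Pt) → ℝ} (hf : Continuous f) (hc : HasCompactSupport f)
    (i : Fin N) (R : Pt) : Integrable fun x : Fin N → Pt => ker (x i - R) * f x := by
  refine sc_int_ball hf hc fun r => ?_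
  have := sc_fin r
  have h : Integrable (fun y => ker (y - R)) (volume.restrict (Metric.closedBall (0 : Pt) r)) := by
    simp_rw [ker_sub_comm _ R]
    exact integrableOn_ker (isCompact_closedBall _ _).measure_lt_top.ne R
  exact integrable_comp_eval (X := fun _ => Pt) (i := i)
    (μ := fun _ => volume.restrict (Metric.closedBall (0 : Pt) r)) h

lemma sc_int_pot (nuc : List (Pt × ℝ)) {f : (Fin N → Pt) → ℝ} (hf : Continuous f)
    (hc : HasCompactSupport f) (i : Fin N) :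
    Integrable fun x : Fin N → Pt => pot nuc (x i) * f x := by
  refine sc_int_ball hf hc fun r => ?_
  have := sc_fin r
  exact integrable_comp_eval
    ((locallyIntegrable_pot nuc).integrableOn_isCompact (isCompact_closedBall _ _))

lemma sc_int_two {f : (Fin N → Pt) → ℝ} (hf : Continuous f) (hc : HasCompactSupport f)
    {i j : Fin N} (hij : i ≠ j) : Integrable fun x : Fin N → Pt => ker (x i - x j) * f x := by
  refine sc_int_ball hf hc fun r => ?_
  have := sc_fin r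
  have hE : volume (Metric.closedBall (0 : Pt) r) ≠ ⊤ :=
    (isCompact_closedBall _ _).measure_lt_top.ne
  have hm : Measurable fun p : Pt × Pt => ker (p.1 - p.2) :=
    measurable_ker.comp (measurable_fst.sub measurable_snd)
  refine integrable_pair _ hij (k := fun p => ker (p.1 - p.2)) ?_
  rw [integrable_prod_iff hm.aestronglyMeasurable]
  refine ⟨ae_of_all _ fun x => integrableOn_ker hE x, ?_⟩
  refine Integrable.of_bound hm.norm.aestronglyMeasurable.integral_prod_right'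
    (7 * 1 ^ 2 + volume.real (Metric.closedBall (0 : Pt) r) / 1) (ae_of_all _ fun x => ?_)
  simp_rw [Real.norm_of_nonneg (ker_nonneg _)]
  rw [Real.norm_of_nonneg (integral_nonneg fun y => ker_nonneg _)]
  exact coulomb_le measurableSet_closedBall hE x one_pos

lemma sc_attr (nuc : List (Pt × ℝ)) {f : (Fin N → Pt) → ℝ} (hf : Continuous f)
    (hc : HasCompactSupport f) (i : Fin N) :
    (nuc.map fun p => p.2 * ∫ x, f x / nrm (x i - p.1)).sum = -∫ x, pot nuc (x i) * f x := by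
  induction nuc with
  | nil => simp [pot_nil]
  | cons p nuc ih =>
    rw [List.map_cons, List.sum_cons, ih, pot_cons]
    simp_rw [add_mul, mul_assoc]
    rw [integral_add ((sc_int_one hf hc i p.1).const_mul _) (sc_int_pot nuc hf hc i),
      integral_const_mul]
    simp_rw [div_eq_inv_mul]
    unfold ker
    ring

lemma sc_norm_sq (z : ℂ) : ‖z‖ ^ 2 = z.re ^ 2 + z.im ^ 2 := by
  rw [Complex.sq_norm, Complex.normSq_apply]; ring

lemma sc_cc_sq {f : (Fin N → Pt) → ℝ} (hc : HasCompactSupport f) :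
    HasCompactSupport fun x => f x ^ 2 :=
  hc.comp_left (g := fun t : ℝ => t ^ 2) (by simp)

lemma sc_clm {F : (Fin N → Pt) → ℂ} (hF : ContDiff ℝ 1 F) (hc : HasCompactSupport F)
    (L : ℂ →L[ℝ] ℝ) : ContDiff ℝ 1 (fun x => L (F x)) ∧ HasCompactSupport (fun x => L (F x)) ∧
      ∀ x v, fderiv ℝ (fun x => L (F x)) x v = L (fderiv ℝ F x v) :=
  ⟨L.contDiff.comp hF, hc.comp_left (g := L) (map_zero L), fun x v => by
    change fderiv ℝ (L ∘ F) x v = _
    rw [(L.hasFDerivAt.comp x (hF.differentiable one_ne_zero x).hasFDerivAt).fderiv]; rfl⟩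

lemma sc_int_grad {f : (Fin N → Pt) → ℝ} (hf : ContDiff ℝ 1 f) (hc : HasCompactSupport f)
    (v : Fin N → Pt) : Integrable fun x => fderiv ℝ f x v ^ 2 :=
  Continuous.integrable_of_hasCompactSupport
    (((hf.continuous_fderiv one_ne_zero).clm_apply continuous_const).pow 2)
    (sc_cc_sq (hc.fderiv_apply ℝ v))

lemma sc_split (nuc : List (Pt × ℝ)) {F : (Fin N → Pt) → ℂ} (hF : ContDiff ℝ 1 F)
    (hc : HasCompactSupport F) :
    (∫ x, ‖F x‖ ^ 2) = (∫ x, (F x).re ^ 2) + (∫ x, (F x).im ^ 2) ∧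
    (1 / 2) * (∑ i, ∑ k, ∫ x, ‖fderiv ℝ F x (Pi.single i (Pi.single k 1))‖ ^ 2) -
      (∑ i, (nuc.map fun p => p.2 * ∫ x, ‖F x‖ ^ 2 / nrm (x i - p.1)).sum) +
      (∑ i, ∑ j, if i < j then ∫ x, ‖F x‖ ^ 2 / nrm (x i - x j) else 0) =
      rE nuc 1 (fun x => (F x).re) + rE nuc 1 (fun x => (F x).im) := by
  obtain ⟨a1, a2, a3⟩ := sc_clm hF hc Complex.reCLM
  obtain ⟨b1, b2, b3⟩ := sc_clm hF hc Complex.imCLM
  simp only [Complex.reCLM_apply, Complex.imCLM_apply] at a1 a2 a3 b1 b2 b3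
  have ca : Continuous fun x => (F x).re ^ 2 := a1.continuous.pow 2
  have cb : Continuous fun x => (F x).im ^ 2 := b1.continuous.pow 2
  have cn : Continuous fun x => ‖F x‖ ^ 2 := hF.continuous.norm.pow 2
  have sa := sc_cc_sq a2
  have sb := sc_cc_sq b2
  have h1 : ∀ v, ∫ x, ‖fderiv ℝ F x v‖ ^ 2 = (∫ x, fderiv ℝ (fun x => (F x).re) x v ^ 2) +
      ∫ x, fderiv ℝ (fun x => (F x).im) x v ^ 2 := by
    intro v
    rw [← integral_add (sc_int_grad a1 a2 v) (sc_int_grad b1 b2 v)]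
    simp_rw [a3, b3, sc_norm_sq]
  have h2 : ∀ i, (nuc.map fun p => p.2 * ∫ x, ‖F x‖ ^ 2 / nrm (x i - p.1)).sum =
      -((∫ x, pot nuc (x i) * (F x).re ^ 2) + ∫ x, pot nuc (x i) * (F x).im ^ 2) := by
    intro i
    rw [sc_attr nuc cn (sc_cc_sq hc.norm),
      ← integral_add (sc_int_pot nuc ca sa i) (sc_int_pot nuc cb sb i)]
    simp_rw [sc_norm_sq, mul_add]
  have h3 : ∀ i j : Fin N, (if i < j then ∫ x, ‖F x‖ ^ 2 / nrm (x i - x j) else 0) =
      (if i < j then ∫ x, ker (x i - x j) * (F x).re ^ 2 else 0) +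
        if i < j then ∫ x, ker (x i - x j) * (F x).im ^ 2 else 0 := by
    intro i j
    split_ifs with h
    · rw [← integral_add (sc_int_two ca sa h.ne) (sc_int_two cb sb h.ne)]
      simp_rw [sc_norm_sq, div_eq_inv_mul, mul_add]
      rfl
    · simp
  constructor
  · rw [← integral_add (ca.integrable_of_hasCompactSupport sa)
      (cb.integrable_of_hasCompactSupport sb)]
    simp_rw [sc_norm_sq]
  · simp_rw [h1, h2, h3, rE, Finset.sum_neg_distrib, Finset.sum_add_distrib]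
    ring

lemma sc_ker {lam : ℝ} (hl : 0 < lam) (z : Pt) : ker z = lam * ker (lam • z) := by
  rw [ker, ker, nrm_smul, abs_of_pos hl, mul_inv, mul_inv_cancel_left₀ hl.ne']

lemma sc_pot {lam : ℝ} (hl : 0 < lam) (nuc : List (Pt × ℝ)) (y : Pt) :
    pot (unscale lam nuc) y = lam ^ 2 * pot nuc (lam • y) := by
  induction nuc with
  | nil => simp [unscale, pot_nil]
  | cons p nuc ih =>
    have e : unscale lam (p :: nuc) = (lam⁻¹ • p.1, lam * p.2) :: unscale lam nuc := rfl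
    rw [e, pot_cons, pot_cons]
    simp only
    rw [ih, sc_ker hl, smul_sub, smul_inv_smul₀ hl.ne']
    ring

/-- The Jacobian of the dilation. -/
noncomputable def scJ (N : ℕ) (lam : ℝ) : ℝ := (lam ^ Module.finrank ℝ (Fin N → Pt))⁻¹

lemma sc_int {lam : ℝ} (hl : 0 < lam) (g : (Fin N → Pt) → ℝ) :
    ∫ x, g (lam • x) = scJ N lam * ∫ x, g x :=
  Measure.integral_comp_smul_of_nonneg volume g lam (hR := hl.le)

lemma sc_rE {lam : ℝ} (hl : 0 < lam) (nuc : List (Pt × ℝ)) (Ψ : (Fin N → Pt) → ℝ) :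
    rE (unscale lam nuc) 1 (fun x => Ψ (lam • x)) = lam ^ 2 * scJ N lam * rE nuc lam⁻¹ Ψ := by
  have h1 : ∀ v, ∫ x, fderiv ℝ (fun x => Ψ (lam • x)) x v ^ 2 =
      lam ^ 2 * scJ N lam * ∫ x, fderiv ℝ Ψ x v ^ 2 := by
    intro v
    rw [mul_assoc, ← sc_int hl, ← integral_const_mul]
    simp_rw [fderiv_comp_smul, _root_.smul_apply, smul_eq_mul, mul_pow]
  have h2 : ∀ i, ∫ x : Fin N → Pt, pot (unscale lam nuc) (x i) * Ψ (lam • x) ^ 2 =
      lam ^ 2 * scJ N lam * ∫ x, pot nuc (x i) * Ψ x ^ 2 := by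
    intro i
    rw [mul_assoc, ← sc_int hl, ← integral_const_mul]
    simp_rw [sc_pot hl, mul_assoc, Pi.smul_apply]
  have h3 : ∀ i j : Fin N, (if i < j then ∫ x : Fin N → Pt, ker (x i - x j) * Ψ (lam • x) ^ 2
      else 0) = lam * scJ N lam * if i < j then ∫ x, ker (x i - x j) * Ψ x ^ 2 else 0 := by
    intro i j
    split_ifs with h
    · rw [mul_assoc, ← sc_int hl, ← integral_const_mul]
      refine integral_congr_ae (ae_of_all _ fun x => ?_)
      simp only [Pi.smul_apply]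
      rw [sc_ker hl, smul_sub, mul_assoc]
    · simp
  simp_rw [rE, h1, h2, h3, ← Finset.mul_sum]
  field_simp

lemma sc_mul (nuc : List (Pt × ℝ)) (g t : ℝ) {Ψ : (Fin N → Pt) → ℝ} (hΨ : ContDiff ℝ 1 Ψ) :
    rE nuc g (fun x => t * Ψ x) = t ^ 2 * rE nuc g Ψ := by
  have h1 : ∀ v, ∫ x, fderiv ℝ (fun x => t * Ψ x) x v ^ 2 = t ^ 2 * ∫ x, fderiv ℝ Ψ x v ^ 2 := by
    intro v
    rw [← integral_const_mul]
    refine integral_congr_ae (ae_of_all _ fun x => ?_)
    simp only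
    rw [fderiv_const_mul (hΨ.differentiable one_ne_zero x), _root_.smul_apply,
      smul_eq_mul, mul_pow]
  have h2 : ∀ k : (Fin N → Pt) → ℝ, ∫ x, k x * (t * Ψ x) ^ 2 = t ^ 2 * ∫ x, k x * Ψ x ^ 2 := by
    intro k
    rw [← integral_const_mul]
    refine integral_congr_ae (ae_of_all _ fun x => ?_)
    simp only
    ring
  have h3 : ∀ (i j : Fin N) (a : ℝ), (if i < j then t ^ 2 * a else 0) =
      t ^ 2 * if i < j then a else 0 := by
    intro i j a
    split_ifs <;> simp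
  simp_rw [rE, h1, h2, h3, ← Finset.mul_sum]
  ring

lemma sc_core {Ψ : Wave N} (hΨ : Core Ψ) (L : ℂ →L[ℝ] ℝ) {c : ℝ} (hc : c ≠ 0) :
    RCore fun s x => L (Ψ s (c • x)) := by
  refine ⟨fun s => ?_, fun π s x => ?_⟩
  · obtain ⟨a1, a2, -⟩ := sc_clm (hΨ.1 s).1 (hΨ.1 s).2 L
    exact ⟨a1.comp (contDiff_const_smul c), a2.comp_smul hc⟩
  · have := hΨ.2 π s (c • x)
    change L (Ψ (s ∘ π) ((c • x) ∘ π)) = _
    rw [this, ← zsmul_eq_mul, map_zsmul, zsmul_eq_mul]

end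

theorem ground_ge {N : ℕ} (nuc : List (Pt × ℝ)) {lam e : ℝ} (hl : 0 < lam)
    (h : ∀ Ψ : (Fin N → Fin 2) → (Fin N → Pt) → ℝ, RCore Ψ →
      e * ∑ s, ∫ x, Ψ s x ^ 2 ≤ ∑ s, rE nuc lam⁻¹ (Ψ s)) :
    ((lam ^ 2 * e : ℝ) : EReal) ≤ ground N (unscale lam nuc) := by
  refine le_iInf fun ⟨Ψ, hΨ, h1⟩ => EReal.coe_le_coe_iff.mpr ?_
  have hJ : 0 < scJ N lam := by unfold scJ; positivity
  have key : ∀ L : ℂ →L[ℝ] ℝ, lam ^ 2 * e * ∑ s, ∫ x, L (Ψ s x) ^ 2 ≤
      ∑ s, rE (unscale lam nuc) 1 fun x => L (Ψ s x) := by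
    intro L
    have h2 := h _ (sc_core hΨ L (inv_ne_zero hl.ne'))
    have h3 : ∀ s, (rE (unscale lam nuc) 1 fun x => L (Ψ s x)) =
        lam ^ 2 * scJ N lam * rE nuc lam⁻¹ fun x => L (Ψ s (lam⁻¹ • x)) := by
      intro s
      rw [← sc_rE hl]
      simp_rw [inv_smul_smul₀ hl.ne']
    have h4 : ∀ s, ∫ x, L (Ψ s x) ^ 2 = scJ N lam * ∫ x, L (Ψ s (lam⁻¹ • x)) ^ 2 := by
      intro s
      rw [← sc_int hl]
      simp_rw [inv_smul_smul₀ hl.ne']
    simp_rw [h3, h4, ← Finset.mul_sum]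
    have := mul_le_mul_of_nonneg_left h2 (show 0 ≤ lam ^ 2 * scJ N lam by positivity)
    linarith
  have k1 := key Complex.reCLM
  have k2 := key Complex.imCLM
  simp only [Complex.reCLM_apply, Complex.imCLM_apply] at k1 k2
  have e1 : energy (unscale lam nuc) Ψ = (∑ s, rE (unscale lam nuc) 1 fun x => (Ψ s x).re) +
      ∑ s, rE (unscale lam nuc) 1 fun x => (Ψ s x).im := by
    rw [← Finset.sum_add_distrib]
    exact Finset.sum_congr rfl fun s _ => (sc_split _ (hΨ.1 s).1 (hΨ.1 s).2).2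
  have e2 : normSq Ψ = (∑ s, ∫ x, (Ψ s x).re ^ 2) + ∑ s, ∫ x, (Ψ s x).im ^ 2 := by
    rw [← Finset.sum_add_distrib]
    exact Finset.sum_congr rfl fun s _ => (sc_split [] (hΨ.1 s).1 (hΨ.1 s).2).1
  change lam ^ 2 * e ≤ energy (unscale lam nuc) Ψ
  calc lam ^ 2 * e = lam ^ 2 * e * normSq Ψ := by rw [h1, mul_one]
    _ ≤ _ := by rw [e1, e2, mul_add]; exact add_le_add k1 k2

theorem ground_le {N : ℕ} (nuc : List (Pt × ℝ)) {lam e : ℝ} (hl : 0 < lam)
    {Ψ : (Fin N → Fin 2) → (Fin N → Pt) → ℝ} (hΨ : RCore Ψ) (h0 : 0 < ∑ s, ∫ x, Ψ s x ^ 2)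
    (h : ∑ s, rE nuc lam⁻¹ (Ψ s) ≤ e * ∑ s, ∫ x, Ψ s x ^ 2) :
    ground N (unscale lam nuc) ≤ ((lam ^ 2 * e : ℝ) : EReal) := by
  have hJ : 0 < scJ N lam := by unfold scJ; positivity
  obtain ⟨t, ht⟩ : ∃ t : ℝ, t ^ 2 * (scJ N lam * ∑ s, ∫ x, Ψ s x ^ 2) = 1 :=
    ⟨(√(scJ N lam * ∑ s, ∫ x, Ψ s x ^ 2))⁻¹, by
      rw [inv_pow, Real.sq_sqrt (by positivity), inv_mul_cancel₀ (by positivity)]⟩
  have hd : ∀ s, ContDiff ℝ 1 fun x => Ψ s (lam • x) :=
    fun s => (hΨ.1 s).1.comp (contDiff_const_smul lam)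
  let Φ : Wave N := fun s x => ((t * Ψ s (lam • x) : ℝ) : ℂ)
  have hΦ : Core Φ := by
    refine ⟨fun s => ⟨Complex.ofRealCLM.contDiff.comp (contDiff_const.mul (hd s)), ?_⟩,
      fun π s x => ?_⟩
    · exact ((hΨ.1 s).2.comp_smul hl.ne').comp_left (g := fun u : ℝ => ((t * u : ℝ) : ℂ))
        (by simp)
    · have := hΨ.2 π s (lam • x)
      change ((t * Ψ (s ∘ π) ((lam • x) ∘ π) : ℝ) : ℂ) = _ * ((t * Ψ s (lam • x) : ℝ) : ℂ)
      rw [this]
      push_cast
      ring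
  have h1 : normSq Φ = 1 := by
    rw [← ht, Finset.mul_sum, Finset.mul_sum]
    refine Finset.sum_congr rfl fun s _ => ?_
    rw [← sc_int hl, ← integral_const_mul]
    simp_rw [Φ, Complex.norm_real, Real.norm_eq_abs, sq_abs, mul_pow]
  have h2 : energy (unscale lam nuc) Φ =
      t ^ 2 * (lam ^ 2 * scJ N lam * ∑ s, rE nuc lam⁻¹ (Ψ s)) := by
    rw [Finset.mul_sum, Finset.mul_sum]
    refine Finset.sum_congr rfl fun s _ => (sc_split _ (hΦ.1 s).1 (hΦ.1 s).2).2.trans ?_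
    have z := sc_mul (unscale lam nuc) 1 0 (hd s)
    simp only [zero_mul, ne_eq, OfNat.ofNat_ne_zero, not_false_eq_true, zero_pow] at z
    simp only [Φ, Complex.ofReal_re, Complex.ofReal_im]
    rw [z, add_zero, sc_mul _ _ _ (hd s), sc_rE hl]
  refine (iInf_le _ ⟨Φ, hΦ, h1⟩).trans (EReal.coe_le_coe_iff.mpr ?_)
  change energy (unscale lam nuc) Φ ≤ _
  calc energy (unscale lam nuc) Φ ≤ t ^ 2 * (lam ^ 2 * scJ N lam * (e * ∑ s, ∫ x, Ψ s x ^ 2)) := by
        rw [h2]; gcongr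
    _ = lam ^ 2 * e * (t ^ 2 * (scJ N lam * ∑ s, ∫ x, Ψ s x ^ 2)) := by ring
    _ = _ := by rw [ht, mul_one]

end Vale.Agent.P370
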