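import Vale.Agent.P370.Moll
import Vale.Agent.P370.Newton
import Vale.Agent.P370.ManyLowA
import Vale.Agent.P370.Scale

/-!
Hardy type bounds for the Coulomb weights on the configuration space.
-/

namespace Vale.Agent.P370

open MeasureTheory Function Set

theorem hardy1 : ∃ C : ℝ, 0 ≤ C ∧ ∀ (ψ : Pt → ℝ) (c : Pt), C1c ψ →
    ∫ x, ker (x - c) * ψ x ^ 2 ≤ C * ((∫ x, ψ x ^ 2) + ∫ x, gsq ψ x) := by
  obtain ⟨C, hC1, hC⟩ := hardy
  refine ⟨C + 1, by linarith, fun ψ c hψ => ?_⟩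
  have hcont : Continuous fun x => ψ x ^ 2 := hψ.1.continuous.pow 2
  have hcc : HasCompactSupport fun x => ψ x ^ 2 := hψ.2.comp_left (g := fun t : ℝ => t ^ 2) (by simp)
  have i1 := integrable_ker_mul_cc hcont hcc c
  have i2 := hcont.integrable_of_hasCompactSupport hcc (μ := volume)
  have i3 := hψ.integrable_gsq
  have g0 : ∀ x, 0 ≤ gsq ψ x := fun x => Finset.sum_nonneg fun k _ => sq_nonneg _
  have hm : MeasurableSet {x : Pt | ‖x - c‖ ≤ 1} :=
    (isClosed_le (by fun_prop) continuous_const).measurableSet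
  have h1 := hC ψ c 1 hψ one_pos le_rfl
  have h2 : ∫ x in {x | ‖x - c‖ ≤ 2 * 1}, (ψ x ^ 2 + gsq ψ x) ≤ (∫ x, ψ x ^ 2) + ∫ x, gsq ψ x := by
    rw [← integral_add i2 i3]
    exact setIntegral_le_integral (i2.add i3) (ae_of_all _ fun x => add_nonneg (sq_nonneg _) (g0 x))
  have h3 : ∫ x in {x | ‖x - c‖ ≤ 1}ᶜ, ker (x - c) * ψ x ^ 2 ≤ ∫ x, ψ x ^ 2 := by
    refine le_trans (setIntegral_mono_on i1.integrableOn i2.integrableOn hm.compl fun x hx => ?_)
      (setIntegral_le_integral i2 (ae_of_all _ fun x => sq_nonneg _))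
    refine mul_le_of_le_one_left (sq_nonneg _) (inv_le_one_of_one_le₀ ?_)
    exact (not_le.1 fun h => hx h).le.trans (norm_le_nrm _)
  have h4 : 0 ≤ ∫ x, gsq ψ x := integral_nonneg g0
  rw [← integral_add_compl hm i1]
  rw [div_one] at h1
  nlinarith [mul_le_mul_of_nonneg_left h2 (zero_le_one.trans hC1)]

variable {N : ℕ}

/-- The direction of a coordinate. -/
abbrev dirn (i : Fin N) (k : Fin 3) : Fin N → Pt := Pi.single i (Pi.single k 1)

theorem hardyR {C : ℝ} (hC : ∀ (ψ : Pt → ℝ) (c : Pt), C1c ψ →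
    ∫ x, ker (x - c) * ψ x ^ 2 ≤ C * ((∫ x, ψ x ^ 2) + ∫ x, gsq ψ x)) (i : Fin N)
    {c : (Fin N → Pt) → Pt} (hc : ∀ x y, c (update x i y) = c x) {Ψ : (Fin N → Pt) → ℝ}
    (hΨ : ContDiff ℝ 1 Ψ) (hcc : HasCompactSupport Ψ)
    (hi : Integrable fun x => ker (x i - c x) * Ψ x ^ 2) :
    ∫ x, ker (x i - c x) * Ψ x ^ 2 ≤
      C * ((∫ x, Ψ x ^ 2) + ∑ k, ∫ x, fderiv ℝ Ψ x (dirn i k) ^ 2) := by
  obtain ⟨r, hr0, hr⟩ := hcc.isCompact.isBounded.subset_closedBall_lt 0 0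
  have hout : ∀ x, r < ‖x‖ → x ∉ tsupport Ψ := fun x hx h =>
    absurd (mem_closedBall_zero_iff.1 (hr h)) (not_le.2 hx)
  have h0 : ∀ x, r < ‖x‖ → Ψ x = 0 := fun x hx => image_eq_zero_of_notMem_tsupport (hout x hx)
  have h0' : ∀ x, r < ‖x‖ → fderiv ℝ Ψ x = 0 := fun x hx =>
    image_eq_zero_of_notMem_tsupport fun h => hout x hx (tsupport_fderiv_subset ℝ h)
  have hup : ∀ (x : Fin N → Pt) y, r < ‖y‖ → r < ‖update x i y‖ := fun x y hy =>
    hy.trans_le (by simpa using norm_le_pi_norm (update x i y) i)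
  set F : (Fin N → Pt) → ℝ := fun x => C * (Ψ x ^ 2 + ∑ k, fderiv ℝ Ψ x (dirn i k) ^ 2) -
    ker (x i - c x) * Ψ x ^ 2 with hF
  have i1 : Integrable fun x => Ψ x ^ 2 :=
    (hΨ.continuous.pow 2).integrable_of_hasCompactSupport (sc_cc_sq hcc)
  have i2 : ∀ k, Integrable fun x => fderiv ℝ Ψ x (dirn i k) ^ 2 := fun k => sc_int_grad hΨ hcc _
  have i3 := integrable_finset_sum Finset.univ fun k _ => i2 k
  have iF : Integrable F := ((i1.add i3).const_mul C).sub hi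
  have F0 : ∀ x, r < ‖x‖ → F x = 0 := fun x hx => by simp [hF, h0 x hx, h0' x hx]
  have e : (Measure.pi fun _ : Fin N => ML.mu r) = volume.restrict (Metric.closedBall 0 r) := by
    rw [closedBall_pi _ hr0.le, volume_pi, Measure.restrict_pi_pi]; rfl
  have iF' : Integrable F (Measure.pi fun _ => ML.mu r) := by rw [e]; exact iF.integrableOn
  have key : 0 ≤ (ML.mu r).real univ * ∫ x, F x := by
    rw [← ML.int_pi F0, ← integral_update (fun _ => ML.mu r) i iF']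
    refine integral_nonneg fun x => ?_
    have hs : C1c fun y => Ψ (update x i y) :=
      ⟨hΨ.comp (contDiff_update 1 x i), HasCompactSupport.intro (isCompact_closedBall 0 r)
        fun y hy => h0 _ (hup x y (not_le.1 fun h => hy (mem_closedBall_zero_iff.2 h)))⟩
    have hcont : Continuous fun y => Ψ (update x i y) ^ 2 := hs.1.continuous.pow 2
    have hcc' : HasCompactSupport fun y => Ψ (update x i y) ^ 2 :=
      hs.2.comp_left (g := fun t : ℝ => t ^ 2) (by simp)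
    have j1 := integrable_ker_mul_cc hcont hcc' (c x)
    have j2 := hcont.integrable_of_hasCompactSupport hcc' (μ := volume)
    have j3 := hs.integrable_gsq
    have := hC _ (c x) hs
    simp only [Pi.zero_apply]
    rw [ML.int_mu fun y hy => F0 _ (hup x y hy)]
    have e2 : ∀ y, F (update x i y) = C * (Ψ (update x i y) ^ 2 +
        gsq (fun y => Ψ (update x i y)) y) - ker (y - c x) * Ψ (update x i y) ^ 2 := fun y => by
      simp only [hF, gsq, ML.pd_slice hΨ, hc, update_self]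
    simp only [e2]
    have j4 : Integrable fun y => C * (Ψ (update x i y) ^ 2 +
      gsq (fun y => Ψ (update x i y)) y) := (j2.add j3).const_mul C
    rw [integral_sub j4 j1, integral_const_mul, integral_add j2 j3]
    linarith
  have h1 := (mul_nonneg_iff_of_pos_left (ML.mu_pos hr0)).1 key
  have i4 : Integrable fun x => C * (Ψ x ^ 2 + ∑ k, fderiv ℝ Ψ x (dirn i k) ^ 2) :=
    (i1.add i3).const_mul C
  rw [hF, integral_sub i4 hi, integral_const_mul, integral_add i1 i3,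
    integral_finsetSum _ fun k _ => i2 k] at h1
  linarith

/-- Weights controlled by the Sobolev norm on the core. -/
def Hd (w : (Fin N → Pt) → ℝ) (C : ℝ) : Prop :=
  Measurable w ∧ (∀ x, 0 ≤ w x) ∧ ∀ g : (Fin N → Pt) → ℂ, ContDiff ℝ 1 g → HasCompactSupport g →
    Integrable (fun x => w x * ‖g x‖ ^ 2) ∧ ∫ x, w x * ‖g x‖ ^ 2 ≤
      C * ((∫ x, ‖g x‖ ^ 2) + ∑ i, ∑ k, ∫ x, ‖fderiv ℝ g x (dirn i k)‖ ^ 2)

theorem hardyC {C : ℝ} (hC0 : 0 ≤ C) (hC : ∀ (ψ : Pt → ℝ) (c : Pt), C1c ψ →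
    ∫ x, ker (x - c) * ψ x ^ 2 ≤ C * ((∫ x, ψ x ^ 2) + ∫ x, gsq ψ x)) (i : Fin N)
    {c : (Fin N → Pt) → Pt} (hm : Measurable c) (hc : ∀ x y, c (update x i y) = c x)
    (hi : ∀ f : (Fin N → Pt) → ℝ, Continuous f → HasCompactSupport f →
      Integrable fun x => ker (x i - c x) * f x) : Hd (fun x => ker (x i - c x)) C := by
  refine ⟨measurable_ker.comp ((measurable_pi_apply i).sub hm), fun x => ker_nonneg _,
    fun g hg hcc => ?_⟩
  obtain ⟨a1, a2, a3⟩ := sc_clm hg hcc Complex.reCLM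
  obtain ⟨b1, b2, b3⟩ := sc_clm hg hcc Complex.imCLM
  have ia := hi _ (a1.continuous.pow 2) (sc_cc_sq a2)
  have ib := hi _ (b1.continuous.pow 2) (sc_cc_sq b2)
  have ha := hardyR hC i hc a1 a2 ia
  have hb := hardyR hC i hc b1 b2 ib
  have ja : Integrable fun x => (g x).re ^ 2 :=
    (a1.continuous.pow 2).integrable_of_hasCompactSupport (sc_cc_sq a2)
  have jb : Integrable fun x => (g x).im ^ 2 :=
    (b1.continuous.pow 2).integrable_of_hasCompactSupport (sc_cc_sq b2)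
  have ka := fun v => sc_int_grad a1 a2 v
  have kb := fun v => sc_int_grad b1 b2 v
  simp only [a3, b3] at ha hb ka kb
  simp only [Complex.reCLM_apply, Complex.imCLM_apply, Pi.pow_apply] at ia ib ha hb ka kb
  simp only [sc_norm_sq, mul_add]
  refine ⟨ia.add ib, ?_⟩
  rw [integral_add ia ib, integral_add ja jb]
  have h1 : ∑ k, ∫ x, ((fderiv ℝ g x (dirn i k)).re ^ 2 + (fderiv ℝ g x (dirn i k)).im ^ 2) ≤
      ∑ i, ∑ k, ∫ x, ((fderiv ℝ g x (dirn i k)).re ^ 2 + (fderiv ℝ g x (dirn i k)).im ^ 2) :=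
    Finset.single_le_sum (f := fun i => ∑ k, ∫ x, ((fderiv ℝ g x (dirn i k)).re ^ 2 +
      (fderiv ℝ g x (dirn i k)).im ^ 2)) (fun i _ => Finset.sum_nonneg fun k _ =>
        integral_nonneg fun x => by positivity) (Finset.mem_univ i)
  rw [Finset.sum_congr rfl fun k _ => integral_add (ka _) (kb _), Finset.sum_add_distrib] at h1
  nlinarith [mul_le_mul_of_nonneg_left h1 hC0]

theorem hd_coulomb : ∃ C : ℝ, 0 ≤ C ∧ ∀ N : ℕ,
    (∀ (i : Fin N) R, Hd (fun x : Fin N → Pt => ker (x i - R)) C) ∧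
      ∀ i j : Fin N, i ≠ j → Hd (fun x : Fin N → Pt => ker (x i - x j)) C := by
  obtain ⟨C, h0, hC⟩ := hardy1
  exact ⟨C, h0, fun N => ⟨fun i R => hardyC h0 hC i (c := fun _ => R) measurable_const
    (fun _ _ => rfl) fun f hf hc => sc_int_one hf hc i R, fun i j hij => hardyC h0 hC i
    (c := fun x => x j) (measurable_pi_apply j) (fun x y => update_of_ne hij.symm y x)
    fun f hf hc => sc_int_two hf hc hij⟩⟩

lemma sq_le_two (a b : ℂ) : ‖a‖ ^ 2 ≤ 2 * ‖b‖ ^ 2 + 2 * ‖a - b‖ ^ 2 := by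
  have h : ‖a‖ ≤ ‖b‖ + ‖a - b‖ := by simpa using norm_add_le b (a - b)
  nlinarith [norm_nonneg a, norm_nonneg b, norm_nonneg (a - b), sq_nonneg (‖b‖ - ‖a - b‖)]

lemma MemLp.isq {f : (Fin N → Pt) → ℂ} (h : MemLp f 2) : Integrable fun x => ‖f x‖ ^ 2 :=
  (memLp_two_iff_integrable_sq_norm h.1).1 h

lemma int_le_two {f g : (Fin N → Pt) → ℂ} (hf : MemLp f 2) (hg : MemLp g 2) :
    ∫ x, ‖g x‖ ^ 2 ≤ 2 * (∫ x, ‖f x‖ ^ 2) + 2 * ∫ x, ‖g x - f x‖ ^ 2 := by
  have i1 := (MemLp.isq hf).const_mul 2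
  have i2 : Integrable fun x => 2 * ‖g x - f x‖ ^ 2 := (MemLp.isq (hg.sub hf)).const_mul 2
  rw [← integral_const_mul, ← integral_const_mul, ← integral_add i1 i2]
  exact integral_mono (MemLp.isq hg) (i1.add i2) fun x => sq_le_two _ _

/-- Extension of the bound to the Sobolev space. -/
theorem Hd.h1 {w : (Fin N → Pt) → ℝ} {C : ℝ} (h : Hd w C) (hC : 0 ≤ C)
    {f : (Fin N → Pt) → ℂ} {G : Fin N → Fin 3 → (Fin N → Pt) → ℂ} (hf : InH1 f G) :
    Integrable (fun x => w x * ‖f x‖ ^ 2) ∧ ∫ x, w x * ‖f x‖ ^ 2 ≤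
      4 * C * ((∫ x, ‖f x‖ ^ 2) + ∑ i, ∑ k, ∫ x, ‖G i k x‖ ^ 2) := by
  set S := 4 * C * ((∫ x, ‖f x‖ ^ 2) + ∑ i, ∑ k, ∫ x, ‖G i k x‖ ^ 2) with hS
  have i0 := MemLp.isq hf.1
  have w0 : ∀ (m : ℕ) x, 0 ≤ min (w x) m := fun m x => le_min (h.2.1 x) (Nat.cast_nonneg m)
  have im : ∀ m : ℕ, Integrable fun x => min (w x) m * ‖f x‖ ^ 2 := fun m =>
    i0.bdd_mul (c := m) (h.1.min measurable_const).aestronglyMeasurable (ae_of_all _ fun x => by
      rw [Real.norm_eq_abs, abs_of_nonneg (w0 m x)]; exact min_le_right _ _)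
  have hm : ∀ m : ℕ, ∫ x, min (w x) m * ‖f x‖ ^ 2 ≤ S := fun m => by
    refine le_of_forall_pos_le_add fun δ hδ => ?_
    have hK : 0 < 4 * C * (1 + 3 * N) + 2 * m + 1 := by positivity
    obtain ⟨g, g1, g2, g3, g4⟩ := hf.approx (div_pos hδ hK)
    set e := δ / (4 * C * (1 + 3 * N) + 2 * m + 1) with he
    have e0 : 0 < e := div_pos hδ hK
    have hg := inH1_of_c1 g1 g2
    obtain ⟨p1, p2⟩ := h.2.2 g g1 g2
    have p3 := int_le_two hf.1 hg.1
    have p4 : ∑ i, ∑ k, ∫ x, ‖fderiv ℝ g x (dirn i k)‖ ^ 2 ≤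
        ∑ i : Fin N, ∑ k : Fin 3, (2 * (∫ x, ‖G i k x‖ ^ 2) + 2 * e) :=
      Finset.sum_le_sum fun i _ => Finset.sum_le_sum fun k _ =>
        (int_le_two (hf.2 i k).1 (hg.2 i k).1).trans (by linarith [g4 i k])
    simp only [Finset.sum_add_distrib, ← Finset.mul_sum, Finset.sum_const, Finset.card_univ,
      Fintype.card_fin, nsmul_eq_mul, Nat.cast_ofNat] at p4
    have i1 := p1.const_mul 2
    have i2 : Integrable fun x => 2 * m * ‖g x - f x‖ ^ 2 :=
      (MemLp.isq (hg.1.sub hf.1)).const_mul _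
    have p5 : ∫ x, min (w x) m * ‖f x‖ ^ 2 ≤
        2 * (∫ x, w x * ‖g x‖ ^ 2) + 2 * m * ∫ x, ‖g x - f x‖ ^ 2 := by
      rw [← integral_const_mul, ← integral_const_mul, ← integral_add i1 i2]
      refine integral_mono (im m) (i1.add i2) fun x => ?_
      have q1 := mul_le_mul_of_nonneg_left (sq_le_two (f x) (g x)) (w0 m x)
      rw [norm_sub_rev] at q1
      have q2 := mul_le_mul_of_nonneg_right (min_le_left (w x) m) (sq_nonneg ‖g x‖)
      have q3 := mul_le_mul_of_nonneg_right (min_le_right (w x) m) (sq_nonneg ‖g x - f x‖)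
      simp only
      linarith
    have p6 : e * (4 * C * (1 + 3 * N) + 2 * m + 1) = δ := div_mul_cancel₀ _ hK.ne'
    have p7 := mul_le_mul_of_nonneg_left g3 (by positivity : (0 : ℝ) ≤ 2 * m)
    have p8 := mul_le_mul_of_nonneg_left (add_le_add (p3.trans (add_le_add le_rfl
      (mul_le_mul_of_nonneg_left g3 zero_le_two))) p4) hC
    nlinarith
  have hmono : ∀ x, Monotone fun m : ℕ => min (w x) m * ‖f x‖ ^ 2 := fun x a b hab =>
    mul_le_mul_of_nonneg_right (min_le_min le_rfl (Nat.cast_le.2 hab)) (sq_nonneg _)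
  have hlim : ∀ x, Filter.Tendsto (fun m : ℕ => min (w x) m * ‖f x‖ ^ 2) Filter.atTop
      (nhds (w x * ‖f x‖ ^ 2)) := fun x => by
    refine tendsto_const_nhds.congr' ?_
    filter_upwards [Filter.eventually_ge_atTop ⌈w x⌉₊] with m hm
    rw [min_eq_left ((Nat.le_ceil _).trans (Nat.cast_le.2 hm))]
  have hmeas : AEStronglyMeasurable (fun x => w x * ‖f x‖ ^ 2) volume :=
    h.1.aestronglyMeasurable.mul i0.1
  have hint : Integrable fun x => w x * ‖f x‖ ^ 2 := by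
    refine ⟨hmeas, ?_⟩
    rw [hasFiniteIntegral_iff_ofReal (ae_of_all _ fun x => mul_nonneg (h.2.1 x) (sq_nonneg _))]
    have := lintegral_tendsto_of_tendsto_of_monotone (μ := volume)
      (f := fun (m : ℕ) x => ENNReal.ofReal (min (w x) m * ‖f x‖ ^ 2))
      (F := fun x => ENNReal.ofReal (w x * ‖f x‖ ^ 2))
      (fun m => (im m).1.aemeasurable.ennreal_ofReal)
      (ae_of_all _ fun x a b hab => ENNReal.ofReal_le_ofReal (hmono x hab))
      (ae_of_all _ fun x => ENNReal.tendsto_ofReal (hlim x))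
    refine lt_of_le_of_lt (le_of_tendsto' this fun m => ?_) (ENNReal.ofReal_lt_top (r := S))
    rw [← ofReal_integral_eq_lintegral_ofReal (im m)
      (ae_of_all _ fun x => mul_nonneg (w0 m x) (sq_nonneg _))]
    exact ENNReal.ofReal_le_ofReal (hm m)
  exact ⟨hint, le_of_tendsto' (integral_tendsto_of_tendsto_of_monotone im hint
    (ae_of_all _ hmono) (ae_of_all _ hlim)) hm⟩

end Vale.Agent.P370
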