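import Vale.Agent.P370.InstA
import Vale.Agent.P370.Num
import Vale.Agent.P370.Reg
import Vale.Agent.P370.Cub
import Vale.Agent.P370.Scale

/-!
The instance is computed in polynomial time, is valid, and matches the lattice data.
-/

namespace Vale.Agent.P370

open Vale.Agent.Lib.TM Vale.Agent.P049

variable {fp fs fL fU : ℕ → ℚ}

theorem geo_ok : ∃ n₀, ∀ I : FM, I.WF n₀ → I.geo.OK I.V := insta_geo_ok

lemma inst_cast_pp (k : ℕ) (t : ℚ) : ((pp ℚ k t : ℚ) : ℝ) = pp ℝ k t := by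
  simp [pp]

lemma inst_cast_pp1 (k : ℕ) (t : ℚ) : ((pp1 ℚ k t : ℚ) : ℝ) = pp1 ℝ k t := by
  simp [pp1, inst_cast_pp]

lemma inst_cast_pp2 (k : ℕ) (t : ℚ) : ((pp2 ℚ k t : ℚ) : ℝ) = pp2 ℝ k t := by
  simp [pp2, inst_cast_pp]

lemma inst_cast_fsum (l : List Feat) {P Q : ℚ → ℚ → ℚ} {P' Q' : ℝ → ℝ → ℝ}
    (hP : ∀ t h, ((P t h : ℚ) : ℝ) = P' t h) (hQ : ∀ t h, ((Q t h : ℚ) : ℝ) = Q' t h) (x y : ℚ) :
    ((fsum ℚ l P Q x y : ℚ) : ℝ) = fsum ℝ l P' Q' x y := by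
  unfold fsum
  induction l with
  | nil => simp
  | cons f l ih =>
    simp only [List.map_cons, List.sum_cons, Rat.cast_add, ih, Rat.cast_mul, hP, hQ]
    simp

lemma inst_cast_FK (k : ℕ) (l : List Feat) (κ m : ℕ) (x y z : ℚ) :
    ((FK ℚ k l κ m x y z : ℚ) : ℝ) = FK ℝ k l κ m x y z := by
  have h0 : ∀ t _h : ℚ, ((pp ℚ k t : ℚ) : ℝ) = pp ℝ k t := fun t _ => inst_cast_pp k t
  have h1 : ∀ t h : ℚ, ((pp1 ℚ k t / h : ℚ) : ℝ) = pp1 ℝ k t / h := fun t h => by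
    simp [inst_cast_pp1]
  have h2 : ∀ t h : ℚ, ((pp2 ℚ k t / h ^ 2 : ℚ) : ℝ) = pp2 ℝ k t / (h : ℝ) ^ 2 := fun t h => by
    simp [inst_cast_pp2]
  have e0 := inst_cast_fsum l (P' := fun t _ => pp ℝ k t) (Q' := fun t _ => pp ℝ k t) h0 h0 x y
  have e1 := inst_cast_fsum l (P' := fun t h => pp1 ℝ k t / h) (Q' := fun t _ => pp ℝ k t) h1 h0 x y
  have e2 := inst_cast_fsum l (P' := fun t _ => pp ℝ k t) (Q' := fun t h => pp1 ℝ k t / h) h0 h1 x y
  have e3 := inst_cast_fsum l (P' := fun t h => pp2 ℝ k t / h ^ 2) (Q' := fun t _ => pp ℝ k t)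
    h2 h0 x y
  have e4 := inst_cast_fsum l (P' := fun t _ => pp ℝ k t) (Q' := fun t h => pp2 ℝ k t / h ^ 2)
    h0 h2 x y
  simp only [FK, vK, mK, Rat.cast_mul, Rat.cast_sub, Rat.cast_div, Rat.cast_add, Rat.cast_pow,
    e0, e1, e2, e3, e4, inst_cast_pp, Rat.cast_natCast, Rat.cast_ofNat]

lemma inst_site0 (I : FM) (p : ℕ × ℕ × ℕ) : site I.σ I.R p 0 = ((I.siteQ p).1 : ℝ) := by
  simp [site, FM.siteQ]

lemma inst_site1 (I : FM) (p : ℕ × ℕ × ℕ) : site I.σ I.R p 1 = ((I.siteQ p).2.1 : ℝ) := by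
  simp [site, FM.siteQ]

lemma inst_site2 (I : FM) (p : ℕ × ℕ × ℕ) : site I.σ I.R p 2 = ((I.siteQ p).2.2 : ℝ) := by
  simp [site, FM.siteQ]

lemma inst_cast_lapQ (I : FM) (p : ℕ × ℕ × ℕ) :
    ((I.lapQ (I.siteQ p) : ℚ) : ℝ) =
      (∑ k, (I.geo.F0 (site I.σ I.R p + (1 / (I.τ : ℝ) ^ 10) • ek k) +
        I.geo.F0 (site I.σ I.R p - (1 / (I.τ : ℝ) ^ 10) • ek k) - 2 * I.geo.F0 (site I.σ I.R p))) /
        (1 / (I.τ : ℝ) ^ 10) ^ 2 := by
  simp only [FM.lapQ, FM.FQ, Rat.cast_mul, Rat.cast_sub, Rat.cast_add, inst_cast_FK, Rat.cast_div,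
    Rat.cast_pow, Rat.cast_natCast, Rat.cast_ofNat, Rat.cast_one, Fin.sum_univ_three, Geo.F0,
    Pi.add_apply, Pi.sub_apply, Pi.smul_apply, inst_site0, inst_site1, inst_site2, ek, smul_eq_mul]
  simp only [Pi.single_eq_same, mul_one, ne_eq, Fin.reduceEq, not_false_eq_true,
    Pi.single_eq_of_ne, mul_zero, add_zero, sub_zero]
  rw [div_pow, one_pow, div_div_eq_mul_div, div_one, ← pow_mul]
  ring

open Classical in
lemma inst_KQ (I : FM) (fp : ℕ → ℚ) (p : ℕ × ℕ × ℕ) :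
    I.KQ fp p = if site I.σ I.R p ∈ box (2 * I.geo.l) (2 * I.geo.l) 7 then
      I.lapQ (I.siteQ p) / (4 * fp (I.τ ^ 20)) else 0 := by
  unfold FM.KQ
  rw [Bool.cond_eq_ite]
  refine if_congr ?_ rfl rfl
  simp only [Bool.and_eq_true, decide_eq_true_eq, box, Set.mem_ofPred_eq, inst_site0, inst_site1,
    inst_site2, abs_le, neg_le (a := (2 * (I.geo.l : ℝ))), neg_le (a := (7 : ℝ))]
  norm_cast
  tauto

lemma inst_err {a b q t B ρ : ℝ} (ht : 2 ≤ t) (hB : B ≤ t) (hρ : ρ ≤ t)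
    (h1 : |a - b| ≤ B / t ^ 20) (h2 : |b| ≤ 2 * Real.pi * ρ) (h3 : |q - Real.pi| ≤ 1 / t ^ 20) :
    |a / (4 * q) - b / (4 * Real.pi)| ≤ 1 / t ^ 16 := by
  have hpi := Real.pi_gt_three
  have ht0 : 0 < t := by linarith
  have ht20 : 1 / t ^ 20 ≤ 1 := by
    rw [div_le_one (by positivity)]
    exact one_le_pow₀ (by linarith)
  have hq : 1 ≤ q := by linarith [(abs_le.1 h3).1]
  have e : a / (4 * q) - b / (4 * Real.pi) =
      (a - b) * (1 / (4 * q)) - b / (2 * Real.pi) * (q - Real.pi) * (1 / (2 * q)) := by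
    field_simp
    ring
  have h4 : |b / (2 * Real.pi)| ≤ t := by
    rw [abs_div, abs_of_pos (by positivity : 0 < 2 * Real.pi), div_le_iff₀ (by positivity)]
    nlinarith
  have h5 : |1 / (4 * q)| ≤ 1 := by
    rw [abs_of_pos (by positivity), div_le_one (by positivity)]
    linarith
  have h6 : |1 / (2 * q)| ≤ 1 := by
    rw [abs_of_pos (by positivity), div_le_one (by positivity)]
    linarith
  have h7 : |a - b| ≤ t / t ^ 20 := h1.trans (by gcongr)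
  rw [e]
  calc _ ≤ |(a - b) * (1 / (4 * q))| + |b / (2 * Real.pi) * (q - Real.pi) * (1 / (2 * q))| :=
        abs_sub _ _
    _ ≤ t / t ^ 20 * 1 + t * (1 / t ^ 20) * 1 := by
        rw [abs_mul, abs_mul, abs_mul]
        gcongr
    _ = 2 / t ^ 3 * (1 / t ^ 16) := by field_simp; ring
    _ ≤ 1 * (1 / t ^ 16) := by
        gcongr
        rw [div_le_one (by positivity)]
        nlinarith [pow_pos ht0 2, mul_le_mul ht ht (by norm_num) ht0.le]
    _ = _ := one_mul _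

lemma inst_u_le (s : ℚ) : |((⌊s + 1 / 2⌋ : ℤ) : ℝ) - s| ≤ 1 := by
  have h1 : ((⌊s + 1 / 2⌋ : ℤ) : ℚ) ≤ s + 1 / 2 := Int.floor_le _
  have h2 : s + 1 / 2 < ((⌊s + 1 / 2⌋ : ℤ) : ℚ) + 1 := Int.lt_floor_add_one _
  have h3 : |((⌊s + 1 / 2⌋ : ℤ) : ℚ) - s| ≤ 1 := abs_le.2 ⟨by linarith, by linarith⟩
  exact_mod_cast h3

lemma inst_u_zero {I : FM} {p : ℕ × ℕ × ℕ} (h : I.SQ fp p = 0) : (I.lat fp).u p = 0 := by
  change ((⌊I.SQ fp p + 1 / 2⌋ : ℤ) : ℝ) - I.SQ fp p = 0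
  rw [h]
  norm_num

lemma inst_WF_mono {a b : ℕ} (h : a ≤ b) {I : FM} (hI : I.WF b) : I.WF a :=
  ⟨h.trans hI.1, hI.2⟩

theorem lat_ok (hp : Apx Real.pi fp) :
    ∃ n₀, ∀ I : FM, I.WF n₀ → (I.lat fp).OK ((I.n : ℝ) ^ 600) := by
  obtain ⟨n1, hn1⟩ := geo_ok
  obtain ⟨n2, hn2⟩ := F_facts
  obtain ⟨n3, hn3⟩ := pow_le_two_pow 64600
  refine ⟨max (max n1 n2) (max n3 20), fun I h => ?_⟩
  have hG := hn1 I (inst_WF_mono ((le_max_left _ _).trans (le_max_left _ _)) h)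
  obtain ⟨f1, f2, f3, f4, f5, f6⟩ :=
    hn2 I.geo I.V (((le_max_right _ _).trans (le_max_left _ _)).trans h.1) hG
  have hexp := hn3 I.n (((le_max_left _ _).trans (le_max_right _ _)).trans h.1)
  have h20 : 20 ≤ I.n := ((le_max_right _ _).trans (le_max_right _ _)).trans h.1
  have hn1' : (1 : ℝ) ≤ I.n := by exact_mod_cast (by omega : 1 ≤ I.n)
  have hl : I.geo.l = I.n ^ 26 := rfl
  have hρ : I.geo.ρ = I.n ^ 220 := by
    change (I.n ^ 110) ^ 2 = _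
    rw [← pow_mul]
  have hτ : (I.τ : ℝ) = (I.n : ℝ) ^ 4000 := by simp [FM.τ]
  have hτB : (I.n : ℝ) ^ 600 ≤ I.τ := by
    rw [hτ]
    exact pow_le_pow_right₀ hn1' (by omega)
  have hρB : (I.geo.ρ : ℝ) ≤ (I.n : ℝ) ^ 600 := by
    rw [hρ, Nat.cast_pow]
    exact pow_le_pow_right₀ hn1' (by omega)
  have hτ2 : (2 : ℝ) ≤ I.τ := by
    refine le_trans ?_ ((le_self_pow₀ hn1' (by omega)).trans hτB)
    exact_mod_cast (by omega : 2 ≤ I.n)
  have hKout : ∀ p, site I.σ I.R p ∉ box (2 * I.geo.l) (2 * I.geo.l) 7 → I.KQ fp p = 0 :=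
    fun p hp => by rw [inst_KQ, if_neg hp]
  have hl0 : (0 : ℝ) ≤ I.geo.l := Nat.cast_nonneg _
  refine ⟨?_, ?_, ?_, hρB, hτB, le_rfl, f1, f3, f4, fun p => ?_, fun p hp => ?_,
    fun p => inst_u_le _, fun p hp => inst_u_zero ?_, fun p hp => inst_u_zero ?_⟩
  · change 10 ≤ I.geo.l
    rw [hl]
    exact le_trans (by omega) (Nat.le_self_pow (by omega) I.n)
  · change (I.geo.l : ℝ) ≤ _
    rw [hl, Nat.cast_pow]
    exact pow_le_pow_right₀ hn1' (by omega)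
  · change 20 ≤ I.geo.ρ
    rw [hρ]
    exact h20.trans (Nat.le_self_pow (by omega) I.n)
  · change |((I.KQ fp p : ℚ) : ℝ) - lap I.geo.F (site I.σ I.R p) / (4 * Real.pi)| ≤
      1 / (I.τ : ℝ) ^ 16
    by_cases hb : site I.σ I.R p ∈ box (2 * I.geo.l) (2 * I.geo.l) 7
    · rw [inst_KQ, if_pos hb, Rat.cast_div, Rat.cast_mul, Rat.cast_ofNat]
      refine inst_err hτ2 hτB (hρB.trans hτB) ?_ (f4 _) ?_
      · rw [inst_cast_lapQ, f5 _ hb]
        refine (fd_lap f2 (by positivity) _).trans (le_of_eq ?_)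
        change _ * (I.n : ℝ) ^ 600 = _
        generalize (I.n : ℝ) ^ 600 = B
        ring
      · have h1 : 1 ≤ I.τ ^ 20 := Nat.one_le_pow _ _ (by exact_mod_cast (by linarith : (0 : ℝ) < I.τ))
        simpa using hp.1 _ h1
    · rw [hKout p hb, Rat.cast_zero, zero_sub, abs_neg, abs_div,
        abs_of_pos (by positivity : 0 < 4 * Real.pi)]
      have h1 := f6 _ hb
      change _ ≤ (I.n : ℝ) ^ 600 / 2 ^ I.n at h1
      have h2 : (I.n : ℝ) ^ 600 / 2 ^ I.n ≤ 1 / (I.τ : ℝ) ^ 16 := by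
        rw [div_le_div_iff₀ (by positivity) (by positivity), hτ, ← pow_mul, ← pow_add, one_mul]
        exact hexp
      refine le_trans (div_le_self (abs_nonneg _) ?_) (h1.trans h2)
      linarith [Real.pi_gt_three]
  · change ((I.KQ fp p : ℚ) : ℝ) = 0
    rw [hKout p, Rat.cast_zero]
    intro hb
    apply hp
    change site I.σ I.R p ∈ box (3 * I.geo.l) (3 * I.geo.l) 9
    exact ⟨hb.1.trans (by linarith), hb.2.1.trans (by linarith), hb.2.2.trans (by norm_num)⟩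
  · rw [insta_SQ I fp p.1 p.2 le_rfl]
    exact Finset.sum_eq_zero fun i _ => mul_eq_zero_of_left (insta_C_zero (by omega)) _
  · rw [insta_SQ I fp p.1 p.2 le_rfl]
    refine Finset.sum_eq_zero fun i _ => mul_eq_zero_of_right _ (hKout _ fun hb => ?_)
    change 3 * (I.geo.l : ℝ) < |site I.σ I.R p 1| at hp
    have h1 : |site I.σ I.R p 1| ≤ 2 * I.geo.l := hb.2.1
    linarith

theorem lat_Z (I : FM) (p : ℕ × ℕ × ℕ) : (I.lat fp).Z p = I.ZQ fp p := by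
  have h : ((I.KQ fp p : ℚ) : ℝ) = ((d4 (I.SQ fp) p : ℚ) : ℝ) := by rw [insta_d4_SQ]
  simp only [Lat.Z, FM.lat, FM.ZQ, h, d4]
  push_cast
  ring

theorem ZQ_pos (hp : Apx Real.pi fp) : ∃ n₀, ∀ I : FM, I.WF n₀ → ∀ p, 0 < I.ZQ fp p := by
  obtain ⟨n1, hn1⟩ := lat_ok hp
  refine ⟨max n1 40, fun I h p => ?_⟩
  have hL := hn1 I (inst_WF_mono (le_max_left _ _) h)
  have h40 : 40 ≤ I.n := (le_max_right _ _).trans h.1
  have hρ : (40 : ℝ) ≤ (I.lat fp).ρ := by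
    have : 40 ≤ (I.n ^ 110) ^ 2 :=
      h40.trans ((Nat.le_self_pow (by omega) _).trans (Nat.le_self_pow (by omega) _))
    exact_mod_cast this
  have hτ : (1 : ℝ) ≤ (I.lat fp).τ := by
    refine le_trans (one_le_pow₀ ?_) hL.τ_ge
    exact_mod_cast (by omega : 1 ≤ I.n)
  have h1 := hL.K_err p
  have h2 := hL.lap_le (site (I.lat fp).σ (I.lat fp).R p)
  have h3 : 1 / ((I.lat fp).τ : ℝ) ^ 16 ≤ 1 := by
    rw [div_le_one (by positivity)]
    exact one_le_pow₀ hτ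
  have h4 : -(((I.lat fp).ρ : ℝ) / 2) ≤
      lap (I.lat fp).F (site (I.lat fp).σ (I.lat fp).R p) / (4 * Real.pi) := by
    rw [le_div_iff₀ (by positivity)]
    linarith [(abs_le.1 h2).1]
  have h5 : (0 : ℝ) < (I.lat fp).Z p := by
    unfold Lat.Z d4
    linarith [(abs_le.1 h1).1, abs_le.1 (hL.u_le (p.1 + 4, p.2)), abs_le.1 (hL.u_le (p.1 + 3, p.2)),
      abs_le.1 (hL.u_le (p.1 + 2, p.2)), abs_le.1 (hL.u_le (p.1 + 1, p.2)), abs_le.1 (hL.u_le p)]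
  rw [lat_Z] at h5
  exact_mod_cast h5

theorem pot_nucS (I : FM) : pot (I.nucS fp) = (I.lat fp).Vn := by
  funext x
  unfold pot Lat.Vn FM.nucS
  rw [List.map_map, ← List.sum_toFinset _ (insta_idx_nodup I), insta_idx_toFinset]
  rfl

theorem inst_E0 (I : FM) (hn : 0 < I.n) (hZ : ∀ p, 0 < I.ZQ fp p) :
    (I.inst fp fs fL fU).E0 = ground (5 * I.M) (unscale I.lam (I.nucS fp)) := by
  unfold Inst.E0 unscale FM.nucS
  change ground (5 * I.M) ((I.nuc fp).map _) = _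
  unfold FM.nuc
  rw [List.map_map, List.map_map]
  refine congrArg _ (List.map_congr_left fun p _ => ?_)
  have hσ : (I.σ : ℝ) ≠ 0 := by
    have : 0 < I.σ := by unfold FM.σ FM.τ; positivity
    exact_mod_cast this.ne'
  refine Prod.ext ?_ ?_
  · funext k
    fin_cases k
    · simp [inst_site0, div_eq_inv_mul]
    · simp [inst_site1, div_eq_inv_mul]
    · simp [inst_site2, div_eq_inv_mul]
  · have e : (((I.ZQ fp p).toNat : ℕ) : ℝ) = ((I.ZQ fp p : ℤ) : ℝ) := by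
      rw [← Int.cast_natCast, Int.toNat_of_nonneg (hZ p).le]
    simp only [Function.comp, lat_Z, e, FM.lam, Nat.cast_pow]
    field_simp

theorem inst_valid (hp : Apx Real.pi fp) :
    ∃ n₀, ∀ I : FM, I.WF n₀ → (I.inst fp fs fL fU).Valid 1 := by
  obtain ⟨n1, hn1⟩ := ZQ_pos hp
  refine ⟨max n1 2, fun I h => ?_⟩
  have hZ := hn1 I (inst_WF_mono (le_max_left _ _) h)
  have h2 : 2 ≤ I.n := (le_max_right _ _).trans h.1
  obtain ⟨-, hM1, -, -, -, -, -, hAB, -⟩ := h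
  have hτ : 0 < I.τ := by unfold FM.τ; positivity
  have hσ : 0 < I.σ := by unfold FM.σ; positivity
  have hR : 0 < I.R := by unfold FM.R; positivity
  have hlam : (0 : ℚ) < I.lam := by unfold FM.lam; positivity
  have hn0 : (0 : ℚ) < I.n := by exact_mod_cast (by omega : 0 < I.n)
  have hgap : 1 ≤ (I.inst fp fs fL fU).b - (I.inst fp fs fL fU).a := by
    have e : (I.inst fp fs fL fU).b - (I.inst fp fs fL fU).a =
        I.lam * ((I.2.2.2.2.2 : ℚ) - I.2.2.2.2.1 - 1 / 2) / (I.n : ℚ) ^ 14 := by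
      simp only [FM.inst, FM.thr]
      field_simp
      ring
    have h3 : (I.2.2.2.2.1 : ℚ) + 1 ≤ I.2.2.2.2.2 := by exact_mod_cast hAB
    have h4 : 2 * (I.n : ℚ) ^ 14 ≤ I.lam := by
      have : 2 * I.n ^ 14 ≤ I.lam := by
        rw [insta_lam]
        calc _ ≤ I.n * I.n ^ 14 := by gcongr
          _ = I.n ^ 15 := by ring
          _ ≤ _ := Nat.pow_le_pow_right (by omega) (by omega)
      exact_mod_cast this
    rw [e, le_div_iff₀ (by positivity)]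
    nlinarith
  refine ⟨?_, ?_, ?_, ?_, by linarith, le_trans ?_ hgap⟩
  · change I.nuc fp ≠ []
    have : ((0, 0, 0) : ℕ × ℕ × ℕ) ∈ I.idx := by
      simp [insta_idx, hσ, hR]
    exact fun h => List.ne_nil_of_mem this (List.map_eq_nil_iff.1 h)
  · change ((I.nuc fp).map Prod.fst).Nodup
    unfold FM.nuc
    rw [List.map_map]
    refine (insta_idx_nodup I).map fun p q hpq => site_injective hσ I.R ?_
    simp only [Function.comp, Prod.mk.injEq, div_left_inj' hlam.ne'] at hpq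
    funext k
    fin_cases k
    · simp [inst_site0, hpq.1]
    · simp [inst_site1, hpq.2.1]
    · simp [inst_site2, hpq.2.2]
  · intro q hq
    change q ∈ I.nuc fp at hq
    obtain ⟨p, -, rfl⟩ := List.mem_map.1 hq
    have := hZ p
    simp only
    omega
  · change 1 ≤ 5 * I.2.1
    omega
  · rw [pow_one]
    rcases Nat.eq_zero_or_pos (I.inst fp fs fL fU).code.length with h0 | h0
    · simp [h0]
    · rw [div_le_one (by exact_mod_cast h0)]
      exact_mod_cast h0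

end Vale.Agent.P370
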