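import Vale.Agent.P370.InstDef

/-!
The design of the instance is admissible; cumulative sums; the list of cells.
-/

namespace Vale.Agent.P370

open Finset

lemma insta_sum_range {K : Type} [AddCommMonoid K] (f : ℕ → K) (n : ℕ) :
    ((List.range n).map f).sum = ∑ i ∈ range n, f i := by
  induction n with
  | zero => simp
  | succ n ih => simp [List.range_succ, Finset.sum_range_succ, ih]

lemma insta_countP (I : FM) (p : ℕ × ℕ → Bool) :
    I.st.countP p = ∑ a ∈ range (3 * I.M), ((if p (a, a) then I.n ^ 4 - I.used a else 0) +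
      ∑ b ∈ range (3 * I.M), if p (a, b) then I.V a b * (b - a) else 0) := by
  unfold FM.st
  rw [List.countP_flatMap, insta_sum_range]
  refine Finset.sum_congr rfl fun a _ => ?_
  simp only [Function.comp, List.countP_append, List.countP_replicate, List.countP_flatMap]
  rw [insta_sum_range]
  simp only [Function.comp, List.countP_replicate]

lemma insta_used (I : FM) (a : ℕ) :
    I.used a = ∑ b ∈ range (3 * I.M), I.V a b * (a - b + (b - a)) := by
  unfold FM.used
  rw [insta_sum_range]

lemma insta_used_le {n₀ : ℕ} {I : FM} (h : I.WF n₀) (h9 : 9 ≤ I.n) {a : ℕ} (ha : a < 3 * I.M) :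
    I.used a ≤ I.n ^ 4 := by
  obtain ⟨-, -, hM, -, hV, -⟩ := h
  change I.M ≤ I.n at hM
  rw [insta_used]
  calc _ ≤ ∑ _b ∈ range (3 * I.M), I.n * (3 * I.n) := by
        refine Finset.sum_le_sum fun b hb => Nat.mul_le_mul (hV a b) ?_
        have := Finset.mem_range.1 hb
        omega
    _ = 3 * I.M * (I.n * (3 * I.n)) := by simp
    _ ≤ 3 * I.n * (I.n * (3 * I.n)) := by gcongr
    _ = 9 * I.n ^ 3 := by ring
    _ ≤ I.n * I.n ^ 3 := by gcongr
    _ = _ := by ring

lemma insta_lam (I : FM) : I.lam = I.n ^ 48000 := by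
  unfold FM.lam FM.σ FM.τ
  rw [← pow_mul, ← pow_mul]

theorem insta_geo_ok : ∃ n₀, ∀ I : FM, I.WF n₀ → I.geo.OK I.V := by
  obtain ⟨n1, hn1⟩ := pow_le_two_pow 48310
  refine ⟨max n1 9, fun I h => ?_⟩
  have h9 : 9 ≤ I.n := (le_max_right _ _).trans h.1
  have hexp := hn1 I.n ((le_max_left _ _).trans h.1)
  have hu := fun a => insta_used_le h h9 (a := a)
  obtain ⟨-, hM1, hM, hs, hV, hT1, hT, -⟩ := h
  change I.M ≤ I.n at hM
  change I.2.2.2.1 ≤ I.n at hT
  have hn0 : (0 : ℚ) < I.n := by exact_mod_cast (by omega : 0 < I.n)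
  refine ⟨hM1, hM, ?_, ?_, ?_, ?_, hs, hV, ?_, ?_⟩
  · change I.st.length ≤ I.n ^ 6
    rw [← List.countP_true, insta_countP]
    calc _ ≤ ∑ _a ∈ range (3 * I.M), I.n ^ 4 := by
          refine Finset.sum_le_sum fun a ha => ?_
          have h1 := hu a (Finset.mem_range.1 ha)
          have h2 : ∑ b ∈ range (3 * I.M), I.V a b * (b - a) ≤ I.used a := by
            rw [insta_used]
            exact Finset.sum_le_sum fun b _ => Nat.mul_le_mul_left _ (Nat.le_add_left _ _)
          simp only [if_true]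
          omega
      _ = 3 * I.M * I.n ^ 4 := by simp
      _ ≤ I.n * I.n * I.n ^ 4 := by gcongr; omega
      _ = _ := by ring
  · intro p hp
    change p ∈ I.st at hp
    change p.1 ≤ p.2 ∧ p.2 < 3 * I.M
    simp only [FM.st, List.mem_flatMap, List.mem_range, List.mem_append, List.mem_replicate] at hp
    obtain ⟨a, ha, ⟨-, rfl⟩ | ⟨b, hb, h1, rfl⟩⟩ := hp
    · exact ⟨le_rfl, ha⟩
    · refine ⟨?_, hb⟩
      by_contra hc
      apply h1
      have : b - a = 0 := by simp only at hc; omega
      rw [this, mul_zero]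
  · intro r hr
    change r < 3 * I.M at hr
    change I.st.countP _ = I.n ^ 4
    rw [insta_countP, Finset.sum_add_distrib]
    have e1 : ∑ a ∈ range (3 * I.M), (if (a == r || a == r) then I.n ^ 4 - I.used a else 0) =
        I.n ^ 4 - I.used r := by
      simp [hr]
    have e2 : ∑ a ∈ range (3 * I.M), ∑ b ∈ range (3 * I.M),
        (if (a == r || b == r) then I.V a b * (b - a) else 0) = I.used r := by
      have e3 : ∀ a b, (if (a == r || b == r) then I.V a b * (b - a) else 0) =
          (if a = r then I.V a b * (b - a) else 0) + (if b = r then I.V a b * (b - a) else 0) := by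
        intro a b
        by_cases h1 : a = r <;> by_cases h2 : b = r <;> simp [h1, h2]
      simp only [e3, Finset.sum_add_distrib]
      rw [Finset.sum_comm]
      simp only [Finset.sum_ite_eq', Finset.mem_range, hr, if_true]
      rw [insta_used, ← Finset.sum_add_distrib]
      refine Finset.sum_congr rfl fun b _ => ?_
      rw [hs b r]
      ring
    simp only
    rw [e1, e2]
    have := hu r hr
    omega
  · intro a b hab hb
    change b < 3 * I.M at hb
    change I.st.count (a, b) = _
    rw [List.count_eq_countP, insta_countP, Finset.sum_eq_single a]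
    · rw [Finset.sum_eq_single b]
      · simp [hab.ne]
      · intro c _ hc
        simp [hc]
      · intro h
        exact absurd (Finset.mem_range.2 hb) h
    · intro c _ hc
      simp [hc]
    · intro h
      exact absurd (Finset.mem_range.2 (hab.trans hb)) h
  · change (I.n : ℚ) ^ 300 / 2 ^ I.n ≤ 4 * I.2.2.2.1 * (I.n : ℚ) ^ 5 / (I.lam * (I.n : ℚ) ^ 10)
    rw [insta_lam, div_le_div_iff₀ (by positivity) (by positivity)]
    have h1 : (I.n : ℚ) ^ 48310 ≤ 2 ^ I.n := by exact_mod_cast hexp
    have h2 : (1 : ℚ) ≤ 4 * I.2.2.2.1 * (I.n : ℚ) ^ 5 := by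
      have : 1 ≤ 4 * I.2.2.2.1 * I.n ^ 5 := Nat.mul_pos (by omega) (by positivity)
      exact_mod_cast this
    calc _ = 1 * (I.n : ℚ) ^ 48310 := by push_cast; ring
      _ ≤ _ := mul_le_mul h2 h1 (by positivity) (by positivity)
  · change 4 * I.2.2.2.1 * (I.n : ℚ) ^ 5 / (I.lam * (I.n : ℚ) ^ 10) ≤ 1 / (I.n : ℚ) ^ 300
    rw [insta_lam, div_le_div_iff₀ (by positivity) (by positivity)]
    have h1 : 4 * I.2.2.2.1 * I.n ^ 5 * I.n ^ 300 ≤ 1 * (I.n ^ 48000 * I.n ^ 10) := by
      calc _ ≤ I.n * I.n * I.n ^ 5 * I.n ^ 300 := by gcongr; omega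
        _ = I.n ^ 307 := by ring
        _ ≤ I.n ^ 48010 := Nat.pow_le_pow_right (by omega) (by norm_num)
        _ = _ := by ring
    exact_mod_cast h1

/-! ### Cumulative sums -/

lemma insta_cast_g (t : ℕ) :
    ((t * (t - 1) * (t - 2) / 6 : ℕ) : ℚ) = t * ((t : ℚ) - 1) * ((t : ℚ) - 2) / 6 := by
  have hd : 6 ∣ t * (t - 1) * (t - 2) := by
    have := Nat.factorial_dvd_descFactorial t 3
    simp only [Nat.descFactorial_succ, Nat.descFactorial_zero, Nat.sub_zero, mul_one] at this
    rw [show t * (t - 1) * (t - 2) = (t - 2) * ((t - 1) * t) by ring]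
    exact this
  rw [Nat.cast_div hd (by norm_num)]
  match t with
  | 0 => simp
  | 1 => simp
  | t + 2 =>
    simp only [Nat.add_sub_cancel, show t + 2 - 1 = t + 1 from rfl]
    push_cast
    ring

/-- The coefficients of the cumulative sums. -/
def instaC (j i : ℕ) : ℚ := (((j - 1 - i) * (j - 2 - i) * (j - 3 - i) / 6 : ℕ) : ℚ)

lemma insta_C_zero {j i : ℕ} (h : j ≤ i + 3) : instaC j i = 0 := by
  unfold instaC
  rw [show j - 3 - i = 0 by omega]
  simp

lemma insta_C_add (i t : ℕ) : instaC (i + 1 + t) i = t * ((t : ℚ) - 1) * ((t : ℚ) - 2) / 6 := by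
  unfold instaC
  rw [show i + 1 + t - 1 - i = t by omega, show i + 1 + t - 2 - i = t - 1 by omega,
    show i + 1 + t - 3 - i = t - 2 by omega, insta_cast_g]

lemma insta_C_d4 (j i : ℕ) :
    instaC (j + 4) i - 4 * instaC (j + 3) i + 6 * instaC (j + 2) i - 4 * instaC (j + 1) i +
      instaC j i = if i = j then 1 else 0 := by
  rcases lt_trichotomy i j with h | rfl | h
  · obtain ⟨s, rfl⟩ : ∃ s, j = i + 1 + s := ⟨j - 1 - i, by omega⟩
    rw [if_neg h.ne, add_assoc (i + 1), add_assoc (i + 1), add_assoc (i + 1), add_assoc (i + 1)]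
    simp only [insta_C_add]
    push_cast
    ring
  · rw [if_pos rfl, insta_C_zero (le_refl (i + 3)), insta_C_zero (j := i + 2) (by omega),
      insta_C_zero (j := i + 1) (by omega), insta_C_zero (j := i) (by omega),
      show i + 4 = i + 1 + 3 by ring, insta_C_add]
    norm_num
  · rw [if_neg h.ne', insta_C_zero (j := j + 4) (by omega), insta_C_zero (j := j + 3) (by omega),
      insta_C_zero (j := j + 2) (by omega), insta_C_zero (j := j + 1) (by omega),
      insta_C_zero (j := j) (by omega)]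
    norm_num

lemma insta_SQ (I : FM) (fp : ℕ → ℚ) (j : ℕ) (q : ℕ × ℕ) {N : ℕ} (hN : j ≤ N) :
    I.SQ fp (j, q) = ∑ i ∈ range N, instaC j i * I.KQ fp (i, q) := by
  unfold FM.SQ
  rw [insta_sum_range]
  refine Finset.sum_subset (Finset.range_mono hN) fun i _ hi => ?_
  have : j ≤ i + 3 := by
    simp only [Finset.mem_range] at hi
    omega
  exact mul_eq_zero_of_left (insta_C_zero this) _

lemma insta_d4_SQ (I : FM) (fp : ℕ → ℚ) (p : ℕ × ℕ × ℕ) : d4 (I.SQ fp) p = I.KQ fp p := by
  obtain ⟨j, q⟩ := p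
  unfold d4
  simp only
  rw [insta_SQ I fp (j + 4) q (le_refl (j + 4)), insta_SQ I fp (j + 3) q (N := j + 4) (by omega),
    insta_SQ I fp (j + 2) q (N := j + 4) (by omega), insta_SQ I fp (j + 1) q (N := j + 4) (by omega),
    insta_SQ I fp j q (N := j + 4) (by omega)]
  simp only [Finset.mul_sum, ← Finset.sum_sub_distrib, ← Finset.sum_add_distrib]
  calc _ = ∑ i ∈ range (j + 4), (if i = j then 1 else 0) * I.KQ fp (i, q) := by
        refine Finset.sum_congr rfl fun i _ => ?_
        rw [← insta_C_d4]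
        ring
    _ = _ := by simp

/-! ### The cells -/

lemma insta_idx (I : FM) : I.idx =
    List.range (2 * I.R * I.σ) ×ˢ (List.range (2 * I.R * I.σ) ×ˢ List.range (20 * I.σ)) := by
  simp only [FM.idx, SProd.sprod, List.product, List.map_flatMap, List.map_map]
  rfl

lemma insta_idx_nodup (I : FM) : I.idx.Nodup := by
  rw [insta_idx]
  exact List.nodup_range.product (List.nodup_range.product List.nodup_range)

lemma insta_idx_toFinset (I : FM) : I.idx.toFinset = sites I.σ I.R := by
  ext ⟨i, j, l⟩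
  simp [insta_idx, sites]

end Vale.Agent.P370
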