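import Vale.Agent.P370.LH
import Vale.Agent.P370.Ev

/-!
The instance of the continuum problem attached to an instance of the fermion model.
-/

namespace Vale.Agent.P370

namespace FM

variable (I : FM)

/-- Size. -/
def n : ℕ := I.1.length
/-- Molecules. -/
def M : ℕ := I.2.1
/-- Mesh root. -/
def τ : ℕ := I.n ^ 4000
/-- Cells per unit length. -/
def σ : ℕ := I.τ ^ 4
/-- Scale. -/
def lam : ℕ := I.σ ^ 3
/-- Slab size. -/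
def R : ℕ := I.τ ^ 24

/-- Shared wells of row `a`. -/
def used (a : ℕ) : ℕ := ((List.range (3 * I.M)).map fun b => I.V a b * (a - b + (b - a))).sum

/-- Stations. -/
def st : List (ℕ × ℕ) :=
  (List.range (3 * I.M)).flatMap fun a => List.replicate (I.n ^ 4 - I.used a) (a, a) ++
    (List.range (3 * I.M)).flatMap fun b => List.replicate (I.V a b * (b - a)) (a, b)

/-- The design. -/
def geo : Geo := ⟨I.n, I.M, I.st, 4 * I.2.2.2.1 * (I.n : ℚ) ^ 5 / (I.lam * (I.n : ℚ) ^ 10)⟩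

/-- Rational sites. -/
def siteQ (p : ℕ × ℕ × ℕ) : ℚ × ℚ × ℚ :=
  ((p.1 + 1 / 2) / I.σ - I.R, (p.2.1 + 1 / 2) / I.σ - I.R, (p.2.2 + 1 / 2) / I.σ - 10)

/-- The correction at rational points. -/
def FQ (x y z : ℚ) : ℚ := FK ℚ I.geo.k I.geo.feats I.geo.κ I.geo.l x y z

/-- Finite-difference Laplacian. -/
def lapQ (x : ℚ × ℚ × ℚ) : ℚ :=
  (I.FQ (x.1 + 1 / (I.τ : ℚ) ^ 10) x.2.1 x.2.2 + I.FQ (x.1 - 1 / (I.τ : ℚ) ^ 10) x.2.1 x.2.2 +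
    I.FQ x.1 (x.2.1 + 1 / (I.τ : ℚ) ^ 10) x.2.2 + I.FQ x.1 (x.2.1 - 1 / (I.τ : ℚ) ^ 10) x.2.2 +
    I.FQ x.1 x.2.1 (x.2.2 + 1 / (I.τ : ℚ) ^ 10) + I.FQ x.1 x.2.1 (x.2.2 - 1 / (I.τ : ℚ) ^ 10) -
    6 * I.FQ x.1 x.2.1 x.2.2) * (I.τ : ℚ) ^ 20

variable (fp fs fL fU : ℕ → ℚ)

/-- Samples of the fractional density; `fp` approximates `π`. -/
def KQ (p : ℕ × ℕ × ℕ) : ℚ :=
  bif decide ((I.siteQ p).1 ≤ 2 * I.geo.l) && decide (-(I.siteQ p).1 ≤ 2 * I.geo.l) &&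
    decide ((I.siteQ p).2.1 ≤ 2 * I.geo.l) && decide (-(I.siteQ p).2.1 ≤ 2 * I.geo.l) &&
    decide ((I.siteQ p).2.2 ≤ 7) && decide (-(I.siteQ p).2.2 ≤ 7)
  then I.lapQ (I.siteQ p) / (4 * fp (I.τ ^ 20)) else 0

/-- Fourfold cumulative sums. -/
def SQ (p : ℕ × ℕ × ℕ) : ℚ :=
  ((List.range p.1).map fun i =>
    (((p.1 - 1 - i) * (p.1 - 2 - i) * (p.1 - 3 - i) / 6 : ℕ) : ℚ) * I.KQ fp (i, p.2)).sum

/-- Integer charges. -/
def ZQ (p : ℕ × ℕ × ℕ) : ℤ := I.geo.ρ + d4 (fun m => ⌊I.SQ fp m + 1 / 2⌋) p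

/-- The indices of the cells. -/
def idx : List (ℕ × ℕ × ℕ) :=
  (List.range (2 * I.R * I.σ)).flatMap fun i => (List.range (2 * I.R * I.σ)).flatMap fun j =>
    (List.range (20 * I.σ)).map fun l => (i, j, l)

/-- The nuclei. -/
def nuc : List ((ℚ × ℚ × ℚ) × ℕ) :=
  I.idx.map fun p => (((I.siteQ p).1 / I.lam, (I.siteQ p).2.1 / I.lam, (I.siteQ p).2.2 / I.lam),
    (I.ZQ fp p).toNat)

/-- Approximate one-body reference energy. -/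
def EQ : ℚ :=
  -(I.geo.ρ * (160 * I.R * fL (I.τ ^ 40) - 200 * fp (I.τ ^ 40))) - I.geo.κ +
    I.geo.om * fs (I.τ ^ 40) - fp (I.τ ^ 40) * I.geo.ρ / (6 * (I.σ : ℚ) ^ 2)

/-- Threshold for a given energy of the fermion model. -/
def thr (e : ℚ) : ℚ :=
  (I.lam : ℚ) ^ 2 * (5 * I.M * I.EQ fp fs fL +
    (2 * I.M * (fU (I.τ ^ 40) * (I.n : ℚ) ^ 10) + e) / (I.lam * (I.n : ℚ) ^ 14))

/-- The instance. -/
def inst : Inst :=
  ⟨I.nuc fp, 5 * I.M, I.thr fp fs fL fU (I.2.2.2.2.1 + 1 / 4),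
    I.thr fp fs fL fU (I.2.2.2.2.2 - 1 / 4)⟩

/-- The lattice data. -/
noncomputable def lat : Lat where
  τ := I.τ
  R := I.R
  ρ := I.geo.ρ
  l := I.geo.l
  F := I.geo.F
  K p := I.KQ fp p
  u p := (⌊I.SQ fp p + 1 / 2⌋ : ℝ) - I.SQ fp p

/-- The nuclei in scaled units. -/
noncomputable def nucS : List (Pt × ℝ) :=
  I.idx.map fun p => (site I.σ I.R p, (I.lat fp).Z p / (I.σ : ℝ) ^ 3)

end FM

end Vale.Agent.P370
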