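import Vale.Agent.P370.KHist

/-!
Slices of a state along the unary clock.
-/

namespace Vale.Agent.P370

open Function Finset

variable {q T : ℕ}

/-- The part of the state with a given content of the clock register. -/
def kSl (Ψ : RS (q + T)) (z : Fin T → Fin 2) : RS q := fun y => Ψ (Fin.append y z)

/-- The legal content of the clock register at time `τ`. -/
def kCk (T τ : ℕ) : Fin T → Fin 2 := fun j => if j.val < τ then 1 else 0

/-- Flip of a clock bit. -/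
def kFl (t : ℕ) (z : Fin T → Fin 2) : Fin T → Fin 2 := fun j => if j.val = t then 1 - z j else z j

/-- A clock bit is one. -/
def kOne (z : Fin T → Fin 2) (j : ℕ) : Prop := ∃ h : j < T, z ⟨j, h⟩ = 1

open Classical in
/-- Value of a clock bit. -/
noncomputable def kBt (z : Fin T → Fin 2) (j : ℕ) : ℝ := if kOne z j then 1 else 0

/-- States supported on legal clocks. -/
def kLegal (Ψ : RS (q + T)) : Prop := ∀ z, (∀ σ ≤ T, z ≠ kCk T σ) → kSl Ψ z = 0

lemma kIp_zero_left {M : ℕ} (ψ : RS M) : ip 0 ψ = 0 := by simp [ip]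
lemma kIp_zero_right {M : ℕ} (ψ : RS M) : ip ψ 0 = 0 := by simp [ip]
lemma kIp_smul_left {M : ℕ} (c : ℝ) (ψ χ : RS M) : ip (c • ψ) χ = c * ip ψ χ := by
  simp [ip, mul_sum, mul_assoc]
lemma kIp_smul_right {M : ℕ} (c : ℝ) (ψ χ : RS M) : ip ψ (c • χ) = c * ip ψ χ := by
  rw [ip_comm, kIp_smul_left, ip_comm]
lemma kIp_add_left {M : ℕ} (ψ ψ' χ : RS M) : ip (ψ + ψ') χ = ip ψ χ + ip ψ' χ := by
  simp [ip, add_mul, sum_add_distrib]
lemma kIp_add_right {M : ℕ} (ψ χ χ' : RS M) : ip ψ (χ + χ') = ip ψ χ + ip ψ χ' := by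
  simp [ip, mul_add, sum_add_distrib]
lemma kRact_zero {M : ℕ} (p : ℕ × ℕ) : ract p (0 : RS M) = 0 := by
  simpa using ract_smul p 0 (0 : RS M)

lemma kIp_sl (Ψ Φ : RS (q + T)) : ip Ψ Φ = ∑ z, ip (kSl Ψ z) (kSl Φ z) := by
  unfold ip kSl
  rw [sum_comm, ← Fintype.sum_prod_type', ← (Fin.appendEquiv q T).sum_comp]
  rfl

lemma kUpd_left (y : Fin q → Fin 2) (z : Fin T → Fin 2) (i : Fin q) (b : Fin 2) :
    update (Fin.append y z) (Fin.castAdd T i) b = Fin.append (update y i b) z := by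
  funext k
  induction k using Fin.addCases with
  | left k => simp [update_apply]
  | right k =>
    rw [update_of_ne (fun h => by have := congrArg Fin.val h; simp at this; omega)]
    simp

lemma kUpd_right (y : Fin q → Fin 2) (z : Fin T → Fin 2) (i : Fin T) (b : Fin 2) :
    update (Fin.append y z) (Fin.natAdd q i) b = Fin.append y (update z i b) := by
  funext k
  induction k using Fin.addCases with
  | left k =>
    rw [update_of_ne (fun h => by have := congrArg Fin.val h; simp at this; omega)]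
    simp
  | right k => simp [update_apply]

lemma kSl_ract {p : ℕ × ℕ} (hp : p.1 < q) (Ψ : RS (q + T)) (z : Fin T → Fin 2) :
    kSl (ract p Ψ) z = ract p (kSl Ψ z) := by
  funext y
  have h : p.1 < q + T := by omega
  have e : (⟨p.1, h⟩ : Fin (q + T)) = Fin.castAdd T ⟨p.1, hp⟩ := rfl
  simp only [kSl, ract, dif_pos h, dif_pos hp, e, kUpd_left, Fin.append_left]

lemma kSl_clock {t : ℕ} (ht : t < T) (k : ℕ) (Ψ : RS (q + T)) (z : Fin T → Fin 2)
    (y : Fin q → Fin 2) : kSl (ract (q + t, k) Ψ) z y =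
      ∑ b, pauli k (z ⟨t, ht⟩) b * kSl Ψ (update z ⟨t, ht⟩ b) y := by
  have h : q + t < q + T := by omega
  have e : (⟨q + t, h⟩ : Fin (q + T)) = Fin.natAdd q ⟨t, ht⟩ := rfl
  simp only [kSl, ract, dif_pos h, e, kUpd_right, Fin.append_right]

lemma kFin2 (b : Fin 2) : b = 0 ∨ b = 1 := by omega

lemma kSl_n {t : ℕ} (ht : t < T) (Ψ : RS (q + T)) (z : Fin T → Fin 2) :
    kSl (ract (q + t, 1) Ψ) z = kBt z t • kSl Ψ z := by
  funext y
  rw [kSl_clock ht, Fin.sum_univ_two]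
  rcases kFin2 (z ⟨t, ht⟩) with h | h
  · simp [pauli, h, kBt, kOne]
  · have e : update z ⟨t, ht⟩ 1 = z := by rw [← h, update_eq_self]
    simp [pauli, h, kBt, kOne, ht, e]

lemma kSl_x {t : ℕ} (ht : t < T) (Ψ : RS (q + T)) (z : Fin T → Fin 2) :
    kSl (ract (q + t, 2) Ψ) z = kSl Ψ (kFl t z) := by
  funext y
  have e : kFl t z = update z ⟨t, ht⟩ (1 - z ⟨t, ht⟩) := by
    funext j
    by_cases h : j = ⟨t, ht⟩
    · simp [kFl, h]
    · rw [update_of_ne h, kFl, if_neg fun h' => h (Fin.ext h')]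
  rw [kSl_clock ht, Fin.sum_univ_two, e]
  rcases kFin2 (z ⟨t, ht⟩) with h | h <;> simp [pauli, h]

lemma kBt_ck {t : ℕ} (ht : t < T) (τ : ℕ) : kBt (kCk T τ) t = if t < τ then 1 else 0 := by
  by_cases h : t < τ <;> simp [kBt, kOne, kCk, h, ht]

lemma kNot_ck {z : Fin T → Fin 2} {i j : ℕ} (hij : i < j) (hj : j < T)
    (h0 : z ⟨i, by omega⟩ = 0) (h1 : z ⟨j, hj⟩ = 1) (σ : ℕ) (_ : σ ≤ T) : z ≠ kCk T σ := by
  rintro rfl
  simp only [kCk, ite_eq_right_iff, ite_eq_left_iff, one_ne_zero, zero_ne_one, imp_false] at h0 h1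
  omega

lemma kCk_inj {σ τ : ℕ} (hσ : σ ≤ T) (hτ : τ ≤ T) (h : kCk T σ = kCk T τ) : σ = τ := by
  by_contra hne
  rcases lt_or_gt_of_ne hne with k | k
  · simpa [kCk, k] using congrFun h ⟨σ, by omega⟩
  · simpa [kCk, k] using congrFun h ⟨τ, by omega⟩

lemma kLegal.ip {Ψ : RS (q + T)} (h : kLegal Ψ) (Φ : RS (q + T)) :
    ip Ψ Φ = ∑ τ ∈ range (T + 1), ip (kSl Ψ (kCk T τ)) (kSl Φ (kCk T τ)) := by
  rw [kIp_sl, ← sum_image (f := fun z => P370.ip (kSl Ψ z) (kSl Φ z)) (g := kCk T)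
    fun σ hσ τ hτ => kCk_inj (by simpa [Nat.lt_succ_iff] using hσ)
      (by simpa [Nat.lt_succ_iff] using hτ)]
  refine (sum_subset (subset_univ _) fun z _ hz => ?_).symm
  rw [h z fun σ hσ e => hz (mem_image.2 ⟨σ, mem_range.2 (by omega), e.symm⟩), kIp_zero_left]

lemma kExists_emb (ψ : ℕ → RS q) :
    ∃ Ψ : RS (q + T), kLegal Ψ ∧ ∀ τ ≤ T, kSl Ψ (kCk T τ) = ψ τ := by
  refine ⟨fun x => ∑ τ ∈ range (T + 1), if (fun j => x (Fin.natAdd q j)) = kCk T τ then
    ψ τ (fun i => x (Fin.castAdd T i)) else 0, fun z hz => ?_, fun τ hτ => ?_⟩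
  · funext y
    simp only [kSl, Fin.append_right]
    exact sum_eq_zero fun τ hτ => if_neg (hz τ (by simpa [Nat.lt_succ_iff] using hτ))
  · funext y
    simp only [kSl, Fin.append_right, Fin.append_left]
    rw [sum_eq_single τ (fun σ hσ hne => if_neg fun e => hne
      (kCk_inj hτ (by simpa [Nat.lt_succ_iff] using hσ) e).symm)
      (fun h => absurd (mem_range.2 (by omega)) h), if_pos rfl]

/-- Diagonal clock terms. -/
lemma kLegal.val_n {Ψ : RS (q + T)} (h : kLegal Ψ) {p : ℕ × ℕ} (hp : p.1 < q) {t : ℕ}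
    (ht : t < T) : P370.ip (ract (q + t, 1) Ψ) (ract p Ψ) = ∑ τ ∈ range (T + 1),
      if t < τ then P370.ip (ract p (kSl Ψ (kCk T τ))) (kSl Ψ (kCk T τ)) else 0 := by
  rw [ract_symm, h.ip]
  refine sum_congr rfl fun τ _ => ?_
  rw [kSl_n ht, kSl_ract hp, kBt_ck ht, kIp_smul_right, ip_comm]
  split_ifs <;> simp

lemma kLegal.val_one {Ψ : RS (q + T)} (h : kLegal Ψ) {p : ℕ × ℕ} (hp : p.1 < q) :
    P370.ip Ψ (ract p Ψ) = ∑ τ ∈ range (T + 1),
      P370.ip (ract p (kSl Ψ (kCk T τ))) (kSl Ψ (kCk T τ)) := by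
  rw [h.ip]
  exact sum_congr rfl fun τ _ => by rw [kSl_ract hp, ip_comm]

lemma kFl_ck (t : ℕ) : kFl t (kCk T t) = kCk T (t + 1) := by
  funext j
  simp only [kFl, kCk]
  split_ifs <;> first | rfl | omega

lemma kFl_ck' (t : ℕ) : kFl t (kCk T (t + 1)) = kCk T t := by
  funext j
  simp only [kFl, kCk]
  split_ifs <;> first | rfl | omega

/-- One step of the clock. -/
lemma kLegal.val_x {Ψ : RS (q + T)} (h : kLegal Ψ) {p : ℕ × ℕ} (hp : p.1 < q) {t : ℕ}
    (ht : t < T) : P370.ip (ract p Ψ) (ract (q + t, 2) Ψ) =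
      2 * P370.ip (kSl Ψ (kCk T (t + 1))) (ract p (kSl Ψ (kCk T t))) := by
  rw [ract_symm, h.ip, sum_eq_add_of_mem t (t + 1) (mem_range.2 (by omega))
    (mem_range.2 (by omega)) (by omega)]
  · simp only [kSl_ract hp, kSl_x ht, kFl_ck, kFl_ck']
    rw [← ract_symm, ip_comm, two_mul]
  · intro τ hτ hne
    rw [kSl_ract hp, kSl_x ht, h (kFl t (kCk T τ)), kRact_zero, kIp_zero_right]
    rw [mem_range] at hτ
    rcases lt_or_gt_of_ne hne.1 with k | k
    · exact kNot_ck k ht (by simp [kFl, kCk, k.ne]) (by simp [kFl, kCk, k.le])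
    · exact kNot_ck (i := t) (j := t + 1) (by omega) (by omega) (by simp [kFl, kCk, k])
        (by simp [kFl, kCk]; omega)

/-- Two steps of the clock. -/
lemma kLegal.val_xx {Ψ : RS (q + T)} (h : kLegal Ψ) {t : ℕ} (ht : t + 1 < T) :
    P370.ip (ract (q + t, 2) Ψ) (ract (q + (t + 1), 2) Ψ) =
      2 * P370.ip (kSl Ψ (kCk T t)) (kSl Ψ (kCk T (t + 2))) := by
  have ht' : t < T := by omega
  have e : kFl (t + 1) (kFl t (kCk T (t + 2))) = kCk T t := by
    funext j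
    simp only [kFl, kCk]
    split_ifs <;> first | rfl | omega
  rw [ract_symm, h.ip, sum_eq_add_of_mem t (t + 2) (mem_range.2 (by omega))
    (mem_range.2 (by omega)) (by omega)]
  · simp only [kSl_x ht, kSl_x ht', kFl_ck, e]
    rw [ip_comm (kSl Ψ (kCk T (t + 2))), two_mul]
  · intro τ hτ hne
    rw [kSl_x ht', kSl_x ht, h (kFl (t + 1) (kFl t (kCk T τ))), kIp_zero_right]
    rw [mem_range] at hτ
    rcases lt_or_gt_of_ne hne.1 with k | k
    · exact kNot_ck k ht' (by simp [kFl, kCk, k.ne, show τ ≠ t + 1 by omega])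
        (by simp [kFl, kCk, k.le])
    · rcases lt_or_gt_of_ne hne.2 with k' | k'
      · exact kNot_ck (i := t) (j := t + 1) (by omega) ht (by simp [kFl, kCk, k])
          (by simp [kFl, kCk, show τ ≤ t + 1 by omega])
      · exact kNot_ck (i := t) (j := t + 2) (by omega) (by omega) (by simp [kFl, kCk, k])
          (by simp [kFl, kCk, k'])

/-- The penalty of a clock content at a position. -/
noncomputable def kPen (z : Fin T → Fin 2) (j : ℕ) : ℝ := kBt z (j + 1) - kBt z j * kBt z (j + 1)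

lemma kPen_val (Ψ : RS (q + T)) {j : ℕ} (hj : j + 1 < T) :
    ip (ract (q + (j + 1), 1) Ψ) Ψ - ip (ract (q + j, 1) Ψ) (ract (q + (j + 1), 1) Ψ) =
      ∑ z, kPen z j * ip (kSl Ψ z) (kSl Ψ z) := by
  rw [kIp_sl, kIp_sl, ← sum_sub_distrib]
  refine sum_congr rfl fun z _ => ?_
  rw [kSl_n hj, kSl_n (by omega), kIp_smul_left, kIp_smul_left, kIp_smul_right, kPen]
  ring

lemma kPen_nonneg (z : Fin T → Fin 2) (j : ℕ) : 0 ≤ kPen z j := by
  unfold kPen kBt
  split_ifs <;> simp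

lemma kPen_ck {j : ℕ} (hj : j + 1 < T) (τ : ℕ) : kPen (kCk T τ) j = 0 := by
  rw [kPen, kBt_ck hj, kBt_ck (by omega)]
  split_ifs <;> first | omega | simp

lemma kPen_illegal {z : Fin T → Fin 2} (hz : ∀ σ ≤ T, z ≠ kCk T σ) :
    1 ≤ ∑ j ∈ range (T - 1), kPen z j := by
  classical
  by_contra hc
  have st : ∀ j, kOne z (j + 1) → kOne z j := fun j h1 => by
    by_contra h0
    have k := single_le_sum (f := kPen z) (fun j _ => kPen_nonneg z j)
      (mem_range.2 (show j < T - 1 by have := h1.1; omega))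
    have e : kPen z j = 1 := by simp [kPen, kBt, h0, h1]
    exact hc (e ▸ k)
  have ex : ∃ τ, ¬ kOne z τ := ⟨T, fun h => lt_irrefl _ h.1⟩
  refine hz (Nat.find ex) (Nat.find_min' ex fun h => lt_irrefl _ h.1) (funext fun j => ?_)
  by_cases h : j.val < Nat.find ex
  · rw [kCk, if_pos h]
    exact (not_not.1 (Nat.find_min ex h)).2
  · have k : ∀ i, Nat.find ex ≤ i → ¬ kOne z i := fun i hi => by
      induction i, hi using Nat.le_induction with
      | base => exact Nat.find_spec ex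
      | succ i _ ih => exact fun h' => ih (st i h')
    rw [kCk, if_neg h]
    exact (kFin2 _).resolve_right fun e => k j (not_lt.1 h) ⟨j.2, e⟩

lemma kLegal.pen {Ψ : RS (q + T)} (h : kLegal Ψ) {j : ℕ} (hj : j + 1 < T) :
    ∑ z, kPen z j * P370.ip (kSl Ψ z) (kSl Ψ z) = 0 := by
  refine sum_eq_zero fun z _ => ?_
  by_cases hz : ∀ σ ≤ T, z ≠ kCk T σ
  · rw [h z hz, kIp_zero_left, mul_zero]
  · push Not at hz
    obtain ⟨σ, -, rfl⟩ := hz
    rw [kPen_ck hj, zero_mul]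

/-- Splitting into the legal part and the rest. -/
lemma kSplit (Ψ : RS (q + T)) : ∃ Λ P : RS (q + T), Ψ = Λ + P ∧ kLegal Λ ∧
    ip Ψ Ψ = ip Λ Λ + ip P P ∧
    ip P P ≤ ∑ j ∈ range (T - 1), ∑ z, kPen z j * ip (kSl Ψ z) (kSl Ψ z) := by
  obtain ⟨Λ, hΛ, e⟩ := kExists_emb (T := T) fun τ => kSl Ψ (kCk T τ)
  have e1 : ∀ z, kSl (Ψ - Λ) z = kSl Ψ z - kSl Λ z := fun _ => rfl
  have e2 : ip Λ (Ψ - Λ) = 0 := by
    rw [hΛ.ip]
    exact sum_eq_zero fun τ hτ => by
      rw [e1, e τ (by simpa [Nat.lt_succ_iff] using hτ), sub_self, kIp_zero_right]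
  have e3 : Ψ = Λ + (Ψ - Λ) := by abel
  refine ⟨Λ, Ψ - Λ, e3, hΛ, ?_, ?_⟩
  · conv_lhs => rw [e3]
    rw [kIp_add_left, kIp_add_right, kIp_add_right, e2, ip_comm (Ψ - Λ) Λ, e2]
    ring
  · rw [kIp_sl, sum_comm]
    refine sum_le_sum fun z _ => ?_
    rw [← sum_mul, e1]
    by_cases hz : ∀ σ ≤ T, z ≠ kCk T σ
    · rw [hΛ z hz, sub_zero]
      exact le_mul_of_one_le_left (ip_nonneg _) (kPen_illegal hz)
    · push Not at hz
      obtain ⟨σ, hσ, rfl⟩ := hz
      rw [e σ hσ, sub_self, kIp_zero_left]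
      exact mul_nonneg (sum_nonneg fun j _ => kPen_nonneg _ j) (ip_nonneg _)

lemma kIp_abs {M : ℕ} (u v : RS M) {c : ℝ} (hc : 0 < c) :
    |ip u v| ≤ (ip u u / c + c * ip v v) / 2 := by
  have k1 := ip_nonneg (u + c • v)
  have k2 := ip_nonneg (u + (-c) • v)
  simp only [kIp_add_left, kIp_add_right, kIp_smul_left, kIp_smul_right, ip_comm v u] at k1 k2
  have e : (ip u u / c + c * ip v v) / 2 = (ip u u + c * (c * ip v v)) / (2 * c) := by field_simp
  rw [e, le_div_iff₀ (by positivity), ← abs_of_pos (show 0 < 2 * c by positivity), ← abs_mul,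
    abs_le]
  constructor <;> linarith

/-- Perturbation of the form. -/
lemma kLhE_add {M : ℕ} (H : List Term) (Λ P : RS M) {c : ℝ} (hc : 0 < c) :
    lhE H Λ - ((H.map fun t => t.1.natAbs).sum : ℕ) * (ip Λ Λ / c + (c + 1) * ip P P) ≤
      lhE H (Λ + P) := by
  induction H with
  | nil => simp [lhE]
  | cons t H ih =>
    simp only [lhE, List.map_cons, List.sum_cons, Nat.cast_add] at ih ⊢
    have a1 := kIp_abs (ract t.2.1 Λ) (ract t.2.2 P) hc
    have a2 := kIp_abs (ract t.2.2 Λ) (ract t.2.1 P) hc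
    have a3 := kIp_abs (ract t.2.1 P) (ract t.2.2 P) one_pos
    have b1 := div_le_div_of_nonneg_right (ip_ract_le t.2.1 Λ) hc.le
    have b2 := div_le_div_of_nonneg_right (ip_ract_le t.2.2 Λ) hc.le
    have b3 := ip_ract_le t.2.1 P
    have b4 := ip_ract_le t.2.2 P
    have b5 := mul_le_mul_of_nonneg_left b3 hc.le
    have b6 := mul_le_mul_of_nonneg_left b4 hc.le
    have k : |ip (ract t.2.1 Λ) (ract t.2.2 P) + ip (ract t.2.2 Λ) (ract t.2.1 P) +
        ip (ract t.2.1 P) (ract t.2.2 P)| ≤ ip Λ Λ / c + (c + 1) * ip P P :=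
      (abs_add_three _ _ _).trans (by linarith)
    have k2 := neg_abs_le ((t.1 : ℝ) * (ip (ract t.2.1 Λ) (ract t.2.2 P) +
      ip (ract t.2.2 Λ) (ract t.2.1 P) + ip (ract t.2.1 P) (ract t.2.2 P)))
    have k3 := mul_le_mul_of_nonneg_left k (abs_nonneg (t.1 : ℝ))
    rw [abs_mul] at k2
    rw [ract_add, ract_add, kIp_add_left, kIp_add_right, kIp_add_right, Nat.cast_natAbs,
      Int.cast_abs, ip_comm (ract t.2.1 P) (ract t.2.2 Λ)]
    linarith

end Vale.Agent.P370
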