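import Vale.Agent.P370.KClockA

/-!
The terms of the two-local Hamiltonian of a verifier and their values.
-/

namespace Vale.Agent.P370

open Finset

/-- The operator `p` at the times from `s` on. -/
def kN (q T : ℕ) (k : ℤ) (p : ℕ × ℕ) (s : ℕ) : Term :=
  (bif Nat.ble s T then k else 0, (q + min (s - 1) (T - 1), bif s == 0 then 0 else 1), p)

/-- The operator `p` together with one step of the clock. -/
def kA (q : ℕ) (k : ℤ) (p : ℕ × ℕ) (t : ℕ) : Term := (k, p, (q + t, 2))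

/-- Two steps of the clock. -/
def kX (q : ℕ) (k : ℤ) (t : ℕ) : Term := (k, (q + t, 2), (q + (t + 1), 2))

/-- Terms of a step. -/
def kStep (q T : ℕ) (s : Step) (t : ℕ) : List Term :=
  bif s.1 then [kN q T (8 * J3 T) (0, 0) t, kN q T (-8 * J3 T) (0, 0) (t + 2),
    kA q (J3 T) (0, 0) (t - 2), kA q (J3 T) (0, 0) (t - 1), kX q (2 * J3 T) (t - 2),
    kA q (J3 T) (0, 0) (t + 1), kA q (J3 T) (0, 0) (t + 2), kX q (2 * J3 T) (t + 1),
    kA q (-4 * J3 T) (0, 0) t, kA q (-6 * J3 T) s.2.1 t, kA q (-6 * J3 T) s.2.2 t]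
  else [kN q T (J2 T) (0, 0) t, kN q T (-1 * J2 T) (0, 0) (t + 2), kA q (-1 * J2 T) s.2.1 t]

/-- Terms of the history form. -/
def kH0 (w a : ℕ) (L : List Step) : List Term :=
  (List.range L.length).flatMap (fun t => kStep (w + a + 1) L.length (stp L t) t) ++
    ((List.range a).flatMap (fun j => [kN (w + a + 1) L.length (J3 L.length) (w + j, 1) 0,
      kN (w + a + 1) L.length (-1 * J3 L.length) (w + j, 1) 1]) ++
    [kN (w + a + 1) L.length (J4 L.length) (0, 0) L.length,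
      kN (w + a + 1) L.length (-1 * J4 L.length) (0, 1) L.length])

/-- Clock penalty. -/
def kH1 (q T J : ℕ) : List Term :=
  (List.range (T - 1)).flatMap fun j =>
    [((J : ℤ), (q + (j + 1), 1), (0, 0)), (-1 * (J : ℤ), (q + j, 1), (q + (j + 1), 1))]

/-- Bound for the total weight of the history form. -/
def kW (w a : ℕ) (L : List Step) : ℕ :=
  (kH0 w a L).length * (J2 L.length + 8 * J3 L.length + J4 L.length)

/-- Weight of the clock penalty. -/
def kJ (w a : ℕ) (L : List Step) : ℕ := kW w a L * (2 * kW w a L + 3) + 3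

/-- The instance. -/
def kRed (w a : ℕ) (L : List Step) : LH :=
  (List.replicate (w + a + 1 + L.length + kW w a L +
      (kH1 (w + a + 1) L.length (kJ w a L)).length * kJ w a L) true,
    w + a + 1 + L.length, kH0 w a L ++ kH1 (w + a + 1) L.length (kJ w a L))

/-! ### Values -/

lemma kLhE_cons {M : ℕ} (t : Term) (H : List Term) (Ψ : RS M) :
    lhE (t :: H) Ψ = (t.1 : ℝ) * ip (ract t.2.1 Ψ) (ract t.2.2 Ψ) + lhE H Ψ := by simp [lhE]

lemma kLhE_nil {M : ℕ} (Ψ : RS M) : lhE [] Ψ = 0 := rfl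

lemma kLhE_append {M : ℕ} (H H' : List Term) (Ψ : RS M) :
    lhE (H ++ H') Ψ = lhE H Ψ + lhE H' Ψ := by simp [lhE]

lemma kLhE_range {M : ℕ} (f : ℕ → List Term) (n : ℕ) (Ψ : RS M) :
    lhE ((List.range n).flatMap f) Ψ = ∑ i ∈ range n, lhE (f i) Ψ := by
  induction n with
  | zero => rfl
  | succ n ih => rw [List.range_succ, List.flatMap_append, kLhE_append, ih, sum_range_succ]; simp

/-- Tail sums. -/
def kS (T : ℕ) (d : ℕ → ℝ) (s : ℕ) : ℝ := ∑ τ ∈ range (T + 1), if s ≤ τ then d τ else 0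

lemma kS_succ {T s : ℕ} (h : s ≤ T) (d : ℕ → ℝ) : kS T d s = d s + kS T d (s + 1) := by
  have e : d s = ∑ τ ∈ range (T + 1), if τ = s then d τ else 0 := by
    rw [sum_ite_eq', if_pos (mem_range.2 (by omega))]
  rw [e, kS, kS, ← sum_add_distrib]
  refine sum_congr rfl fun τ _ => ?_
  split_ifs <;> first | omega | simp

lemma kS_big {T s : ℕ} (h : T < s) (d : ℕ → ℝ) : kS T d s = 0 :=
  sum_eq_zero fun τ hτ => if_neg (by have := mem_range.1 hτ; omega)

variable {q T : ℕ}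

lemma kLegal.kN_val {Ψ : RS (q + T)} (h : kLegal Ψ) {p : ℕ × ℕ} (hp : p.1 < q) (k : ℤ) (s : ℕ) :
    ((kN q T k p s).1 : ℝ) * P370.ip (ract (kN q T k p s).2.1 Ψ) (ract (kN q T k p s).2.2 Ψ) =
      k * kS T (fun τ => P370.ip (ract p (kSl Ψ (kCk T τ))) (kSl Ψ (kCk T τ))) s := by
  rcases lt_or_ge T s with hs | hs
  · have e : Nat.ble s T = false := by
      rw [← Bool.not_eq_true, Nat.ble_eq]
      omega
    simp [kN, e, kS_big hs]
  have e : Nat.ble s T = true := Nat.ble_eq_true_of_le hs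
  rcases s with _ | s
  · simp only [kN, e, cond_true, beq_self_eq_true, ract_id, h.val_one hp, kS, zero_le, if_true]
  · have e1 : min (s + 1 - 1) (T - 1) = s := by omega
    have e2 : (s + 1 == 0) = false := by simp
    simp only [kN, e, e1, e2, cond_true, cond_false, h.val_n hp (show s < T by omega), kS,
      Nat.succ_le_iff]

lemma kLegal.step_val {L : List Step} (hL : StepsOK q L) {Ψ : RS (q + L.length)} (h : kLegal Ψ)
    {t : ℕ} (ht : t < L.length) (ψ : ℕ → RS q) (hψ : ψ = fun τ => kSl Ψ (kCk L.length τ)) :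
    lhE (kStep q L.length (stp L t) t) Ψ =
      bif (stp L t).1 then (J3 L.length : ℝ) * (8 * (P370.ip (ψ t) (ψ t) +
        P370.ip (ψ (t + 1)) (ψ (t + 1))) +
      2 * P370.ip (ψ (t - 2)) (ψ (t - 1)) + 2 * P370.ip (ψ (t - 1)) (ψ t) +
      4 * P370.ip (ψ (t - 2)) (ψ t) +
      2 * P370.ip (ψ (t + 1)) (ψ (t + 2)) + 2 * P370.ip (ψ (t + 2)) (ψ (t + 3)) +
      4 * P370.ip (ψ (t + 1)) (ψ (t + 3)) - 8 * P370.ip (ψ (t + 1)) (ψ t) -
      12 * P370.ip (ψ (t + 1)) (ract (stp L t).2.1 (ψ t)) -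
      12 * P370.ip (ψ (t + 1)) (ract (stp L t).2.2 (ψ t)))
    else (J2 L.length : ℝ) * (P370.ip (ψ t) (ψ t) + P370.ip (ψ (t + 1)) (ψ (t + 1)) -
      2 * P370.ip (ψ (t + 1)) (ract (stp L t).2.1 (ψ t))) := by
  obtain ⟨h1, h2, -, -, h3⟩ := hL.2 t ht
  have hq : ((0, 0) : ℕ × ℕ).1 < q := by omega
  have e : ∀ τ, kSl Ψ (kCk L.length τ) = ψ τ := fun τ => by rw [hψ]
  have s1 := fun d => kS_succ ht.le d
  have s2 := fun d => kS_succ (s := t + 1) (T := L.length) ht d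
  unfold kStep
  cases hs : (stp L t).1
  · simp only [cond_false, kLhE_cons, kLhE_nil, h.kN_val hq, s1, s2]
    simp only [kA, h.val_x h1 ht, e, ract_id]
    push_cast
    ring
  · obtain ⟨-, k1, k2, -⟩ := h3 hs
    obtain ⟨u, rfl⟩ : ∃ u, t = u + 2 := ⟨t - 2, by omega⟩
    simp only [cond_true, kLhE_cons, kLhE_nil, h.kN_val hq, s1, s2]
    simp only [kA, kX, Nat.add_sub_cancel, show u + 2 - 1 = u + 1 from rfl]
    rw [h.val_x h1 ht, h.val_x h2 ht, h.val_x hq ht, h.val_x hq (show u < _ by omega),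
      h.val_x hq (show u + 1 < _ by omega), h.val_x hq (show u + 2 + 1 < _ by omega),
      h.val_x hq (show u + 2 + 2 < _ by omega), h.val_xx (show u + 1 < _ by omega),
      h.val_xx (show u + 2 + 1 + 1 < _ by omega)]
    simp only [e, ract_id]
    rw [ip_comm (ψ u) (ψ (u + 1)), ip_comm (ψ (u + 1)) (ψ (u + 2)),
      ip_comm (ψ (u + 2 + 1)) (ψ (u + 2 + 2)), ip_comm (ψ (u + 2 + 2)) (ψ (u + 2 + 3))]
    push_cast
    ring

lemma kLegal.hist_val {w a : ℕ} {L : List Step} (hL : StepsOK (w + a + 1) L)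
    {Ψ : RS (w + a + 1 + L.length)} (h : kLegal Ψ) :
    lhE (kH0 w a L) Ψ = hist w a L (J2 L.length) (J3 L.length) (J4 L.length)
      fun τ => kSl Ψ (kCk L.length τ) := by
  rw [kH0, kLhE_append, kLhE_append, kLhE_range, kLhE_range, hist, add_assoc (G := ℝ), mul_sum]
  refine congrArg₂ (· + ·) (sum_congr rfl fun t ht =>
    h.step_val hL (mem_range.1 ht) (fun τ => kSl Ψ (kCk L.length τ)) rfl) (congrArg₂ (· + ·)
      (sum_congr rfl fun j hj => ?_) ?_)
  · have hp : ((w + j, 1) : ℕ × ℕ).1 < w + a + 1 := by have := mem_range.1 hj; omega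
    simp only [kLhE_cons, kLhE_nil, h.kN_val hp]
    rw [kS_succ (Nat.zero_le _)]
    push_cast
    ring
  · have hp : ∀ k, ((0, k) : ℕ × ℕ).1 < w + a + 1 := fun k => by omega
    simp only [kLhE_cons, kLhE_nil, h.kN_val (hp _), kS_succ le_rfl, kS_big (Nat.lt_succ_self _),
      ract_id, rej]
    push_cast
    ring

lemma kH1_val (J : ℕ) (Ψ : RS (q + T)) : lhE (kH1 q T J) Ψ =
    J * ∑ j ∈ range (T - 1), ∑ z, kPen z j * ip (kSl Ψ z) (kSl Ψ z) := by
  rw [kH1, kLhE_range, mul_sum]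
  refine sum_congr rfl fun j hj => ?_
  rw [← kPen_val Ψ (by have := mem_range.1 hj; omega)]
  simp only [kLhE_cons, kLhE_nil, ract_id]
  push_cast
  ring

lemma kHist_congr {w a : ℕ} {L : List Step} (hL : StepsOK q L) (J₂ J₃ J₄ : ℝ) {ψ χ : ℕ → RS q}
    (h : ∀ τ ≤ L.length, ψ τ = χ τ) : hist w a L J₂ J₃ J₄ ψ = hist w a L J₂ J₃ J₄ χ := by
  unfold hist
  rw [h 0 (Nat.zero_le _), h _ le_rfl]
  congr 2
  refine sum_congr rfl fun t ht => ?_
  rw [mem_range] at ht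
  cases hs : (stp L t).1
  · rw [cond_false, cond_false, h t ht.le, h (t + 1) ht]
  · obtain ⟨-, -, k, -⟩ := (hL.2 t ht).2.2.2.2 hs
    rw [cond_true, cond_true, h t ht.le, h (t + 1) ht, h (t - 2) (by omega), h (t - 1) (by omega),
      h (t + 2) (by omega), h (t + 3) (by omega)]

/-! ### Well-formedness -/

/-- Good terms. -/
def kOK (M B : ℕ) (t : Term) : Prop :=
  t.1.natAbs ≤ B ∧ t.2.1.1 < M ∧ t.2.2.1 < M ∧ t.2.1.1 ≠ t.2.2.1

lemma kN_ok {B : ℕ} (hT : 0 < T) {p : ℕ × ℕ} (hp : p.1 < q) {k : ℤ} (hk : k.natAbs ≤ B) (s : ℕ) :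
    kOK (q + T) B (kN q T k p s) := by
  refine ⟨?_, ?_, ?_, ?_⟩
  · unfold kN
    cases Nat.ble s T <;> simp [hk]
  all_goals simp only [kN]; omega

lemma kA_ok {B t : ℕ} (ht : t < T) {p : ℕ × ℕ} (hp : p.1 < q) {k : ℤ} (hk : k.natAbs ≤ B) :
    kOK (q + T) B (kA q k p t) := by
  refine ⟨hk, ?_, ?_, ?_⟩ <;> simp only [kA] <;> omega

lemma kX_ok {B t : ℕ} (ht : t + 1 < T) {k : ℤ} (hk : k.natAbs ≤ B) :
    kOK (q + T) B (kX q k t) := by
  refine ⟨hk, ?_, ?_, ?_⟩ <;> simp only [kX] <;> omega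

lemma kH0_ok {w a : ℕ} {L : List Step} (hL : StepsOK (w + a + 1) L) : ∀ t ∈ kH0 w a L,
    kOK (w + a + 1 + L.length) (J2 L.length + 8 * J3 L.length + J4 L.length) t := by
  have hT : 0 < L.length := List.length_pos_iff.2 hL.1
  have hq : ∀ k, ((0, k) : ℕ × ℕ).1 < w + a + 1 := fun k => by omega
  simp only [kH0, List.forall_mem_append, List.forall_mem_flatMap, List.forall_mem_cons,
    List.mem_range]
  refine ⟨fun t ht => ?_, fun j hj => ⟨kN_ok hT (by omega) (by omega) _,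
    kN_ok hT (by omega) (by omega) _, by simp⟩, kN_ok hT (hq _) (by omega) _,
    kN_ok hT (hq _) (by omega) _, by simp⟩
  obtain ⟨h1, h2, -, -, h3⟩ := hL.2 t ht
  unfold kStep
  cases hs : (stp L t).1
  · simp only [cond_false, List.forall_mem_cons]
    exact ⟨kN_ok hT (hq _) (by omega) _, kN_ok hT (hq _) (by omega) _, kA_ok ht h1 (by omega),
      by simp⟩
  · obtain ⟨-, k1, k2, -⟩ := h3 hs
    simp only [cond_true, List.forall_mem_cons]
    exact ⟨kN_ok hT (hq _) (by omega) _, kN_ok hT (hq _) (by omega) _,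
      kA_ok (by omega) (hq _) (by omega), kA_ok (by omega) (hq _) (by omega),
      kX_ok (by omega) (by omega), kA_ok (by omega) (hq _) (by omega),
      kA_ok (by omega) (hq _) (by omega), kX_ok (by omega) (by omega),
      kA_ok ht (hq _) (by omega), kA_ok ht h1 (by omega), kA_ok ht h2 (by omega), by simp⟩

lemma kH1_ok (hq : 0 < q) (J : ℕ) : ∀ t ∈ kH1 q T J, kOK (q + T) J t := by
  simp only [kH1, List.forall_mem_flatMap, List.forall_mem_cons, List.mem_range]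
  refine fun j hj => ⟨⟨?_, ?_, ?_, ?_⟩, ⟨?_, ?_, ?_, ?_⟩, by simp⟩ <;> simp only [] <;> omega

lemma kSum_le {M B : ℕ} {H : List Term} (h : ∀ t ∈ H, kOK M B t) :
    (H.map fun t => t.1.natAbs).sum ≤ H.length * B := by
  simpa using List.sum_le_card_nsmul (H.map fun t => t.1.natAbs) B fun x hx => by
    obtain ⟨t, ht, rfl⟩ := List.mem_map.1 hx
    exact (h t ht).1

lemma kRed_wf {w a : ℕ} {L : List Step} (hL : StepsOK (w + a + 1) L) : (kRed w a L).WF := by
  have h0 := kH0_ok hL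
  have h1 := kH1_ok (q := w + a + 1) (T := L.length) (by omega) (kJ w a L)
  have k0 : _ ≤ kW w a L := kSum_le h0
  have k1 := kSum_le h1
  refine ⟨?_, ?_, ?_, fun t ht => ?_⟩
  · simp only [kRed]
    omega
  · simp only [kRed, List.length_replicate]
    omega
  · simp only [kRed, List.length_replicate, List.map_append, List.sum_append]
    omega
  · exact (List.mem_append.1 ht).elim (fun h => (h0 t h).2) fun h => (h1 t h).2

lemma kRed_yes {w a : ℕ} {L : List Step} (hL : StepsOK (w + a + 1) L) {ψ : RS (w + a + 1)}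
    (hc : Clean w a ψ) (h1 : ip ψ ψ = 1) (hr : rej (run L ψ) ≤ 1 / 3) : (kRed w a L).Yes := by
  obtain ⟨Ψ, hΨ, e⟩ := kExists_emb (T := L.length) fun t => run (L.take t) ψ
  obtain ⟨k1, k2⟩ := hist_yes hL hc (J2 L.length) (J3 L.length) (J4 L.length)
  have k3 : ip Ψ Ψ = L.length + 1 := by
    rw [h1, mul_one] at k2
    rw [hΨ.ip, ← k2]
    exact sum_congr rfl fun τ hτ => by rw [e τ (by have := mem_range.1 hτ; omega)]
  refine ⟨Ψ, (show 0 < ip Ψ Ψ by rw [k3]; positivity), ?_⟩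
  change lhE (kH0 w a L ++ _) Ψ ≤ 2 * ip Ψ Ψ
  rw [kLhE_append, hΨ.hist_val hL, kH1_val, kHist_congr hL _ _ _ e, k1, k3,
    sum_eq_zero fun j hj => hΨ.pen (by have := mem_range.1 hj; omega), J4]
  push_cast
  nlinarith [(Nat.cast_nonneg L.length : (0 : ℝ) ≤ _)]

lemma kRed_no {w a : ℕ} {L : List Step} (hL : StepsOK (w + a + 1) L)
    (hn : ∀ ψ : RS (w + a + 1), Clean w a ψ → 2 / 3 * ip ψ ψ ≤ rej (run L ψ)) :
    (kRed w a L).No := by
  intro (Ψ : RS (w + a + 1 + L.length))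
  change 3 * ip Ψ Ψ ≤ lhE (kH0 w a L ++ _) Ψ
  obtain ⟨Λ, P, e, hΛ, e1, e2⟩ := kSplit Ψ
  have hW : (0 : ℝ) ≤ kW w a L := Nat.cast_nonneg _
  have k1 := kLhE_add (kH0 w a L) Λ P (c := 2 * (kW w a L + 1)) (by positivity)
  have k2 := hist_no hL (Nat.le_succ _) hn fun τ => kSl Λ (kCk L.length τ)
  have k3 : (((kH0 w a L).map fun t => t.1.natAbs).sum : ℕ) ≤ (kW w a L : ℝ) :=
    Nat.cast_le.2 (kSum_le (kH0_ok hL))
  have n1 := ip_nonneg Λ
  have n2 := ip_nonneg P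
  have k4 := mul_le_mul_of_nonneg_right k3 (show 0 ≤ ip Λ Λ / (2 * (kW w a L + 1)) +
    (2 * (kW w a L + 1) + 1) * ip P P by positivity)
  have k5 : kW w a L * (ip Λ Λ / (2 * (kW w a L + 1))) ≤ ip Λ Λ / 2 := by
    rw [← mul_div_assoc, div_le_div_iff₀ (by positivity) two_pos]
    nlinarith
  have k6 := mul_le_mul_of_nonneg_left e2 (Nat.cast_nonneg (α := ℝ) (kJ w a L))
  rw [← hΛ.ip, ← hΛ.hist_val hL] at k2
  rw [← e] at k1
  rw [kLhE_append, kH1_val, e1]
  have k7 : (kJ w a L : ℝ) = kW w a L * (2 * kW w a L + 3) + 3 := by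
    rw [kJ]
    push_cast
    rfl
  rw [k7] at k6 ⊢
  linarith

end Vale.Agent.P370
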