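import Vale.Agent.P370.KReal

/-!
The form on histories.
-/

namespace Vale.Agent.P370

section
variable {M : ℕ}

/-- The norm of a real state. -/
noncomputable def nr (ψ : RS M) : ℝ := √(ip ψ ψ)

lemma ip_eq_inner (ψ χ : RS M) : ip ψ χ =
    inner ℝ (WithLp.toLp 2 ψ : EuclideanSpace ℝ (Fin M → Fin 2)) (WithLp.toLp 2 χ) := by
  simp [ip, PiLp.inner_apply, mul_comm]

lemma nr_eq (ψ : RS M) : nr ψ = ‖(WithLp.toLp 2 ψ : EuclideanSpace ℝ (Fin M → Fin 2))‖ := by
  rw [nr, ip_eq_inner, norm_eq_sqrt_real_inner]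

lemma nr_nonneg (ψ : RS M) : 0 ≤ nr ψ := Real.sqrt_nonneg _
lemma nr_sq (ψ : RS M) : nr ψ ^ 2 = ip ψ ψ := Real.sq_sqrt (ip_nonneg ψ)
lemma nr_add_le (ψ χ : RS M) : nr (ψ + χ) ≤ nr ψ + nr χ := by
  rw [nr_eq, nr_eq, nr_eq, WithLp.toLp_add]
  exact norm_add_le _ _
lemma nr_sub_comm (ψ χ : RS M) : nr (ψ - χ) = nr (χ - ψ) := by
  rw [nr_eq, nr_eq, WithLp.toLp_sub, WithLp.toLp_sub, norm_sub_rev]
lemma neg_le_ip {ψ χ : RS M} {a b : ℝ} (ha : nr ψ ≤ a) (hb : nr χ ≤ b) : -(a * b) ≤ ip ψ χ := by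
  have h := abs_real_inner_le_norm (WithLp.toLp 2 ψ : EuclideanSpace ℝ (Fin M → Fin 2))
    (WithLp.toLp 2 χ)
  rw [← ip_eq_inner, ← nr_eq, ← nr_eq] at h
  have := mul_le_mul ha hb (nr_nonneg _) ((nr_nonneg _).trans ha)
  linarith [neg_abs_le (ip ψ χ)]
lemma nr_ract {p : ℕ × ℕ} (hp : p.2 ≠ 1) (ψ : RS M) : nr (ract p ψ) = nr ψ := by
  rw [nr, ip_ract hp, nr]
lemma nr_sub_ract {p : ℕ × ℕ} (hp : p.2 ≠ 1) (ψ χ : RS M) :
    nr (ψ - ract p χ) = nr (χ - ract p ψ) := by
  rw [← nr_ract hp, ract_sub, ract_invol hp, nr_sub_comm]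

variable {A B : ℕ × ℕ} (hA : A.2 ≠ 1) (hB : B.2 ≠ 1) (h : A.1 ≠ B.1)

/-- The weighted form of a controlled step. -/
noncomputable def cW (A B : ℕ × ℕ) (z : RS M) : ℝ :=
  2 * ip z z + (ip z (ract A z) + ip z (ract B z)) / 2 + ip z (ract A (ract B z))

/-- The term of a controlled step when the four companions are exact. -/
noncomputable def cQ (A B : ℕ × ℕ) (x y : RS M) : ℝ :=
  8 * (ip x x + ip y y) + 2 * ip (ract A (ract B x)) (ract B x) + 2 * ip (ract B x) x +
    4 * ip (ract A (ract B x)) x + 2 * ip y (ract A y) + 2 * ip (ract A y) (ract B (ract A y)) +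
    4 * ip y (ract B (ract A y)) - 8 * ip y x - 12 * ip y (ract A x) - 12 * ip y (ract B x)

include hA hB h

lemma cQ_eq (x y : RS M) : cQ A B x y = 4 * cW A B (y - cG A B x) := by
  have e1 : ip x (ract A y) = ip y (ract A x) := by rw [← ract_symm, ip_comm]
  have e2 : ip x (ract B y) = ip y (ract B x) := by rw [← ract_symm, ip_comm]
  have e3 : ip x (ract A (ract B y)) = ip y (ract A (ract B x)) := by
    rw [← ract_symm, ← ract_symm, ip_comm, ract_comm h]
  simp only [cQ, cW, cG, ract_smul, ract_add, ract_sub, ip_smul_left, ip_smul_right, ip_add_left,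
    ip_add_right, ip_sub_left, ip_sub_right, ract_symm, ← ract_comm h, ract_invol hA,
    ract_invol hB, e1, e2, e3, ip_comm x y]
  ring

lemma le_cW (z : RS M) : ip z z ≤ cW A B z := by
  have h1 := ip_nonneg (z + ract A z + ract B z + ract A (ract B z))
  have h2 := ip_nonneg (z - ract A z - ract B z + ract A (ract B z))
  simp only [ip_add_left, ip_add_right, ip_sub_left, ip_sub_right, ract_symm, ← ract_comm h,
    ract_invol hA, ract_invol hB] at h1 h2
  unfold cW
  linarith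

lemma ctrl_ge {x y u v u' v' : RS M} {N : ℝ} (hx : nr x ≤ N) (hy : nr y ≤ N) (hu : nr u ≤ N)
    (hu' : nr u' ≤ N) :
    4 * nr (y - cG A B x) ^ 2 - N * (6 * nr (v - ract A u) + 10 * nr (x - ract B v) +
      10 * nr (u' - ract A y) + 6 * nr (v' - ract B u')) ≤
    8 * (ip x x + ip y y) + 2 * ip u v + 2 * ip v x + 4 * ip u x + 2 * ip y u' + 2 * ip u' v' +
      4 * ip y v' - 8 * ip y x - 12 * ip y (ract A x) - 12 * ip y (ract B x) := by
  have q1 := cQ_eq hA hB h x y
  have q2 := le_cW hA hB h (y - cG A B x)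
  have n1 : nr (v - ract B x) ≤ nr (x - ract B v) := (nr_sub_ract hB _ _).le
  have n2 : nr (u - ract A (ract B x)) ≤ nr (v - ract A u) + nr (x - ract B v) := by
    rw [← nr_sub_ract hA u v, ← nr_sub_ract hB v x, ← nr_ract hA (v - ract B x), ract_sub]
    exact le_trans (by rw [sub_add_sub_cancel]) (nr_add_le _ _)
  have n4 : nr (v' - ract B (ract A y)) ≤ nr (v' - ract B u') + nr (u' - ract A y) := by
    rw [← nr_ract hB (u' - ract A y), ract_sub]
    exact le_trans (by rw [sub_add_sub_cancel]) (nr_add_le _ _)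
  have a1 := neg_le_ip hu n1
  have a2 := neg_le_ip n2 ((nr_ract hB x).le.trans hx)
  have a3 := neg_le_ip n1 hx
  have a4 := neg_le_ip n2 hx
  have a5 := neg_le_ip hy (le_refl (nr (u' - ract A y)))
  have a6 := neg_le_ip hu' n4
  have a7 := neg_le_ip (le_refl (nr (u' - ract A y)))
    (((nr_ract hB _).trans (nr_ract hA y)).le.trans hy)
  have a8 := neg_le_ip hy n4
  rw [ip_sub_left] at a2 a3 a4 a7
  rw [ip_sub_right] at a1 a5 a6 a8
  rw [nr_sq]
  unfold cQ at q1
  linarith

end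

theorem hist_yes {q w a : ℕ} {L : List Step} (h : StepsOK q L) {ψ : RS q} (hc : Clean w a ψ)
    (J₂ J₃ J₄ : ℝ) :
    hist w a L J₂ J₃ J₄ (fun t => run (L.take t) ψ) = J₄ * rej (run L ψ) ∧
      ∑ t ∈ Finset.range (L.length + 1), ip (run (L.take t) ψ) (run (L.take t) ψ) =
        (L.length + 1) * ip ψ ψ := by
  constructor
  · unfold hist
    beta_reduce
    have e0 : ∑ j ∈ Finset.range a, ip (ract (w + j, 1) (run (L.take 0) ψ)) (run (L.take 0) ψ) =
        0 := Finset.sum_eq_zero fun j hj => by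
      change ip (ract (w + j, 1) ψ) ψ = 0
      rw [hc j (Finset.mem_range.mp hj)]
      simp [ip]
    rw [e0, List.take_length, Finset.sum_eq_zero, mul_zero, zero_add, zero_add]
    intro t ht
    have ht' := Finset.mem_range.mp ht
    obtain ⟨-, -, hA, hB, h3⟩ := h.2 t ht'
    have e := run_take_succ ht' ψ
    generalize hs : stp L t = s at hA hB h3 e
    obtain ⟨_ | _, A, B⟩ := s
    · simp only [cond_false]
      rw [e, act_false, ip_ract hA]
      ring
    · obtain ⟨hn, b2, b3, b4, b5, b6, b7⟩ := h3 rfl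
      obtain ⟨t, rfl⟩ := Nat.exists_eq_add_of_le' b2
      have c1 := run_take_succ (L := L) (t := t) (by omega) ψ
      have c2 := run_take_succ (L := L) (t := t + 1) (by omega) ψ
      have c3 := run_take_succ (L := L) (t := t + 2 + 1) (by omega) ψ
      have c4 := run_take_succ (L := L) (t := t + 2 + 2) (by omega) ψ
      change stp L t = _ at b4
      change stp L (t + 1) = _ at b5
      rw [b4, act_false] at c1
      rw [b5, act_false] at c2
      rw [b6, act_false] at c3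
      rw [b7, act_false] at c4
      rw [act_true] at e
      have d2 : run (L.take (t + 1)) ψ = ract B (run (L.take (t + 2)) ψ) := by
        rw [c2, ract_invol hB]
      have d1 : run (L.take t) ψ = ract A (ract B (run (L.take (t + 2)) ψ)) := by
        rw [← d2, c1, ract_invol hA]
      have q1 := cQ_eq hA hB hn (run (L.take (t + 2)) ψ) (run (L.take (t + 2 + 1)) ψ)
      rw [← e, sub_self] at q1
      have z : cW A B (0 : RS q) = 0 := by simp [cW, ip]
      rw [z, mul_zero, cQ, ← c3, ← c4, ← d1, ← d2] at q1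
      simp only [cond_true]
      rw [← d2]
      exact mul_eq_zero_of_right _ q1
  · rw [Finset.sum_congr rfl fun t ht =>
      h.run_take_iso ψ (Nat.le_of_lt_succ (Finset.mem_range.mp ht))]
    simp

lemma shift_sum {T : ℕ} {c : ℕ → Bool} {s : ℕ → ℝ} (hs : ∀ t, 0 ≤ s t) (f : ℕ → ℕ)
    (h1 : ∀ t < T, c t = true → f t < T)
    (h2 : ∀ t < T, ∀ t' < T, c t = true → c t' = true → f t = f t' → t = t') :
    ∑ t ∈ Finset.range T, (bif c t then s (f t) else 0) ≤ ∑ t ∈ Finset.range T, s t := by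
  simp_rw [Bool.cond_eq_ite]
  rw [← Finset.sum_filter, ← Finset.sum_image (g := f) (f := s) fun t ht t' ht' e => ?_]
  · refine Finset.sum_le_sum_of_subset_of_nonneg (fun u hu => ?_) fun t _ _ => hs t
    obtain ⟨t, ht, rfl⟩ := Finset.mem_image.mp hu
    rw [Finset.mem_filter, Finset.mem_range] at ht
    exact Finset.mem_range.mpr (h1 t ht.1 ht.2)
  · rw [Finset.coe_filter] at ht ht'
    exact h2 t (Finset.mem_range.mp ht.1) t' (Finset.mem_range.mp ht'.1) ht.2 ht'.2 e

lemma amgm {K τ N d : ℝ} (hτ : 0 < τ) :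
    K * (N * (10 * d)) ≤ N ^ 2 / (40 * τ) + 1000 * K ^ 2 * τ * d ^ 2 := by
  rw [← sub_le_iff_le_add, le_div_iff₀ (by positivity)]
  nlinarith [sq_nonneg (N - 200 * K * τ * d)]

/-- The errors of a history. -/
noncomputable def herr {q : ℕ} (L : List Step) (ψ : ℕ → RS q) (t : ℕ) : ℝ :=
  nr (ψ (t + 1) - (stp L t).act (ψ t))

/-- Lower bound for the propagation terms. -/
lemma hist_ge {q : ℕ} (w a : ℕ) {L : List Step} (h : StepsOK q L) (ψ : ℕ → RS q) {K J : ℝ}
    (hK : 0 ≤ K) (J₄ : ℝ) (hJ : K + 4000 * K ^ 2 * (L.length + 1) ≤ J) :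
    K * ((∑ t ∈ Finset.range L.length, herr L ψ t ^ 2) +
      ∑ j ∈ Finset.range a, ip (ract (w + j, 1) (ψ 0)) (ψ 0)) + J₄ * rej (ψ L.length) -
      (∑ t ∈ Finset.range (L.length + 1), ip (ψ t) (ψ t)) / 10 ≤ hist w a L J K J₄ ψ := by
  obtain ⟨N, hN0, hN⟩ : ∃ N : ℝ, 0 ≤ N ∧
      N ^ 2 = ∑ t ∈ Finset.range (L.length + 1), ip (ψ t) (ψ t) :=
    ⟨_, Real.sqrt_nonneg _, Real.sq_sqrt (Finset.sum_nonneg fun t _ => ip_nonneg _)⟩
  have hle : ∀ t ≤ L.length, nr (ψ t) ≤ N := fun t ht => by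
    refine (pow_le_pow_iff_left₀ (nr_nonneg _) hN0 two_ne_zero).mp ?_
    rw [nr_sq, hN]
    exact Finset.single_le_sum (f := fun t => ip (ψ t) (ψ t)) (fun t _ => ip_nonneg _)
      (Finset.mem_range.mpr (Nat.lt_succ_of_le ht))
  set τ : ℝ := L.length + 1 with hτ
  have τ0 : 0 < τ := by positivity
  let c : ℕ → Bool := fun t => (stp L t).1
  let s : ℕ → ℝ := fun t => bif c t then 0 else herr L ψ t ^ 2
  have s0 : ∀ t, 0 ≤ s t := fun t => by
    simp only [s]
    cases c t
    · exact sq_nonneg _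
    · exact le_rfl
  have hc : ∀ t < L.length, c t = true → 2 ≤ t ∧ t + 2 < L.length := fun t ht e =>
    ⟨((h.2 t ht).2.2.2.2 e).2.1, ((h.2 t ht).2.2.2.2 e).2.2.1⟩
  have m1 := shift_sum (T := L.length) (c := c) s0 (fun t => t - 2)
    (fun t ht e => by omega)
    (fun t ht t' ht' e e' H => by have := hc t ht e; have := hc t' ht' e'; omega)
  have m2 := shift_sum (T := L.length) (c := c) s0 (fun t => t - 1)
    (fun t ht e => by omega)
    (fun t ht t' ht' e e' H => by have := hc t ht e; have := hc t' ht' e'; omega)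
  have m3 := shift_sum (T := L.length) (c := c) s0 (fun t => t + 1)
    (fun t ht e => by have := hc t ht e; omega) (fun t ht t' ht' e e' H => by omega)
  have m4 := shift_sum (T := L.length) (c := c) s0 (fun t => t + 2)
    (fun t ht e => (hc t ht e).2) (fun t ht t' ht' e e' H => by omega)
  have key : ∑ t ∈ Finset.range L.length, (K * herr L ψ t ^ 2 + 4000 * K ^ 2 * τ * s t -
      N ^ 2 / (10 * τ) - 1000 * K ^ 2 * τ * ((bif c t then s (t - 2) else 0) +
        (bif c t then s (t - 1) else 0) + (bif c t then s (t + 1) else 0) +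
        bif c t then s (t + 2) else 0)) +
      K * (∑ j ∈ Finset.range a, ip (ract (w + j, 1) (ψ 0)) (ψ 0)) + J₄ * rej (ψ L.length) ≤
      hist w a L J K J₄ ψ := by
    unfold hist
    gcongr with t ht
    have ht' := Finset.mem_range.mp ht
    obtain ⟨-, -, hA, hB, h3⟩ := h.2 t ht'
    have p0 : 0 ≤ N ^ 2 / (10 * τ) := by positivity
    simp only [s, c, herr]
    generalize hs : stp L t = σ at hA hB h3
    obtain ⟨_ | _, A, B⟩ := σ
    · simp only [cond_false, act_false]
      have e : ip (ψ t) (ψ t) + ip (ψ (t + 1)) (ψ (t + 1)) - 2 * ip (ψ (t + 1)) (ract A (ψ t)) =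
          nr (ψ (t + 1) - ract A (ψ t)) ^ 2 := by
        rw [nr_sq, ip_sub_left, ip_sub_right, ip_sub_right, ip_ract hA, ip_comm (ract A (ψ t))]
        ring
      rw [e]
      nlinarith [mul_le_mul_of_nonneg_right hJ (sq_nonneg (nr (ψ (t + 1) - ract A (ψ t))))]
    · obtain ⟨hn, b2, b3, b4, b5, b6, b7⟩ := h3 rfl
      obtain ⟨t, rfl⟩ := Nat.exists_eq_add_of_le' b2
      rw [b4, b5, b6, b7]
      simp only [cond_false, cond_true, act_false, act_true]
      have g := mul_le_mul_of_nonneg_left (ctrl_ge (v := ψ (t + 1)) (v' := ψ (t + 2 + 3)) hA hB hn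
        (hle (t + 2) (by omega)) (hle (t + 2 + 1) (by omega)) (hle t (by omega))
        (hle (t + 2 + 2) (by omega))) hK
      refine le_trans ?_ g
      change K * nr (ψ (t + 2 + 1) - cG A B (ψ (t + 2))) ^ 2 + _ - _ - _ *
        (nr (ψ (t + 1) - ract A (ψ t)) ^ 2 + nr (ψ (t + 2) - ract B (ψ (t + 1))) ^ 2 +
          nr (ψ (t + 2 + 2) - ract A (ψ (t + 2 + 1))) ^ 2 +
          nr (ψ (t + 2 + 3) - ract B (ψ (t + 2 + 2))) ^ 2) ≤ _
      have i1 := nr_nonneg (ψ (t + 1) - ract A (ψ t))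
      have i4 := nr_nonneg (ψ (t + 2 + 3) - ract B (ψ (t + 2 + 2)))
      generalize nr (ψ (t + 1) - ract A (ψ t)) = d1 at i1 ⊢
      generalize nr (ψ (t + 2) - ract B (ψ (t + 1))) = d2
      generalize nr (ψ (t + 2 + 2) - ract A (ψ (t + 2 + 1))) = d3
      generalize nr (ψ (t + 2 + 3) - ract B (ψ (t + 2 + 2))) = d4 at i4 ⊢
      have i0 := mul_nonneg hK (sq_nonneg (nr (ψ (t + 2 + 1) - cG A B (ψ (t + 2)))))
      have j1 := amgm (K := K) (N := N) (d := d1) τ0
      have j2 := amgm (K := K) (N := N) (d := d2) τ0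
      have j3 := amgm (K := K) (N := N) (d := d3) τ0
      have j4 := amgm (K := K) (N := N) (d := d4) τ0
      have k1 := mul_nonneg hK (mul_nonneg hN0 i1)
      have k4 := mul_nonneg hK (mul_nonneg hN0 i4)
      have e : N ^ 2 / (10 * τ) = 4 * (N ^ 2 / (40 * τ)) := by field_simp; ring
      rw [e]
      linarith
  refine le_trans ?_ key
  simp only [Finset.sum_sub_distrib, Finset.sum_add_distrib, ← Finset.mul_sum, Finset.sum_const,
    Finset.card_range, nsmul_eq_mul]
  have e : (L.length : ℝ) * (N ^ 2 / (10 * τ)) ≤ N ^ 2 / 10 := by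
    rw [mul_div_assoc', div_le_div_iff₀ (by positivity) (by positivity), hτ]
    nlinarith [sq_nonneg N]
  have p : 0 ≤ 1000 * K ^ 2 * τ := by positivity
  have := mul_le_mul_of_nonneg_left (add_le_add (add_le_add (add_le_add m1 m2) m3) m4) p
  rw [← hN]
  linarith

/-- Splitting off the clean part. -/
lemma clean_split {q w a : ℕ} (hq : w + a ≤ q) (φ : RS q) : ∃ g : RS q, Clean w a g ∧
    ip (φ - g) (φ - g) ≤ ∑ j ∈ Finset.range a, ip (ract (w + j, 1) φ) φ := by
  classical
  refine ⟨fun y => if ∀ j, (hj : j < a) → y ⟨w + j, by omega⟩ ≠ 1 then φ y else 0,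
    fun j hj => ?_, ?_⟩
  · ext y
    rw [ract_one (by omega)]
    split_ifs with h1 h2
    · exact absurd h1 (h2 j hj)
    · rfl
    · rfl
  · unfold ip
    rw [Finset.sum_comm]
    refine Finset.sum_le_sum fun y _ => ?_
    have h0 : ∀ j ∈ Finset.range a, 0 ≤ ract (w + j, 1) φ y * φ y := fun j hj => by
      rw [ract_one (by have := Finset.mem_range.mp hj; omega)]
      split_ifs
      · exact mul_self_nonneg _
      · simp
    simp only [Pi.sub_apply]
    split_ifs with h1
    · simpa using Finset.sum_nonneg h0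
    · push Not at h1
      obtain ⟨j, hj, e⟩ := h1
      refine le_trans ?_ (Finset.single_le_sum h0 (Finset.mem_range.mpr hj))
      rw [ract_one (by omega), if_pos e, sub_zero]

theorem hist_no {q w a : ℕ} {L : List Step} (h : StepsOK q L) (hq : w + a ≤ q)
    (hn : ∀ ψ : RS q, Clean w a ψ → 2 / 3 * ip ψ ψ ≤ rej (run L ψ)) (ψ : ℕ → RS q) :
    7 / 2 * ∑ t ∈ Finset.range (L.length + 1), ip (ψ t) (ψ t) ≤
      hist w a L (J2 L.length) (J3 L.length) (J4 L.length) ψ := by
  refine le_trans ?_ (hist_ge w a h ψ (Nat.cast_nonneg _) _ (by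
    rw [J2]
    push_cast
    have : (0 : ℝ) ≤ (J3 L.length : ℝ) ^ 2 * (L.length + 1) := by positivity
    linarith))
  obtain ⟨g, hg, hb⟩ := clean_split hq (ψ 0)
  rw [← nr_sq] at hb
  have d0 : ∀ t, 0 ≤ herr L ψ t := fun t => nr_nonneg _
  have h1 : ∀ t ≤ L.length, nr (ψ t - run (L.take t) g) ≤
      (∑ s ∈ Finset.range t, herr L ψ s) + nr (ψ 0 - g) := by
    intro t ht
    induction t with
    | zero => simp [run]
    | succ t ih =>
      have e : nr ((stp L t).act (ψ t) - (stp L t).act (run (L.take t) g)) =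
          nr (ψ t - run (L.take t) g) := by rw [← Step.act_sub, nr, h.act_iso ht, nr]
      have := nr_add_le (ψ (t + 1) - (stp L t).act (ψ t))
        ((stp L t).act (ψ t) - (stp L t).act (run (L.take t) g))
      rw [sub_add_sub_cancel, e] at this
      rw [run_take_succ ht, Finset.sum_range_succ, herr]
      linarith [ih (Nat.le_of_succ_le ht)]
  set δ := (∑ s ∈ Finset.range L.length, herr L ψ s) + nr (ψ 0 - g) with hδ
  have h2 : ∀ t ≤ L.length, nr (ψ t - run (L.take t) g) ≤ δ := fun t ht =>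
    (h1 t ht).trans (add_le_add_left (Finset.sum_le_sum_of_subset_of_nonneg
      (Finset.range_mono ht) fun s _ _ => d0 s) _)
  have δ0 : 0 ≤ δ := (nr_nonneg _).trans (h2 0 (Nat.zero_le _))
  set τ : ℝ := L.length + 1 with hτ
  have τ0 : 0 < τ := by positivity
  have h3 : δ ^ 2 ≤ τ * ((∑ s ∈ Finset.range L.length, herr L ψ s ^ 2) + nr (ψ 0 - g) ^ 2) := by
    have := sq_sum_le_card_mul_sum_sq (s := Finset.range (L.length + 1))
      (f := fun s => if s < L.length then herr L ψ s else nr (ψ 0 - g))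
    rw [Finset.sum_range_succ, Finset.sum_range_succ,
      Finset.sum_congr rfl fun s hs => if_pos (Finset.mem_range.mp hs),
      Finset.sum_congr rfl fun s hs => congrArg (· ^ 2) (if_pos (Finset.mem_range.mp hs))] at this
    simpa using this
  have h4 : ∑ t ∈ Finset.range (L.length + 1), ip (ψ t) (ψ t) ≤ τ * (nr g + δ) ^ 2 := by
    refine (Finset.sum_le_card_nsmul _ _ ((nr g + δ) ^ 2) fun t ht => ?_).trans (by simp [hτ])
    have ht' := Nat.le_of_lt_succ (Finset.mem_range.mp ht)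
    have a1 := nr_add_le (run (L.take t) g) (ψ t - run (L.take t) g)
    have a2 : nr (run (L.take t) g) = nr g := by rw [nr, h.run_take_iso g ht', nr]
    rw [add_sub_cancel, a2] at a1
    rw [← nr_sq]
    exact pow_le_pow_left₀ (nr_nonneg _) (by linarith [h2 t ht']) 2
  obtain ⟨ρ, ρ0, hρ, h5⟩ : ∃ ρ, 0 ≤ ρ ∧ ρ ^ 2 = rej (ψ L.length) ∧
      2 / 3 * nr g ^ 2 ≤ (ρ + δ) ^ 2 := by
    refine ⟨nr (ψ L.length - ract (0, 1) (ψ L.length)), nr_nonneg _, by rw [nr_sq, rej_eq], ?_⟩
    rw [nr_sq]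
    refine (hn g hg).trans ?_
    have a0 := h2 _ le_rfl
    rw [List.take_length, nr_sub_comm] at a0
    have a1 := nr_add_le (ψ L.length - ract (0, 1) (ψ L.length))
      ((run L g - ψ L.length) - ract (0, 1) (run L g - ψ L.length))
    have a2 : nr ((run L g - ψ L.length) - ract (0, 1) (run L g - ψ L.length)) ≤
        nr (run L g - ψ L.length) := by
      refine Real.sqrt_le_sqrt ?_
      rw [← rej_eq, rej, ← ract_idem, ract_symm]
      linarith [ip_nonneg (ract (0, 1) (run L g - ψ L.length))]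
    have a3 : ψ L.length - ract (0, 1) (ψ L.length) +
        ((run L g - ψ L.length) - ract (0, 1) (run L g - ψ L.length)) =
        run L g - ract (0, 1) (run L g) := by rw [ract_sub]; abel
    rw [a3] at a1
    rw [rej_eq, ← nr_sq]
    exact pow_le_pow_left₀ (nr_nonneg _) (by linarith) 2
  have e3 : (J3 L.length : ℝ) = 1000 * τ * τ := by rw [J3, hτ]; push_cast; ring
  have e4 : (J4 L.length : ℝ) = 6 * τ := by rw [J4, hτ]; push_cast; ring
  have h6 : 18 / 5 * (nr g + δ) ^ 2 ≤ 1000 * δ ^ 2 + 6 * ρ ^ 2 := by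
    nlinarith [sq_nonneg (nr g - 20 * δ), sq_nonneg (ρ - 20 * δ), sq_nonneg δ, sq_nonneg ρ]
  have h7 := mul_le_mul_of_nonneg_left h6 τ0.le
  have h8 := mul_le_mul_of_nonneg_left (h3.trans (mul_le_mul_of_nonneg_left
    (add_le_add_right hb _) τ0.le)) (show 0 ≤ 1000 * τ by positivity)
  rw [e3, e4, ← hρ]
  linarith

end Vale.Agent.P370
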