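import Vale.Agent.P370.LH

/-!
Algebra of the one-qubit operators; simulation of the verifier by a real circuit.
-/

namespace Vale.Agent.P370

open Function

variable {M : ℕ}

lemma ip_comm (ψ χ : RS M) : ip ψ χ = ip χ ψ := Finset.sum_congr rfl fun _ _ => mul_comm _ _
lemma ip_nonneg (ψ : RS M) : 0 ≤ ip ψ ψ := Finset.sum_nonneg fun _ _ => mul_self_nonneg _
lemma ip_add_left (ψ φ χ : RS M) : ip (ψ + φ) χ = ip ψ χ + ip φ χ := by
  simp only [ip, Pi.add_apply, add_mul, Finset.sum_add_distrib]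
lemma ip_add_right (ψ φ χ : RS M) : ip χ (ψ + φ) = ip χ ψ + ip χ φ := by
  simp only [ip, Pi.add_apply, mul_add, Finset.sum_add_distrib]
lemma ip_sub_left (ψ φ χ : RS M) : ip (ψ - φ) χ = ip ψ χ - ip φ χ := by
  simp only [ip, Pi.sub_apply, sub_mul, Finset.sum_sub_distrib]
lemma ip_sub_right (ψ φ χ : RS M) : ip χ (ψ - φ) = ip χ ψ - ip χ φ := by
  simp only [ip, Pi.sub_apply, mul_sub, Finset.sum_sub_distrib]
lemma ip_smul_left (c : ℝ) (ψ χ : RS M) : ip (c • ψ) χ = c * ip ψ χ := by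
  simp only [ip, Pi.smul_apply, smul_eq_mul, mul_assoc, Finset.mul_sum]
lemma ip_smul_right (c : ℝ) (ψ χ : RS M) : ip χ (c • ψ) = c * ip χ ψ := by
  rw [ip_comm, ip_smul_left, ip_comm]

lemma ract_add (p : ℕ × ℕ) (ψ χ : RS M) : ract p (ψ + χ) = ract p ψ + ract p χ := by
  ext x
  simp only [ract, Pi.add_apply]
  split_ifs
  · simp only [mul_add, Finset.sum_add_distrib]
  · rfl
lemma ract_smul (p : ℕ × ℕ) (c : ℝ) (ψ : RS M) : ract p (c • ψ) = c • ract p ψ := by
  ext x
  simp only [ract, Pi.smul_apply, smul_eq_mul]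
  split_ifs
  · simp only [Finset.mul_sum, mul_left_comm]
  · rfl
lemma ract_sub (p : ℕ × ℕ) (ψ χ : RS M) : ract p (ψ - χ) = ract p ψ - ract p χ := by
  rw [sub_eq_add_neg, ract_add, ← neg_one_smul ℝ χ, ract_smul, neg_one_smul, sub_eq_add_neg]

lemma pauli_symm (k : ℕ) (a b : Fin 2) : pauli k a b = pauli k b a := by
  rcases k with _ | _ | _ | _ | k <;> fin_cases a <;> fin_cases b <;> simp [pauli]

lemma ract_symm (p : ℕ × ℕ) (ψ χ : RS M) : ip (ract p ψ) χ = ip ψ (ract p χ) := by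
  by_cases h : p.1 < M
  · simp only [ip, ract, dif_pos h, Finset.sum_mul, Finset.mul_sum]
    rw [← Fintype.sum_prod_type', ← Fintype.sum_prod_type']
    have hi : Involutive fun z : (Fin M → Fin 2) × Fin 2 =>
        (update z.1 ⟨p.1, h⟩ z.2, z.1 ⟨p.1, h⟩) := fun z => by simp
    refine Fintype.sum_equiv hi.toPerm _ _ fun z => ?_
    simp only [Involutive.coe_toPerm, update_self, update_idem, update_eq_self]
    rw [pauli_symm]
    ring
  · simp only [ip, ract, dif_neg h]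

lemma ract_id (i : ℕ) (ψ : RS M) : ract (i, 0) ψ = ψ := by
  ext x
  simp only [ract]
  split_ifs
  · simp [pauli]
  · rfl

lemma ract_ract {i : ℕ} (h : i < M) (k l : ℕ) (ψ : RS M) (x : Fin M → Fin 2) :
    ract (i, k) (ract (i, l) ψ) x =
      ∑ c, (∑ b, pauli k (x ⟨i, h⟩) b * pauli l b c) * ψ (update x ⟨i, h⟩ c) := by
  simp only [ract, dif_pos h, update_self, update_idem, Finset.mul_sum, Finset.sum_mul, mul_assoc]
  exact Finset.sum_comm

lemma pauli_sq {k : ℕ} (hk : k ≠ 1) (a c : Fin 2) :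
    ∑ b, pauli k a b * pauli k b c = if a = c then 1 else 0 := by
  have h : √2 * √2 = 2 := Real.mul_self_sqrt (by norm_num)
  have h0 : √2 ≠ 0 := by positivity
  rcases k with _ | _ | _ | _ | k
  · fin_cases a <;> fin_cases c <;> simp [pauli]
  · exact absurd rfl hk
  · fin_cases a <;> fin_cases c <;> simp [pauli]
  · fin_cases a <;> fin_cases c <;> simp [pauli]
  · fin_cases a <;> fin_cases c <;> simp [pauli] <;> field_simp <;> linarith

lemma ract_invol {p : ℕ × ℕ} (hp : p.2 ≠ 1) (ψ : RS M) : ract p (ract p ψ) = ψ := by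
  ext x
  by_cases h : p.1 < M
  · rw [ract_ract h]
    simp [pauli_sq hp]
  · simp only [ract, dif_neg h]

lemma ract_one {i : ℕ} (h : i < M) (ψ : RS M) (x : Fin M → Fin 2) :
    ract (i, 1) ψ x = if x ⟨i, h⟩ = 1 then ψ x else 0 := by
  simp only [ract, dif_pos h, pauli, Fin.sum_univ_two]
  split_ifs with h1 h2 h3 <;> simp_all
  rename_i h1
  rw [← h1, update_eq_self]

lemma ract_idem (i : ℕ) (ψ : RS M) : ract (i, 1) (ract (i, 1) ψ) = ract (i, 1) ψ := by
  ext x
  by_cases h : i < M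
  · rw [ract_one h, ract_one h]
    split_ifs <;> rfl
  · simp only [ract, dif_neg h]

lemma ract_comm {p q : ℕ × ℕ} (h : p.1 ≠ q.1) (ψ : RS M) :
    ract p (ract q ψ) = ract q (ract p ψ) := by
  ext x
  by_cases hp : p.1 < M
  · by_cases hq : q.1 < M
    · have n : (⟨p.1, hp⟩ : Fin M) ≠ ⟨q.1, hq⟩ := fun e => h (congrArg Fin.val e)
      simp only [ract, dif_pos hp, dif_pos hq, update_of_ne n, update_of_ne n.symm, Finset.mul_sum]
      rw [Finset.sum_comm]
      refine Finset.sum_congr rfl fun b _ => Finset.sum_congr rfl fun c _ => ?_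
      rw [update_comm n]
      ring
    · simp only [ract, dif_neg hq]
  · simp only [ract, dif_neg hp]

lemma ip_ract {p : ℕ × ℕ} (hp : p.2 ≠ 1) (ψ χ : RS M) : ip (ract p ψ) (ract p χ) = ip ψ χ := by
  rw [ract_symm, ract_invol hp]

lemma rej_eq (ψ : RS M) : rej ψ = ip (ψ - ract (0, 1) ψ) (ψ - ract (0, 1) ψ) := by
  rw [ip_sub_left, ip_sub_right, ip_sub_right, ract_symm _ _ (ract _ _), ract_idem, rej,
    ract_symm]
  ring

lemma ip_ract_le (p : ℕ × ℕ) (ψ : RS M) : ip (ract p ψ) (ract p ψ) ≤ ip ψ ψ := by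
  by_cases hp : p.2 = 1
  · obtain ⟨i, k⟩ := p
    obtain rfl : k = 1 := hp
    have := ip_nonneg (ψ - ract (i, 1) ψ)
    rw [ip_sub_left, ip_sub_right, ip_sub_right, ract_symm _ _ (ract _ _), ract_idem,
      ract_symm] at this
    rw [ract_symm, ract_idem]
    linarith
  · exact (ip_ract hp ψ ψ).le

/-- The controlled operator. -/
noncomputable def cG (A B : ℕ × ℕ) (ψ : RS M) : RS M :=
  (1 / 2 : ℝ) • (ψ + ract A ψ + ract B ψ - ract A (ract B ψ))

lemma act_true (A B : ℕ × ℕ) (ψ : RS M) : Step.act (true, A, B) ψ = cG A B ψ := by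
  ext x
  simp only [Step.act, cond_true, cG, Pi.smul_apply, Pi.add_apply, Pi.sub_apply, smul_eq_mul]
  ring

lemma act_false (A B : ℕ × ℕ) (ψ : RS M) : Step.act (false, A, B) ψ = ract A ψ := rfl

lemma cG_iso {A B : ℕ × ℕ} (hA : A.2 ≠ 1) (hB : B.2 ≠ 1) (h : A.1 ≠ B.1) (ψ : RS M) :
    ip (cG A B ψ) (cG A B ψ) = ip ψ ψ := by
  have e1 : ip (ract B ψ) (ract A (ract B ψ)) = ip ψ (ract A ψ) := by
    rw [ract_comm h, ip_ract hB]
  have e2 : ip (ract A (ract B ψ)) (ract B ψ) = ip ψ (ract A ψ) := by rw [ip_comm, e1]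
  have e3 : ip (ract A ψ) (ract B ψ) = ip ψ (ract A (ract B ψ)) := ract_symm _ _ _
  have e4 : ip (ract B ψ) (ract A ψ) = ip ψ (ract A (ract B ψ)) := by rw [ip_comm, e3]
  simp only [cG, ip_smul_left, ip_smul_right, ip_add_left, ip_add_right, ip_sub_left, ip_sub_right,
    ip_ract hA, ip_ract hB, e1, e2, e3, e4, ip_comm _ ψ]
  ring

lemma StepsOK.act_iso {q : ℕ} {L : List Step} (h : StepsOK q L) {t : ℕ} (ht : t < L.length)
    (ψ : RS q) : ip ((stp L t).act ψ) ((stp L t).act ψ) = ip ψ ψ := by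
  obtain ⟨-, -, h1, h2, h3⟩ := h.2 t ht
  generalize stp L t = s at h1 h2 h3
  obtain ⟨_ | _, A, B⟩ := s
  · exact ip_ract h1 _ _
  · rw [act_true]
    exact cG_iso h1 h2 (h3 rfl).1 ψ

lemma Step.act_sub (s : Step) (ψ χ : RS M) : s.act (ψ - χ) = s.act ψ - s.act χ := by
  obtain ⟨_ | _, A, B⟩ := s
  · exact ract_sub _ _ _
  · simp only [act_true, cG, ract_sub]
    module

lemma Step.act_smul (s : Step) (c : ℝ) (ψ : RS M) : s.act (c • ψ) = c • s.act ψ := by
  obtain ⟨_ | _, A, B⟩ := s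
  · exact ract_smul _ _ _
  · simp only [act_true, cG, ract_smul]
    module

lemma run_cons (s : Step) (L : List Step) (ψ : RS M) : run (s :: L) ψ = run L (s.act ψ) := rfl

lemma run_append (L L' : List Step) (ψ : RS M) : run (L ++ L') ψ = run L' (run L ψ) :=
  List.foldl_append

lemma run_smul (L : List Step) (c : ℝ) (ψ : RS M) : run L (c • ψ) = c • run L ψ := by
  induction L generalizing ψ with
  | nil => rfl
  | cons s L ih => rw [run_cons, Step.act_smul, ih, run_cons]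

lemma run_take_succ {L : List Step} {t : ℕ} (ht : t < L.length) (ψ : RS M) :
    run (L.take (t + 1)) ψ = (stp L t).act (run (L.take t) ψ) := by
  rw [List.take_succ_eq_append_getElem ht, run_append, stp, List.getD_eq_getElem _ _ ht]
  rfl

lemma StepsOK.run_take_iso {q : ℕ} {L : List Step} (h : StepsOK q L) (ψ : RS q) {t : ℕ}
    (ht : t ≤ L.length) : ip (run (L.take t) ψ) (run (L.take t) ψ) = ip ψ ψ := by
  induction t with
  | zero => rfl
  | succ t ih => rw [run_take_succ ht, h.act_iso ht, ih (Nat.le_of_succ_le ht)]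

lemma StepsOK.run_iso {q : ℕ} {L : List Step} (h : StepsOK q L) (ψ : RS q) :
    ip (run L ψ) (run L ψ) = ip ψ ψ := by
  have := h.run_take_iso ψ le_rfl
  rwa [List.take_length] at this

/-! ### Well-formed steps -/

/-- Well-formed, possibly empty lists of steps. -/
def SOK (q : ℕ) (L : List Step) : Prop := L = [] ∨ StepsOK q L

lemma stp_left {L L' : List Step} {t : ℕ} (h : t < L.length) : stp (L ++ L') t = stp L t :=
  List.getD_append _ _ _ _ h

lemma stp_right {L L' : List Step} (t : ℕ) : stp (L ++ L') (L.length + t) = stp L' t := by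
  rw [stp, List.getD_append_right _ _ _ _ (Nat.le_add_right _ _), Nat.add_sub_cancel_left, stp]

lemma StepsOK.append {q : ℕ} {L L' : List Step} (h : StepsOK q L) (h' : SOK q L') :
    StepsOK q (L ++ L') := by
  rcases h' with rfl | h'
  · rwa [List.append_nil]
  refine ⟨fun e => h.1 (List.append_eq_nil_iff.mp e).1, fun t ht => ?_⟩
  rw [List.length_append] at ht ⊢
  by_cases h1 : t < L.length
  · obtain ⟨a1, a2, a3, a4, a5⟩ := h.2 t h1
    rw [stp_left h1]
    refine ⟨a1, a2, a3, a4, fun e => ?_⟩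
    obtain ⟨b1, b2, b3, b4, b5, b6, b7⟩ := a5 e
    rw [stp_left (by omega), stp_left (by omega), stp_left (by omega), stp_left (by omega)]
    exact ⟨b1, b2, by omega, b4, b5, b6, b7⟩
  · obtain ⟨s, rfl⟩ := Nat.exists_eq_add_of_le (not_lt.mp h1)
    obtain ⟨a1, a2, a3, a4, a5⟩ := h'.2 s (by omega)
    rw [stp_right]
    refine ⟨a1, a2, a3, a4, fun e => ?_⟩
    obtain ⟨b1, b2, b3, b4, b5, b6, b7⟩ := a5 e
    rw [Nat.add_sub_assoc b2, Nat.add_sub_assoc (by omega : 1 ≤ s), add_assoc, add_assoc,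
      stp_right, stp_right, stp_right, stp_right]
    exact ⟨b1, by omega, by omega, b4, b5, b6, b7⟩

lemma ok_single {q : ℕ} {A : ℕ × ℕ} (h : A.1 < q) (hA : A.2 ≠ 1) : StepsOK q [(false, A, A)] := by
  refine ⟨by simp, fun t ht => ?_⟩
  obtain rfl : t = 0 := by simpa using ht
  simp [stp, h, hA]

lemma ok_blk {q : ℕ} {A B : ℕ × ℕ} (h : A.1 < q) (hA : A.2 ≠ 1) (h' : B.1 < q) (hB : B.2 ≠ 1)
    (hn : A.1 ≠ B.1) : StepsOK q (blk A B) := by
  refine ⟨by simp [blk], fun t ht => ?_⟩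
  change t < 5 at ht
  interval_cases t <;> simp [stp, blk, h, hA, h', hB, hn]

lemma ok_gate {n : ℕ} {g : Gate} (h : g.Fits n) : StepsOK (n + 1) (gateSteps n g.data) := by
  cases g with
  | had i =>
    change i < n at h
    exact ok_single (A := (i, 4)) (by simp; omega) (by simp)
  | tee i =>
    change i < n at h
    exact (ok_blk (A := (i, 3)) (B := (n, 3)) (by simp; omega) (by simp) (by simp) (by simp)
      h.ne).append (Or.inr (ok_blk (A := (i, 3)) (B := (n, 4)) (by simp; omega) (by simp) (by simp)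
      (by simp) h.ne))
  | cnot i j =>
    obtain ⟨h1, h2, h3⟩ := h
    exact ok_blk (A := (i, 3)) (B := (j, 2)) (by simp; omega) (by simp) (by simp; omega) (by simp) h3

theorem steps_ok {C : Circuit} (h : C.WF) : StepsOK (C.w + C.a + 1) C.steps := by
  have key : ∀ l : List Gate, (∀ g ∈ l, g.Fits (C.w + C.a)) →
      SOK (C.w + C.a + 1) ((l.map Gate.data).flatMap (gateSteps (C.w + C.a))) := by
    intro l hl
    induction l with
    | nil => exact Or.inl rfl
    | cons g l ih =>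
      rw [List.map_cons, List.flatMap_cons]
      exact Or.inr ((ok_gate (hl g List.mem_cons_self)).append
        (ih fun g hg => hl g (List.mem_cons_of_mem _ hg)))
  exact (ok_single (A := (0, 0)) (by simp) (by simp)).append (key _ h.2)

/-! ### The simulation -/

lemma run_blk {A B : ℕ × ℕ} (hA : A.2 ≠ 1) (hB : B.2 ≠ 1) (h : A.1 ≠ B.1) (ψ : RS M) :
    run (blk A B) ψ = cG A B ψ := by
  change ract B (ract A (Step.act (true, A, B) (ract B (ract A ψ)))) = _
  simp only [act_true, cG, ract_smul, ract_add, ract_sub, ← ract_comm h, ract_invol hA,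
    ract_invol hB]

lemma ract_Z {i : ℕ} (h : i < M) (ψ : RS M) (x : Fin M → Fin 2) :
    ract (i, 3) ψ x = (if x ⟨i, h⟩ = 0 then 1 else -1) * ψ x := by
  simp [ract, dif_pos h, pauli]

lemma cG_Z {i : ℕ} (h : i < M) (B : ℕ × ℕ) (ψ : RS M) (x : Fin M → Fin 2) :
    cG (i, 3) B ψ x = if x ⟨i, h⟩ = 0 then ψ x else ract B ψ x := by
  simp only [cG, Pi.smul_apply, Pi.add_apply, Pi.sub_apply, smul_eq_mul, ract_Z h]
  split_ifs <;> ring

/-- The complex state encoded by a real one. -/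
noncomputable def enc {n : ℕ} (ψ : RS (n + 1)) (x : Fin n → Fin 2) : ℂ :=
  ψ (Fin.snoc x 0) + ψ (Fin.snoc x 1) * Complex.I

lemma snoc_mk {n i : ℕ} (h : i < n) (h' : i < n + 1) (x : Fin n → Fin 2) (r : Fin 2) :
    (Fin.snoc x r : Fin (n + 1) → Fin 2) ⟨i, h'⟩ = x ⟨i, h⟩ :=
  Fin.snoc_castSucc (α := fun _ => Fin 2) r x ⟨i, h⟩

lemma ract_snoc {n i : ℕ} (h : i < n) (k : ℕ) (ψ : RS (n + 1)) (x : Fin n → Fin 2) (r : Fin 2) :
    ract (i, k) ψ (Fin.snoc x r) =
      ∑ b, pauli k (x ⟨i, h⟩) b * ψ (Fin.snoc (update x ⟨i, h⟩ b) r) := by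
  have h' : i < n + 1 := Nat.lt_succ_of_lt h
  simp only [ract, dif_pos h', snoc_mk h, Fin.snoc_update]
  rfl

lemma ract_last {n : ℕ} (k : ℕ) (ψ : RS (n + 1)) (x : Fin n → Fin 2) (r : Fin 2) :
    ract (n, k) ψ (Fin.snoc x r) = ∑ b, pauli k r b * ψ (Fin.snoc x b) := by
  simp only [ract, dif_pos (Nat.lt_succ_self n)]
  refine Finset.sum_congr rfl fun b _ => ?_
  change pauli k ((Fin.snoc x r : Fin (n + 1) → Fin 2) (Fin.last n)) b *
    ψ (update (Fin.snoc x r) (Fin.last n) b) = _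
  rw [Fin.snoc_last, Fin.update_snoc_last]

lemma exp_quarter : Complex.exp (Real.pi * Complex.I / 4) = (1 + Complex.I) / (√2 : ℝ) := by
  have h : √2 * √2 = 2 := Real.mul_self_sqrt (by norm_num)
  have h0 : √2 ≠ 0 := by positivity
  have h1 : √2 / 2 = 1 / √2 := by field_simp; linarith
  rw [show (Real.pi * Complex.I / 4 : ℂ) = (Real.pi / 4 : ℝ) * Complex.I by push_cast; ring,
    Complex.exp_mul_I, ← Complex.ofReal_cos, ← Complex.ofReal_sin, Real.cos_pi_div_four,
    Real.sin_pi_div_four, h1]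
  push_cast
  ring

lemma fin2 (a : Fin 2) : a = 0 ∨ a = 1 := by fin_cases a <;> simp

lemma enc_gate {n : ℕ} {g : Gate} (h : g.Fits n) (ψ : RS (n + 1)) :
    enc (run (gateSteps n g.data) ψ) = g.act (enc ψ) := by
  ext x
  cases g with
  | had i =>
    change i < n at h
    change enc (ract (i, 4) ψ) x = _
    simp only [enc, Gate.act, act1, dif_pos h, ract_snoc h, Fin.sum_univ_two, pauli]
    rcases fin2 (x ⟨i, h⟩) with e | e <;> simp [e] <;> ring
  | tee i =>
    change i < n at h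
    have h' : i < n + 1 := Nat.lt_succ_of_lt h
    change enc (run (blk (i, 3) (n, 3) ++ blk (i, 3) (n, 4)) ψ) x = _
    rw [run_append, run_blk (by simp) (by simp) h.ne, run_blk (by simp) (by simp) h.ne]
    simp only [enc, Gate.act, act1, dif_pos h, cG_Z h', snoc_mk h, ract_last, Fin.sum_univ_two,
      pauli, exp_quarter]
    have u : ∀ b, x ⟨i, h⟩ = b → update x ⟨i, h⟩ b = x := fun b e => by rw [← e, update_eq_self]
    rcases fin2 (x ⟨i, h⟩) with e | e
    · simp [e, u _ e]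
    · simp [e, u _ e]
      linear_combination (-(ψ (Fin.snoc x 1) : ℂ) / (√2 : ℝ)) * Complex.I_sq
  | cnot i j =>
    obtain ⟨h1, h2, h3⟩ := h
    have h' : i < n + 1 := Nat.lt_succ_of_lt h1
    change enc (run (blk (i, 3) (j, 2)) ψ) x = _
    rw [run_blk (by simp) (by simp) h3]
    simp only [enc, Gate.act, dif_pos (And.intro h1 h2), cG_Z h', snoc_mk h1, ract_snoc h2,
      Fin.sum_univ_two, pauli]
    rcases fin2 (x ⟨i, h1⟩) with e | e
    · simp [e]
    · rcases fin2 (x ⟨j, h2⟩) with e' | e' <;> simp [e, e']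

lemma enc_steps {C : Circuit} (h : C.WF) (ψ : RS (C.w + C.a + 1)) :
    enc (run C.steps ψ) = C.gates.foldl (fun φ g => g.act φ) (enc ψ) := by
  have key : ∀ l : List Gate, (∀ g ∈ l, g.Fits (C.w + C.a)) → ∀ ψ : RS (C.w + C.a + 1),
      enc (run ((l.map Gate.data).flatMap (gateSteps (C.w + C.a))) ψ) =
        l.foldl (fun φ g => g.act φ) (enc ψ) := by
    intro l hl
    induction l with
    | nil => exact fun _ => rfl
    | cons g l ih =>
      intro ψ
      rw [List.map_cons, List.flatMap_cons, run_append,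
        ih fun g hg => hl g (List.mem_cons_of_mem _ hg), enc_gate (hl g List.mem_cons_self),
        List.foldl_cons]
  rw [Circuit.steps, run_cons, act_false, ract_id, key _ h.2]

lemma sum_snoc {n : ℕ} (f : (Fin (n + 1) → Fin 2) → ℝ) :
    ∑ y, f y = ∑ x : Fin n → Fin 2, (f (Fin.snoc x 0) + f (Fin.snoc x 1)) := by
  rw [← (Fin.snocEquiv fun _ => Fin 2).sum_comp, Fintype.sum_prod_type, Fin.sum_univ_two,
    Finset.sum_add_distrib]
  rfl

lemma norm_enc {n : ℕ} (ψ : RS (n + 1)) (x : Fin n → Fin 2) : ‖enc ψ x‖ ^ 2 =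
    ψ (Fin.snoc x 0) * ψ (Fin.snoc x 0) + ψ (Fin.snoc x 1) * ψ (Fin.snoc x 1) := by
  rw [enc, Complex.sq_norm, Complex.normSq_add_mul_I]
  ring

lemma ip_enc {n : ℕ} (ψ : RS (n + 1)) : ip ψ ψ = ∑ x, ‖enc ψ x‖ ^ 2 := by
  simp only [ip, sum_snoc, norm_enc]

lemma acc_enc {n : ℕ} (h : 0 < n) (ψ : RS (n + 1)) : ip (ract (0, 1) ψ) ψ =
    ∑ x : Fin n → Fin 2, if ∀ i : Fin n, i.val = 0 → x i = 1 then ‖enc ψ x‖ ^ 2 else 0 := by
  simp only [ip, sum_snoc, norm_enc, ract_one (Nat.succ_pos n), snoc_mk h]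
  refine Finset.sum_congr rfl fun x _ => ?_
  have e : (∀ i : Fin n, i.val = 0 → x i = 1) ↔ x ⟨0, h⟩ = 1 :=
    ⟨fun H => H _ rfl, fun H i hi => by rwa [show i = ⟨0, h⟩ from Fin.ext hi]⟩
  simp only [e]
  split_ifs <;> simp

lemma norm_init (C : Circuit) (φ : (Fin C.w → Fin 2) → ℂ) :
    ∑ x, ‖C.init φ x‖ ^ 2 = ∑ z, ‖φ z‖ ^ 2 := by
  rw [← (Fin.appendEquiv C.w C.a).sum_comp, Fintype.sum_prod_type]
  refine Finset.sum_congr rfl fun z _ => ?_
  rw [Finset.sum_eq_single 0]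
  · simp [Circuit.init]
  · intro u _ hu
    have : ¬ ∀ j, u j = 0 := fun H => hu (funext H)
    simp [Circuit.init, this]
  · simp

lemma rej_run {C : Circuit} (h : C.WF) {ψ : RS (C.w + C.a + 1)} {φ : (Fin C.w → Fin 2) → ℂ}
    (e : enc ψ = C.init φ) : rej (run C.steps ψ) = ip ψ ψ - C.acc φ := by
  rw [rej, (steps_ok h).run_iso, acc_enc h.1, enc_steps h, e, Circuit.acc]

theorem real_yes {C : Circuit} (h : C.WF) (hy : C.Yes) :
    ∃ ψ : RS (C.w + C.a + 1), Clean C.w C.a ψ ∧ ip ψ ψ = 1 ∧ rej (run C.steps ψ) ≤ 1 / 3 := by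
  obtain ⟨φ, h1, h2⟩ := hy
  let ψ : RS (C.w + C.a + 1) := fun y =>
    if y (Fin.last _) = 0 then (C.init φ (Fin.init y)).re else (C.init φ (Fin.init y)).im
  have e : enc ψ = C.init φ := by
    ext x
    simp [enc, ψ]
  have e1 : ip ψ ψ = 1 := by rw [ip_enc, e, norm_init, h1]
  refine ⟨ψ, fun j hj => ?_, e1, by rw [rej_run h e, e1]; linarith⟩
  ext y
  rw [ract_one (by omega)]
  split_ifs with hy
  · have : C.init φ (Fin.init y) = 0 := by
      refine if_neg fun H => ?_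
      exact absurd ((H ⟨j, hj⟩).symm.trans hy) (by decide)
    simp [ψ, this]
  · rfl

lemma enc_clean {C : Circuit} {ψ : RS (C.w + C.a + 1)} (hc : Clean C.w C.a ψ) :
    enc ψ = C.init fun z => enc ψ (Fin.append z 0) := by
  ext x
  unfold Circuit.init
  split_ifs with H
  · have e : (fun j => x (Fin.natAdd C.w j)) = 0 := funext H
    simp only
    rw [← e, Fin.append_castAdd_natAdd]
  · obtain ⟨j, hj⟩ := not_forall.mp H
    have z : ∀ r, ψ (Fin.snoc x r) = 0 := fun r => by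
      have := congrFun (hc j j.2) (Fin.snoc x r)
      rw [ract_one (by omega), snoc_mk (by omega)] at this
      exact (if_pos ((fin2 _).resolve_left hj)).symm.trans this
    simp [enc, z]

theorem real_no {C : Circuit} (h : C.WF) (hn : C.No) (ψ : RS (C.w + C.a + 1))
    (hc : Clean C.w C.a ψ) : 2 / 3 * ip ψ ψ ≤ rej (run C.steps ψ) := by
  rcases (ip_nonneg ψ).eq_or_lt with e | e
  · rw [← e, mul_zero, rej_eq]
    exact ip_nonneg _
  obtain ⟨c, hc1⟩ : ∃ c : ℝ, c * (c * ip ψ ψ) = 1 :=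
    ⟨(√(ip ψ ψ))⁻¹, by
      rw [← mul_assoc, ← mul_inv, Real.mul_self_sqrt e.le, inv_mul_cancel₀ e.ne']⟩
  have h1 : Clean C.w C.a (c • ψ) := fun j hj => by rw [ract_smul, hc j hj, smul_zero]
  have h2 : ip (c • ψ) (c • ψ) = 1 := by rw [ip_smul_left, ip_smul_right, hc1]
  have h3 := rej_run h (enc_clean h1)
  have h4 := hn _ (by rw [← norm_init C, ← enc_clean h1, ← ip_enc, h2])
  have h5 : rej (run C.steps (c • ψ)) = c * (c * rej (run C.steps ψ)) := by
    simp only [run_smul, rej, ract_smul, ip_smul_left, ip_smul_right]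
    ring
  have h6 : 2 / 3 ≤ c * (c * rej (run C.steps ψ)) := by linarith
  calc 2 / 3 * ip ψ ψ ≤ c * (c * rej (run C.steps ψ)) * ip ψ ψ := by gcongr
    _ = c * (c * ip ψ ψ) * rej (run C.steps ψ) := by ring
    _ = _ := by rw [hc1, one_mul]

end Vale.Agent.P370
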