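import Vale.Agent.P370.Basic

/-!
Two-local real Hamiltonians, real circuits of involutions, and the instances of the fermion model.
-/

namespace Vale.Agent.P370

open Function

/-- One-qubit operators: identity, projector on one, `X`, `Z`, Hadamard. -/
noncomputable def pauli : ℕ → Fin 2 → Fin 2 → ℝ
  | 0 => fun a b => if a = b then 1 else 0
  | 1 => fun a b => if a = 1 ∧ b = 1 then 1 else 0
  | 2 => fun a b => if a = b then 0 else 1
  | 3 => fun a b => if a = b then (if a = 0 then 1 else -1) else 0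
  | _ => fun a b => (if a = 1 ∧ b = 1 then -1 else 1) / √2

/-- Real states of `M` qubits. -/
abbrev RS (M : ℕ) := (Fin M → Fin 2) → ℝ

/-- The operator `p.2` on qubit `p.1`. -/
noncomputable def ract {M : ℕ} (p : ℕ × ℕ) (ψ : RS M) : RS M := fun x =>
  if h : p.1 < M then ∑ b, pauli p.2 (x ⟨p.1, h⟩) b * ψ (update x ⟨p.1, h⟩ b) else ψ x

/-- Inner product. -/
def ip {M : ℕ} (ψ χ : RS M) : ℝ := ∑ x, ψ x * χ x

/-- A term: coefficient and two one-qubit operators. -/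
abbrev Term := ℤ × (ℕ × ℕ) × (ℕ × ℕ)

/-- Quadratic form of a list of terms. -/
noncomputable def lhE {M : ℕ} (H : List Term) (ψ : RS M) : ℝ :=
  (H.map fun t => (t.1 : ℝ) * ip (ract t.2.1 ψ) (ract t.2.2 ψ)).sum

/-- Instances: a size in unary, the number of qubits, the terms. -/
abbrev LH := List Bool × ℕ × List Term

/-- Well-formed instances. -/
def LH.WF (I : LH) : Prop :=
  1 ≤ I.2.1 ∧ I.2.1 ≤ I.1.length ∧ (I.2.2.map fun t => t.1.natAbs).sum ≤ I.1.length ∧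
    ∀ t ∈ I.2.2, t.2.1.1 < I.2.1 ∧ t.2.2.1 < I.2.1 ∧ t.2.1.1 ≠ t.2.2.1

/-- Low energy. -/
def LH.Yes (I : LH) : Prop := ∃ ψ : RS I.2.1, 0 < ip ψ ψ ∧ lhE I.2.2 ψ ≤ 2 * ip ψ ψ

/-- High energy. -/
def LH.No (I : LH) : Prop := ∀ ψ : RS I.2.1, 3 * ip ψ ψ ≤ lhE I.2.2 ψ

/-! ### Real circuits -/

/-- A step `(false, A, A)` applies `A`; a step `(true, A, B)` applies `(1 + A + B - A B) / 2`. -/
abbrev Step := Bool × (ℕ × ℕ) × (ℕ × ℕ)

/-- Action of a step. -/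
noncomputable def Step.act {M : ℕ} (s : Step) (ψ : RS M) : RS M :=
  bif s.1 then fun x => (ψ x + ract s.2.1 ψ x + ract s.2.2 ψ x - ract s.2.1 (ract s.2.2 ψ) x) / 2
  else ract s.2.1 ψ

/-- A controlled step with its four companions. -/
def blk (A B : ℕ × ℕ) : List Step :=
  [(false, A, A), (false, B, B), (true, A, B), (false, A, A), (false, B, B)]

/-- Steps of a gate; `r` is the qubit that separates real and imaginary parts. -/
def gateSteps (r : ℕ) (g : ℕ × ℕ × ℕ) : List Step :=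
  bif g.1 == 0 then [(false, (g.2.1, 4), (g.2.1, 4))]
  else bif g.1 == 1 then blk (g.2.1, 3) (r, 3) ++ blk (g.2.1, 3) (r, 4)
  else blk (g.2.1, 3) (g.2.2, 2)

/-- Steps of a circuit. -/
def Circuit.steps (C : Circuit) : List Step :=
  (false, (0, 0), (0, 0)) :: (C.gates.map Gate.data).flatMap (gateSteps (C.w + C.a))

/-- The step at time `t`. -/
def stp (L : List Step) (t : ℕ) : Step := L.getD t (false, (0, 0), (0, 0))

/-- Well-formed lists of steps on `q` qubits. -/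
def StepsOK (q : ℕ) (L : List Step) : Prop :=
  L ≠ [] ∧ ∀ t < L.length, (stp L t).2.1.1 < q ∧ (stp L t).2.2.1 < q ∧ (stp L t).2.1.2 ≠ 1 ∧
    (stp L t).2.2.2 ≠ 1 ∧ ((stp L t).1 = true → (stp L t).2.1.1 ≠ (stp L t).2.2.1 ∧ 2 ≤ t ∧
      t + 2 < L.length ∧ stp L (t - 2) = (false, (stp L t).2.1, (stp L t).2.1) ∧
      stp L (t - 1) = (false, (stp L t).2.2, (stp L t).2.2) ∧
      stp L (t + 1) = (false, (stp L t).2.1, (stp L t).2.1) ∧
      stp L (t + 2) = (false, (stp L t).2.2, (stp L t).2.2))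

/-- The state after all steps. -/
noncomputable def run {M : ℕ} (L : List Step) (ψ : RS M) : RS M := L.foldl (fun φ s => s.act φ) ψ

/-- The ancillas `w, …, w + a - 1` are zero. -/
def Clean {M : ℕ} (w a : ℕ) (ψ : RS M) : Prop := ∀ j < a, ract (w + j, 1) ψ = 0

/-- Weight of the states whose first qubit is zero. -/
noncomputable def rej {M : ℕ} (ψ : RS M) : ℝ := ip ψ ψ - ip (ract (0, 1) ψ) ψ

/-- The form on histories `ψ 0, …, ψ T`. -/
noncomputable def hist {q : ℕ} (w a : ℕ) (L : List Step) (J₂ J₃ J₄ : ℝ) (ψ : ℕ → RS q) : ℝ :=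
  (∑ t ∈ Finset.range L.length,
    bif (stp L t).1 then J₃ * (8 * (ip (ψ t) (ψ t) + ip (ψ (t + 1)) (ψ (t + 1))) +
      2 * ip (ψ (t - 2)) (ψ (t - 1)) + 2 * ip (ψ (t - 1)) (ψ t) + 4 * ip (ψ (t - 2)) (ψ t) +
      2 * ip (ψ (t + 1)) (ψ (t + 2)) + 2 * ip (ψ (t + 2)) (ψ (t + 3)) +
      4 * ip (ψ (t + 1)) (ψ (t + 3)) - 8 * ip (ψ (t + 1)) (ψ t) -
      12 * ip (ψ (t + 1)) (ract (stp L t).2.1 (ψ t)) -
      12 * ip (ψ (t + 1)) (ract (stp L t).2.2 (ψ t)))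
    else J₂ * (ip (ψ t) (ψ t) + ip (ψ (t + 1)) (ψ (t + 1)) -
      2 * ip (ψ (t + 1)) (ract (stp L t).2.1 (ψ t)))) +
  J₃ * (∑ j ∈ Finset.range a, ip (ract (w + j, 1) (ψ 0)) (ψ 0)) + J₄ * rej (ψ L.length)

/-- Output weight. -/
def J4 (T : ℕ) : ℕ := 6 * (T + 1)
/-- Weight of the controlled steps and of the input check. -/
def J3 (T : ℕ) : ℕ := 1000 * (T + 1) ^ 2
/-- Weight of the simple steps. -/
def J2 (T : ℕ) : ℕ := J3 T + 10 ^ 5 * J3 T ^ 2 * (T + 1)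

/-! ### Instances of the fermion model -/

/-- A size in unary, the number of molecules, the couplings of rows, hopping, thresholds. -/
abbrev FM := List Bool × ℕ × List (List ℕ) × ℕ × ℕ × ℕ

/-- Couplings between rows. -/
def FM.V (I : FM) (a b : ℕ) : ℕ := (I.2.2.1.getD a []).getD b 0

/-- The interaction matrix with self-energy `u`. -/
noncomputable def FM.W (I : FM) (u : ℝ) (a b : Arm I.2.1) : ℝ :=
  if a = b then u else I.V (row a) (row b)

/-- Well-formed instances of size at least `n₀`. -/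
def FM.WF (n₀ : ℕ) (I : FM) : Prop :=
  n₀ ≤ I.1.length ∧ 1 ≤ I.2.1 ∧ I.2.1 ≤ I.1.length ∧ (∀ a b, I.V a b = I.V b a) ∧
    (∀ a b, I.V a b ≤ I.1.length) ∧ 1 ≤ I.2.2.2.1 ∧ I.2.2.2.1 ≤ I.1.length ∧
    I.2.2.2.2.1 < I.2.2.2.2.2 ∧ I.2.2.2.2.2 ≤ I.1.length

/-- Low energy. -/
def FM.Yes (I : FM) : Prop := ∀ u : ℝ, I.1.length ≤ u →
  ∃ c : (Fin (5 * I.2.1) → Fin 2) → (Fin (5 * I.2.1) → Arm I.2.1) → ℝ, Anti c ∧ 0 < fmN c ∧
    fmE I.2.2.2.1 (I.W u) c ≤ (2 * I.2.1 * u + I.2.2.2.2.1) * fmN c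

/-- High energy. -/
def FM.No (I : FM) : Prop := ∀ u : ℝ, I.1.length ≤ u →
  ∀ c : (Fin (5 * I.2.1) → Fin 2) → (Fin (5 * I.2.1) → Arm I.2.1) → ℝ, Anti c →
    (2 * I.2.1 * u + I.2.2.2.2.2) * fmN c ≤ fmE I.2.2.2.1 (I.W u) c

end Vale.Agent.P370
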