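import Vale.Agent.P370.OB

/-!
Auxiliary facts for the trial states: integrals of squares of finite sums, factorisation of
integrals over products.
-/

namespace Vale.Agent.P370

open MeasureTheory Function

/-- Continuous with compact support. -/
def MuCC (f : Pt → ℝ) : Prop := Continuous f ∧ HasCompactSupport f

lemma MuCC.mul {f g : Pt → ℝ} (hf : MuCC f) (hg : MuCC g) : MuCC fun x => f x * g x :=
  ⟨hf.1.mul hg.1, hf.2.mul_right⟩

lemma MuCC.integrable {f : Pt → ℝ} (hf : MuCC f) : Integrable f :=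
  hf.1.integrable_of_hasCompactSupport hf.2

lemma MuCC.bm {f : Pt → ℝ} (hf : MuCC f) : BM f := by
  obtain ⟨C, hC⟩ := hf.1.bounded_above_of_compact_support hf.2
  exact ⟨hf.1.measurable, C, fun y => by simpa using hC y⟩

lemma MuCC.sq {f : Pt → ℝ} (hf : MuCC f) : MuCC fun x => f x ^ 2 := by
  simpa only [pow_two] using hf.mul hf

lemma C1c.mu_cc {f : Pt → ℝ} (hf : C1c f) : MuCC f := ⟨hf.1.continuous, hf.2⟩

lemma C1c.mu_cc_pd {f : Pt → ℝ} (hf : C1c f) (k : Fin 3) : MuCC (pd k f) :=
  ⟨(hf.1.continuous_fderiv_apply one_ne_zero).comp (continuous_id.prodMk continuous_const),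
    hf.2.fderiv_apply ℝ (ek k)⟩

lemma MuCC.exists_ball {f : Pt → ℝ} (hf : MuCC f) : ∃ R : ℝ, ∀ x, f x ≠ 0 → ‖x‖ ≤ R := by
  obtain ⟨R, hR⟩ := hf.2.isCompact.isBounded.exists_norm_le
  exact ⟨R, fun x hx => hR x (subset_tsupport _ hx)⟩

lemma mu_exists_ball {S : Type} [Fintype S] {f : S → Pt → ℝ} (hf : ∀ a, MuCC (f a)) :
    ∃ R : ℝ, ∀ a x, f a x ≠ 0 → ‖x‖ ≤ R := by
  choose R hR using fun a => (hf a).exists_ball
  refine ⟨∑ a, |R a|, fun a x hx => (hR a x hx).trans ((le_abs_self _).trans ?_)⟩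
  exact Finset.single_le_sum (f := fun a => |R a|) (fun _ _ => abs_nonneg _) (Finset.mem_univ a)

/-- Weighted integrals of squares of finite sums. -/
lemma mu_int_sq {S X : Type} [Fintype S] [MeasurableSpace X] {μ : Measure X} (P : S → X → ℝ)
    (w : X → ℝ) (c : S → ℝ) (h : ∀ α β, Integrable (fun x => w x * (P α x * P β x)) μ) :
    ∫ x, w x * (∑ α, c α * P α x) ^ 2 ∂μ =
      qf (fun α β => ∫ x, w x * (P α x * P β x) ∂μ) c := by
  have e : (fun x => w x * (∑ α, c α * P α x) ^ 2) =
      fun x => ∑ α, ∑ β, c α * c β * (w x * (P α x * P β x)) := by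
    funext x
    rw [pow_two, Finset.sum_mul_sum, Finset.mul_sum]
    refine Finset.sum_congr rfl fun α _ => ?_
    rw [Finset.mul_sum]
    exact Finset.sum_congr rfl fun β _ => by ring
  rw [e, qf, integral_finsetSum _ fun α _ =>
    integrable_finsetSum _ fun β _ => (h α β).const_mul _]
  refine Finset.sum_congr rfl fun α _ => ?_
  rw [integral_finsetSum _ fun β _ => (h α β).const_mul _]
  exact Finset.sum_congr rfl fun β _ => integral_const_mul _ _

lemma mu_int_sq' {S X : Type} [Fintype S] [MeasurableSpace X] {μ : Measure X} (P : S → X → ℝ)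
    (c : S → ℝ) (h : ∀ α β, Integrable (fun x => P α x * P β x) μ) :
    ∫ x, (∑ α, c α * P α x) ^ 2 ∂μ = qf (fun α β => ∫ x, P α x * P β x ∂μ) c := by
  simpa only [one_mul] using mu_int_sq P (fun _ => 1) c (μ := μ) (by simpa only [one_mul] using h)

variable {N : ℕ}

lemma mu_prod_update (i : Fin N) (f : Pt → ℝ) (g : Fin N → Pt → ℝ) (x : Fin N → Pt) :
    f (x i) * ∏ l ∈ Finset.univ.erase i, g l (x l) = ∏ l, update g i f l (x l) := by
  rw [← Finset.mul_prod_erase Finset.univ _ (Finset.mem_univ i), update_self]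
  refine congrArg _ (Finset.prod_congr rfl fun l hl => ?_)
  rw [update_of_ne (Finset.ne_of_mem_erase hl)]

lemma mu_one_integrable (i : Fin N) {f : Pt → ℝ} {g : Fin N → Pt → ℝ} (hf : Integrable f)
    (hg : ∀ l, Integrable (g l)) :
    Integrable fun x : Fin N → Pt => f (x i) * ∏ l ∈ Finset.univ.erase i, g l (x l) := by
  simp only [mu_prod_update]
  refine Integrable.fintype_prod (f := update g i f) fun l => ?_
  by_cases h : l = i
  · rw [h, update_self]; exact hf
  · rw [update_of_ne h]; exact hg l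

lemma mu_one_integral (i : Fin N) (f : Pt → ℝ) (g : Fin N → Pt → ℝ) :
    ∫ x : Fin N → Pt, f (x i) * ∏ l ∈ Finset.univ.erase i, g l (x l) =
      (∫ y, f y) * ∏ l ∈ Finset.univ.erase i, ∫ y, g l y := by
  simp only [mu_prod_update]
  rw [integral_fintype_prod_volume_eq_prod, ← Finset.mul_prod_erase Finset.univ _
    (Finset.mem_univ i), update_self]
  refine congrArg _ (Finset.prod_congr rfl fun l hl => ?_)
  rw [update_of_ne (Finset.ne_of_mem_erase hl)]

lemma mu_ker_integrable {f g : Pt → ℝ} (hf : MuCC f) (hg : MuCC g) :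
    Integrable fun p : Pt × Pt => ker (p.1 - p.2) * (f p.1 * g p.2) := by
  obtain ⟨R, hR⟩ := hf.exists_ball
  obtain ⟨R', hR'⟩ := hg.exists_ball
  obtain ⟨hm, C, hC⟩ := hf.bm
  have hB : volume (Metric.closedBall (0 : Pt) (R + R')) ≠ ⊤ := measure_closedBall_lt_top.ne
  have h1 : Integrable ((Metric.closedBall (0 : Pt) (R + R')).indicator ker) := by
    rw [integrable_indicator_iff measurableSet_closedBall]
    refine (integrableOn_ker hB 0).congr_fun (fun y _ => ?_) measurableSet_closedBall
    simp only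
    rw [ker_sub_comm, sub_zero]
  have h2 := (hg.integrable.convolution_integrand (ContinuousLinearMap.mul ℝ ℝ) h1).bdd_mul
    (f := fun p : Pt × Pt => f p.1) (c := C) (hm.comp measurable_fst).aestronglyMeasurable
    (Filter.Eventually.of_forall fun p => hC p.1)
  refine h2.congr (Filter.Eventually.of_forall fun p => ?_)
  simp only [ContinuousLinearMap.mul_apply']
  by_cases h1 : f p.1 = 0
  · simp [h1]
  by_cases h2 : g p.2 = 0
  · simp [h2]
  have : p.1 - p.2 ∈ Metric.closedBall (0 : Pt) (R + R') := by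
    rw [mem_closedBall_zero_iff]
    exact (norm_sub_le _ _).trans (add_le_add (hR _ h1) (hR' _ h2))
  rw [Set.indicator_of_mem this]
  ring

lemma mu_two {i j : Fin N} (hij : i ≠ j) {f f' : Pt → ℝ} (hf : MuCC f) (hf' : MuCC f')
    {g : Fin N → Pt → ℝ} (hg : ∀ l, MuCC (g l)) :
    (Integrable fun x : Fin N → Pt => ker (x i - x j) * (f (x i) * f' (x j)) *
      ∏ l ∈ (Finset.univ.erase i).erase j, g l (x l)) ∧
    ∫ x : Fin N → Pt, ker (x i - x j) * (f (x i) * f' (x j)) *
      ∏ l ∈ (Finset.univ.erase i).erase j, g l (x l) =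
      (∫ p : Pt × Pt, ker (p.1 - p.2) * (f p.1 * f' p.2)) *
        ∏ l ∈ (Finset.univ.erase i).erase j, ∫ y, g l y := by
  obtain ⟨R1, hR1⟩ := hf.exists_ball
  obtain ⟨R2, hR2⟩ := hf'.exists_ball
  obtain ⟨R3, hR3⟩ := mu_exists_ball hg
  set B := Metric.closedBall (0 : Pt) (max R1 (max R2 R3)) with hBdef
  have hB1 : ∀ y ∉ B, f y = 0 := fun y hy => by
    by_contra h
    exact hy (mem_closedBall_zero_iff.2 ((hR1 y h).trans (le_max_left _ _)))
  have hB2 : ∀ y ∉ B, f' y = 0 := fun y hy => by
    by_contra h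
    exact hy (mem_closedBall_zero_iff.2 ((hR2 y h).trans
      ((le_max_left _ _).trans (le_max_right _ _))))
  have hB3 : ∀ l, ∀ y ∉ B, g l y = 0 := fun l y hy => by
    by_contra h
    exact hy (mem_closedBall_zero_iff.2 ((hR3 l y h).trans
      ((le_max_right _ _).trans (le_max_right _ _))))
  have : IsFiniteMeasure (volume.restrict B) :=
    isFiniteMeasure_restrict.2 measure_closedBall_lt_top.ne
  have hpi : (volume : Measure (Fin N → Pt)).restrict (Set.univ.pi fun _ => B) =
      Measure.pi fun _ => volume.restrict B := Measure.restrict_pi_pi (fun _ => volume) fun _ => B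
  have hpr : (volume.restrict B).prod (volume.restrict B) =
      (volume : Measure (Pt × Pt)).restrict (B ×ˢ B) := Measure.prod_restrict B B
  have hk := mu_ker_integrable hf hf'
  have hk' : Integrable (fun p : Pt × Pt => ker (p.1 - p.2) * (f p.1 * f' p.2))
      ((volume.restrict B).prod (volume.restrict B)) := by
    rw [hpr]; exact hk.integrableOn
  have hvan : ∀ x : Fin N → Pt, x ∉ (Set.univ.pi fun _ => B) →
      ker (x i - x j) * (f (x i) * f' (x j)) *
        ∏ l ∈ (Finset.univ.erase i).erase j, g l (x l) = 0 := by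
    intro x hx
    rw [Set.mem_univ_pi, not_forall] at hx
    obtain ⟨l, hl⟩ := hx
    by_cases h1 : l = i
    · rw [← h1, hB1 _ hl]; simp
    by_cases h2 : l = j
    · rw [← h2, hB2 _ hl]; simp
    rw [Finset.prod_eq_zero (i := l) (by simp [h1, h2]) (hB3 l _ hl), mul_zero]
  constructor
  · refine IntegrableOn.integrable_of_forall_notMem_eq_zero ?_ hvan
    rw [IntegrableOn, hpi]
    choose C hC using fun l => (hg l).bm.2
    refine (integrable_pair (fun _ : Fin N => volume.restrict B) hij hk').mul_bdd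
      (c := ∏ l ∈ (Finset.univ.erase i).erase j, C l) ?_ (Filter.Eventually.of_forall fun x => ?_)
    · exact (Finset.measurable_prod _ fun l _ =>
        (hg l).1.measurable.comp (measurable_pi_apply l)).aestronglyMeasurable
    · rw [Real.norm_eq_abs, Finset.abs_prod]
      exact Finset.prod_le_prod (fun _ _ => abs_nonneg _) fun l _ => hC l _
  · rw [← setIntegral_eq_integral_of_forall_compl_eq_zero hvan, hpi,
      integral_pair_prod (fun _ : Fin N => volume.restrict B) hij hk' fun l => (hg l).bm, hpr,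
      setIntegral_eq_integral_of_forall_compl_eq_zero]
    · refine congrArg _ (Finset.prod_congr rfl fun l _ => ?_)
      exact setIntegral_eq_integral_of_forall_compl_eq_zero (hB3 l)
    · intro p hp
      rw [Set.mem_prod, not_and_or] at hp
      rcases hp with hp | hp
      · rw [hB1 _ hp]; simp
      · rw [hB2 _ hp]; simp

/-- Partial derivatives of a product function. -/
lemma mu_fderiv_prod {g : Fin N → Pt → ℝ} (hg : ∀ l, ContDiff ℝ 1 (g l)) (x : Fin N → Pt)
    (i : Fin N) (k : Fin 3) :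
    fderiv ℝ (fun x : Fin N → Pt => ∏ l, g l (x l)) x (Pi.single i (Pi.single k 1)) =
      pd k (g i) (x i) * ∏ l ∈ Finset.univ.erase i, g l (x l) := by
  have h : ∀ l ∈ (Finset.univ : Finset (Fin N)), HasFDerivAt (fun x : Fin N → Pt => g l (x l))
      ((fderiv ℝ (g l) (x l)).comp (ContinuousLinearMap.proj l)) x := fun l _ =>
    ((hg l).differentiable one_ne_zero (x l)).hasFDerivAt.comp x
      (ContinuousLinearMap.proj (R := ℝ) (φ := fun _ : Fin N => Pt) l).hasFDerivAt
  rw [(HasFDerivAt.finsetProd h).fderiv, sum_apply, Finset.sum_eq_single i]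
  · simp [pd, ek, mul_comm]
  · intro l _ hl
    simp [Pi.single_eq_of_ne hl]
  · simp

lemma mu_contDiff_prod {g : Fin N → Pt → ℝ} (hg : ∀ l, ContDiff ℝ 1 (g l)) :
    ContDiff ℝ 1 fun x : Fin N → Pt => ∏ l, g l (x l) :=
  contDiff_prod fun l _ => (hg l).comp (contDiff_apply ℝ Pt l)

end Vale.Agent.P370
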