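import Vale.Agent.P370.ManyUpA

/-!
One-body algebra: sharp orbitals, Gram matrices, the hopping form.
-/

namespace Vale.Agent.P370

open MeasureTheory Function

variable {M : ℕ} {φ η : Arm M → Pt → ℝ} {δ : ℝ}

lemma Soft.mu_c1c (hη : Soft φ η δ) (a : Arm M) : C1c (η a) :=
  ⟨(hη.smooth a).1.of_le (by exact_mod_cast le_top), (hη.smooth a).2⟩

lemma mu_lc_c1c (h : ∀ a, C1c (η a)) (c : Arm M → ℝ) : C1c (lc η c) := by
  refine ⟨ContDiff.sum fun a _ => contDiff_const.mul (h a).1, ?_⟩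
  have : lc η c = ∑ a, fun x => c a * η a x := by
    funext x; simp [lc]
  rw [this]
  exact HasCompactSupport.finset_sum fun a _ => (h a).2.mul_left

lemma mu_pd_lc (h : ∀ a, C1c (η a)) (c : Arm M → ℝ) (k : Fin 3) (x : Pt) :
    pd k (lc η c) x = ∑ a, c a * pd k (η a) x := by
  have hd : ∀ a, DifferentiableAt ℝ (η a) x := fun a => (h a).1.differentiable one_ne_zero x
  unfold pd lc
  rw [fderiv_fun_sum fun a _ => (hd a).const_mul _, sum_apply]
  refine Finset.sum_congr rfl fun a _ => ?_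
  rw [fderiv_const_mul (hd a)]
  rfl

lemma Sharp.mu_integrable (hφ : Sharp φ) (a : Arm M) : Integrable (φ a) := by
  obtain ⟨r, hr⟩ := hφ.bdd
  obtain ⟨hm, C, hC⟩ := hφ.bm a
  refine IntegrableOn.integrable_of_forall_notMem_eq_zero (s := Metric.closedBall 0 r) ?_ ?_
  · exact Measure.integrableOn_of_bounded measure_closedBall_lt_top.ne hm.aestronglyMeasurable
      (M := C) (Filter.Eventually.of_forall hC)
  · intro x hx
    by_contra h
    exact hx (mem_closedBall_zero_iff.2 (hr a x h))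

lemma Sharp.mu_integrable_mul (hφ : Sharp φ) (a : Arm M) {f : Pt → ℝ} (hf : Integrable f) :
    Integrable fun x => φ a x * f x := by
  obtain ⟨hm, C, hC⟩ := hφ.bm a
  exact hf.bdd_mul hm.aestronglyMeasurable (c := C) (Filter.Eventually.of_forall hC)

lemma Sharp.mu_integrable_sq (hφ : Sharp φ) (a : Arm M) : Integrable fun x => φ a x ^ 2 := by
  simpa only [pow_two] using hφ.mu_integrable_mul a (hφ.mu_integrable a)

lemma Sharp.mu_lc_sq (hφ : Sharp φ) (c : Arm M → ℝ) (x : Pt) :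
    lc φ c x ^ 2 = ∑ a, c a ^ 2 * φ a x ^ 2 := by
  rw [lc, pow_two, Finset.sum_mul_sum]
  refine Finset.sum_congr rfl fun a _ => ?_
  rw [Finset.sum_eq_single a]
  · ring
  · intro b _ hb
    have := hφ.disj a b x hb.symm
    linear_combination (c a * c b) * this
  · simp

lemma Sharp.mu_integrable_lc_sq (hφ : Sharp φ) (c : Arm M → ℝ) :
    Integrable fun x => lc φ c x ^ 2 := by
  simp only [hφ.mu_lc_sq]
  exact integrable_finsetSum _ fun a _ => (hφ.mu_integrable_sq a).const_mul _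

lemma Sharp.mu_integral_lc_sq (hφ : Sharp φ) (c : Arm M → ℝ) :
    ∫ x, lc φ c x ^ 2 = ∑ a, c a ^ 2 := by
  simp only [hφ.mu_lc_sq]
  rw [integral_finsetSum _ fun a _ => (hφ.mu_integrable_sq a).const_mul _]
  refine Finset.sum_congr rfl fun a _ => ?_
  rw [integral_const_mul, hφ.one, mul_one]

lemma Soft.mu_diff_sq (hη : Soft φ η δ) (c : Arm M → ℝ) (x : Pt) :
    (lc η c x - lc φ c x) ^ 2 = lc η c x ^ 2 - lc φ c x ^ 2 := by
  by_cases h : ∃ b, φ b x ≠ 0
  · obtain ⟨b, hb⟩ := h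
    have : lc η c x = lc φ c x := Finset.sum_congr rfl fun a _ => by rw [hη.agree a b x hb]
    rw [this]; ring
  · push Not at h
    have : lc φ c x = 0 := Finset.sum_eq_zero fun a _ => by rw [h a, mul_zero]
    rw [this]; ring

lemma Soft.mu_integrable_diff_sq (hφ : Sharp φ) (hη : Soft φ η δ) (c : Arm M → ℝ) :
    Integrable fun x => (lc η c x - lc φ c x) ^ 2 := by
  simp only [hη.mu_diff_sq]
  exact (mu_lc_c1c hη.mu_c1c c).mu_cc.sq.integrable.sub (hφ.mu_integrable_lc_sq c)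

lemma Soft.mu_norm_eq (hφ : Sharp φ) (hη : Soft φ η δ) (c : Arm M → ℝ) :
    ∫ x, lc η c x ^ 2 = (∑ a, c a ^ 2) + ∫ x, (lc η c x - lc φ c x) ^ 2 := by
  simp only [hη.mu_diff_sq]
  rw [integral_sub (mu_lc_c1c hη.mu_c1c c).mu_cc.sq.integrable (hφ.mu_integrable_lc_sq c),
    hφ.mu_integral_lc_sq]
  ring

/-- Pythagoras for the sharp orbitals. -/
lemma Sharp.mu_pyth (hφ : Sharp φ) {ψ : Pt → ℝ} (hψ : MuCC ψ) :
    Integrable (fun x => (ψ x - lc φ (co φ ψ) x) ^ 2) ∧
    ∫ x, (ψ x - lc φ (co φ ψ) x) ^ 2 = (∫ x, ψ x ^ 2) - ∑ a, co φ ψ a ^ 2 := by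
  have e : (fun x => (ψ x - lc φ (co φ ψ) x) ^ 2) = fun x =>
      (ψ x ^ 2 - 2 * ∑ a, co φ ψ a * (φ a x * ψ x)) + lc φ (co φ ψ) x ^ 2 := by
    funext x
    have : ∑ a, co φ ψ a * (φ a x * ψ x) = lc φ (co φ ψ) x * ψ x := by
      rw [lc, Finset.sum_mul]
      exact Finset.sum_congr rfl fun a _ => by ring
    rw [this]; ring
  have h1 : ∀ a, Integrable fun x => co φ ψ a * (φ a x * ψ x) := fun a =>
    (hφ.mu_integrable_mul a hψ.integrable).const_mul _
  have h2 : Integrable fun x => 2 * ∑ a, co φ ψ a * (φ a x * ψ x) :=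
    (integrable_finsetSum _ fun a _ => h1 a).const_mul _
  have h3 : Integrable fun x => ψ x ^ 2 - 2 * ∑ a, co φ ψ a * (φ a x * ψ x) :=
    hψ.sq.integrable.sub h2
  rw [e]
  refine ⟨h3.add (hφ.mu_integrable_lc_sq _), ?_⟩
  rw [integral_add h3 (hφ.mu_integrable_lc_sq _), integral_sub hψ.sq.integrable h2,
    integral_const_mul, integral_finsetSum _ fun a _ => h1 a, hφ.mu_integral_lc_sq]
  have : ∑ a, ∫ x, co φ ψ a * (φ a x * ψ x) = ∑ a, co φ ψ a ^ 2 :=
    Finset.sum_congr rfl fun a _ => by rw [integral_const_mul, pow_two]; rfl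
  rw [this]; ring

lemma Sharp.mu_bessel (hφ : Sharp φ) {ψ : Pt → ℝ} (hψ : MuCC ψ) :
    ∑ a, co φ ψ a ^ 2 ≤ ∫ x, ψ x ^ 2 := by
  have h := (hφ.mu_pyth hψ).2
  have : 0 ≤ ∫ x, (ψ x - lc φ (co φ ψ) x) ^ 2 := integral_nonneg fun x => sq_nonneg _
  linarith

lemma mu_hop_nonneg (c : Arm M → ℝ) : 0 ≤ hop c := Finset.sum_nonneg fun _ _ => sq_nonneg _

lemma mu_hop_le (c : Arm M → ℝ) : hop c ≤ ∑ a, c a ^ 2 := by
  rw [hop, Fintype.sum_prod_type, Fintype.sum_prod_type]
  refine Finset.sum_le_sum fun m _ => ?_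
  simp only [Fin.sum_univ_three]
  nlinarith [sq_nonneg (c (m, 0) + c (m, 1) + c (m, 2))]

/-- The kernel of the hopping form. -/
noncomputable def muHop (a b : Arm M) : ℝ :=
  (if a = b then 1 else 0) - if a.1 = b.1 then 1 / 3 else 0

lemma mu_hop_row (a : Arm M) (c : Arm M → ℝ) :
    ∑ b, c b * muHop a b = c a - (∑ b, c (a.1, b)) / 3 := by
  simp only [muHop, mul_sub, Finset.sum_sub_distrib, mul_ite, mul_one, mul_zero,
    Finset.sum_ite_eq, Finset.mem_univ, if_true]
  rw [Fintype.sum_prod_type, Finset.sum_eq_single a.1]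
  · simp [div_eq_mul_inv, Finset.sum_mul]
  · intro m _ hm
    simp [hm.symm]
  · simp

lemma mu_qf_hop (c : Arm M → ℝ) : qf muHop c = hop c := by
  have : qf muHop c = ∑ a, c a * (c a - (∑ b, c (a.1, b)) / 3) := by
    refine Finset.sum_congr rfl fun a _ => ?_
    rw [← mu_hop_row, Finset.mul_sum]
    exact Finset.sum_congr rfl fun b _ => by ring
  rw [this, hop, Fintype.sum_prod_type, Fintype.sum_prod_type]
  refine Finset.sum_congr rfl fun m _ => ?_
  simp only [Fin.sum_univ_three]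
  ring

lemma mu_hop_symm (a b : Arm M) : muHop a b = muHop b a := by
  simp only [muHop, eq_comm]

lemma mu_qf_diag {S : Type} [Fintype S] [DecidableEq S] (r : S → ℝ) (c : S → ℝ) :
    qf (fun a b => if a = b then r a else 0) c = ∑ a, r a * c a ^ 2 := by
  refine Finset.sum_congr rfl fun a _ => ?_
  simp only [mul_ite, mul_zero, Finset.sum_ite_eq, Finset.mem_univ, if_true]
  ring

lemma mu_qf_add {S : Type} [Fintype S] (G H : S → S → ℝ) (c : S → ℝ) :
    qf (fun a b => G a b + H a b) c = qf G c + qf H c := by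
  simp only [qf, mul_add, Finset.sum_add_distrib]

lemma mu_qf_sub {S : Type} [Fintype S] (G H : S → S → ℝ) (c : S → ℝ) :
    qf (fun a b => G a b - H a b) c = qf G c - qf H c := by
  simp only [qf, mul_sub, Finset.sum_sub_distrib]

lemma mu_qf_smul {S : Type} [Fintype S] (t : ℝ) (G : S → S → ℝ) (c : S → ℝ) :
    qf (fun a b => t * G a b) c = t * qf G c := by
  simp only [qf, Finset.mul_sum]
  exact Finset.sum_congr rfl fun a _ => Finset.sum_congr rfl fun b _ => by ring

lemma mu_qf_sum {S I : Type} [Fintype S] (s : Finset I) (G : I → S → S → ℝ) (c : S → ℝ) :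
    qf (fun a b => ∑ k ∈ s, G k a b) c = ∑ k ∈ s, qf (G k) c := by
  simp only [qf, Finset.mul_sum]
  rw [Finset.sum_comm (s := s)]
  refine Finset.sum_congr rfl fun a _ => ?_
  rw [Finset.sum_comm (s := s)]

/-- The hopping form in one coordinate of a coefficient array. -/
lemma mu_hop_coord {N : ℕ} (i : Fin N) (c : (Fin N → Arm M) → ℝ) :
    ∑ α, ∑ b, c α * c (update α i b) * muHop (α i) b =
      ∑ α, (c α - (∑ b, c (update α i ((α i).1, b))) / 3) ^ 2 := by
  set m : (Fin N → Arm M) → ℝ := fun α => (∑ b, c (update α i ((α i).1, b))) / 3 with hm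
  have h1 : ∑ α, ∑ b, c α * c (update α i b) * muHop (α i) b = ∑ α, c α * (c α - m α) := by
    refine Finset.sum_congr rfl fun α _ => ?_
    have := mu_hop_row (α i) fun b => c (update α i b)
    rw [update_eq_self] at this
    rw [hm]
    simp only
    rw [← this, Finset.mul_sum]
    exact Finset.sum_congr rfl fun b _ => by ring
  let e : (Fin N → Arm M) × Fin 3 → (Fin N → Arm M) × Fin 3 :=
    fun p => (update p.1 i ((p.1 i).1, p.2), (p.1 i).2)
  have he : Involutive e := by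
    intro p
    simp [e]
  have h2 : ∑ p : (Fin N → Arm M) × Fin 3, m p.1 * c (e p).1 =
      ∑ p : (Fin N → Arm M) × Fin 3, m p.1 * c p.1 := by
    rw [← Equiv.sum_comp he.toPerm]
    refine Finset.sum_congr rfl fun p _ => ?_
    rw [Involutive.coe_toPerm, he p]
    simp [e, hm]
  rw [Fintype.sum_prod_type, Fintype.sum_prod_type] at h2
  have h3 : ∀ α, ∑ b : Fin 3, m α * c (e (α, b)).1 = 3 * m α ^ 2 := by
    intro α
    rw [← Finset.mul_sum]
    have : ∑ b : Fin 3, c (e (α, b)).1 = 3 * m α := by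
      simp only [e, hm]; ring
    rw [this]; ring
  have h4 : ∀ α, ∑ _b : Fin 3, m α * c α = 3 * (m α * c α) := by
    intro α; simp
  simp only [h3, h4, ← Finset.mul_sum] at h2
  have h5 : ∑ α, (c α - m α) ^ 2 = ∑ α, c α * (c α - m α) + (∑ α, m α ^ 2 - ∑ α, m α * c α) := by
    rw [← Finset.sum_sub_distrib, ← Finset.sum_add_distrib]
    exact Finset.sum_congr rfl fun α _ => by ring
  rw [h1]
  change _ = ∑ α, (c α - m α) ^ 2
  rw [h5]
  linarith

end Vale.Agent.P370
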