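import Vale.Agent.P370.MassC

/-!
Masses of the rows, and the two families of orbitals.
-/

namespace Vale.Agent.P370

open MeasureTheory Set
open scoped ContDiff

/-- A rectangular box of height two. -/
def mdQ (cx hx cy hy : ℝ) : Set Pt := {x | |x 0 - cx| ≤ hx ∧ |x 1 - cy| ≤ hy ∧ |x 2| ≤ 1}

/-- The transverse profile. -/
noncomputable def mdE (G : Geo) (x : Pt) : ℝ := Real.exp (-(G.Ω * x 2 ^ 2))

lemma md_compact (cx hx cy hy : ℝ) : IsCompact (mdQ cx hx cy hy) := by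
  have k : ∀ (i : Fin 3) (c h : ℝ), IsClosed {x : Pt | |x i - c| ≤ h} := fun i c h =>
    isClosed_le (by fun_prop) continuous_const
  have k' : IsClosed {x : Pt | |x 2| ≤ 1} := isClosed_le (by fun_prop) continuous_const
  refine (isCompact_box (|cx| + hx) (|cy| + hy) 1).of_isClosed_subset
    ((k 0 cx hx).inter ((k 1 cy hy).inter k')) fun x h => ⟨?_, ?_, h.2.2⟩
  · linarith [abs_sub_abs_le_abs_sub (x 0) cx, h.1]
  · linarith [abs_sub_abs_le_abs_sub (x 1) cy, h.2.1]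

lemma md_int (G : Geo) (cx hx cy hy : ℝ) : Integrable ((mdQ cx hx cy hy).indicator (mdE G)) :=
  (ContinuousOn.integrableOn_compact (md_compact _ _ _ _)
    (Continuous.continuousOn (by unfold mdE; fun_prop))).integrable_indicator
    (md_compact _ _ _ _).measurableSet

lemma md_val (G : Geo) (cx cy : ℝ) {hx hy : ℝ} (h1 : 0 ≤ hx) (h2 : 0 ≤ hy) :
    ∫ x, (mdQ cx hx cy hy).indicator (mdE G) x = 4 * hx * hy * G.Iz := by
  have e : (mdQ cx hx cy hy).indicator (mdE G) = fun x =>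
      (Icc (cx - hx) (cx + hx)).indicator 1 (x 0) * (Icc (cy - hy) (cy + hy)).indicator 1 (x 1) *
        (Icc (-1) 1).indicator (fun z => Real.exp (-(G.Ω * z ^ 2))) (x 2) := by
    funext x
    have k : ∀ c h t : ℝ, t ∈ Icc (c - h) (c + h) ↔ |t - c| ≤ h := fun c h t => by
      rw [mem_Icc, abs_le]; constructor <;> rintro ⟨_, _⟩ <;> constructor <;> linarith
    have k' : x 2 ∈ Icc (-1 : ℝ) 1 ↔ |x 2| ≤ 1 := abs_le.symm
    simp only [indicator, k, k', mdQ, mem_ofPred_eq, mdE, Pi.one_apply]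
    by_cases a : |x 0 - cx| ≤ hx <;> by_cases b : |x 1 - cy| ≤ hy <;> by_cases c : |x 2| ≤ 1 <;>
      simp [a, b, c]
  rw [e, integral_pt_prod, integral_indicator_one measurableSet_Icc,
    integral_indicator_one measurableSet_Icc, integral_indicator measurableSet_Icc,
    Real.volume_real_Icc_of_le (by linarith), Real.volume_real_Icc_of_le (by linarith), Geo.Iz]
  ring

lemma md_A (G : Geo) (r : ℕ) :
    G.A r = mdQ ((G.l / 4 - 1) / 2) ((G.l / 4 + 1) / 2) (G.d * r) (G.d / 4) := by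
  ext x
  simp only [Geo.A, mdQ, mem_ofPred_eq, abs_le (a := x 0 - _), ← and_assoc]
  refine and_congr_left' (and_congr_left' ?_)
  constructor <;> rintro ⟨_, _⟩ <;> constructor <;> linarith

lemma md_E_pos (G : Geo) (x : Pt) : 0 < mdE G x := Real.exp_pos _

lemma md_ind (G : Geo) (S : Set Pt) (x : Pt) : 0 ≤ S.indicator (mdE G) x :=
  indicator_nonneg (fun x _ => (md_E_pos G x).le) x

variable {G : Geo} {V : ℕ → ℕ → ℕ}

lemma md_well_sub (S : G.mbSz) {s r : ℕ} (hs : s < G.st.length) {e : ℝ} (he : e ≤ 1) {x : Pt}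
    (h : x ∈ rect (G.well s r) e) (h2 : |x 2| ≤ 1) : x ∈ G.A r := by
  rw [Geo.mb_well, abs_le] at h
  have := mb_col S hs
  have := mc_d S
  have p1 := mb_pw S.n (show 0 < 24 by norm_num)
  have p2 := mb_pw S.n (show 24 < 26 by norm_num)
  exact ⟨by linarith, by rw [S.l]; linarith, by linarith, h2⟩

lemma md_wire_sub (S : G.mbSz) {r : ℕ} {x : Pt} (h : x ∈ rect (G.wire r) G.ξ) (h2 : |x 2| ≤ 1) :
    x ∈ G.A r := by
  rw [Geo.mb_wire, abs_le] at h
  have := S.X_le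
  have := S.ξ_le
  have := mc_d S
  have p1 := mb_pw S.n (show 0 < 24 by norm_num)
  have p2 := mb_pw S.n (show 24 < 26 by norm_num)
  exact ⟨by linarith, by rw [S.l]; linarith, by linarith, h2⟩

lemma md_A_inj (S : G.mbSz) {r r' : ℕ} {x : Pt} (h : x ∈ G.A r) (h' : x ∈ G.A r') : r = r' := by
  have a := abs_le.1 h.2.2.1
  have b := abs_le.1 h'.2.2.1
  have := mc_d S
  exact mc_nat_eq (c := G.d) (abs_lt.2 ⟨by linarith, by linarith⟩)

lemma md_mem_sts {s r : ℕ} (h : s ∈ G.sts r) : s < G.st.length :=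
  Finset.mem_range.1 (Finset.mem_filter.1 h).1

lemma md_upper (h : G.OK V) (H : mcV G) {r : ℕ} (hr : r < 3 * G.M) {x : Pt} (hx : x ∈ G.A r) :
    G.m x * mdE G x ≤ (∑ s ∈ G.sts r,
      (mdQ (G.D * (s + 1)) (1 + G.ξ) (G.d * r) (1 + G.ξ)).indicator (mdE G) x) +
      10 * (1 / (G.n : ℝ) ^ 49) * (G.A r).indicator (mdE G) x := by
  have a1 := mc_m_le h H x
  rw [Finset.sum_eq_single_of_mem r (Finset.mem_range.2 hr) fun r' _ hne =>
    Finset.sum_eq_zero fun s hs => indicator_of_notMem (fun hw => hne (md_A_inj H.S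
      (md_well_sub H.S (md_mem_sts hs) (by linarith [H.S.ξ_le]) hw hx.2.2.2) hx)) _] at a1
  refine (mul_le_mul_of_nonneg_right a1 (md_E_pos G x).le).trans (le_of_eq ?_)
  rw [add_mul, Finset.sum_mul, indicator_of_mem hx]
  congr 1
  refine Finset.sum_congr rfl fun s _ => ?_
  have : x ∈ rect (G.well s r) G.ξ ↔ x ∈ mdQ (G.D * (s + 1)) (1 + G.ξ) (G.d * r) (1 + G.ξ) := by
    simp only [Geo.mb_well, mdQ, mem_ofPred_eq, hx.2.2.2, and_true]
  by_cases hw : x ∈ rect (G.well s r) G.ξ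
  · rw [indicator_of_mem hw, indicator_of_mem (this.1 hw), Pi.one_apply, one_mul]
  · rw [indicator_of_notMem hw, indicator_of_notMem (fun h => hw (this.2 h)), zero_mul]

lemma md_lower (h : G.OK V) (H : mcV G) {r : ℕ} (hr : r < 3 * G.M) (x : Pt) :
    (∑ s ∈ G.sts r, (1 - 2 / 2 ^ G.n) *
      (mdQ (G.D * (s + 1)) (1 + -G.ξ) (G.d * r) (1 + -G.ξ)).indicator (mdE G) x) ≤
      (G.A r).indicator (fun x => G.m x * mdE G x) x := by
  have key : ∀ s : ℕ, x ∈ mdQ (G.D * (s + 1)) (1 + -G.ξ) (G.d * r) (1 + -G.ξ) →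
      x ∈ rect (G.well s r) (-G.ξ) := fun s hs => (G.mb_well _ _ _ _).2 ⟨hs.1, hs.2.1⟩
  by_cases hx : x ∈ G.A r
  · have a1 : ∑ s ∈ G.sts r, fv G.k (G.well s r) x ≤ G.m x := by
      rw [h.m_eq]
      refine le_add_of_le_of_nonneg (le_trans ?_ (Finset.single_le_sum (fun r _ => ?_)
        (Finset.mem_range.2 hr))) (Finset.sum_nonneg fun m _ => (H.hub m x).1)
      · linarith [(H.wire r x).1, (H.link r x).1]
      · exact add_nonneg (add_nonneg (Finset.sum_nonneg fun s _ => (H.well s r x).1)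
          (H.wire r x).1) (H.link r x).1
    rw [indicator_of_mem hx]
    refine le_trans ?_ (mul_le_mul_of_nonneg_right a1 (md_E_pos G x).le)
    rw [Finset.sum_mul]
    refine Finset.sum_le_sum fun s _ => ?_
    by_cases hw : x ∈ mdQ (G.D * (s + 1)) (1 + -G.ξ) (G.d * r) (1 + -G.ξ)
    · rw [indicator_of_mem hw]
      exact mul_le_mul_of_nonneg_right ((H.well s r x).2.2 (key s hw)) (md_E_pos G x).le
    · rw [indicator_of_notMem hw, mul_zero]
      exact mul_nonneg (H.well s r x).1 (md_E_pos G x).le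
  · rw [indicator_of_notMem hx]
    refine (Finset.sum_eq_zero fun s hs => ?_).le
    rw [indicator_of_notMem (fun hw => hx (md_well_sub H.S (md_mem_sts hs)
      (by linarith [H.S.ξ_pos]) (key s hw) hw.2.2)), mul_zero]

lemma md_A_compact (G : Geo) (r : ℕ) : IsCompact (G.A r) := md_A G r ▸ md_compact _ _ _ _

theorem mass_bounds : Ev fun G _ => ∀ r < 3 * G.M,
    |G.mass r - 4 * G.J * G.Iz| ≤ G.J * G.Iz / (G.n : ℝ) ^ 18 := by
  refine ((mc_ev.and φ0_pos).and (m_pos.and Iz_bounds)).mono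
    fun G V h ⟨⟨H, _, _, _, p4⟩, ⟨m1, _⟩, i1, _⟩ r hr => ?_
  have S := H.S
  have hn := S.n
  have hA := (md_A_compact G r).measurableSet
  have hI : Integrable ((G.A r).indicator fun x => G.m x * mdE G x) :=
    (ContinuousOn.integrableOn_compact (md_A_compact G r) (Continuous.continuousOn
      (m1.continuous.mul (by unfold mdE; fun_prop)))).integrable_indicator hA
  have e : G.mass r = ∫ x, (G.A r).indicator (fun x => G.m x * mdE G x) x := by
    rw [integral_indicator hA]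
    exact setIntegral_congr_fun hA fun x hx => p4 x (hx.2.2.2.trans (by norm_num))
  have hIA : Integrable ((G.A r).indicator (mdE G)) := md_A G r ▸ md_int G _ _ _ _
  have x0 := S.ξ_pos
  have x1 := S.ξ_le
  have hd := mc_d S
  have hl : (0 : ℝ) ≤ G.l := Nat.cast_nonneg _
  have up := integral_mono hI ((integrable_finsetSum (G.sts r) fun s _ =>
    md_int G (G.D * (s + 1)) (1 + G.ξ) (G.d * r) (1 + G.ξ)).add
      (hIA.const_mul (10 * (1 / (G.n : ℝ) ^ 49)))) fun x => by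
    by_cases hx : x ∈ G.A r
    · rw [indicator_of_mem hx]; exact md_upper h H hr hx
    · rw [indicator_of_notMem hx]
      exact add_nonneg (Finset.sum_nonneg fun s _ => md_ind _ _ _)
        (mul_nonneg (by positivity) (md_ind _ _ _))
  have lo := integral_mono (integrable_finsetSum (G.sts r) fun s _ =>
    (md_int G (G.D * (s + 1)) (1 + -G.ξ) (G.d * r) (1 + -G.ξ)).const_mul (1 - 2 / 2 ^ G.n)) hI
    (md_lower h H hr)
  simp only [Pi.add_apply] at up
  rw [integral_add (integrable_finsetSum _ fun s _ => md_int G _ _ _ _) (hIA.const_mul _),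
    integral_finsetSum _ fun s _ => md_int G _ _ _ _, integral_const_mul, ← e, md_A,
    md_val G _ _ (by linarith) (by linarith)] at up
  rw [integral_finsetSum _ fun s _ => (md_int G _ _ _ _).const_mul _, ← e] at lo
  simp only [integral_const_mul, md_val G _ _ (show 0 ≤ 1 + G.ξ by linarith)
    (show 0 ≤ 1 + G.ξ by linarith), md_val G _ _ (show 0 ≤ 1 + -G.ξ by linarith)
    (show 0 ≤ 1 + -G.ξ by linarith), Finset.sum_const, h.card_sts hr, nsmul_eq_mul] at up lo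
  have hz : 0 < G.Iz := lt_of_lt_of_le (by positivity) i1
  have hJ : (0 : ℝ) ≤ G.J := Nat.cast_nonneg _
  have hP : 0 ≤ G.J * G.Iz := by positivity
  have q1 : 100 * G.ξ ≤ 1 / (G.n : ℝ) ^ 18 := by
    rw [Geo.ξ, mul_one_div, div_le_div_iff₀ (by positivity) (by positivity), one_mul]
    exact mb_pw hn (by norm_num)
  have q2 : (1 : ℝ) / 2 ^ G.n ≤ G.ξ := mc_eps_le S (by norm_num)
  have q3 : 10 * (1 / (G.n : ℝ) ^ 49) * (4 * ((G.l / 4 + 1) / 2) * (G.d / 4)) ≤ G.J * G.ξ := by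
    have p1 := mb_pw hn (show 0 < 26 by norm_num)
    rw [S.l, S.d, S.J, Geo.ξ]
    calc _ ≤ 10 * (1 / (G.n : ℝ) ^ 49) * (4 * ((G.n : ℝ) ^ 26 / 2) * ((G.n : ℝ) ^ 6 / 4)) := by
          gcongr; linarith
      _ = 5 * ((G.n : ℝ) ^ 3 * (1 / (G.n : ℝ) ^ 20)) := by field_simp; norm_num
      _ ≤ G.n * ((G.n : ℝ) ^ 3 * (1 / (G.n : ℝ) ^ 20)) := by gcongr; linarith
      _ = _ := by ring
  have q4 := mul_le_mul_of_nonneg_right q3 hz.le
  have q5 := mul_le_mul_of_nonneg_left q1 hP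
  have q6 : 4 * (1 + G.ξ) * (1 + G.ξ) ≤ 4 + 9 * G.ξ := by nlinarith
  have q7 : 4 - 16 * G.ξ ≤ (1 - 2 / 2 ^ G.n) * (4 * (1 + -G.ξ) * (1 + -G.ξ)) := by
    rw [show (2 : ℝ) / 2 ^ G.n = 2 * (1 / 2 ^ G.n) by ring]
    have : (1 - 2 * G.ξ) * (4 * (1 + -G.ξ) * (1 + -G.ξ)) ≤
        (1 - 2 * (1 / 2 ^ G.n)) * (4 * (1 + -G.ξ) * (1 + -G.ξ)) :=
      mul_le_mul_of_nonneg_right (by linarith) (by nlinarith)
    nlinarith
  have q8 := mul_le_mul_of_nonneg_left q6 hP
  have q9 := mul_le_mul_of_nonneg_left q7 hP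
  have q10 := mul_nonneg hP x0.le
  rw [div_eq_mul_one_div, abs_le]
  constructor <;> linarith

theorem md_mass : Ev fun G _ => 0 < G.Iz ∧ ∀ a : Arm G.M, 3 * G.J * G.Iz ≤ G.mass (row a) ∧
    0 < G.mass (row a) := by
  refine (mb_ev.and (mass_bounds.and Iz_bounds)).mono fun G V _ ⟨S, h, i1, _⟩ => ?_
  have hn := S.n
  have hz : 0 < G.Iz := lt_of_lt_of_le (by positivity) i1
  refine ⟨hz, fun a => ?_⟩
  have h1 := (abs_le.1 (h _ (mc_row_lt a))).1
  have hP : 0 < G.J * G.Iz := by rw [S.J]; positivity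
  have h2 : G.J * G.Iz / (G.n : ℝ) ^ 18 ≤ G.J * G.Iz :=
    div_le_self hP.le (one_le_pow₀ (by linarith))
  constructor <;> linarith

lemma md_row_inj {M : ℕ} {a b : Arm M} (h : row a = row b) : a = b := by
  have := a.2.2
  have := b.2.2
  unfold row at h
  exact Prod.ext (Fin.ext (by omega)) (Fin.ext (by omega))

theorem sharp : Ev fun G _ => Sharp G.φ := by
  refine (mb_ev.and (md_mass.and φ0_pos)).mono fun G V _ ⟨S, ⟨_, hm⟩, p1, p2, p3, _⟩ => ?_
  refine ⟨fun a => ⟨(p1.continuous.measurable.div_const _).indicator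
    (md_A_compact G _).measurableSet, 2 / √(G.mass (row a)), fun x => ?_⟩, ⟨G.l, fun a x hx => ?_⟩,
    fun a b x hab => ?_, fun a => ?_⟩
  · have h1 : G.φ0 x ≤ 2 := by nlinarith [p2 x, p3 x]
    have h2 := p2 x
    unfold Geo.φ
    by_cases hx : x ∈ G.A (row a)
    · rw [indicator_of_mem hx, abs_of_nonneg (by positivity)]; gcongr
    · rw [indicator_of_notMem hx, abs_zero]; positivity
  · obtain ⟨h1, h2, h3, h4⟩ := mem_of_indicator_ne_zero hx
    have h5 := mb_row S (mc_row_lt a)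
    have hd := mc_d S
    have p1 := mb_pw S.n (show 0 < 7 by norm_num)
    have p2 := mb_pw S.n (show 7 < 26 by norm_num)
    have hl := S.l
    rw [abs_le] at h3 h4
    refine (pi_norm_le_iff_of_nonneg (Nat.cast_nonneg _)).2 fun i => ?_
    rw [Real.norm_eq_abs, abs_le]
    fin_cases i <;> simp only [Fin.zero_eta, Fin.mk_one, Fin.reduceFinMk] <;> constructor <;>
      linarith
  · by_contra h
    obtain ⟨h1, h2⟩ := mul_ne_zero_iff.1 h
    exact hab (md_row_inj (md_A_inj S (mem_of_indicator_ne_zero h1) (mem_of_indicator_ne_zero h2)))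
  · have e : (fun x => G.φ a x ^ 2) =
        (G.A (row a)).indicator fun x => G.φ0 x ^ 2 / G.mass (row a) := by
      funext x
      unfold Geo.φ
      by_cases hx : x ∈ G.A (row a)
      · rw [indicator_of_mem hx, indicator_of_mem hx, div_pow, Real.sq_sqrt (hm a).2.le]
      · simp [indicator_of_notMem hx]
    rw [e, integral_indicator (md_A_compact G _).measurableSet, integral_div]
    exact div_self (hm a).2.ne'

lemma md_agree (S : G.mbSz) (hr : ∀ t : ℝ, -1 ≤ t → G.ramp t = 1) (a : Arm G.M) {b : Arm G.M}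
    {x : Pt} (hx : x ∈ G.A (row b)) : G.η a x = G.φ a x := by
  have p1 := mb_pw S.n (show 0 < 26 by norm_num)
  have hl := S.l
  have hd := mc_d S
  have e : G.θ a x = bmp (G.d / 4) (x 1 - G.d * row a) := by
    rw [Geo.θ, bmp_one (abs_le.2 ⟨by linarith [hx.1], hx.2.1⟩), bmp_one hx.2.2.2, hr _ hx.1]
    ring
  rw [Geo.η, e, Geo.φ]
  by_cases ha : x ∈ G.A (row a)
  · rw [indicator_of_mem ha, bmp_one ha.2.2.1, mul_one]
  · rw [indicator_of_notMem ha, bmp_zero (not_lt.1 fun h => ha ?_), mul_zero, zero_div]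
    have h1 := abs_lt.1 h
    have h2 := abs_le.1 hx.2.2.1
    rwa [mc_nat_eq (c := G.d) (a := row a) (b := row b) (abs_lt.2 ⟨by linarith, by linarith⟩)]

lemma md_θ (hr : ∀ t, 0 ≤ G.ramp t ∧ G.ramp t ≤ 1) (a : Arm G.M) (x : Pt) : G.θ a x ^ 2 ≤ 1 := by
  have a1 := hr (x 0)
  have a2 := bmp_nonneg (G.d / 4) (x 1 - G.d * row a)
  have a3 := bmp_le_one (G.d / 4) (x 1 - G.d * row a)
  have a4 := bmp_nonneg (5 * G.d / 4) (x 1 - G.d * (3 * a.1.val + 1))
  have a5 := bmp_le_one (5 * G.d / 4) (x 1 - G.d * (3 * a.1.val + 1))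
  have a6 : 0 ≤ (1 - G.ramp (x 0)) / 3 := by linarith
  have b1 := add_nonneg (mul_nonneg a1.1 a2) (mul_nonneg a6 a4)
  refine pow_le_one₀ (mul_nonneg (mul_nonneg (bmp_nonneg _ _) (bmp_nonneg _ _)) b1)
    (mul_le_one₀ (mul_le_one₀ (bmp_le_one _ _) (bmp_nonneg _ _) (bmp_le_one _ _)) b1 ?_)
  linarith [mul_le_of_le_one_right a1.1 a3, mul_le_of_le_one_right a6 a5]

/-- Majorant of the reference density away from the rows. -/
noncomputable def mdG (G : Geo) (x : Pt) : ℝ :=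
  (box (G.l / 2) (G.l / 2) 2).indicator (fun _ => 2 * (G.Iz / 2 ^ G.n)) x +
    4 * G.n * G.w * (mdQ 0 (G.l / 2) 0 (G.l / 2)).indicator (mdE G) x +
    ∑ m ∈ Finset.range G.M, G.w * (G.n : ℝ) ^ 60 *
      (mdQ (-(G.Lk + 1)) (1 + G.ξ) (G.d * (3 * m + 1)) (G.d + 1 + G.ξ)).indicator (mdE G) x

lemma md_G_int (S : G.mbSz) (hz : 0 < G.Iz) :
    Integrable (mdG G) ∧ ∫ x, mdG G x ≤ (G.n : ℝ) ^ 68 * G.w * G.Iz := by
  have i1 : Integrable ((box (G.l / 2) (G.l / 2) 2).indicator fun _ => 2 * (G.Iz / 2 ^ G.n)) :=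
    (ContinuousOn.integrableOn_compact (isCompact_box _ _ _)
      continuousOn_const).integrable_indicator (measurableSet_box _ _ _)
  have i2 := (md_int G 0 (G.l / 2) 0 (G.l / 2)).const_mul (4 * G.n * G.w)
  have i3 := fun m : ℕ => (md_int G (-(G.Lk + 1)) (1 + G.ξ) (G.d * (3 * m + 1))
    (G.d + 1 + G.ξ)).const_mul (G.w * (G.n : ℝ) ^ 60)
  have i4 := integrable_finsetSum (Finset.range G.M) fun m _ => i3 m
  refine ⟨(i1.add i2).add i4, ?_⟩
  have hn := S.n
  have x0 := S.ξ_pos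
  have x1 := S.ξ_le
  have hd := mc_d S
  have hw := S.w_pos
  unfold mdG
  have i12 : Integrable fun x => (box (G.l / 2) (G.l / 2) 2).indicator
      (fun _ => 2 * (G.Iz / 2 ^ G.n)) x +
      4 * G.n * G.w * (mdQ 0 (G.l / 2) 0 (G.l / 2)).indicator (mdE G) x := i1.add i2
  rw [integral_add i12 i4, integral_add i1 i2, integral_finsetSum _ fun m _ => i3 m,
    integral_indicator_const _ (measurableSet_box _ _ _),
    volume_box (by positivity) (by positivity) (by norm_num)]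
  simp only [integral_const_mul, md_val G _ _ (show (0 : ℝ) ≤ G.l / 2 by positivity)
    (show (0 : ℝ) ≤ G.l / 2 by positivity), md_val G _ _ (show 0 ≤ 1 + G.ξ by linarith)
    (show 0 ≤ G.d + 1 + G.ξ by linarith), Finset.sum_const, Finset.card_range, nsmul_eq_mul,
    smul_eq_mul]
  have a1 := mul_le_mul_of_nonneg_right (S.eps (a := 52) (by norm_num)) hz.le
  have hP : 0 < G.w * G.Iz := by positivity
  have a2 : (G.M : ℝ) * (G.w * (G.n : ℝ) ^ 60 * (4 * (1 + G.ξ) * (G.d + 1 + G.ξ) * G.Iz)) ≤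
      G.n * (G.w * (G.n : ℝ) ^ 60 * (4 * 2 * (2 * (G.n : ℝ) ^ 6) * G.Iz)) := by
    have := S.M
    have := S.d
    gcongr <;> linarith
  have a3 := mul_le_mul_of_nonneg_right (mb_pw hn (show 0 < 53 by norm_num)) hP.le
  have a4 := mul_le_mul_of_nonneg_right (mb_pw hn (show 53 < 67 by norm_num)) hP.le
  have a5 := mul_le_mul_of_nonneg_right (mb_pw hn (show 67 < 68 by norm_num)) hP.le
  rw [S.l]
  ring_nf at a1 a2 a3 a4 a5 hP ⊢
  linarith

lemma md_G_nonneg (S : G.mbSz) (hz : 0 < G.Iz) (x : Pt) :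
    0 ≤ (box (G.l / 2) (G.l / 2) 2).indicator (fun _ => 2 * (G.Iz / 2 ^ G.n)) x ∧
    0 ≤ 4 * G.n * G.w * (mdQ 0 (G.l / 2) 0 (G.l / 2)).indicator (mdE G) x ∧
    0 ≤ ∑ m ∈ Finset.range G.M, G.w * (G.n : ℝ) ^ 60 *
      (mdQ (-(G.Lk + 1)) (1 + G.ξ) (G.d * (3 * m + 1)) (G.d + 1 + G.ξ)).indicator (mdE G) x := by
  have hw := S.w_pos
  exact ⟨indicator_nonneg (fun _ _ => by positivity) x, mul_nonneg (by positivity) (md_ind _ _ _),
    Finset.sum_nonneg fun m _ => mul_nonneg (by positivity) (md_ind _ _ _)⟩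

lemma md_off (h : G.OK V) (H : mcV G) (hz : 0 < G.Iz) (hm : ∀ x, G.m x ≤ 2)
    (he : ∀ z : ℝ, 1 ≤ |z| → Real.exp (-(G.Ω * z ^ 2)) ≤ G.Iz / 2 ^ G.n) {x : Pt}
    (hb : x ∈ box (G.l / 2) (G.l / 2) 2) (hx : ∀ r < 3 * G.M, x ∉ G.A r) :
    G.m x * mdE G x ≤ mdG G x := by
  obtain ⟨n1, n2, n3⟩ := md_G_nonneg H.S hz x
  have hE := md_E_pos G x
  unfold mdG
  rcases le_total 1 |x 2| with h2 | h2
  · rw [indicator_of_mem hb]
    have := mul_le_mul (hm x) (he _ h2) hE.le zero_le_two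
    unfold mdE at *
    linarith
  · have a1 := mc_m_le' h H (x := x) (fun r hr s hs hw =>
      hx r hr (md_well_sub H.S hs (by linarith [H.S.ξ_le]) hw h2))
      fun r hr hw => hx r hr (md_wire_sub H.S hw h2)
    refine (mul_le_mul_of_nonneg_right a1 hE.le).trans ?_
    rw [indicator_of_mem (s := mdQ 0 _ 0 _) ⟨by simpa using hb.1, by simpa using hb.2.1, h2⟩,
      add_mul, Finset.sum_mul, add_assoc]
    refine le_add_of_nonneg_of_le n1 (add_le_add le_rfl (Finset.sum_le_sum fun m _ => ?_))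
    rw [mul_assoc]
    refine mul_le_mul_of_nonneg_left ?_ (mul_nonneg H.S.w_pos.le (by positivity))
    by_cases hw : x ∈ rect (G.hub m) G.ξ
    · rw [indicator_of_mem hw, Pi.one_apply, one_mul, indicator_of_mem]
      rw [Geo.mb_hub] at hw
      exact ⟨by rw [sub_neg_eq_add]; exact hw.1, hw.2, h2⟩
    · rw [indicator_of_notMem hw, zero_mul]; exact md_ind _ _ _

theorem soft : Ev fun G _ => Soft G.φ G.η ((G.n : ℝ) ^ 80 * G.w) := by
  refine (((mc_ev.and md_mass).and (φ0_pos.and m_pos)).and ((Iz_bounds.and ramp_facts).and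
    η_supp)).mono fun G V h ⟨⟨⟨H, hz, hm⟩, ⟨p1, _, _, p4⟩, _, m2⟩,
      ⟨⟨_, _, i3, _⟩, r1, r2, r3, _⟩, hs⟩ => ?_
  have S := H.S
  have hn := S.n
  refine ⟨fun a => ⟨?_, (isCompact_box _ _ _).of_isClosed_subset (isClosed_tsupport _) (hs a)⟩,
    fun a b x hx => md_agree S r3 a (mem_of_indicator_ne_zero hx), fun c => ?_⟩
  · have hb : ∀ (t : ℝ) (i : Fin 3) (u : ℝ), ContDiff ℝ ∞ fun x : Pt => bmp t (x i - u) :=
      fun t i u => (contDiff_bmp t).comp ((contDiff_apply ℝ ℝ i).sub contDiff_const)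
    have hb' : ∀ (t : ℝ) (i : Fin 3), ContDiff ℝ ∞ fun x : Pt => bmp t (x i) :=
      fun t i => (contDiff_bmp t).comp (contDiff_apply ℝ ℝ i)
    have hr : ContDiff ℝ ∞ fun x : Pt => G.ramp (x 0) := r1.comp (contDiff_apply ℝ ℝ 0)
    exact (p1.mul (((hb' _ 0).mul (hb' _ 2)).mul ((hr.mul (hb _ 1 _)).add
      (((contDiff_const.sub hr).div_const 3).mul (hb _ 1 _))))).div_const _
  · obtain ⟨g1, g2⟩ := md_G_int S hz
    have hc : 0 ≤ ∑ a, c a ^ 2 := Finset.sum_nonneg fun a _ => sq_nonneg _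
    have pt : ∀ x, (lc G.η c x - lc G.φ c x) ^ 2 ≤ (∑ a, c a ^ 2) * G.Iz⁻¹ * mdG G x := by
      intro x
      obtain ⟨n1, n2, n3⟩ := md_G_nonneg S hz x
      have hG : 0 ≤ (∑ a, c a ^ 2) * G.Iz⁻¹ * mdG G x :=
        mul_nonneg (by positivity) (add_nonneg (add_nonneg n1 n2) n3)
      by_cases hx : ∃ b : Arm G.M, x ∈ G.A (row b)
      · obtain ⟨b, hb⟩ := hx
        simpa [lc, md_agree S r3 _ hb] using hG
      have e : lc G.φ c x = 0 := Finset.sum_eq_zero fun a _ => by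
        rw [Geo.φ, indicator_of_notMem fun h => hx ⟨a, h⟩, mul_zero]
      rw [e, sub_zero]
      by_cases hb : x ∈ box (G.l / 2) (G.l / 2) 2
      swap
      · have e' : lc G.η c x = 0 := Finset.sum_eq_zero fun a _ => by
          rw [image_eq_zero_of_notMem_tsupport fun h => hb (hs a h), mul_zero]
        simpa [e'] using hG
      have a1 := md_off h H hz (fun x => (m2 x).2) i3 hb fun r hr hA => hx
        ⟨(⟨r / 3, by omega⟩, ⟨r % 3, by omega⟩), by rwa [row, Nat.div_add_mod]⟩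
      rw [mdE, ← p4 x (hb.2.2.trans (by norm_num))] at a1
      have hP : 0 < 3 * G.J * G.Iz := by rw [S.J]; positivity
      have a2 : ∀ a, G.η a x ^ 2 ≤ G.φ0 x ^ 2 / (3 * G.J * G.Iz) := fun a => by
        rw [Geo.η, div_pow, mul_pow, Real.sq_sqrt (hm a).2.le]
        exact div_le_div₀ (sq_nonneg _) (mul_le_of_le_one_right (sq_nonneg _) (md_θ r2 a x)) hP
          (hm a).1
      have a3 : ∑ a, G.η a x ^ 2 ≤ G.Iz⁻¹ * G.φ0 x ^ 2 := by
        refine (Finset.sum_le_card_nsmul _ _ _ fun a _ => a2 a).trans ?_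
        have hMJ : (G.M : ℝ) ≤ G.J := by
          rw [S.J]; linarith [S.M, mb_pw hn (show 1 < 4 by norm_num)]
        rw [Finset.card_univ, Fintype.card_prod, Fintype.card_fin, Fintype.card_fin, nsmul_eq_mul,
          ← mul_div_assoc, div_le_iff₀ hP]
        push_cast
        calc (G.M : ℝ) * 3 * G.φ0 x ^ 2 ≤ G.J * 3 * G.φ0 x ^ 2 := by gcongr
          _ = _ := by field_simp
      refine (Finset.sum_mul_sq_le_sq_mul_sq _ _ _).trans ?_
      rw [mul_assoc]
      exact mul_le_mul_of_nonneg_left (a3.trans (mul_le_mul_of_nonneg_left a1 (by positivity))) hc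
    refine (integral_mono_of_nonneg (Filter.Eventually.of_forall fun x => sq_nonneg _)
      (g1.const_mul _) (Filter.Eventually.of_forall pt)).trans ?_
    have hw := S.w_pos
    rw [integral_const_mul]
    calc (∑ a, c a ^ 2) * G.Iz⁻¹ * ∫ x, mdG G x
        ≤ (∑ a, c a ^ 2) * G.Iz⁻¹ * ((G.n : ℝ) ^ 68 * G.w * G.Iz) := by gcongr
      _ = (G.n : ℝ) ^ 68 * G.w * ∑ a, c a ^ 2 := by field_simp
      _ ≤ _ := by gcongr <;> linarith

end Vale.Agent.P370
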