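import Vale.Agent.P370.MassA

/-!
Pointwise facts on the features.
-/

namespace Vale.Agent.P370

open MeasureTheory Set
open scoped ContDiff

/-- Value of a feature. -/
noncomputable def fv (k : ℕ) (f : Feat) (x : Pt) : ℝ :=
  (f.1 : ℝ) * pp ℝ k ((x 0 - f.2.1) / f.2.2.1) * pp ℝ k ((x 1 - f.2.2.2.1) / f.2.2.2.2)

/-- The rectangle of a feature, enlarged by `e`. -/
def rect (f : Feat) (e : ℝ) : Set Pt :=
  {x | |x 0 - f.2.1| ≤ f.2.2.1 + e ∧ |x 1 - f.2.2.2.1| ≤ f.2.2.2.2 + e}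

lemma mb_sum_getD {α β : Type} [AddCommMonoid β] (l : List α) (d : α) (f : α → β) :
    ∑ s ∈ Finset.range l.length, f (l.getD s d) = (l.map f).sum := by
  induction l with
  | nil => simp
  | cons a l ih =>
    rw [List.length_cons, Finset.sum_range_succ', List.map_cons, List.sum_cons, ← ih, add_comm]
    simp

lemma mb_card {α : Type} (l : List α) (d : α) (p : α → Bool) :
    ((Finset.range l.length).filter fun s => p (l.getD s d) = true).card = l.countP p := by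
  rw [Finset.card_filter, mb_sum_getD l d fun a => if p a = true then 1 else 0]
  induction l with
  | nil => simp
  | cons a l ih => rw [List.map_cons, List.sum_cons, ih, List.countP_cons, add_comm]

lemma mb_sum_range {β : Type} [AddCommMonoid β] (n : ℕ) (f : ℕ → β) :
    ((List.range n).map f).sum = ∑ s ∈ Finset.range n, f s := rfl

lemma mb_sum_flatMap {α β : Type} (l : List α) (g : α → List β) (f : β → ℝ) :
    ((l.flatMap g).map f).sum = (l.map fun a => ((g a).map f).sum).sum := by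
  induction l with
  | nil => simp
  | cons a l ih => simp only [List.flatMap_cons, List.map_append, List.sum_append, ih,
      List.map_cons, List.sum_cons]

lemma mb_pw {n : ℝ} (hn : 100 ≤ n) {a b : ℕ} (h : a < b) : 100 * n ^ a ≤ n ^ b :=
  calc 100 * n ^ a ≤ n * n ^ a := by gcongr
    _ = n ^ (a + 1) := by ring
    _ ≤ n ^ b := pow_le_pow_right₀ (by linarith) h

namespace Geo

variable (G : Geo)

/-- The stations with a well in row `r`. -/
def sts (r : ℕ) : Finset ℕ :=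
  (Finset.range G.st.length).filter fun s => (G.st.getD s (0, 0)).1 = r ∨ (G.st.getD s (0, 0)).2 = r

/-- Margin of the features. -/
noncomputable def ξ : ℝ := 1 / (G.n : ℝ) ^ 20

/-- Mass of the transverse profile. -/
noncomputable def Iz : ℝ := ∫ z in Icc (-1 : ℝ) 1, Real.exp (-(G.Ω * z ^ 2))

lemma m_eq_list (x : Pt) : G.m x = (G.feats.map fun f => fv G.k f x).sum := rfl

lemma mb_well (s r : ℕ) (e : ℝ) (x : Pt) : x ∈ rect (G.well s r) e ↔
    |x 0 - G.D * (s + 1)| ≤ 1 + e ∧ |x 1 - G.d * r| ≤ 1 + e := by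
  simp [rect, well]

lemma mb_wire (a : ℕ) (e : ℝ) (x : Pt) : x ∈ rect (G.wire a) e ↔
    |x 0 - G.X / 2| ≤ G.X / 2 + e ∧ |x 1 - G.d * a| ≤ 1 + e := by
  simp [rect, wire]

lemma mb_link (a : ℕ) (e : ℝ) (x : Pt) : x ∈ rect (G.link a) e ↔
    |x 0 + G.Lk / 2| ≤ G.Lk / 2 + 1 + e ∧ |x 1 - G.d * a| ≤ 1 + e := by
  simp [rect, link]

lemma mb_hub (m : ℕ) (e : ℝ) (x : Pt) : x ∈ rect (G.hub m) e ↔
    |x 0 + (G.Lk + 1)| ≤ 1 + e ∧ |x 1 - G.d * (3 * m + 1)| ≤ G.d + 1 + e := by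
  simp only [rect, hub, mem_ofPred_eq]
  push_cast
  rw [sub_neg_eq_add]

variable {G} {V : ℕ → ℕ → ℕ}

lemma OK.mb_st (h : G.OK V) {s : ℕ} (hs : s < G.st.length) :
    (G.st.getD s (0, 0)).1 ≤ (G.st.getD s (0, 0)).2 ∧ (G.st.getD s (0, 0)).2 < 3 * G.M := by
  rw [List.getD_eq_getElem _ _ hs]
  exact h.mem _ (List.getElem_mem hs)

lemma OK.card_sts (h : G.OK V) {r : ℕ} (hr : r < 3 * G.M) : (G.sts r).card = G.J := by
  rw [← h.wells_eq r hr, ← mb_card _ (0, 0), sts]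
  simp only [Bool.or_eq_true, beq_iff_eq]

lemma OK.card_inter (h : G.OK V) {a b : ℕ} (hab : a < b) (hb : b < 3 * G.M) :
    (G.sts a ∩ G.sts b).card = V a b * (b - a) := by
  rw [← h.pair_eq a b hab hb, List.count, ← mb_card _ (0, 0), sts, sts, ← Finset.filter_and]
  refine congrArg _ (Finset.filter_congr fun s hs => ?_)
  have := (h.mb_st (Finset.mem_range.1 hs)).1
  rw [beq_iff_eq, Prod.ext_iff]
  simp only
  omega

lemma OK.m_eq (h : G.OK V) (x : Pt) :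
    G.m x = (∑ r ∈ Finset.range (3 * G.M), ((∑ s ∈ G.sts r, fv G.k (G.well s r) x) +
      fv G.k (G.wire r) x + fv G.k (G.link r) x)) +
      ∑ m ∈ Finset.range G.M, fv G.k (G.hub m) x := by
  rw [m_eq_list, feats]
  simp only [List.map_append, List.sum_append, List.map_map, mb_sum_range, Function.comp_def,
    Finset.sum_add_distrib]
  congr 3
  rw [wells, mb_sum_flatMap, mb_sum_range]
  simp only [sts, Finset.sum_filter]
  rw [Finset.sum_comm]
  refine Finset.sum_congr rfl fun s hs => ?_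
  obtain ⟨h1, h2⟩ := h.mb_st (Finset.mem_range.1 hs)
  generalize G.st.getD s (0, 0) = p at h1 h2
  rw [← Finset.sum_filter]
  by_cases he : p.1 = p.2
  · have : (Finset.range (3 * G.M)).filter (fun r => p.1 = r ∨ p.2 = r) = {p.1} := by
      ext r; simp only [Finset.mem_filter, Finset.mem_range, Finset.mem_singleton]; omega
    rw [this]
    simp [he]
  · have : (Finset.range (3 * G.M)).filter (fun r => p.1 = r ∨ p.2 = r) = {p.1, p.2} := by
      ext r
      simp only [Finset.mem_filter, Finset.mem_range, Finset.mem_insert, Finset.mem_singleton]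
      omega
    have he' : (p.1 == p.2) = false := by simpa using he
    simp [this, he', Finset.sum_pair he]

lemma OK.mb_mem (h : G.OK V) {f : Feat} (hf : f ∈ G.feats) :
    (∃ s < G.st.length, ∃ r < 3 * G.M, f = G.well s r) ∨ (∃ a < 3 * G.M, f = G.wire a) ∨
      (∃ a < 3 * G.M, f = G.link a) ∨ ∃ m < G.M, f = G.hub m := by
  simp only [feats, List.mem_append, List.mem_map, List.mem_range, wells, List.mem_flatMap] at hf
  rcases hf with ((⟨s, hs, hf⟩ | ⟨a, ha, rfl⟩) | ⟨a, ha, rfl⟩) | ⟨a, ha, rfl⟩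
  · obtain ⟨h1, h2⟩ := h.mb_st hs
    refine Or.inl ⟨s, hs, ?_⟩
    generalize G.st.getD s (0, 0) = p at h1 h2 hf
    cases hb : p.1 == p.2 <;> simp only [hb, cond_true, cond_false, List.mem_cons,
      List.not_mem_nil, or_false] at hf
    · rcases hf with rfl | rfl
      · exact ⟨_, by omega, rfl⟩
      · exact ⟨_, h2, rfl⟩
    · exact ⟨_, by omega, hf⟩
  · exact Or.inr (Or.inl ⟨a, ha, rfl⟩)
  · exact Or.inr (Or.inr (Or.inl ⟨a, ha, rfl⟩))
  · exact Or.inr (Or.inr (Or.inr ⟨a, ha, rfl⟩))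

lemma mb_wells_len (G : Geo) : G.wells.length ≤ 2 * G.st.length := by
  rw [wells, List.length_flatMap, mb_sum_range, mul_comm, ← smul_eq_mul]
  refine (Finset.sum_le_card_nsmul _ _ 2 fun s _ => ?_).trans (by simp)
  cases (G.st.getD s (0, 0)).1 == (G.st.getD s (0, 0)).2 <;> simp

/-- The sizes of a large design. -/
structure mbSz (G : Geo) : Prop where
  n : (100 : ℝ) ≤ G.n
  M : (G.M : ℝ) ≤ G.n
  len : (G.st.length : ℝ) ≤ (G.n : ℝ) ^ 6
  J : (G.J : ℝ) = (G.n : ℝ) ^ 4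
  d : (G.d : ℝ) = (G.n : ℝ) ^ 6
  D : (G.D : ℝ) = (G.n : ℝ) ^ 18
  Lk : (G.Lk : ℝ) = (G.n : ℝ) ^ 5
  l : (G.l : ℝ) = (G.n : ℝ) ^ 26
  X_ge : (100 : ℝ) ≤ G.X
  X_le : (G.X : ℝ) ≤ 2 * (G.n : ℝ) ^ 24
  w_ge : (G.n : ℝ) ^ 300 / 2 ^ G.n ≤ G.w
  w_le : (G.w : ℝ) ≤ 1 / (G.n : ℝ) ^ 300
  w_pos : (0 : ℝ) < G.w
  ξ_pos : 0 < G.ξ
  ξ_le : G.ξ ≤ 1 / 100

lemma OK.mbSz (h : G.OK V) (hn : (100 : ℝ) ≤ G.n) : mbSz G := by
  have hlen : (G.st.length : ℝ) ≤ (G.n : ℝ) ^ 6 := by exact_mod_cast h.len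
  have hw : (G.n : ℝ) ^ 300 / 2 ^ G.n ≤ G.w := by simpa using (Rat.cast_le (K := ℝ)).2 h.w_ge
  have hX : (G.X : ℝ) = (G.n : ℝ) ^ 18 * (G.st.length + 1) := by simp [X, D]
  have h6 := mb_pw hn (show 0 < 6 by norm_num)
  have h18 := mb_pw hn (show 0 < 18 by norm_num)
  have h20 := mb_pw hn (show 0 < 20 by norm_num)
  have h0 : (0 : ℝ) ≤ G.st.length := Nat.cast_nonneg _
  refine ⟨hn, by exact_mod_cast h.M_le, hlen, by simp [J], by simp [d], by simp [D], by simp [Lk],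
    by simp [l], ?_, ?_, hw, by simpa using (Rat.cast_le (K := ℝ)).2 h.w_le,
    lt_of_lt_of_le (by positivity) hw,
    by unfold ξ; positivity, one_div_le_one_div_of_le (by norm_num) (by linarith)⟩
  · rw [hX]; nlinarith
  · rw [hX, show (G.n : ℝ) ^ 24 = (G.n : ℝ) ^ 18 * (G.n : ℝ) ^ 6 by ring]; nlinarith

end Geo

theorem mb_ev : Ev fun G _ => G.mbSz := (Ev.const 100).mono fun _ _ h hn => h.mbSz hn

lemma mb_row {G : Geo} (S : G.mbSz) {r : ℕ} (hr : r < 3 * G.M) :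
    0 ≤ (G.d : ℝ) * r ∧ (G.d : ℝ) * r + G.d ≤ 3 * (G.n : ℝ) ^ 7 := by
  have h1 : (r : ℝ) + 1 ≤ 3 * G.M := by exact_mod_cast hr
  have h2 := S.M
  refine ⟨by positivity, ?_⟩
  rw [S.d, show (G.n : ℝ) ^ 7 = (G.n : ℝ) ^ 6 * G.n by ring]
  have : (0 : ℝ) ≤ (G.n : ℝ) ^ 6 := by positivity
  nlinarith

lemma mb_col {G : Geo} (S : G.mbSz) {s : ℕ} (hs : s < G.st.length) :
    100 ≤ (G.D : ℝ) * (s + 1) ∧ (G.D : ℝ) * (s + 1) ≤ (G.n : ℝ) ^ 24 := by
  have h1 : (s : ℝ) + 1 ≤ G.st.length := by exact_mod_cast hs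
  have h2 := S.len
  have h18 := mb_pw S.n (show 0 < 18 by norm_num)
  have h0 : (0 : ℝ) ≤ s := Nat.cast_nonneg _
  rw [S.D, show (G.n : ℝ) ^ 24 = (G.n : ℝ) ^ 18 * (G.n : ℝ) ^ 6 by ring]
  constructor <;> nlinarith

lemma mb_hub_w {G : Geo} (S : G.mbSz) : (G.w : ℝ) * (G.n : ℝ) ^ 60 ≤ 1 / (G.n : ℝ) ^ 240 := by
  have := S.n
  refine (mul_le_mul_of_nonneg_right S.w_le (by positivity)).trans (le_of_eq ?_)
  field_simp

/-- Shape of the features. -/
theorem feat_shape : Ev fun G _ => G.feats ≠ [] ∧ G.feats.length ≤ G.n ^ 7 ∧ ∀ f ∈ G.feats,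
    0 < f.1 ∧ f.1 ≤ 1 ∧ 1 ≤ f.2.2.1 ∧ f.2.2.1 ≤ (G.n : ℚ) ^ 25 ∧ 1 ≤ f.2.2.2.2 ∧
      f.2.2.2.2 ≤ (G.n : ℚ) ^ 25 ∧ rect f 1 ⊆ {x | |x 0| ≤ G.l / 8 ∧ |x 1| ≤ G.l / 8} := by
  refine mb_ev.mono fun G V h S => ⟨fun h0 => ?_, ?_, fun f hf => ?_⟩
  · have := congrArg List.length h0
    have := h.M_pos
    simp only [Geo.feats, List.length_append, List.length_map, List.length_range,
      List.length_nil] at *
    omega
  · have h1 : (G.wells.length : ℝ) ≤ 2 * G.st.length := by exact_mod_cast G.mb_wells_len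
    have h2 := mb_pw S.n (show 1 < 6 by norm_num)
    have h3 := mb_pw S.n (show 6 < 7 by norm_num)
    have : (G.feats.length : ℝ) ≤ (G.n : ℝ) ^ 7 := by
      simp only [Geo.feats, List.length_append, List.length_map, List.length_range]
      push_cast
      linarith [S.M, S.len, S.n]
    exact_mod_cast this
  · suffices H : (0 : ℝ) < f.1 ∧ (f.1 : ℝ) ≤ 1 ∧ (1 : ℝ) ≤ f.2.2.1 ∧
        (f.2.2.1 : ℝ) ≤ (G.n : ℝ) ^ 25 ∧ (1 : ℝ) ≤ f.2.2.2.2 ∧ (f.2.2.2.2 : ℝ) ≤ (G.n : ℝ) ^ 25 ∧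
        rect f 1 ⊆ {x | |x 0| ≤ G.l / 8 ∧ |x 1| ≤ G.l / 8} by
      obtain ⟨a1, a2, a3, a4, a5, a6, a7⟩ := H
      exact ⟨by exact_mod_cast a1, by exact_mod_cast a2, by exact_mod_cast a3,
        by exact_mod_cast a4, by exact_mod_cast a5, by exact_mod_cast a6, a7⟩
    have hn := S.n
    have p1 := mb_pw hn (show 0 < 5 by norm_num)
    have p2 := mb_pw hn (show 5 < 6 by norm_num)
    have p3 := mb_pw hn (show 6 < 7 by norm_num)
    have p4 := mb_pw hn (show 7 < 24 by norm_num)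
    have p5 := mb_pw hn (show 24 < 25 by norm_num)
    have p6 := mb_pw hn (show 25 < 26 by norm_num)
    rw [pow_zero] at p1
    rcases h.mb_mem hf with ⟨s, hs, r, hr, rfl⟩ | ⟨a, ha, rfl⟩ | ⟨a, ha, rfl⟩ | ⟨a, ha, rfl⟩
    · refine ⟨by simp [Geo.well], by simp [Geo.well], by simp [Geo.well], ?_, by simp [Geo.well],
        ?_, fun x hx => ?_⟩
      · simp only [Geo.well, Rat.cast_one]; linarith
      · simp only [Geo.well, Rat.cast_one]; linarith
      · rw [Geo.mb_well, abs_le, abs_le] at hx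
        have := mb_row S hr
        have := mb_col S hs
        have := S.d
        rw [mem_ofPred_eq, abs_le, abs_le, S.l]
        refine ⟨⟨?_, ?_⟩, ?_, ?_⟩ <;> linarith
    · have := S.X_ge
      have := S.X_le
      refine ⟨?_, ?_, ?_, ?_, by simp [Geo.wire], ?_, fun x hx => ?_⟩
      · simp only [Geo.wire]; push_cast; positivity
      · simp only [Geo.wire]; push_cast
        exact (div_le_one (by positivity)).2 (one_le_pow₀ (by linarith))
      · simp only [Geo.wire]; push_cast; linarith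
      · simp only [Geo.wire]; push_cast; linarith
      · simp only [Geo.wire, Rat.cast_one]; linarith
      · rw [Geo.mb_wire, abs_le, abs_le] at hx
        have := mb_row S ha
        have := S.d
        rw [mem_ofPred_eq, abs_le, abs_le, S.l]
        refine ⟨⟨?_, ?_⟩, ?_, ?_⟩ <;> linarith
    · have := S.Lk
      refine ⟨S.w_pos, S.w_le.trans ((div_le_one (by positivity)).2 (one_le_pow₀ (by linarith))),
        ?_, ?_, by simp [Geo.link], ?_, fun x hx => ?_⟩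
      · simp only [Geo.link]; push_cast; linarith
      · simp only [Geo.link]; push_cast; linarith
      · simp only [Geo.link, Rat.cast_one]; linarith
      · rw [Geo.mb_link, abs_le, abs_le] at hx
        have := mb_row S ha
        have := S.d
        rw [mem_ofPred_eq, abs_le, abs_le, S.l]
        refine ⟨⟨?_, ?_⟩, ?_, ?_⟩ <;> linarith
    · have := S.Lk
      have := S.d
      have := S.w_pos
      refine ⟨?_, ?_, by simp [Geo.hub], ?_, ?_, ?_, fun x hx => ?_⟩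
      · simp only [Geo.hub]; push_cast; positivity
      · simp only [Geo.hub]; push_cast
        exact (mb_hub_w S).trans ((div_le_one (by positivity)).2 (one_le_pow₀ (by linarith)))
      · simp only [Geo.hub, Rat.cast_one]; linarith
      · simp only [Geo.hub]; push_cast; linarith
      · simp only [Geo.hub]; push_cast; linarith
      · rw [Geo.mb_hub, abs_le, abs_le] at hx
        have := mb_row S (r := 3 * a + 1) (by omega)
        push_cast at this
        rw [mem_ofPred_eq, abs_le, abs_le, S.l]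
        refine ⟨⟨?_, ?_⟩, ?_, ?_⟩ <;> linarith

lemma mb_u {G : Geo} (S : G.mbSz) {h : ℝ} (h1 : 1 ≤ h) (h2 : h ≤ (G.n : ℝ) ^ 25) :
    0 < G.ξ / h ∧ G.ξ / h ≤ 1 ∧ ((G.n : ℕ) : ℝ) ≤ (G.k : ℕ) * (G.ξ / h) := by
  have := S.ξ_pos
  have := S.ξ_le
  have hn := S.n
  refine ⟨by positivity, (div_le_one (by linarith)).2 (by linarith), ?_⟩
  have hk : (G.k : ℝ) = (G.n : ℝ) ^ 50 := by simp [Geo.k]
  rw [hk, Geo.ξ, ← mul_div_assoc, le_div_iff₀ (by linarith),
    show (G.n : ℝ) ^ 50 * (1 / (G.n : ℝ) ^ 20) = (G.n : ℝ) ^ 30 by field_simp]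
  calc (G.n : ℝ) * h ≤ G.n * (G.n : ℝ) ^ 25 := by gcongr
    _ = (G.n : ℝ) ^ 26 := by ring
    _ ≤ _ := pow_le_pow_right₀ (by linarith) (by norm_num)

/-- Values of a feature inside and outside its rectangle. -/
theorem feat_val : Ev fun G _ => ∀ (f : Feat) (x : Pt), 0 ≤ f.1 → 1 ≤ f.2.2.1 →
    f.2.2.1 ≤ (G.n : ℚ) ^ 25 → 1 ≤ f.2.2.2.2 → f.2.2.2.2 ≤ (G.n : ℚ) ^ 25 →
    0 ≤ fv G.k f x ∧ fv G.k f x ≤ f.1 ∧ (x ∈ rect f 0 → f.1 / 4 ≤ fv G.k f x) ∧
      (x ∈ rect f (-G.ξ) → f.1 * (1 - 2 / 2 ^ G.n) ≤ fv G.k f x) ∧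
      (x ∉ rect f G.ξ → fv G.k f x ≤ f.1 / 2 ^ G.n) := by
  refine mb_ev.mono fun G V _ S f x a0 a1 a2 a3 a4 => ?_
  have b0 : (0 : ℝ) ≤ f.1 := by exact_mod_cast a0
  have b1 : (1 : ℝ) ≤ f.2.2.1 := by exact_mod_cast a1
  have b3 : (1 : ℝ) ≤ f.2.2.2.2 := by exact_mod_cast a3
  obtain ⟨u1, u2, u3⟩ := mb_u S b1 (by exact_mod_cast a2)
  obtain ⟨v1, v2, v3⟩ := mb_u S b3 (by exact_mod_cast a4)
  have key : ∀ (y h e : ℝ), 1 ≤ h → (|y / h| ≤ 1 + e / h ↔ |y| ≤ h + e) := fun y h e hh => by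
    have h0 : 0 < h := by linarith
    rw [abs_div, abs_of_pos h0, div_le_iff₀ h0, add_mul, one_mul, div_mul_cancel₀ _ h0.ne']
  unfold fv rect
  simp only [mem_ofPred_eq, ← key _ _ _ b1, ← key _ _ _ b3]
  simp only [zero_div, add_zero, neg_div, ← sub_eq_add_neg, mul_assoc]
  generalize (x 0 - f.2.1) / (f.2.2.1 : ℝ) = s
  generalize (x 1 - f.2.2.2.1) / (f.2.2.2.2 : ℝ) = t
  have c1 := pp_pos G.k s
  have c2 := pp_pos G.k t
  have c3 := pp_le_one G.k s
  have c4 := pp_le_one G.k t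
  refine ⟨by positivity, mul_le_of_le_one_right b0 (mul_le_one₀ c3 c2.le c4), fun h => ?_,
    fun h => mul_le_mul_of_nonneg_left ?_ b0, fun h => ?_⟩
  · rw [div_eq_mul_one_div]
    refine mul_le_mul_of_nonneg_left ?_ b0
    nlinarith [half_le_pp G.k h.1, half_le_pp G.k h.2]
  · have d1 := pp_in u1 u2 u3 h.1
    have d2 := pp_in v1 v2 v3 h.2
    rw [show (2 : ℝ) / 2 ^ G.n = 2 * (1 / 2 ^ G.n) by ring]
    nlinarith [mul_nonneg (sub_nonneg.2 c3) (sub_nonneg.2 c4)]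
  · rw [div_eq_mul_one_div]
    refine mul_le_mul_of_nonneg_left ?_ b0
    rw [not_and_or, not_le, not_le] at h
    rcases h with h | h
    · exact (mul_le_of_le_one_right c1.le c4).trans (pp_out u1 u2 u3 h.le)
    · exact (mul_le_of_le_one_left c2.le c3).trans (pp_out v1 v2 v3 h.le)

end Vale.Agent.P370
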