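import Vale.Agent.P370.MassB

/-!
Bounds for the weight, the transverse profile and the ramp.
-/

namespace Vale.Agent.P370

open MeasureTheory Set
open scoped ContDiff

lemma Geo.mbSz.eps {G : Geo} (S : G.mbSz) {a : ℕ} (ha : a ≤ 300) :
    (G.n : ℝ) ^ a * (1 / 2 ^ G.n) ≤ G.w := by
  refine le_trans ?_ S.w_ge
  rw [mul_one_div]
  have := S.n
  exact div_le_div_of_nonneg_right (pow_le_pow_right₀ (by linarith) ha) (by positivity)

lemma Geo.mbSz.w_le' {G : Geo} (S : G.mbSz) {a : ℕ} (ha : a ≤ 300) :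
    (G.w : ℝ) ≤ 1 / (G.n : ℝ) ^ a := by
  have := S.n
  exact S.w_le.trans (one_div_le_one_div_of_le (by positivity) (pow_le_pow_right₀ (by linarith) ha))

/-- Values of the four kinds of features. -/
structure mcV (G : Geo) : Prop where
  S : G.mbSz
  well : ∀ s r x, 0 ≤ fv G.k (G.well s r) x ∧
    fv G.k (G.well s r) x ≤ (rect (G.well s r) G.ξ).indicator 1 x + 1 / 2 ^ G.n ∧
    (x ∈ rect (G.well s r) (-G.ξ) → 1 - 2 / 2 ^ G.n ≤ fv G.k (G.well s r) x)
  wire : ∀ a x, 0 ≤ fv G.k (G.wire a) x ∧ fv G.k (G.wire a) x ≤ 1 / (G.n : ℝ) ^ 50 ∧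
    (x ∉ rect (G.wire a) G.ξ → fv G.k (G.wire a) x ≤ 1 / 2 ^ G.n)
  link : ∀ a x, 0 ≤ fv G.k (G.link a) x ∧ fv G.k (G.link a) x ≤ G.w
  hub : ∀ m x, 0 ≤ fv G.k (G.hub m) x ∧ fv G.k (G.hub m) x ≤ 1 / (G.n : ℝ) ^ 50 ∧
    fv G.k (G.hub m) x ≤
      G.w * (G.n : ℝ) ^ 60 * (rect (G.hub m) G.ξ).indicator 1 x + 1 / 2 ^ G.n

theorem mc_ev : Ev fun G _ => mcV G := by
  refine (mb_ev.and feat_val).mono fun G V _ ⟨S, H⟩ => ?_
  have hn := S.n
  have p1 := mb_pw hn (show 0 < 5 by norm_num)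
  have p2 := mb_pw hn (show 5 < 6 by norm_num)
  have p3 := mb_pw hn (show 6 < 24 by norm_num)
  have p5 := mb_pw hn (show 24 < 25 by norm_num)
  rw [pow_zero] at p1
  have H' : ∀ (f : Feat) (x : Pt), (0 : ℝ) ≤ f.1 → (1 : ℝ) ≤ f.2.2.1 →
      (f.2.2.1 : ℝ) ≤ (G.n : ℝ) ^ 25 → (1 : ℝ) ≤ f.2.2.2.2 → (f.2.2.2.2 : ℝ) ≤ (G.n : ℝ) ^ 25 → _ :=
    fun f x a0 a1 a2 a3 a4 => H f x (by exact_mod_cast a0) (by exact_mod_cast a1)
      (by exact_mod_cast a2) (by exact_mod_cast a3) (by exact_mod_cast a4)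
  have he : (0 : ℝ) < 1 / 2 ^ G.n := by positivity
  have hw := S.w_pos
  refine ⟨S, fun s r x => ?_, fun a x => ?_, fun a x => ?_, fun m x => ?_⟩
  · obtain ⟨c1, c2, -, c4, c5⟩ := H' (G.well s r) x (by simp [Geo.well]) (by simp [Geo.well])
      (by simp only [Geo.well, Rat.cast_one]; linarith) (by simp [Geo.well])
      (by simp only [Geo.well, Rat.cast_one]; linarith)
    have e : (((G.well s r).1 : ℚ) : ℝ) = 1 := by simp [Geo.well]
    rw [e] at c2 c4 c5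
    refine ⟨c1, ?_, fun h => by simpa using c4 h⟩
    by_cases hx : x ∈ rect (G.well s r) G.ξ
    · rw [indicator_of_mem hx, Pi.one_apply]; linarith
    · rw [indicator_of_notMem hx, zero_add]; exact c5 hx
  · have := S.X_ge
    have := S.X_le
    have e : (((G.wire a).1 : ℚ) : ℝ) = 1 / (G.n : ℝ) ^ 50 := by simp [Geo.wire]
    obtain ⟨c1, c2, -, -, c5⟩ := H' (G.wire a) x (by rw [e]; positivity)
      (by simp only [Geo.wire]; push_cast; linarith) (by simp only [Geo.wire]; push_cast; linarith)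
      (by simp [Geo.wire]) (by simp only [Geo.wire, Rat.cast_one]; linarith)
    rw [e] at c2 c5
    refine ⟨c1, c2, fun h => (c5 h).trans (div_le_div_of_nonneg_right ?_ (by positivity))⟩
    exact (div_le_one (by positivity)).2 (one_le_pow₀ (by linarith))
  · have := S.Lk
    obtain ⟨c1, c2, -⟩ := H' (G.link a) x hw.le
      (by simp only [Geo.link]; push_cast; linarith) (by simp only [Geo.link]; push_cast; linarith)
      (by simp [Geo.link]) (by simp only [Geo.link, Rat.cast_one]; linarith)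
    exact ⟨c1, c2⟩
  · have := S.d
    have e : (((G.hub m).1 : ℚ) : ℝ) = G.w * (G.n : ℝ) ^ 60 := by simp [Geo.hub]
    obtain ⟨c1, c2, -, -, c5⟩ := H' (G.hub m) x (by rw [e]; positivity) (by simp [Geo.hub])
      (by simp only [Geo.hub, Rat.cast_one]; linarith) (by simp only [Geo.hub]; push_cast; linarith)
      (by simp only [Geo.hub]; push_cast; linarith)
    rw [e] at c2 c5
    have h1 := mb_hub_w S
    refine ⟨c1, c2.trans (h1.trans (one_div_le_one_div_of_le (by positivity)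
      (pow_le_pow_right₀ (by linarith) (by norm_num)))), ?_⟩
    by_cases hx : x ∈ rect (G.hub m) G.ξ
    · rw [indicator_of_mem hx, Pi.one_apply]; linarith
    · rw [indicator_of_notMem hx, mul_zero, zero_add]
      refine (c5 hx).trans (div_le_div_of_nonneg_right (h1.trans ?_) (by positivity))
      exact (div_le_one (by positivity)).2 (one_le_pow₀ (by linarith))

lemma mc_sum_le {n : ℕ} {f : ℕ → ℝ} {c N : ℝ} (hc : 0 ≤ c) (hN : (n : ℝ) ≤ N)
    (h : ∀ i < n, f i ≤ c) : ∑ i ∈ Finset.range n, f i ≤ N * c := by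
  refine (Finset.sum_le_card_nsmul _ _ c fun i hi => h i (Finset.mem_range.1 hi)).trans ?_
  rw [Finset.card_range, nsmul_eq_mul]
  exact mul_le_mul_of_nonneg_right hN hc

variable {G : Geo} {V : ℕ → ℕ → ℕ}

lemma mc_3M (S : G.mbSz) : ((3 * G.M : ℕ) : ℝ) ≤ 3 * G.n := by push_cast; linarith [S.M]

lemma mc_wells (h : G.OK V) (H : mcV G) (x : Pt) :
    ∑ r ∈ Finset.range (3 * G.M), ∑ s ∈ G.sts r, fv G.k (G.well s r) x ≤
      (∑ r ∈ Finset.range (3 * G.M), ∑ s ∈ G.sts r, (rect (G.well s r) G.ξ).indicator 1 x) +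
        3 * ((G.n : ℝ) ^ 5 * (1 / 2 ^ G.n)) := by
  refine (Finset.sum_le_sum fun r _ => Finset.sum_le_sum fun s _ => (H.well s r x).2.1).trans ?_
  simp only [Finset.sum_add_distrib]
  refine add_le_add le_rfl ((mc_sum_le (c := (G.n : ℝ) ^ 4 * (1 / 2 ^ G.n)) (by positivity)
    (mc_3M H.S) fun r hr => ?_).trans (le_of_eq (by ring)))
  rw [Finset.sum_const, h.card_sts hr, nsmul_eq_mul, H.S.J]

lemma mc_m_le (h : G.OK V) (H : mcV G) (x : Pt) : G.m x ≤
    (∑ r ∈ Finset.range (3 * G.M), ∑ s ∈ G.sts r, (rect (G.well s r) G.ξ).indicator 1 x) +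
      10 * (1 / (G.n : ℝ) ^ 49) := by
  have S := H.S
  have hn := S.n
  have a1 := mc_wells h H x
  have a2 := mc_sum_le (by positivity) (mc_3M S) fun r _ => (H.wire r x).2.1
  have a3 := mc_sum_le (by positivity) (mc_3M S) fun r _ =>
    (H.link r x).2.trans (S.w_le' (a := 50) (by norm_num))
  have a4 := mc_sum_le (by positivity) S.M fun r _ => (H.hub r x).2.1
  have a5 := (S.eps (a := 5) (by norm_num)).trans (S.w_le' (a := 49) (by norm_num))
  have a6 : (G.n : ℝ) * (1 / (G.n : ℝ) ^ 50) = 1 / (G.n : ℝ) ^ 49 := by field_simp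
  rw [h.m_eq]
  simp only [Finset.sum_add_distrib]
  rw [mul_assoc] at a2 a3
  linarith

lemma mc_m_le' (h : G.OK V) (H : mcV G) {x : Pt}
    (h1 : ∀ r < 3 * G.M, ∀ s < G.st.length, x ∉ rect (G.well s r) G.ξ)
    (h2 : ∀ r < 3 * G.M, x ∉ rect (G.wire r) G.ξ) : G.m x ≤ 4 * G.n * G.w +
      ∑ m ∈ Finset.range G.M, G.w * (G.n : ℝ) ^ 60 * (rect (G.hub m) G.ξ).indicator 1 x := by
  have S := H.S
  have hn := S.n
  have hw := S.w_pos
  have a1 := mc_wells h H x
  have a0 : ∑ r ∈ Finset.range (3 * G.M), ∑ s ∈ G.sts r,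
      (rect (G.well s r) G.ξ).indicator 1 x = (0 : ℝ) :=
    Finset.sum_eq_zero fun r hr => Finset.sum_eq_zero fun s hs => indicator_of_notMem
      (h1 r (Finset.mem_range.1 hr) s (Finset.mem_range.1 (Finset.mem_filter.1 hs).1)) _
  have a2 := mc_sum_le (by positivity) (mc_3M S) fun r hr => (H.wire r x).2.2 (h2 r hr)
  have a3 := mc_sum_le hw.le (mc_3M S) fun r _ => (H.link r x).2
  have a4 := Finset.sum_le_sum fun r (_ : r ∈ Finset.range G.M) => (H.hub r x).2.2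
  have a4' := mc_sum_le (f := fun _ => (1 : ℝ) / 2 ^ G.n) (by positivity) S.M fun r _ => le_rfl
  have a5 := S.eps (a := 5) (by norm_num)
  have a6 := S.eps (a := 1) (by norm_num)
  rw [h.m_eq]
  simp only [Finset.sum_add_distrib] at a4 ⊢
  rw [mul_assoc] at a2
  rw [pow_one] at a6
  nlinarith

lemma mc_nat_eq {c : ℝ} {a b : ℕ} (h : |c * a - c * b| < c) : a = b := by
  have hc : 0 < c := (abs_nonneg _).trans_lt h
  rw [← mul_sub, abs_mul, abs_of_pos hc, mul_lt_iff_lt_one_right hc, abs_lt] at h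
  have h1 : (a : ℝ) < b + 1 := by linarith
  have h2 : (b : ℝ) < a + 1 := by linarith
  have h3 : a < b + 1 := by exact_mod_cast h1
  have h4 : b < a + 1 := by exact_mod_cast h2
  omega

lemma mc_d (S : G.mbSz) : (100 : ℝ) ≤ G.d := by
  rw [S.d]; simpa using mb_pw S.n (show 0 < 6 by norm_num)

lemma mc_unique (S : G.mbSz) {x : Pt} {s r s' r' : ℕ} (h : x ∈ rect (G.well s r) G.ξ)
    (h' : x ∈ rect (G.well s' r') G.ξ) : s = s' ∧ r = r' := by
  rw [Geo.mb_well, abs_le, abs_le] at h h'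
  have := S.ξ_le
  have := mc_d S
  have : (100 : ℝ) ≤ G.D := by rw [S.D]; simpa using mb_pw S.n (show 0 < 18 by norm_num)
  exact ⟨mc_nat_eq (c := G.D) (abs_lt.2 ⟨by linarith, by linarith⟩),
    mc_nat_eq (c := G.d) (abs_lt.2 ⟨by linarith, by linarith⟩)⟩

lemma mc_ind_le (S : G.mbSz) (x : Pt) :
    ∑ r ∈ Finset.range (3 * G.M), ∑ s ∈ G.sts r, (rect (G.well s r) G.ξ).indicator 1 x
      ≤ (1 : ℝ) := by
  by_cases h : ∃ s r, x ∈ rect (G.well s r) G.ξ
  · obtain ⟨s0, r0, h0⟩ := h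
    refine (Finset.sum_le_sum (g := fun r => if r = r0 then 1 else 0) fun r _ => ?_).trans ?_
    · split_ifs with hr
      · refine (Finset.sum_le_sum (g := fun s => if s = s0 then 1 else 0) fun s _ => ?_).trans ?_
        · split_ifs with hs
          · exact indicator_le_self' (fun _ _ => zero_le_one) x
          · exact (indicator_of_notMem (fun h => hs (mc_unique S h h0).1) _).le
        · rw [Finset.sum_ite_eq']; split_ifs <;> norm_num
      · exact (Finset.sum_eq_zero fun s _ =>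
          indicator_of_notMem (fun h => hr (mc_unique S h h0).2) _).le
    · rw [Finset.sum_ite_eq']; split_ifs <;> norm_num
  · push Not at h
    simp [indicator_of_notMem (h _ _)]

lemma mc_smooth (k : ℕ) (l : List Feat) : ContDiff ℝ ∞ fun x => (l.map fun f => fv k f x).sum := by
  induction l with
  | nil => simpa using contDiff_const
  | cons f l ih =>
    simp only [List.map_cons, List.sum_cons]
    refine ContDiff.add ?_ ih
    unfold fv
    exact (contDiff_const.mul ((contDiff_pp k).comp (by fun_prop))).mul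
      ((contDiff_pp k).comp (by fun_prop))

theorem m_pos : Ev fun G _ => ContDiff ℝ ∞ G.m ∧ ∀ x, 0 < G.m x ∧ G.m x ≤ 2 := by
  refine (mc_ev.and feat_shape).mono fun G V h ⟨H, h1, _, h3⟩ =>
    ⟨mc_smooth _ _, fun x => ⟨?_, ?_⟩⟩
  · rw [Geo.m_eq_list]
    refine List.sum_pos _ (fun y hy => ?_) (by simpa using h1)
    obtain ⟨f, hf, rfl⟩ := List.mem_map.1 hy
    exact mul_pos (mul_pos (by exact_mod_cast (h3 f hf).1) (pp_pos _ _)) (pp_pos _ _)
  · have a1 := mc_m_le h H x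
    have a2 := mc_ind_le H.S x
    have a3 : 1 / (G.n : ℝ) ^ 49 ≤ 1 / 100 := one_div_le_one_div_of_le (by norm_num)
      (by simpa using mb_pw H.S.n (show 0 < 49 by norm_num))
    linarith

lemma mc_Ω (G : Geo) : 2 * (G.n : ℝ) ^ 110 ≤ G.Ω ∧ G.Ω ≤ 4 * (G.n : ℝ) ^ 110 := by
  have h1 : 1 ≤ √Real.pi := Real.one_le_sqrt.2 (by linarith [Real.pi_gt_three])
  have h2 : √Real.pi ≤ 2 := Real.sqrt_le_iff.2 ⟨by norm_num, by linarith [Real.pi_lt_four]⟩
  have h3 : (G.om : ℝ) = (G.n : ℝ) ^ 110 := by simp [Geo.om]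
  have h4 : (0 : ℝ) ≤ (G.n : ℝ) ^ 110 := by positivity
  rw [Geo.Ω, h3]
  constructor <;> nlinarith

theorem φ0_pos : Ev fun G _ => ContDiff ℝ ∞ G.φ0 ∧ (∀ x, 0 < G.φ0 x) ∧
    (∀ x, G.φ0 x ^ 2 ≤ 2) ∧ ∀ x, |x 2| ≤ 8 → G.φ0 x ^ 2 = G.m x * Real.exp (-(G.Ω * x 2 ^ 2)) := by
  refine m_pos.mono fun G V _ ⟨h1, h2⟩ => ⟨?_, fun x => ?_, fun x => ?_, fun x hx => ?_⟩
  · exact (h1.sqrt fun x => (h2 x).1.ne').mul
      (contDiff_const.mul (contDiff_Tau.comp (contDiff_apply ℝ ℝ 2))).neg.exp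
  · exact mul_pos (Real.sqrt_pos.2 (h2 x).1) (Real.exp_pos _)
  · have hΩ : 0 ≤ G.Ω := le_trans (by positivity) (mc_Ω G).1
    have h3 : Real.exp (-(G.Ω * Tau (x 2))) ≤ 1 :=
      Real.exp_le_one_iff.2 (neg_nonpos.2 (mul_nonneg hΩ (Tau_nonneg _)))
    rw [Geo.φ0, mul_pow, Real.sq_sqrt (h2 x).1.le]
    exact (mul_le_of_le_one_right (h2 x).1.le (pow_le_one₀ (Real.exp_pos _).le h3)).trans (h2 x).2
  · rw [Geo.φ0, mul_pow, Real.sq_sqrt (h2 x).1.le, Tau_eq hx, ← Real.exp_nat_mul]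
    congr 2
    push_cast; ring

lemma mc_exp {n : ℕ} {y : ℝ} (h : 2 * n ≤ y) : Real.exp (-y) ≤ 1 / 2 ^ n * (1 / 2 ^ n) := by
  rw [Real.exp_neg, one_div_mul_one_div, one_div, ← pow_add]
  refine inv_anti₀ (by positivity) ?_
  calc (2 : ℝ) ^ (n + n) ≤ Real.exp 1 ^ (n + n) :=
        pow_le_pow_left₀ (by norm_num) (by linarith [Real.add_one_le_exp (1 : ℝ)]) _
    _ = Real.exp ((n + n : ℕ) * 1) := (Real.exp_nat_mul _ _).symm
    _ ≤ _ := Real.exp_le_exp.2 (by push_cast; linarith)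

lemma mc_eps_le (S : G.mbSz) {a : ℕ} (ha : a ≤ 300) : (1 : ℝ) / 2 ^ G.n ≤ 1 / (G.n : ℝ) ^ a := by
  simpa using (S.eps (a := 0) (by norm_num)).trans (S.w_le' ha)

theorem Iz_bounds : Ev fun G _ => 1 / (G.n : ℝ) ^ 56 ≤ G.Iz ∧ G.Iz ≤ 2 ∧
    (∀ z : ℝ, 1 ≤ |z| → Real.exp (-(G.Ω * z ^ 2)) ≤ G.Iz / 2 ^ G.n) ∧
    (1 - G.ξ) * G.Iz ≤ ∫ z in Icc (-G.ξ) G.ξ, Real.exp (-(G.Ω * z ^ 2)) := by
  refine mb_ev.mono fun G V _ S => ?_
  have hn := S.n
  obtain ⟨o1, o2⟩ := mc_Ω G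
  have hΩ : 0 ≤ G.Ω := le_trans (by positivity) o1
  have hc : Continuous fun z : ℝ => Real.exp (-(G.Ω * z ^ 2)) := by fun_prop
  have hI : ∀ a b : ℝ, IntegrableOn (fun z : ℝ => Real.exp (-(G.Ω * z ^ 2))) (Icc a b) :=
    fun a b => hc.integrableOn_Icc
  have low : 1 / (G.n : ℝ) ^ 56 ≤ G.Iz := by
    obtain ⟨δ, hδ⟩ : ∃ δ : ℝ, δ = 1 / (4 * (G.n : ℝ) ^ 55) := ⟨_, rfl⟩
    have h55 : (1 : ℝ) ≤ (G.n : ℝ) ^ 55 := one_le_pow₀ (by linarith)
    have d0 : 0 < δ := by rw [hδ]; positivity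
    have d1 : δ ≤ 1 := by rw [hδ, div_le_one (by positivity)]; linarith
    have d2 : G.Ω * δ ^ 2 ≤ 1 / 4 :=
      (mul_le_mul_of_nonneg_right o2 (by positivity)).trans (le_of_eq (by rw [hδ]; field_simp))
    have a1 : ∫ _ in Icc (-δ) δ, (3 / 4 : ℝ) ≤ ∫ z in Icc (-δ) δ, Real.exp (-(G.Ω * z ^ 2)) := by
      refine setIntegral_mono_on continuous_const.integrableOn_Icc (hI _ _) measurableSet_Icc
        fun z hz => ?_
      have : z ^ 2 ≤ δ ^ 2 := sq_le_sq' hz.1 hz.2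
      linarith [Real.add_one_le_exp (-(G.Ω * z ^ 2)), mul_le_mul_of_nonneg_left this hΩ]
    have a2 := setIntegral_mono_set (hI (-1) 1) (Filter.Eventually.of_forall fun z =>
      (Real.exp_pos _).le) (Icc_subset_Icc (neg_le_neg d1) d1).eventuallyLE
    rw [setIntegral_const, Real.volume_real_Icc_of_le (by linarith), smul_eq_mul] at a1
    refine le_trans ?_ (a1.trans a2)
    rw [hδ, div_le_iff₀ (by positivity)]
    field_simp
    linarith
  have he := mc_eps_le S (a := 56) (by norm_num)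
  refine ⟨low, ?_, fun z hz => ?_, ?_⟩
  · have a1 : G.Iz ≤ ∫ _ in Icc (-1 : ℝ) 1, (1 : ℝ) :=
      setIntegral_mono_on (hI _ _) continuous_const.integrableOn_Icc measurableSet_Icc fun z _ =>
        Real.exp_le_one_iff.2 (neg_nonpos.2 (by positivity))
    rw [setIntegral_const, Real.volume_real_Icc_of_le (by norm_num), smul_eq_mul] at a1
    linarith
  · have h1 : 1 ≤ z ^ 2 := by nlinarith [sq_abs z]
    have h2 := mb_pw hn (show 1 < 110 by norm_num)
    refine (mc_exp (n := G.n) (by nlinarith)).trans ?_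
    rw [div_eq_mul_one_div G.Iz]
    exact mul_le_mul_of_nonneg_right (he.trans low) (by positivity)
  · have x0 := S.ξ_pos
    have x1 := S.ξ_le
    have a1 : G.Iz ≤ ∫ z in Icc (-1 : ℝ) 1, ((Icc (-G.ξ) G.ξ).indicator
        (fun z : ℝ => Real.exp (-(G.Ω * z ^ 2))) z + 1 / 2 ^ G.n * (1 / 2 ^ G.n)) := by
      refine setIntegral_mono_on (hI _ _) (((hI _ _).indicator measurableSet_Icc).add
        continuous_const.integrableOn_Icc) measurableSet_Icc fun z _ => ?_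
      by_cases hz : z ∈ Icc (-G.ξ) G.ξ
      · rw [indicator_of_mem hz]; exact le_add_of_nonneg_right (by positivity)
      · rw [indicator_of_notMem hz, zero_add]
        refine mc_exp ?_
        have h1 : G.ξ ^ 2 ≤ z ^ 2 :=
          sq_le_sq.2 (by rw [abs_of_pos x0]; exact (not_le.1 fun h => hz (abs_le.1 h)).le)
        have h2 : 2 * (G.n : ℝ) ^ 110 * G.ξ ^ 2 = 2 * (G.n : ℝ) ^ 70 := by
          rw [Geo.ξ]; field_simp
        have h3 := mb_pw hn (show 1 < 70 by norm_num)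
        calc 2 * (G.n : ℝ) ≤ 2 * (G.n : ℝ) ^ 110 * G.ξ ^ 2 := by rw [h2]; linarith
          _ ≤ G.Ω * z ^ 2 := mul_le_mul o1 h1 (by positivity) hΩ
    rw [integral_add ((hI _ _).indicator measurableSet_Icc) continuous_const.integrableOn_Icc,
      setIntegral_indicator measurableSet_Icc, inter_eq_right.2 (Icc_subset_Icc (by linarith)
      (by linarith)), setIntegral_const, Real.volume_real_Icc_of_le (by norm_num),
      smul_eq_mul] at a1
    have a2 : 2 * (1 / 2 ^ G.n) ≤ G.ξ := by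
      have h1 := mc_eps_le S (a := 21) (by norm_num)
      have h2 : G.ξ = G.n * (1 / (G.n : ℝ) ^ 21) := by rw [Geo.ξ]; field_simp
      have h3 : (0 : ℝ) ≤ 1 / (G.n : ℝ) ^ 21 := by positivity
      nlinarith
    have a3 := mul_le_mul a2 (he.trans low) (by positivity) x0.le
    linarith

theorem ramp_facts : Ev fun G _ => ContDiff ℝ ∞ G.ramp ∧ (∀ t, 0 ≤ G.ramp t ∧ G.ramp t ≤ 1) ∧
    (∀ t : ℝ, -1 ≤ t → G.ramp t = 1) ∧ (∀ t : ℝ, t ≤ 1 - G.Lk → G.ramp t = 0) ∧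
    (∀ t, |deriv G.ramp t| ≤ 1 / ((G.Lk : ℝ) - 4)) ∧
    (∀ t : ℝ, -1 ≤ t ∨ t ≤ 1 - G.Lk → deriv G.ramp t = 0) ∧
    ∀ j ≤ 8, ∀ t, |iteratedDeriv j G.ramp t| ≤ G.n := by
  obtain ⟨C, -, hC⟩ := bmp_deriv
  refine (mb_ev.and (Ev.const C)).mono fun G V _ ⟨S, hCn⟩ => ?_
  have hL : (100 : ℝ) ≤ G.Lk := by rw [S.Lk]; simpa using mb_pw S.n (show 0 < 5 by norm_num)
  obtain ⟨b, hb⟩ : ∃ b : ℝ → ℝ, b = fun u => bmp (G.Lk / 2 - 2) (u + G.Lk / 2) := ⟨_, rfl⟩
  obtain ⟨N, hN⟩ : ∃ N : ℝ, N = ∫ u in (1 - G.Lk : ℝ)..(-1), b u := ⟨_, rfl⟩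
  have hr : G.ramp = fun t => (∫ u in (1 - G.Lk : ℝ)..t, b u) / N := by rw [hN, hb]; rfl
  have hbs : ContDiff ℝ ∞ b := hb ▸ (contDiff_bmp _).comp (contDiff_id.add contDiff_const)
  have hi : ∀ s t, IntervalIntegrable b volume s t := hbs.continuous.intervalIntegrable
  have b0 : ∀ u, 0 ≤ b u := fun u => hb ▸ bmp_nonneg _ _
  have b1 : ∀ u, b u ≤ 1 := fun u => hb ▸ bmp_le_one _ _
  have bz : ∀ u : ℝ, -1 ≤ u ∨ u ≤ 1 - G.Lk → b u = 0 := fun u hu => by
    rw [hb]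
    refine bmp_zero (le_abs.2 ?_)
    rcases hu with hu | hu
    · left; linarith
    · right; linarith
  have hN1 : (G.Lk : ℝ) - 4 ≤ N := by
    have e : ∫ u in (2 - G.Lk : ℝ)..(-2), b u = G.Lk - 4 := by
      rw [intervalIntegral.integral_congr (g := fun _ => 1) fun u hu => ?_]
      · simp; ring
      · rw [uIcc_of_le (by linarith)] at hu
        rw [hb]
        exact bmp_one (abs_le.2 ⟨by linarith [hu.1], by linarith [hu.2]⟩)
    rw [← e, hN]
    exact intervalIntegral.integral_mono_interval (by linarith) (by linarith) (by norm_num)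
      (Filter.Eventually.of_forall b0) (hi _ _)
  have hN0 : 0 < N := by linarith
  have hd : deriv G.ramp = fun t => b t / N := funext fun t => by
    rw [hr]
    exact ((hbs.continuous.integral_hasStrictDerivAt _ t).hasDerivAt.div_const N).deriv
  have r1 : ∀ t : ℝ, -1 ≤ t → G.ramp t = 1 := fun t ht => by
    rw [hr]
    beta_reduce
    rw [← intervalIntegral.integral_add_adjacent_intervals (hi _ (-1)) (hi (-1) t), ← hN,
      intervalIntegral.integral_congr (g := fun _ => 0) fun u hu =>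
        bz u (Or.inl (by rw [uIcc_of_le ht] at hu; exact hu.1))]
    simp [hN0.ne']
  have r0 : ∀ t : ℝ, t ≤ 1 - G.Lk → G.ramp t = 0 := fun t ht => by
    rw [hr]
    beta_reduce
    rw [intervalIntegral.integral_congr (g := fun _ => 0) fun u hu =>
        bz u (Or.inr (by rw [uIcc_of_ge ht] at hu; exact hu.2))]
    simp
  have r2 : ∀ t, 0 ≤ G.ramp t ∧ G.ramp t ≤ 1 := fun t => by
    rcases le_total t (1 - G.Lk) with h | h
    · rw [r0 t h]; norm_num
    rcases le_total (-1) t with h' | h'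
    · rw [r1 t h']; norm_num
    rw [hr]
    refine ⟨div_nonneg (intervalIntegral.integral_nonneg h fun u _ => b0 u) hN0.le,
      (div_le_one hN0).2 ?_⟩
    rw [hN]
    exact intervalIntegral.integral_mono_interval le_rfl h h'
      (Filter.Eventually.of_forall b0) (hi _ _)
  refine ⟨hr ▸ (ma_prim hbs _).div_const N, r2, r1, r0, fun t => ?_, fun t ht => ?_,
    fun j hj t => ?_⟩
  · rw [hd, abs_of_nonneg (div_nonneg (b0 t) hN0.le)]
    exact div_le_div₀ zero_le_one (b1 t) (by linarith) hN1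
  · rw [hd]; simp [bz t ht]
  · cases j with
    | zero =>
      rw [iteratedDeriv_zero, abs_of_nonneg (r2 t).1]
      linarith [(r2 t).2, S.n]
    | succ j =>
      rw [iteratedDeriv_succ', hd, iteratedDeriv_div_const, hb, iteratedDeriv_comp_add_const,
        abs_div, abs_of_pos hN0]
      exact (div_le_self (abs_nonneg _) (by linarith)).trans ((hC j (by omega) _ _).trans hCn)

lemma mc_row_lt {M : ℕ} (a : Arm M) : row a < 3 * M := by
  have := a.1.2
  have := a.2.2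
  unfold row; omega

lemma mc_bmp_ne {a t : ℝ} (h : bmp a t ≠ 0) : |t| < a + 1 := not_le.1 fun h' => h (bmp_zero h')

lemma mc_θ_supp (S : G.mbSz) (a : Arm G.M) {x : Pt} (h : G.θ a x ≠ 0) :
    x ∈ box (G.l / 2) (G.l / 2) 2 := by
  obtain ⟨h12, h3⟩ := mul_ne_zero_iff.1 h
  obtain ⟨h1, h2⟩ := mul_ne_zero_iff.1 h12
  have p1 := mb_pw S.n (show 0 < 7 by norm_num)
  have p2 := mb_pw S.n (show 7 < 26 by norm_num)
  have hd := mc_d S
  rw [pow_zero] at p1
  refine ⟨by linarith [mc_bmp_ne h1, S.l], ?_, by linarith [mc_bmp_ne h2]⟩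
  rw [S.l]
  by_cases h4 : bmp (G.d / 4) (x 1 - G.d * row a) = 0
  · rw [h4, mul_zero, zero_add] at h3
    have h5 := abs_lt.1 (mc_bmp_ne (right_ne_zero_of_mul h3))
    have h6 := mb_row S (r := 3 * a.1.val + 1) (by have := a.1.2; omega)
    push_cast at h6
    exact abs_le.2 ⟨by linarith, by linarith⟩
  · have h5 := abs_lt.1 (mc_bmp_ne h4)
    have h6 := mb_row S (mc_row_lt a)
    exact abs_le.2 ⟨by linarith, by linarith⟩

theorem η_supp : Ev fun G _ => ∀ a, tsupport (G.η a) ⊆ box (G.l / 2) (G.l / 2) 2 :=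
  mb_ev.mono fun G _ _ S a => closure_minimal (fun x hx => mc_θ_supp S a fun h =>
    hx (by rw [Geo.η, h, mul_zero, zero_div])) (isCompact_box _ _ _).isClosed

end Vale.Agent.P370
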