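import Vale.Agent.P370.DefsH

/-!
Continuously differentiable functions with compact support are dense in the Sobolev space.
-/

namespace Vale.Agent.P370

open MeasureTheory Set Filter Topology
open scoped ContDiff ENNReal Convolution

section general

variable {E : Type} [NormedAddCommGroup E] [NormedSpace ℝ E] [FiniteDimensional ℝ E]
  [MeasurableSpace E] [BorelSpace E] {μ : Measure E} [μ.IsAddHaarMeasure]

omit [NormedAddCommGroup E] [NormedSpace ℝ E] [FiniteDimensional ℝ E] [BorelSpace E]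
  [μ.IsAddHaarMeasure] in
lemma ml_pow (w : E → ℂ) : eLpNorm w 2 μ ^ (2 : ℝ) = ∫⁻ x, ‖w x‖ₑ ^ (2 : ℝ) ∂μ := by
  simpa using eLpNorm_nnreal_pow_eq_lintegral (f := w) (μ := μ) (p := 2) two_ne_zero

omit [NormedAddCommGroup E] [NormedSpace ℝ E] [FiniteDimensional ℝ E] [BorelSpace E]
  [μ.IsAddHaarMeasure] in
lemma ml_sq {w : E → ℂ} (hw : AEStronglyMeasurable w μ) {η : ℝ} (hη : 0 ≤ η)
    (h : eLpNorm w 2 μ ≤ ENNReal.ofReal η) : ∫ x, ‖w x‖ ^ 2 ∂μ ≤ η ^ 2 := by
  rw [integral_eq_lintegral_of_nonneg_ae (Eventually.of_forall fun x => sq_nonneg _)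
    (hw.norm.pow 2)]
  refine ENNReal.toReal_le_of_le_ofReal (sq_nonneg _) ?_
  have h1 := ENNReal.rpow_le_rpow h zero_le_two
  rw [ml_pow] at h1
  simpa [ENNReal.ofReal_pow hη, ENNReal.ofReal_pow (norm_nonneg _)] using h1

/-- Translations are continuous in the mean. -/
lemma ml_trans {u : E → ℂ} (hu : MemLp u 2 μ) {η : ℝ} (hη : 0 < η) :
    ∀ᶠ y in 𝓝 (0 : E), eLpNorm (fun x => u (x - y) - u x) 2 μ ≤ ENNReal.ofReal η := by
  let T : C(E × E, E) := ⟨fun p => p.2 - p.1, by fun_prop⟩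
  have hm : ∀ y, MeasurePreserving (T.curry y) μ μ := fun y => measurePreserving_sub_right μ y
  have hc := (Continuous.compMeasurePreservingLp (f := fun _ : E => hu.toLp u) continuous_const
    T.curry.continuous hm ENNReal.ofNat_ne_top).tendsto 0
  filter_upwards [hc (Metric.closedBall_mem_nhds _ hη)] with y hy
  rw [mem_preimage, Metric.mem_closedBall, dist_edist, Lp.edist_def] at hy
  have e : ∀ y, (Lp.compMeasurePreserving (T.curry y) (hm y) (hu.toLp u) : E → ℂ) =ᵐ[μ]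
      fun x => u (x - y) := fun y => (Lp.coeFn_compMeasurePreserving _ _).trans
    ((hm y).quasiMeasurePreserving.ae_eq_comp hu.coeFn_toLp)
  rw [eLpNorm_congr_ae ((e y).sub (e 0))] at hy
  simp only [sub_zero] at hy
  exact (ENNReal.le_ofReal_iff_toReal_le
    ((hu.comp_measurePreserving (hm y)).sub hu).eLpNorm_ne_top hη.le).2 hy

/-- Convolution with a real kernel. -/
noncomputable def mlC (μ : Measure E) (ρ : E → ℝ) (u : E → ℂ) : E → ℂ :=
  u ⋆[(ContinuousLinearMap.lsmul ℝ ℝ).flip, μ] ρ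

lemma ml_err {u : E → ℂ} (hu : MemLp u 2 μ) {ρ : E → ℝ} (hρ : Continuous ρ)
    (hc : HasCompactSupport ρ) (h0 : ∀ y, 0 ≤ ρ y) (h1 : ∫ y, ρ y ∂μ = 1) {η : ℝ≥0∞}
    (h : ∀ y, ρ y ≠ 0 → eLpNorm (fun x => u (x - y) - u x) 2 μ ≤ η) :
    eLpNorm (mlC μ ρ u - u) 2 μ ≤ η := by
  have hi := hρ.integrable_of_hasCompactSupport (μ := μ) hc
  have ha : Measurable fun y => ENNReal.ofReal (ρ y) := hρ.measurable.ennreal_ofReal
  have h2 : ∫⁻ y, ENNReal.ofReal (ρ y) ∂μ = 1 := by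
    rw [← ofReal_integral_eq_lintegral_ofReal hi (Eventually.of_forall h0), h1, ENNReal.ofReal_one]
  have hm : AEMeasurable (fun p : E × E => ENNReal.ofReal (ρ p.2) *
      ‖u (p.1 - p.2) - u p.1‖ₑ ^ (2 : ℝ)) (μ.prod μ) :=
    (ha.comp measurable_snd).aemeasurable.mul
      (((hu.1.comp_quasiMeasurePreserving (quasiMeasurePreserving_sub μ μ)).sub
        hu.1.comp_fst).enorm.pow_const _)
  have pt : ∀ x, ‖(mlC μ ρ u - u) x‖ₑ ^ (2 : ℝ) ≤
      ∫⁻ y, ENNReal.ofReal (ρ y) * ‖u (x - y) - u x‖ₑ ^ (2 : ℝ) ∂μ := fun x => by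
    have i1 : Integrable (fun y => ρ y • u (x - y)) μ :=
      hc.convolutionExists_left (ContinuousLinearMap.lsmul ℝ ℝ) hρ
        (hu.locallyIntegrable one_le_two) x
    have e : (mlC μ ρ u - u) x = ∫ y, ρ y • (u (x - y) - u x) ∂μ := by
      simp only [smul_sub]
      rw [integral_sub i1 (hi.smul_const _), integral_smul_const, h1, one_smul, Pi.sub_apply, mlC,
        convolution_flip]
      rfl
    have a1 := ENNReal.lintegral_mul_norm_pow_le (μ := μ) ha.aemeasurable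
      (ha.aemeasurable.mul (((hu.1.comp_quasiMeasurePreserving
        (quasiMeasurePreserving_sub_left μ x)).sub
          (aestronglyMeasurable_const (b := u x))).enorm.pow_const (2 : ℝ)))
      (p := 1 / 2) (q := 1 / 2) (by norm_num) (by norm_num) (by norm_num)
    rw [h2, ENNReal.one_rpow, one_mul] at a1
    have a2 : ‖∫ y, ρ y • (u (x - y) - u x) ∂μ‖ₑ ≤
        (∫⁻ y, ENNReal.ofReal (ρ y) * ‖u (x - y) - u x‖ₑ ^ (2 : ℝ) ∂μ) ^ (1 / 2 : ℝ) := by
      refine (enorm_integral_le_lintegral_enorm _).trans (le_trans (le_of_eq ?_) a1)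
      refine lintegral_congr fun y => ?_
      rw [enorm_smul, Real.enorm_of_nonneg (h0 y), Pi.mul_apply,
        ENNReal.mul_rpow_of_nonneg _ _ (by norm_num), ← mul_assoc,
        ← ENNReal.rpow_add_of_nonneg _ _ (by norm_num) (by norm_num), ← ENNReal.rpow_mul]
      norm_num
    rw [e]
    refine (ENNReal.rpow_le_rpow a2 zero_le_two).trans (le_of_eq ?_)
    rw [← ENNReal.rpow_mul]
    norm_num
  rw [← ENNReal.rpow_le_rpow_iff two_pos, ml_pow]
  refine (lintegral_mono pt).trans ?_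
  rw [lintegral_lintegral_swap hm]
  calc _ ≤ ∫⁻ y, ENNReal.ofReal (ρ y) * η ^ (2 : ℝ) ∂μ := lintegral_mono fun y => ?_
    _ = _ := by rw [lintegral_mul_const _ ha, h2, one_mul]
  rw [lintegral_const_mul' _ _ ENNReal.ofReal_ne_top, ← ml_pow fun x => u (x - y) - u x]
  by_cases hy : ρ y = 0
  · simp [hy]
  · gcongr
    exact h y hy

lemma ml_smooth {u : E → ℂ} (hu : MemLp u 2 μ) {ρ : E → ℝ} (hρ : ContDiff ℝ 1 ρ)
    (hc : HasCompactSupport ρ) : ContDiff ℝ 1 (mlC μ ρ u) :=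
  hc.contDiff_convolution_right (n := 1) _ (hu.locallyIntegrable one_le_two) hρ

lemma ml_deriv {u G : E → ℂ} (hu : MemLp u 2 μ) {ρ : E → ℝ} (hρ : ContDiff ℝ ∞ ρ)
    (hc : HasCompactSupport ρ) {v : E} (h : ∀ φ : E → ℝ, ContDiff ℝ ∞ φ → HasCompactSupport φ →
      ∫ x, u x * (fderiv ℝ φ x v : ℝ) ∂μ = -∫ x, G x * (φ x : ℝ) ∂μ) (x : E) :
    fderiv ℝ (mlC μ ρ u) x v = mlC μ ρ G x := by
  have h1 : ContDiff ℝ 1 ρ := hρ.of_le (by exact_mod_cast le_top)
  have hl := hu.locallyIntegrable one_le_two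
  have h2 := h (fun t => ρ (x - t)) (hρ.comp (contDiff_const.sub contDiff_id))
    (hc.comp_homeomorph (Homeomorph.subLeft x))
  have h3 : ∀ t, fderiv ℝ (fun t => ρ (x - t)) t v = -fderiv ℝ ρ (x - t) v := fun t => by
    have := ((h1.differentiable one_ne_zero (x - t)).hasFDerivAt.comp t
      ((hasFDerivAt_id t).const_sub x)).fderiv
    exact (DFunLike.congr_fun this v).trans (by simp)
  simp only [h3, Complex.ofReal_neg, mul_neg, integral_neg, neg_inj] at h2
  rw [mlC, (hc.hasFDerivAt_convolution_right _ hl h1 x).fderiv,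
    convolution_precompR_apply _ hl (hc.fderiv ℝ) (h1.continuous_fderiv one_ne_zero)]
  simpa [mlC, convolution_def, mul_comm] using h2

lemma ml_tail {u : E → ℂ} (hu : MemLp u 2 μ) {η : ℝ} (hη : 0 < η) :
    ∀ᶠ R in atTop, ∀ w : E → ℂ, (∀ x, ‖w x‖ ≤ ‖u x‖) → (∀ x, ‖x‖ ≤ R → w x = 0) →
      eLpNorm w 2 μ ≤ ENNReal.ofReal η := by
  obtain ⟨g, g1, g2, -⟩ := hu.exists_hasCompactSupport_eLpNorm_sub_le ENNReal.ofNat_ne_top
    (ENNReal.ofReal_pos.2 hη).ne'
  obtain ⟨R, hR⟩ := g1.isBounded.subset_closedBall 0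
  filter_upwards [eventually_ge_atTop R] with S hS w h1 h2
  refine (eLpNorm_mono fun x => ?_).trans g2
  by_cases hx : ‖x‖ ≤ S
  · simp [h2 x hx]
  · rw [Pi.sub_apply, image_eq_zero_of_notMem_tsupport fun h =>
      hx ((mem_closedBall_zero_iff.1 (hR h)).trans hS), sub_zero]
    exact h1 x

omit [MeasurableSpace E] [BorelSpace E] in
lemma ml_cut (R : ℝ) : ∃ χ : E → ℝ, ContDiff ℝ 1 χ ∧ HasCompactSupport χ ∧ (∀ x, |χ x - 1| ≤ 1) ∧
    (∀ x, ‖fderiv ℝ χ x‖ ≤ 1) ∧ ∀ x, ‖x‖ ≤ R → χ x = 1 ∧ fderiv ℝ χ x = 0 := by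
  let b : ContDiffBump (0 : E) := ⟨2, 3, two_pos, by norm_num⟩
  obtain ⟨C, hC⟩ := ((b.contDiff (n := 1)).continuous_fderiv
    one_ne_zero).bounded_above_of_compact_support (b.hasCompactSupport.fderiv ℝ)
  obtain ⟨S, hS⟩ : ∃ S, S = max 1 (max R C) := ⟨_, rfl⟩
  have s0 : 0 < S := hS ▸ one_pos.trans_le (le_max_left _ _)
  have s1 : R ≤ S := hS ▸ (le_max_left _ _).trans (le_max_right _ _)
  have s2 : C ≤ S := hS ▸ (le_max_right _ _).trans (le_max_right _ _)
  refine ⟨fun x => b (S⁻¹ • x), b.contDiff.comp (contDiff_id.const_smul _),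
    b.hasCompactSupport.comp_homeomorph (Homeomorph.smulOfNeZero _ (inv_pos.2 s0).ne'),
    fun x => abs_le.2 ⟨by linarith [b.nonneg' (S⁻¹ • x)], by linarith [b.le_one (x := S⁻¹ • x)]⟩,
    fun x => ?_, fun x hx => ?_⟩
  · rw [fderiv_comp_smul, norm_smul, Real.norm_of_nonneg (inv_pos.2 s0).le, inv_mul_le_iff₀ s0]
    linarith [hC (S⁻¹ • x)]
  · have h1 : S⁻¹ • x ∈ Metric.ball (0 : E) b.rIn := by
      rw [mem_ball_zero_iff, norm_smul, Real.norm_of_nonneg (inv_pos.2 s0).le, inv_mul_lt_iff₀ s0]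
      show _ < S * 2
      linarith
    have h2 := b.eventuallyEq_one_of_mem_ball h1
    refine ⟨h2.eq_of_nhds, ?_⟩
    rw [fderiv_comp_smul, h2.fderiv_eq]
    simp

theorem ml_approx {ι : Type} [Finite ι] {v : ι → E} (hv : ∀ j, ‖v j‖ ≤ 1) {f : E → ℂ}
    {G : ι → E → ℂ} (hf : MemLp f 2 μ) (hG : ∀ j, MemLp (G j) 2 μ)
    (h : ∀ j, ∀ φ : E → ℝ, ContDiff ℝ ∞ φ → HasCompactSupport φ →
      ∫ x, f x * (fderiv ℝ φ x (v j) : ℝ) ∂μ = -∫ x, G j x * (φ x : ℝ) ∂μ) {η : ℝ} (hη : 0 < η) :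
    ∃ g : E → ℂ, ContDiff ℝ 1 g ∧ HasCompactSupport g ∧ ∫ x, ‖g x - f x‖ ^ 2 ∂μ ≤ (3 * η) ^ 2 ∧
      ∀ j, ∫ x, ‖fderiv ℝ g x (v j) - G j x‖ ^ 2 ∂μ ≤ (3 * η) ^ 2 := by
  obtain ⟨δ, d0, hd⟩ := Metric.eventually_nhds_iff.1
    ((ml_trans hf hη).and (eventually_all.2 fun j => ml_trans (hG j) hη))
  let b : ContDiffBump (0 : E) := ⟨δ / 2, δ, by positivity, by linarith⟩
  have hb : ∀ y, b.normed μ y ≠ 0 → dist y 0 < δ := fun y hy => by
    have : y ∈ Function.support (b.normed μ) := hy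
    rwa [b.support_normed_eq] at this
  have key : ∀ u : E → ℂ, MemLp u 2 μ → (∀ y, dist y 0 < δ →
      eLpNorm (fun x => u (x - y) - u x) 2 μ ≤ ENNReal.ofReal η) →
      eLpNorm (mlC μ (b.normed μ) u - u) 2 μ ≤ ENNReal.ofReal η ∧
        MemLp (mlC μ (b.normed μ) u) 2 μ := fun u hu k => by
    have k1 := ml_err hu b.continuous_normed b.hasCompactSupport_normed b.nonneg_normed
      b.integral_normed fun y hy => k y (hb y hy)
    have k2 := (ml_smooth (ρ := b.normed μ) hu b.contDiff_normed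
      b.hasCompactSupport_normed).continuous.aestronglyMeasurable (μ := μ)
    have k3 : MemLp (mlC μ (b.normed μ) u - u) 2 μ :=
      ⟨k2.sub hu.1, k1.trans_lt ENNReal.ofReal_lt_top⟩
    exact ⟨k1, by simpa using k3.add hu⟩
  obtain ⟨f1, f2⟩ := key f hf fun y hy => (hd hy).1
  have kG := fun j => key (G j) (hG j) fun y hy => (hd hy).2 j
  have f3 := ml_smooth (ρ := b.normed μ) hf b.contDiff_normed b.hasCompactSupport_normed
  have f4 := fun j =>
    ml_deriv (ρ := b.normed μ) hf b.contDiff_normed b.hasCompactSupport_normed (h j)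
  generalize mlC μ (b.normed μ) f = F at f1 f2 f3 f4
  obtain ⟨R, r1, r2⟩ :=
    ((ml_tail f2 hη).and (eventually_all.2 fun j => ml_tail (kG j).2 hη)).exists
  obtain ⟨χ, c1, c2, c3, c4, c5⟩ := ml_cut (E := E) R
  have m1 : AEStronglyMeasurable (fun x => χ x - 1) μ :=
    (c1.continuous.sub continuous_const).aestronglyMeasurable
  have t1 : ∀ (u : E → ℂ) (x : E), ‖(χ x - 1) • u x‖ ≤ ‖u x‖ := fun u x => by
    rw [norm_smul]
    exact mul_le_of_le_one_left (norm_nonneg _) (c3 x)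
  have t2 : ∀ (u : E → ℂ) (x : E), ‖x‖ ≤ R → (χ x - 1) • u x = 0 := fun u x hx => by
    rw [(c5 x hx).1, sub_self, zero_smul]
  have e3 : ENNReal.ofReal η + ENNReal.ofReal η + ENNReal.ofReal η = ENNReal.ofReal (3 * η) := by
    rw [← ENNReal.ofReal_add hη.le hη.le, ← ENNReal.ofReal_add (by positivity) hη.le]
    congr 1; ring
  refine ⟨fun x => χ x • F x, c1.smul f3, c2.smul_right, ?_, fun j => ?_⟩
  · have e : (fun x => χ x • F x - f x) = (fun x => (χ x - 1) • F x) + (F - f) := by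
      funext x; simp [sub_smul]
    refine ml_sq (w := fun x => χ x • F x - f x) ?_ (by positivity) ?_ <;> rw [e]
    · exact (m1.smul f2.1).add (f2.1.sub hf.1)
    · exact (eLpNorm_add_le (m1.smul f2.1) (f2.1.sub hf.1) one_le_two).trans
        (((add_le_add (r1 _ (t1 F) (t2 F)) f1).trans le_self_add).trans e3.le)
  · have e : (fun x => fderiv ℝ (fun x => χ x • F x) x (v j) - G j x) =
        (fun x => (χ x - 1) • mlC μ (b.normed μ) (G j) x) + (mlC μ (b.normed μ) (G j) - G j) +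
          fun x => fderiv ℝ χ x (v j) • F x := by
      funext x
      rw [fderiv_fun_smul (c1.differentiable one_ne_zero x) (f3.differentiable one_ne_zero x)]
      simp [sub_smul, f4]
      ring
    have m2 := (m1.smul (kG j).2.1).add ((kG j).2.1.sub (hG j).1)
    have m3 : AEStronglyMeasurable (fun x => fderiv ℝ χ x (v j) • F x) μ :=
      ((c1.continuous_fderiv one_ne_zero).clm_apply continuous_const).aestronglyMeasurable.smul f2.1
    refine ml_sq (w := fun x => fderiv ℝ (fun x => χ x • F x) x (v j) - G j x) ?_ (by positivity)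
      ?_ <;> rw [e]
    · exact m2.add m3
    · refine (eLpNorm_add_le m2 m3 one_le_two).trans (le_trans (add_le_add
        ((eLpNorm_add_le (m1.smul (kG j).2.1) ((kG j).2.1.sub (hG j).1) one_le_two).trans
          (add_le_add (r2 j _ (t1 _) (t2 _)) (kG j).1)) (r1 _ (fun x => ?_) fun x hx => ?_)) e3.le)
      · rw [norm_smul]
        exact mul_le_of_le_one_left (norm_nonneg _) (((fderiv ℝ χ x).le_opNorm _).trans
          (mul_le_one₀ (c4 x) (norm_nonneg _) (hv j)))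
      · simp [(c5 x hx).2]

end general

theorem InH1.approx {N : ℕ} {f : (Fin N → Pt) → ℂ} {G : Fin N → Fin 3 → (Fin N → Pt) → ℂ}
    (h : InH1 f G) {ε : ℝ} (hε : 0 < ε) :
    ∃ g : (Fin N → Pt) → ℂ, ContDiff ℝ 1 g ∧ HasCompactSupport g ∧ ∫ x, ‖g x - f x‖ ^ 2 ≤ ε ∧
      ∀ i k, ∫ x, ‖fderiv ℝ g x (Pi.single i (Pi.single k 1)) - G i k x‖ ^ 2 ≤ ε := by
  obtain ⟨g, g1, g2, g3, g4⟩ := ml_approx (ι := Fin N × Fin 3) (μ := volume)
    (v := fun j => (Pi.single j.1 (Pi.single j.2 1) : Fin N → Pt)) (G := fun j => G j.1 j.2)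
    (fun j => by simp [Pi.norm_single]) h.1 (fun j => (h.2 _ _).1) (fun j => (h.2 _ _).2)
    (η := √ε / 3) (by positivity)
  rw [mul_div_cancel₀ _ three_ne_zero, Real.sq_sqrt hε.le] at g3 g4
  exact ⟨g, g1, g2, g3, fun i k => g4 (i, k)⟩

theorem inH1_of_c1 {N : ℕ} {g : (Fin N → Pt) → ℂ} (h : ContDiff ℝ 1 g)
    (hc : HasCompactSupport g) :
    InH1 g fun i k x => fderiv ℝ g x (Pi.single i (Pi.single k 1)) := by
  have h1 := fun v : Fin N → Pt => (h.continuous_fderiv one_ne_zero).clm_apply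
    (continuous_const (y := v))
  refine ⟨h.continuous.memLp_of_hasCompactSupport hc, fun i k =>
    ⟨(h1 _).memLp_of_hasCompactSupport (hc.fderiv_apply ℝ _), fun φ p1 p2 => ?_⟩⟩
  have p3 : ContDiff ℝ 1 φ := p1.of_le (by exact_mod_cast le_top)
  have p4 := Complex.continuous_ofReal.comp p3.continuous
  have p5 := Complex.continuous_ofReal.comp ((p3.continuous_fderiv one_ne_zero).clm_apply
    (continuous_const (y := (Pi.single i (Pi.single k 1) : Fin N → Pt))))
  exact integral_bilinear_fderiv_right_eq_neg_left_of_integrable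
    (B := (ContinuousLinearMap.mul ℝ ℂ).bilinearComp (ContinuousLinearMap.id ℝ ℂ) Complex.ofRealCLM)
    (((h1 _).mul p4).integrable_of_hasCompactSupport (hc.fderiv_apply ℝ _).mul_right)
    ((h.continuous.mul p5).integrable_of_hasCompactSupport hc.mul_right)
    ((h.continuous.mul p4).integrable_of_hasCompactSupport hc.mul_right)
    (fun x _ => h.differentiable one_ne_zero x) fun x _ => p3.differentiable one_ne_zero x

end Vale.Agent.P370
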