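import Vale.Agent.P370.Radial
import Vale.Agent.P370.Tensor

/-!
One-body and two-body hypotheses of the many-body reduction.
-/

namespace Vale.Agent.P370

open MeasureTheory
open scoped ContDiff

variable {M : ℕ}

/-- Sharp orbitals: bounded, normalised, with disjoint bounded supports. -/
structure Sharp (φ : Arm M → Pt → ℝ) : Prop where
  bm : ∀ a, BM (φ a)
  bdd : ∃ r, ∀ a x, φ a x ≠ 0 → ‖x‖ ≤ r
  disj : ∀ a b x, a ≠ b → φ a x * φ b x = 0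
  one : ∀ a, ∫ x, φ a x ^ 2 = 1

/-- Coefficients of a one-body function. -/
noncomputable def co (φ : Arm M → Pt → ℝ) (ψ : Pt → ℝ) (a : Arm M) : ℝ := ∫ x, φ a x * ψ x

/-- Linear combinations of orbitals. -/
def lc (φ : Arm M → Pt → ℝ) (c : Arm M → ℝ) (x : Pt) : ℝ := ∑ a, c a * φ a x

/-- One-body lower bound. -/
def OBlow (V : Pt → ℝ) (φ : Arm M → Pt → ℝ) (E T γ ε : ℝ) : Prop :=
  ∀ ψ, C1c ψ → (E - ε) * (∫ x, ψ x ^ 2) + T * hop (co φ ψ) +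
    γ * ((∫ x, ψ x ^ 2) - ∑ a, co φ ψ a ^ 2) ≤ qV V ψ

/-- One-body upper bound. -/
def OBup (V : Pt → ℝ) (η : Arm M → Pt → ℝ) (E T ε : ℝ) : Prop :=
  ∀ c : Arm M → ℝ, qV V (lc η c) ≤ E * (∫ x, lc η c x ^ 2) + T * hop c + ε * ∑ a, c a ^ 2

/-- Smooth orbitals that agree with the sharp ones on their supports. -/
structure Soft (φ η : Arm M → Pt → ℝ) (δ : ℝ) : Prop where
  smooth : ∀ a, ContDiff ℝ ∞ (η a) ∧ HasCompactSupport (η a)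
  agree : ∀ a b x, φ b x ≠ 0 → η a x = φ a x
  close : ∀ c : Arm M → ℝ, ∫ x, (lc η c x - lc φ c x) ^ 2 ≤ δ * ∑ a, c a ^ 2

/-- Two-body lower bound, with the kernel truncated at `Λ`. -/
def TBlow (φ : Arm M → Pt → ℝ) (Λ : ℝ) (V : Arm M → Arm M → ℝ) (ε : ℝ) : Prop :=
  ∀ a b, V a b - ε ≤ ∫ p : Pt × Pt, min (ker (p.1 - p.2)) Λ * (φ a p.1 ^ 2 * φ b p.2 ^ 2)

/-- Two-body upper bound. -/
def TBup (η : Arm M → Pt → ℝ) (V : Arm M → Arm M → ℝ) (ε : ℝ) : Prop :=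
  ∀ d : Arm M → Arm M → ℝ,
    ∫ p : Pt × Pt, ker (p.1 - p.2) * (∑ a, ∑ b, d a b * (η a p.1 * η b p.2)) ^ 2 ≤
      ∑ a, ∑ b, (V a b + ε) * d a b ^ 2

end Vale.Agent.P370
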