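import Vale.Agent.P370.OB

/-!
General lemmas for the one-body lower bound: small boxes, a line inequality, best approximation,
the hopping form.
-/

namespace Vale.Agent.P370

open MeasureTheory Set

/-- A box of height two. -/
def olQ (a b c d : ℝ) : Set Pt := {x | x 0 ∈ Icc a b ∧ x 1 ∈ Icc c d ∧ x 2 ∈ Icc (-1 : ℝ) 1}

lemma olQ_eq (a b c d : ℝ) : olQ a b c d = Icc ![a, c, -1] ![b, d, 1] := by
  ext x
  simp only [olQ, mem_ofPred_eq, mem_Icc, Pi.le_def, Fin.forall_fin_succ]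
  simp
  tauto

lemma isCompact_olQ (a b c d : ℝ) : IsCompact (olQ a b c d) := by
  rw [olQ_eq]
  exact isCompact_Icc

lemma measurableSet_olQ (a b c d : ℝ) : MeasurableSet (olQ a b c d) :=
  (isCompact_olQ a b c d).measurableSet

lemma ol_intQ {F : Pt → ℝ} (hF : Continuous F) (a b c d : ℝ) : IntegrableOn F (olQ a b c d) :=
  hF.continuousOn.integrableOn_compact (isCompact_olQ a b c d)

lemma integral_olQ (ρ : ℝ → ℝ) {a b c d : ℝ} (hab : a ≤ b) (hcd : c ≤ d) :
    ∫ x in olQ a b c d, ρ (x 2) = (b - a) * (d - c) * ∫ z in Icc (-1 : ℝ) 1, ρ z := by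
  have h := integral_pt_prod ((Icc a b).indicator fun _ => 1) ((Icc c d).indicator fun _ => 1)
    ((Icc (-1 : ℝ) 1).indicator ρ)
  rw [integral_indicator measurableSet_Icc, integral_indicator measurableSet_Icc,
    integral_indicator measurableSet_Icc] at h
  rw [← integral_indicator (measurableSet_olQ a b c d)]
  simp only [integral_const, MeasurableSet.univ, measureReal_restrict_apply, univ_inter,
    Real.volume_real_Icc_of_le hab, Real.volume_real_Icc_of_le hcd, smul_eq_mul, mul_one] at h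
  rw [← h]
  congr 1
  ext x
  by_cases h0 : x 0 ∈ Icc a b <;> by_cases h1 : x 1 ∈ Icc c d <;>
    by_cases h2 : x 2 ∈ Icc (-1 : ℝ) 1 <;> simp [olQ, indicator, h0, h1, h2, -mem_Icc]

/-- Splitting off the first coordinate. -/
def olP (q : ℝ × ℝ × ℝ) : Pt := ![q.1, q.2.1, q.2.2]

lemma olP_mp : MeasurePreserving olP volume volume :=
  measurePreserving_toPt.comp (volume_preserving_prodAssoc (α₁ := ℝ) (β₁ := ℝ) (γ₁ := ℝ)).symm

lemma olP_emb : MeasurableEmbedding olP :=
  measurableEmbedding_toPt.comp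
    (MeasurableEquiv.prodAssoc (α := ℝ) (β := ℝ) (γ := ℝ)).symm.measurableEmbedding

lemma olQ_fubini {F : Pt → ℝ} (hF : Continuous F) (a b c d : ℝ) :
    IntegrableOn (fun p : ℝ × ℝ => ∫ t in Icc a b, F ![t, p.1, p.2]) (Icc c d ×ˢ Icc (-1) 1) ∧
      ∫ x in olQ a b c d, F x =
        ∫ p in Icc c d ×ˢ Icc (-1 : ℝ) 1, ∫ t in Icc a b, F ![t, p.1, p.2] := by
  have e : olP ⁻¹' olQ a b c d = Icc a b ×ˢ (Icc c d ×ˢ Icc (-1) 1) := by
    ext q
    exact Iff.rfl
  have h1 : IntegrableOn (F ∘ olP) (olP ⁻¹' olQ a b c d) :=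
    (olP_mp.integrableOn_comp_preimage olP_emb).2 (ol_intQ hF a b c d)
  rw [e, IntegrableOn, Measure.volume_eq_prod, ← Measure.prod_restrict] at h1
  refine ⟨h1.integral_prod_right, ?_⟩
  rw [← olP_mp.setIntegral_preimage_emb olP_emb, e, Measure.volume_eq_prod,
    ← Measure.prod_restrict]
  exact integral_prod_symm _ h1

lemma ol_cs {u : ℝ → ℝ} (hu : Continuous u) {a s : ℝ} (hs : 0 < s) :
    (∫ t in a..a + s, u t) ^ 2 ≤ s * ∫ t in a..a + s, u t ^ 2 := by
  set I := ∫ t in a..a + s, u t with hI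
  have h0 : 0 ≤ ∫ t in a..a + s, (u t - I / s) ^ 2 :=
    intervalIntegral.integral_nonneg (by linarith) fun _ _ => sq_nonneg _
  have h1 : ∫ t in a..a + s, (u t - I / s) ^ 2 =
      (∫ t in a..a + s, u t ^ 2) - 2 * (I / s) * I + s * (I / s) ^ 2 := by
    have : (fun t => (u t - I / s) ^ 2) = fun t => u t ^ 2 - 2 * (I / s) * u t + (I / s) ^ 2 := by
      ext t
      ring
    rw [this, intervalIntegral.integral_add, intervalIntegral.integral_sub,
      intervalIntegral.integral_const_mul, intervalIntegral.integral_const]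
    · simp only [add_sub_cancel_left, smul_eq_mul, ← hI]
    all_goals exact Continuous.intervalIntegrable (by fun_prop) _ _
  rw [h1] at h0
  have h2 := mul_nonneg hs.le h0
  have h3 : s * ((∫ t in a..a + s, u t ^ 2) - 2 * (I / s) * I + s * (I / s) ^ 2) =
      s * (∫ t in a..a + s, u t ^ 2) - I ^ 2 := by
    field_simp
    ring
  linarith

lemma ol_cont_pd {g : Pt → ℝ} (hg : ContDiff ℝ 1 g) (k : Fin 3) : Continuous (pd k g) :=
  (hg.continuous_fderiv one_ne_zero).clm_apply continuous_const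

lemma ol_cont_gsq {g : Pt → ℝ} (hg : ContDiff ℝ 1 g) : Continuous (gsq g) :=
  continuous_finsetSum _ fun k _ => (ol_cont_pd hg k).pow 2

lemma ol_gsq_nonneg (g : Pt → ℝ) (x : Pt) : 0 ≤ gsq g x :=
  Finset.sum_nonneg fun _ _ => sq_nonneg _

lemma ol_cont_line (y z : ℝ) : Continuous fun t : ℝ => (![t, y, z] : Pt) := by fun_prop

lemma ol_line_deriv {g : Pt → ℝ} (hg : ContDiff ℝ 1 g) (t y z : ℝ) :
    HasDerivAt (fun t : ℝ => g ![t, y, z]) (pd 0 g ![t, y, z]) t := by
  have h1 : HasDerivAt (fun t : ℝ => (![t, y, z] : Pt)) (ek 0) t := by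
    rw [hasDerivAt_pi]
    intro i
    fin_cases i
    · simpa [ek] using hasDerivAt_id' t
    · simpa [ek] using hasDerivAt_const t y
    · simpa [ek] using hasDerivAt_const t z
  exact (hg.differentiable one_ne_zero _).hasFDerivAt.comp_hasDerivAt t h1

lemma ol_line_pt {g : Pt → ℝ} (hg : ContDiff ℝ 1 g) {a b s t : ℝ} (hs : 0 < s) (ht : t ∈ Icc a b)
    (y z : ℝ) : (g ![t, y, z] - g ![t - s, y, z]) ^ 2 ≤
      s * ∫ u in Icc (a - s) b, gsq g ![u, y, z] := by
  have c1 : Continuous fun u : ℝ => pd 0 g ![u, y, z] := (ol_cont_pd hg 0).comp (ol_cont_line y z)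
  have c2 : Continuous fun u : ℝ => gsq g ![u, y, z] := (ol_cont_gsq hg).comp (ol_cont_line y z)
  have h1 := intervalIntegral.integral_eq_sub_of_hasDerivAt (a := t - s) (b := t - s + s)
    (fun u _ => ol_line_deriv hg u y z) (c1.intervalIntegrable _ _)
  have h2 := ol_cs c1 (a := t - s) hs
  rw [h1, sub_add_cancel] at h2
  refine h2.trans (mul_le_mul_of_nonneg_left ?_ hs.le)
  rw [intervalIntegral.integral_of_le (by linarith)]
  calc _ ≤ ∫ u in Ioc (t - s) t, gsq g ![u, y, z] := by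
        refine setIntegral_mono_on ((c1.pow 2).integrableOn_Icc.mono_set Ioc_subset_Icc_self)
          (c2.integrableOn_Icc.mono_set Ioc_subset_Icc_self) measurableSet_Ioc fun u _ => ?_
        exact Finset.single_le_sum (f := fun k => pd k g ![u, y, z] ^ 2)
          (fun _ _ => sq_nonneg _) (Finset.mem_univ 0)
    _ ≤ _ := by
        refine setIntegral_mono_set c2.integrableOn_Icc
          (Filter.Eventually.of_forall fun u => ol_gsq_nonneg _ _) (LE.le.eventuallyLE ?_)
        intro u hu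
        exact ⟨by linarith [hu.1, ht.1], by linarith [hu.2, ht.2]⟩

lemma ol_sub_ek (t y z s : ℝ) : (![t, y, z] : Pt) - s • ek 0 = ![t - s, y, z] := by
  ext i
  fin_cases i <;> simp [ek]

/-- The line inequality. -/
lemma ol_line {g : Pt → ℝ} (hg : ContDiff ℝ 1 g) {ρ : ℝ → ℝ} (hρ : Continuous ρ)
    (h0 : ∀ z, 0 ≤ ρ z) {a b s : ℝ} (hs : 0 < s) (hab : a ≤ b) (c d : ℝ) :
    ∫ x in olQ a b c d, ρ (x 2) * (g x - g (x - s • ek 0)) ^ 2 ≤
      s * (b - a) * ∫ x in olQ (a - s) b c d, ρ (x 2) * gsq g x := by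
  have cg := hg.continuous
  have cq := ol_cont_gsq hg
  obtain ⟨i1, e1⟩ := olQ_fubini (F := fun x => ρ (x 2) * (g x - g (x - s • ek 0)) ^ 2)
    (by fun_prop) a b c d
  obtain ⟨i2, e2⟩ := olQ_fubini (F := fun x => ρ (x 2) * gsq g x) (by fun_prop) (a - s) b c d
  rw [e1, e2, ← integral_const_mul]
  refine setIntegral_mono_on i1 (i2.const_mul _) (measurableSet_Icc.prod measurableSet_Icc)
    fun p _ => ?_
  simp only [ol_sub_ek, Matrix.cons_val]
  rw [integral_const_mul, integral_const_mul]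
  have h1 : ∫ t in Icc a b, (g ![t, p.1, p.2] - g ![t - s, p.1, p.2]) ^ 2 ≤
      ∫ _t in Icc a b, s * ∫ u in Icc (a - s) b, gsq g ![u, p.1, p.2] := by
    refine setIntegral_mono_on (Continuous.integrableOn_Icc (by fun_prop))
      (Continuous.integrableOn_Icc continuous_const) measurableSet_Icc fun t ht => ?_
    exact ol_line_pt hg hs ht _ _
  simp only [integral_const, MeasurableSet.univ, measureReal_restrict_apply, univ_inter,
    Real.volume_real_Icc_of_le hab, smul_eq_mul] at h1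
  have h2 := mul_le_mul_of_nonneg_left h1 (h0 p.2)
  linarith

/-- Translation of a box. -/
lemma ol_shift (F : Pt → ℝ) (a b c d s : ℝ) :
    ∫ x in olQ a b c d, F (x - s • ek 0) = ∫ x in olQ (a - s) (b - s) c d, F x := by
  rw [← (measurePreserving_sub_right volume (s • ek 0)).setIntegral_preimage_emb
    (measurableEmbedding_subRight _) F]
  congr 2
  ext x
  simp [olQ, ek]

variable {M : ℕ}

lemma ol_int_sq {ψ : Pt → ℝ} (hψ : C1c ψ) : Integrable fun x => ψ x ^ 2 := by
  simp only [sq]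
  exact (hψ.1.continuous.mul hψ.1.continuous).integrable_of_hasCompactSupport hψ.2.mul_right

/-- Best approximation. -/
lemma ol_pyth {φ : Arm M → Pt → ℝ} (hφ : Sharp φ) {ψ : Pt → ℝ} (hψ : C1c ψ) (b : Arm M → ℝ) :
    Integrable (fun x => (ψ x - lc φ b x) ^ 2) ∧ ∫ x, (ψ x - lc φ b x) ^ 2 =
      (∫ x, ψ x ^ 2) - ∑ a, co φ ψ a ^ 2 + ∑ a, (co φ ψ a - b a) ^ 2 := by
  have e : (fun x => (ψ x - lc φ b x) ^ 2) = fun x =>
      ψ x ^ 2 - ∑ a, 2 * b a * (φ a x * ψ x) + ∑ a, b a ^ 2 * φ a x ^ 2 := by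
    ext x
    have h1 : lc φ b x ^ 2 = ∑ a, b a ^ 2 * φ a x ^ 2 := by
      rw [lc, sq, Finset.sum_mul_sum]
      refine Finset.sum_congr rfl fun a _ => ?_
      rw [Finset.sum_eq_single a (fun c _ hc => ?_) (by simp)]
      · ring
      · have := hφ.disj a c x hc.symm
        linear_combination b a * b c * this
    have h2 : ∑ a, 2 * b a * (φ a x * ψ x) = 2 * ψ x * lc φ b x := by
      rw [lc, Finset.mul_sum]
      exact Finset.sum_congr rfl fun a _ => by ring
    rw [← h1, h2]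
    ring
  have i1 := ol_int_sq hψ
  have i0 : Integrable ψ := hψ.1.continuous.integrable_of_hasCompactSupport hψ.2
  have i2 : ∀ a, Integrable fun x => 2 * b a * (φ a x * ψ x) := fun a => by
    obtain ⟨hm, C, hC⟩ := hφ.bm a
    exact (i0.bdd_mul (c := C) hm.aestronglyMeasurable
      (Filter.Eventually.of_forall fun x => hC x)).const_mul _
  have i3 : ∀ a, Integrable fun x => b a ^ 2 * φ a x ^ 2 := fun a =>
    (Integrable.of_integral_ne_zero (by rw [hφ.one a]; exact one_ne_zero)).const_mul _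
  have j2 := integrable_finsetSum Finset.univ fun a _ => i2 a
  have j3 := integrable_finsetSum Finset.univ fun a _ => i3 a
  rw [e]
  refine ⟨(i1.sub j2).add j3, ?_⟩
  have j4 : Integrable fun x => ψ x ^ 2 - ∑ a, 2 * b a * (φ a x * ψ x) := i1.sub j2
  rw [integral_add j4 j3, integral_sub i1 j2, integral_finsetSum _ fun a _ => i2 a,
    integral_finsetSum _ fun a _ => i3 a]
  simp only [integral_const_mul, hφ.one, mul_one]
  have : ∑ a, (co φ ψ a - b a) ^ 2 =
      ∑ a, co φ ψ a ^ 2 - ∑ a, 2 * b a * co φ ψ a + ∑ a, b a ^ 2 := by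
    rw [← Finset.sum_sub_distrib, ← Finset.sum_add_distrib]
    exact Finset.sum_congr rfl fun a _ => by ring
  rw [this]
  simp only [co]
  ring

lemma ol_hop_le (x : Arm M → ℝ) (y : Fin M → ℝ) : hop x ≤ ∑ a, (x a - y a.1) ^ 2 := by
  unfold hop
  rw [Fintype.sum_prod_type, Fintype.sum_prod_type]
  refine Finset.sum_le_sum fun m _ => ?_
  simp only [Fin.sum_univ_three]
  nlinarith [sq_nonneg ((x (m, 0) + x (m, 1) + x (m, 2)) / 3 - y m)]

lemma ol_hop_nonneg (x : Arm M → ℝ) : 0 ≤ hop x := Finset.sum_nonneg fun _ _ => sq_nonneg _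

lemma ol_sq_add (u v : ℝ) {κ : ℝ} (hκ : 0 < κ) :
    (u + v) ^ 2 ≤ (1 + κ) * u ^ 2 + (1 + 1 / κ) * v ^ 2 := by
  have h : (1 + κ) * u ^ 2 + (1 + 1 / κ) * v ^ 2 - (u + v) ^ 2 = (κ * u - v) ^ 2 / κ := by
    field_simp
    ring
  have : 0 ≤ (κ * u - v) ^ 2 / κ := by positivity
  linarith

lemma ol_hop_add (c x : Arm M → ℝ) (t : ℝ) {κ : ℝ} (hκ : 0 < κ) :
    hop c ≤ (1 + κ) * (t ^ 2 * hop x) + (1 + 1 / κ) * ∑ a, (c a - t * x a) ^ 2 := by
  have h1 := ol_hop_le (fun a => c a - t * x a) 0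
  simp only [Pi.zero_apply, sub_zero] at h1
  refine le_trans ?_ (add_le_add le_rfl (mul_le_mul_of_nonneg_left h1 (by positivity)))
  unfold hop
  rw [Finset.mul_sum, Finset.mul_sum, Finset.mul_sum, ← Finset.sum_add_distrib]
  refine Finset.sum_le_sum fun a _ => ?_
  have := ol_sq_add (t * (x a - (∑ b, x (a.1, b)) / 3))
    (c a - t * x a - (∑ b, (c (a.1, b) - t * x (a.1, b))) / 3) hκ
  rw [mul_pow] at this
  refine le_trans (le_of_eq ?_) this
  rw [Finset.sum_sub_distrib, ← Finset.mul_sum]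
  ring

lemma ol_sum_row (M : ℕ) (F : ℕ → ℝ) : ∑ r ∈ Finset.range (3 * M), F r = ∑ a : Arm M, F (row a) := by
  rw [mul_comm, Finset.sum_range, ← finProdFinEquiv.sum_comp]
  refine Finset.sum_congr rfl fun a _ => ?_
  simp [row, add_comm]

lemma ol_row_lt (a : Arm M) : row a < 3 * M := by
  have := a.1.2
  have := a.2.2
  unfold row
  omega

lemma ol_row_inj {a b : Arm M} (h : row a = row b) : a = b := by
  have := a.2.2
  have := b.2.2
  unfold row at h
  exact Prod.ext (Fin.ext (by omega)) (Fin.ext (by omega))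

end Vale.Agent.P370
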