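import Vale.Agent.P370.GS
import Vale.Agent.P370.OneLowA

/-!
Features as weights: lower bounds on small boxes, overlaps, masses, and the hopping inequality.
-/

namespace Vale.Agent.P370

open MeasureTheory Set
open scoped ContDiff

namespace Geo

variable (G : Geo)

/-- Integer powers of the size parameter. -/
noncomputable def olE (a : ℤ) : ℝ := (G.n : ℝ) ^ a

/-- The transverse profile. -/
noncomputable def olρ (z : ℝ) : ℝ := Real.exp (-(G.Ω * z ^ 2))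

/-- The weight of a feature in space. -/
noncomputable def olW (f : Feat) (x : Pt) : ℝ := fv G.k f x * Real.exp (-(G.Ω * x 2 ^ 2))

/-- The core. -/
def olB : Set Pt := box G.l G.l 4

/-- The facts that are used. -/
structure OLF (V : ℕ → ℕ → ℕ) : Prop where
  ok : G.OK V
  n_ge : (100 : ℝ) ≤ G.n
  exp : (G.n : ℝ) ^ 120 ≤ 2 ^ G.n
  shape : ∀ f ∈ G.feats,
    0 < f.1 ∧ f.1 ≤ 1 ∧ 1 ≤ f.2.2.1 ∧ f.2.2.1 ≤ (G.n : ℚ) ^ 25 ∧ 1 ≤ f.2.2.2.2 ∧
      f.2.2.2.2 ≤ (G.n : ℚ) ^ 25 ∧ rect f 1 ⊆ {x | |x 0| ≤ G.l / 8 ∧ |x 1| ≤ G.l / 8}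
  val : ∀ (f : Feat) (x : Pt), 0 ≤ f.1 → 1 ≤ f.2.2.1 →
    f.2.2.1 ≤ (G.n : ℚ) ^ 25 → 1 ≤ f.2.2.2.2 → f.2.2.2.2 ≤ (G.n : ℚ) ^ 25 →
    0 ≤ fv G.k f x ∧ fv G.k f x ≤ f.1 ∧ (x ∈ rect f 0 → f.1 / 4 ≤ fv G.k f x) ∧
      (x ∈ rect f (-G.ξ) → f.1 * (1 - 2 / 2 ^ G.n) ≤ fv G.k f x) ∧
      (x ∉ rect f G.ξ → fv G.k f x ≤ f.1 / 2 ^ G.n)
  Iz_ge : 1 / (G.n : ℝ) ^ 56 ≤ G.Iz
  Iz_le : G.Iz ≤ 2
  tail : ∀ z : ℝ, 1 ≤ |z| → Real.exp (-(G.Ω * z ^ 2)) ≤ G.Iz / 2 ^ G.n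

lemma olE_nat (k : ℕ) : (G.n : ℝ) ^ k = G.olE k := (zpow_natCast _ _).symm

lemma olE_inv (k : ℕ) : 1 / (G.n : ℝ) ^ k = G.olE (-k) := by
  rw [olE, zpow_neg, zpow_natCast, one_div]

lemma ol_Lk : (G.Lk : ℝ) = G.olE 5 := by rw [Lk, Nat.cast_pow, olE_nat]; rfl
lemma ol_J : (G.J : ℝ) = G.olE 4 := by rw [J, Nat.cast_pow, olE_nat]; rfl
lemma ol_d : (G.d : ℝ) = G.olE 6 := by rw [d, Nat.cast_pow, olE_nat]; rfl
lemma ol_l : (G.l : ℝ) = G.olE 26 := by rw [l, Nat.cast_pow, olE_nat]; rfl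
lemma ol_ξ : G.ξ = G.olE (-20) := by rw [ξ, olE_inv]; rfl

lemma ol_cont_ρ : Continuous G.olρ := by
  unfold olρ
  fun_prop

lemma ol_ρ_pos (z : ℝ) : 0 < G.olρ z := Real.exp_pos _

lemma ol_ρ_le (z : ℝ) : G.olρ z ≤ 1 := by
  have : 0 ≤ G.Ω := by unfold Ω; positivity
  exact Real.exp_le_one_iff.2 (neg_nonpos.2 (by positivity))

lemma ol_cont_W (f : Feat) : Continuous (G.olW f) := by
  have := (contDiff_pp G.k).continuous
  unfold olW fv
  fun_prop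

lemma ol_intB {F : Pt → ℝ} (hF : Continuous F) : IntegrableOn F G.olB :=
  hF.continuousOn.integrableOn_compact (isCompact_box _ _ _)

lemma ol_rect_mono {f : Feat} {e e' : ℝ} (h : e ≤ e') : rect f e ⊆ rect f e' :=
  fun _ hx => ⟨hx.1.trans (by linarith), hx.2.trans (by linarith)⟩

lemma ol_rect_well (s r : ℕ) (e : ℝ) (x : Pt) : x ∈ rect (G.well s r) e ↔
    |x 0 - G.D * (s + 1)| ≤ 1 + e ∧ |x 1 - G.d * r| ≤ 1 + e := by
  simp [rect, well]

lemma ol_rect_wire (r : ℕ) (e : ℝ) (x : Pt) : x ∈ rect (G.wire r) e ↔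
    |x 0 - G.X / 2| ≤ G.X / 2 + e ∧ |x 1 - G.d * r| ≤ 1 + e := by
  simp [rect, wire]

lemma ol_rect_link (r : ℕ) (e : ℝ) (x : Pt) : x ∈ rect (G.link r) e ↔
    |x 0 + G.Lk / 2| ≤ G.Lk / 2 + 1 + e ∧ |x 1 - G.d * r| ≤ 1 + e := by
  simp [rect, link]

lemma ol_rect_hub (m : ℕ) (e : ℝ) (x : Pt) : x ∈ rect (G.hub m) e ↔
    |x 0 + (G.Lk + 1)| ≤ 1 + e ∧ |x 1 - G.d * (3 * m + 1)| ≤ G.d + 1 + e := by
  simp only [rect, hub, mem_ofPred_eq]
  push_cast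
  rw [sub_neg_eq_add]

lemma ol_mem_well {s r : ℕ} (h : s ∈ G.sts r) : G.well s r ∈ G.feats := by
  simp only [sts, Finset.mem_filter, Finset.mem_range] at h
  simp only [feats, wells, List.mem_append, List.mem_flatMap, List.mem_range]
  refine Or.inl (Or.inl (Or.inl ⟨s, h.1, ?_⟩))
  cases hb : (G.st.getD s (0, 0)).1 == (G.st.getD s (0, 0)).2
  · rcases h.2 with h | h <;> simp [← h]
  · rw [beq_iff_eq] at hb
    rcases h.2 with h | h
    · simp [← h]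
    · rw [hb, h]
      simp

lemma ol_mem_wire {r : ℕ} (h : r < 3 * G.M) : G.wire r ∈ G.feats := by
  simp only [feats, List.mem_append, List.mem_map, List.mem_range]
  exact Or.inl (Or.inl (Or.inr ⟨r, h, rfl⟩))

lemma ol_mem_link {r : ℕ} (h : r < 3 * G.M) : G.link r ∈ G.feats := by
  simp only [feats, List.mem_append, List.mem_map, List.mem_range]
  exact Or.inl (Or.inr ⟨r, h, rfl⟩)

lemma ol_mem_hub {m : ℕ} (h : m < G.M) : G.hub m ∈ G.feats := by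
  simp only [feats, List.mem_append, List.mem_map, List.mem_range]
  exact Or.inr ⟨m, h, rfl⟩

variable {G} {V : ℕ → ℕ → ℕ} (H : G.OLF V)
include H

lemma OLF.E_pos (a : ℤ) : 0 < G.olE a := zpow_pos (by linarith [H.n_ge]) _

lemma OLF.E_mul (a b : ℤ) : G.olE a * G.olE b = G.olE (a + b) :=
  (zpow_add₀ (by linarith [H.n_ge]) _ _).symm

lemma OLF.E_le {a b : ℤ} (h : a ≤ b) : G.olE a ≤ G.olE b :=
  zpow_le_zpow_right₀ (by linarith [H.n_ge]) h

lemma OLF.E_c {a b : ℤ} {C : ℝ} (hC : C ≤ 100) (h : a + 1 ≤ b) : C * G.olE a ≤ G.olE b := by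
  refine le_trans ?_ (H.E_le h)
  rw [← H.E_mul, mul_comm, olE, olE, zpow_one]
  exact mul_le_mul_of_nonneg_left (hC.trans H.n_ge) (H.E_pos a).le

lemma OLF.E_cc {a b : ℤ} {C : ℝ} (hC : C ≤ 10000) (h : a + 2 ≤ b) : C * G.olE a ≤ G.olE b := by
  have h1 := H.E_c (a := a) (b := a + 1) le_rfl le_rfl
  have h2 := H.E_c (a := a + 1) (b := b) le_rfl (by omega)
  have h3 := mul_le_mul_of_nonneg_right hC (H.E_pos a).le
  linarith

lemma OLF.E_ge {b : ℤ} (h : 1 ≤ b) : 100 ≤ G.olE b := by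
  have := H.E_c (a := 0) (b := b) le_rfl (by omega)
  rwa [olE, zpow_zero, mul_one] at this

lemma OLF.E_small {a : ℤ} (h : a ≤ -1) : G.olE a ≤ 1 / 100 := by
  have := H.E_c (a := a) (b := 0) le_rfl (by omega)
  rw [olE, olE, zpow_zero] at this
  rw [olE]
  linarith

lemma OLF.w_le : (G.w : ℝ) ≤ G.olE (-300) := by
  have : (G.w : ℝ) ≤ 1 / (G.n : ℝ) ^ 300 := by
    have h := (Rat.cast_le (K := ℝ)).2 H.ok.w_le
    rwa [Rat.cast_div, Rat.cast_one, Rat.cast_pow, Rat.cast_natCast] at h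
  rwa [olE_inv] at this

lemma OLF.two_le : 1 / (2 : ℝ) ^ G.n ≤ G.w * G.olE (-300) := by
  have h : (G.n : ℝ) ^ 300 / 2 ^ G.n ≤ G.w := by
    have h := (Rat.cast_le (K := ℝ)).2 H.ok.w_ge
    rwa [Rat.cast_div, Rat.cast_pow, Rat.cast_natCast, Rat.cast_pow, Rat.cast_ofNat] at h
  have h1 := mul_le_mul_of_nonneg_right h (H.E_pos (-300)).le
  refine le_trans (le_of_eq ?_) h1
  rw [olE_nat, div_mul_eq_mul_div, H.E_mul]
  simp [olE]

lemma OLF.w_pos : (0 : ℝ) < G.w := by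
  have h : (0 : ℝ) < G.w * G.olE (-300) := lt_of_lt_of_le (by positivity) H.two_le
  exact (mul_pos_iff_of_pos_right (H.E_pos _)).1 h

lemma OLF.two_le' : 1 / (2 : ℝ) ^ G.n ≤ G.olE (-120) := by
  refine (one_div_le_one_div_of_le (pow_pos (by linarith [H.n_ge]) _) H.exp).trans ?_
  rw [olE_inv]
  rfl

lemma OLF.Iz_ge' : G.olE (-56) ≤ G.Iz := by
  have := H.Iz_ge
  rwa [olE_inv] at this

lemma OLF.Iz_pos : 0 < G.Iz := (H.E_pos _).trans_le H.Iz_ge'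

lemma OLF.vol : volume.real G.olB = 32 * G.olE 52 := by
  rw [olB, volume_box (by positivity) (by positivity) (by norm_num), ol_l,
    show (52 : ℤ) = 26 + 26 from rfl, ← H.E_mul]
  ring

lemma OLF.fv {f : Feat} (hf : f ∈ G.feats) (x : Pt) :
    0 ≤ fv G.k f x ∧ fv G.k f x ≤ f.1 ∧ (x ∈ rect f 0 → f.1 / 4 ≤ fv G.k f x) ∧
      (x ∈ rect f (-G.ξ) → f.1 * (1 - 2 / 2 ^ G.n) ≤ fv G.k f x) ∧
      (x ∉ rect f G.ξ → fv G.k f x ≤ f.1 / 2 ^ G.n) := by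
  obtain ⟨h1, -, h2, h3, h4, h5, -⟩ := H.shape f hf
  exact H.val f x h1.le h2 h3 h4 h5

lemma OLF.W_nonneg {f : Feat} (hf : f ∈ G.feats) (x : Pt) : 0 ≤ G.olW f x :=
  mul_nonneg (H.fv hf x).1 (Real.exp_pos _).le

lemma OLF.wt_pos {f : Feat} (hf : f ∈ G.feats) : (0 : ℝ) < f.1 := by
  exact_mod_cast (H.shape f hf).1

lemma OLF.ξ_le : 0 < G.ξ ∧ G.ξ ≤ 1 / 100 := by
  rw [ol_ξ]
  exact ⟨H.E_pos _, H.E_small (by norm_num)⟩

lemma OLF.mem_B {f : Feat} (hf : f ∈ G.feats) {x : Pt} (h : x ∈ rect f 1) (h2 : |x 2| ≤ 1) :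
    x ∈ G.olB := by
  obtain ⟨h0, h1⟩ := (H.shape f hf).2.2.2.2.2.2 h
  have : (0 : ℝ) ≤ G.l := Nat.cast_nonneg _
  exact ⟨by linarith, by linarith, by linarith⟩

/-- Tails of a feature. -/
lemma OLF.W_tail {f : Feat} (hf : f ∈ G.feats) {x : Pt} (h : ¬(x ∈ rect f 1 ∧ |x 2| ≤ 1)) :
    G.olW f x ≤ f.1 * (2 / 2 ^ G.n) := by
  obtain ⟨h0, h1, -, -, h2⟩ := H.fv hf x
  have hw := H.wt_pos hf
  have h2n : (0 : ℝ) < 1 / 2 ^ G.n := by positivity
  by_cases hx : x ∈ rect f 1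
  · have h3 : 1 ≤ |x 2| := (not_le.1 fun h' => h ⟨hx, h'⟩).le
    exact mul_le_mul h1 ((H.tail _ h3).trans (div_le_div_of_nonneg_right H.Iz_le (by positivity)))
      (Real.exp_pos _).le hw.le
  · have h3 := h2 fun h' => hx (ol_rect_mono (by linarith [H.ξ_le.2]) h')
    have h4 : G.olW f x ≤ P370.fv G.k f x := mul_le_of_le_one_right h0 (G.ol_ρ_le _)
    have h5 : (f.1 : ℝ) / 2 ^ G.n = f.1 * (1 / 2 ^ G.n) := by ring
    have h6 : (f.1 : ℝ) * (2 / 2 ^ G.n) = 2 * (f.1 * (1 / 2 ^ G.n)) := by ring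
    have h7 := mul_pos hw h2n
    linarith

/-- Lower bound by a small box. -/
lemma OLF.low_Q {f : Feat} (hf : f ∈ G.feats) {a b c d lam : ℝ}
    (hQ : ∀ x ∈ olQ a b c d, x ∈ rect f 1 ∧ lam ≤ P370.fv G.k f x) {h : Pt → ℝ}
    (hc : Continuous h) (h0 : ∀ x, 0 ≤ h x) :
    lam * ∫ x in olQ a b c d, G.olρ (x 2) * h x ≤ ∫ x in G.olB, G.olW f x * h x := by
  have c1 := G.ol_cont_ρ
  have c2 := G.ol_cont_W f
  rw [← integral_const_mul]
  calc _ ≤ ∫ x in olQ a b c d, G.olW f x * h x := by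
        refine setIntegral_mono_on (ol_intQ (by fun_prop) _ _ _ _) (ol_intQ (by fun_prop) _ _ _ _)
          (measurableSet_olQ _ _ _ _) fun x hx => ?_
        rw [← mul_assoc]
        exact mul_le_mul_of_nonneg_right
          (mul_le_mul_of_nonneg_right (hQ x hx).2 (G.ol_ρ_pos _).le) (h0 x)
    _ ≤ _ := by
        refine setIntegral_mono_set (G.ol_intB (by fun_prop))
          (Filter.Eventually.of_forall fun x => mul_nonneg (H.W_nonneg hf x) (h0 x))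
          (LE.le.eventuallyLE fun x hx => H.mem_B hf (hQ x hx).1 (abs_le.2 hx.2.2))

lemma OLF.dev_ge {f : Feat} (hf : f ∈ G.feats) {a b c d : ℝ} (hQ : olQ a b c d ⊆ rect f 0)
    {g : Pt → ℝ} (hg : Continuous g) (α : ℝ) :
    f.1 / 4 * ∫ x in olQ a b c d, G.olρ (x 2) * (g x - α) ^ 2 ≤ G.dev f g α :=
  H.low_Q hf (fun x hx => ⟨ol_rect_mono zero_le_one (hQ hx), (H.fv hf x).2.2.1 (hQ hx)⟩)
    (by fun_prop) fun _ => sq_nonneg _

/-- Overlapping features have close mean values. -/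
lemma OLF.overlap {f f' : Feat} (hf : f ∈ G.feats) (hf' : f' ∈ G.feats) {a b c d : ℝ}
    (hab : a ≤ b) (hcd : c ≤ d) (hQ : olQ a b c d ⊆ rect f 0) (hQ' : olQ a b c d ⊆ rect f' 0)
    {g : Pt → ℝ} (hg : Continuous g) (α α' : ℝ) :
    (α - α') ^ 2 * ((b - a) * (d - c) * G.Iz) ≤
      8 * (G.dev f g α / f.1) + 8 * (G.dev f' g α' / f'.1) := by
  have c1 := G.ol_cont_ρ
  have h1 := H.dev_ge hf hQ hg α
  have h2 := H.dev_ge hf' hQ' hg α'
  rw [div_mul_eq_mul_div, mul_comm, mul_div_assoc, ← le_div_iff₀ (div_pos (H.wt_pos hf) four_pos),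
    div_div_eq_mul_div, mul_div_right_comm] at h1
  rw [div_mul_eq_mul_div, mul_comm, mul_div_assoc, ← le_div_iff₀ (div_pos (H.wt_pos hf') four_pos),
    div_div_eq_mul_div, mul_div_right_comm] at h2
  have h3 : (α - α') ^ 2 * ((b - a) * (d - c) * G.Iz) ≤
      2 * (∫ x in olQ a b c d, G.olρ (x 2) * (g x - α) ^ 2) +
        2 * ∫ x in olQ a b c d, G.olρ (x 2) * (g x - α') ^ 2 := by
    have e : (b - a) * (d - c) * G.Iz = ∫ x in olQ a b c d, G.olρ (x 2) :=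
      (integral_olQ G.olρ hab hcd).symm
    rw [e, ← integral_const_mul, ← integral_const_mul, ← integral_const_mul,
      ← integral_add (ol_intQ (by fun_prop) _ _ _ _) (ol_intQ (by fun_prop) _ _ _ _)]
    refine setIntegral_mono_on (ol_intQ (by fun_prop) _ _ _ _) (ol_intQ (by fun_prop) _ _ _ _)
      (measurableSet_olQ _ _ _ _) fun x _ => ?_
    have := mul_nonneg (G.ol_ρ_pos (x 2)).le (sq_nonneg (2 * g x - α - α'))
    nlinarith
  linarith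

lemma OLF.vol_tail : volume.real G.olB * (2 / 2 ^ G.n) ≤ G.w * G.Iz := by
  have h1 := mul_le_mul_of_nonneg_left H.two_le (H.E_pos 52).le
  have h2 : 64 * G.olE (52 + -300) ≤ G.Iz := (H.E_c (by norm_num) (by norm_num)).trans H.Iz_ge'
  have h3 := mul_le_mul_of_nonneg_left h2 H.w_pos.le
  rw [← H.E_mul] at h3
  rw [H.vol]
  calc _ = 64 * (G.olE 52 * (1 / 2 ^ G.n)) := by ring
    _ ≤ _ := by linarith

lemma OLF.w_one : (G.w : ℝ) ≤ 1 / 100 := H.w_le.trans (H.E_small (by norm_num))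

/-- Mass of a feature. -/
lemma OLF.mass_le {f : Feat} (hf : f ∈ G.feats) :
    ∫ x in G.olB, G.olW f x ≤ 17 * f.1 * (f.2.2.1 * f.2.2.2.2) * G.Iz := by
  have c1 := G.ol_cont_ρ
  have hw := H.wt_pos hf
  obtain ⟨-, -, s1, -, s2, -⟩ := H.shape f hf
  have s1' : (1 : ℝ) ≤ f.2.2.1 := by exact_mod_cast s1
  have s2' : (1 : ℝ) ≤ f.2.2.2.2 := by exact_mod_cast s2
  set Q := olQ (f.2.1 - f.2.2.1 - 1) (f.2.1 + f.2.2.1 + 1) (f.2.2.2.1 - f.2.2.2.2 - 1)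
    (f.2.2.2.1 + f.2.2.2.2 + 1) with hQ
  have mQ : MeasurableSet Q := measurableSet_olQ _ _ _ _
  have i1 : Integrable (Q.indicator fun x => (f.1 : ℝ) * G.olρ (x 2)) :=
    (integrable_indicator_iff mQ).2 (ol_intQ (by fun_prop) _ _ _ _)
  have h1 : ∫ x in G.olB, G.olW f x ≤
      ∫ x in G.olB, (Q.indicator (fun x => (f.1 : ℝ) * G.olρ (x 2)) x + f.1 * (2 / 2 ^ G.n)) := by
    refine setIntegral_mono_on (G.ol_intB (G.ol_cont_W f))
      (i1.integrableOn.add (G.ol_intB continuous_const)) (measurableSet_box _ _ _) fun x _ => ?_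
    by_cases hx : x ∈ Q
    · rw [indicator_of_mem hx]
      have : G.olW f x ≤ f.1 * G.olρ (x 2) :=
        mul_le_mul_of_nonneg_right (H.fv hf x).2.1 (G.ol_ρ_pos _).le
      have : (0 : ℝ) ≤ f.1 * (2 / 2 ^ G.n) := by positivity
      linarith
    · rw [indicator_of_notMem hx, zero_add]
      refine H.W_tail hf fun h => hx ?_
      obtain ⟨⟨a1, a2⟩, a3⟩ := h
      rw [abs_le] at a1 a2 a3
      exact ⟨⟨by linarith [a1.1], by linarith [a1.2]⟩, ⟨by linarith [a2.1], by linarith [a2.2]⟩, a3⟩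
  rw [integral_add i1.integrableOn (G.ol_intB continuous_const), setIntegral_const,
    smul_eq_mul] at h1
  have h2 : ∫ x in G.olB, Q.indicator (fun x => (f.1 : ℝ) * G.olρ (x 2)) x ≤
      f.1 * ((2 * f.2.2.1 + 2) * (2 * f.2.2.2.2 + 2) * G.Iz) := by
    refine (setIntegral_le_integral i1 (Filter.Eventually.of_forall fun x =>
      indicator_nonneg (fun y _ => mul_nonneg hw.le (G.ol_ρ_pos _).le) x)).trans (le_of_eq ?_)
    rw [integral_indicator mQ, integral_const_mul, hQ, integral_olQ _ (by linarith) (by linarith)]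
    simp only [Iz, olρ]
    ring
  have h3 := mul_le_mul_of_nonneg_left (H.vol_tail.trans
    (mul_le_of_le_one_left H.Iz_pos.le (H.w_one.trans (by norm_num)))) hw.le
  have h4 : (2 * (f.2.2.1 : ℝ) + 2) * (2 * f.2.2.2.2 + 2) + 1 ≤ 17 * (f.2.2.1 * f.2.2.2.2) := by
    nlinarith
  have h5 := mul_le_mul_of_nonneg_left h4 (mul_pos hw H.Iz_pos).le
  linarith

lemma OLF.dir_nonneg {f : Feat} (hf : f ∈ G.feats) (g : Pt → ℝ) : 0 ≤ G.dir f g :=
  integral_nonneg fun x => mul_nonneg (H.W_nonneg hf x) (ol_gsq_nonneg g x)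

lemma OLF.X_ge : (1 : ℝ) ≤ G.X := by
  have h : 1 ≤ G.n := by exact_mod_cast (by linarith [H.n_ge] : (1 : ℝ) ≤ G.n)
  have : 1 ≤ G.X := Nat.mul_pos (Nat.pow_pos h) (Nat.succ_pos _)
  exact_mod_cast this

end Geo

lemma ol_hop_arith {κ L ξ t w I Δ R I1 I0 dl D : ℝ} (hκ : 0 < κ) (hκ1 : κ ≤ 1 / 100)
    (hL : 100 ≤ κ * L) (hξ0 : 0 ≤ ξ) (hξ : ξ ≤ κ / 100) (ht0 : 0 ≤ t) (ht : t ≤ κ / 100)
    (hw : 0 < w) (hR : 0 ≤ R) (hD : 0 ≤ D) (h1 : w * (1 - t) * R ≤ dl) (h2 : w * (I1 + I0) ≤ D)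
    (h : Δ ^ 2 * ((1 - ξ) * I) ≤ (1 + κ) * ((L + 1 / 2) * (1 / 2) * R) + (1 + 1 / κ) * (2 * (I1 + I0))) :
    w * I / L * Δ ^ 2 ≤ (1 + 2 * κ) / 2 * dl + D := by
  have hL0 : 0 < L := (mul_pos_iff_of_pos_left hκ).1 (by linarith)
  have hx : 0 < 1 - ξ := by linarith
  have h3 : (1 + κ) * (L + 1 / 2) ≤ (1 + 2 * κ) * ((1 - t) * (1 - ξ)) * L := by
    have a1 : 1 - κ / 50 ≤ (1 - t) * (1 - ξ) := by nlinarith
    have a2 : 1 + 19 / 10 * κ ≤ (1 + 2 * κ) * ((1 - t) * (1 - ξ)) := by nlinarith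
    nlinarith
  have h4 : (1 + 1 / κ) * 2 ≤ (1 - ξ) * L := by
    have a1 : 1 / κ ≤ L / 100 := by
      rw [div_le_div_iff₀ hκ (by norm_num)]
      linarith
    have a2 : 1 ≤ 1 / κ := by
      rw [le_div_iff₀ hκ]
      linarith
    nlinarith
  have h5 := mul_le_mul_of_nonneg_left h hw.le
  have h6 := mul_le_mul_of_nonneg_right h3 (mul_nonneg hw.le hR)
  have h7 := mul_le_mul_of_nonneg_left h1 (show 0 ≤ (1 + 2 * κ) * (1 - ξ) * L by positivity)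
  have h8 := mul_le_mul_of_nonneg_left h2 (show 0 ≤ (1 + 1 / κ) * 2 by positivity)
  have h9 := mul_le_mul_of_nonneg_right h4 hD
  rw [div_mul_eq_mul_div, div_le_iff₀ hL0]
  refine le_of_mul_le_mul_right ?_ hx
  nlinarith

/-- The hopping inequality along a link. -/
lemma Geo.OLF.hopping {G : Geo} {V : ℕ → ℕ → ℕ} (H : G.OLF V) (a : Arm G.M) {g : Pt → ℝ}
    (hg : ContDiff ℝ 1 g) {α β D : ℝ} (hD : 0 ≤ D) (h1 : G.dev (G.wire (row a)) g α ≤ G.olE 53 * D)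
    (h2 : G.dev (G.hub a.1) g β ≤ G.olE 53 * D) :
    G.w * G.Iz / G.Lk * (α - β) ^ 2 ≤
      (1 + 2 * G.olE (-4)) / 2 * G.dir (G.link (row a)) g + G.olE (-6) * D := by
  have c1 := G.ol_cont_ρ
  have cg := hg.continuous
  obtain ⟨ξ0, ξ1⟩ := H.ξ_le
  have hL : (100 : ℝ) ≤ G.Lk := by rw [G.ol_Lk]; exact H.E_ge (by norm_num)
  have hX := H.X_ge
  have hw := H.w_pos
  have hκ := H.E_pos (-4)
  set c := (G.d : ℝ) * row a - (1 - G.ξ) with hc
  set d := (G.d : ℝ) * row a + (1 - G.ξ) with hd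
  set s := (G.Lk : ℝ) + 1 / 2 with hs
  have q1 := H.dev_ge (G.ol_mem_wire (ol_row_lt a)) (a := 0) (b := 1 / 2) (c := c) (d := d)
    (fun x hx => (G.ol_rect_wire _ _ _).2 ⟨abs_le.2 ⟨by linarith [hx.1.1], by linarith [hx.1.2]⟩,
      abs_le.2 ⟨by linarith [hx.2.1.1], by linarith [hx.2.1.2]⟩⟩) cg α
  have hr : (row a : ℝ) = 3 * (a.1 : ℕ) + (a.2 : ℕ) := by simp [row]
  have r1 : ((a.2 : ℕ) : ℝ) ≤ 2 := by exact_mod_cast Nat.le_of_lt_succ a.2.2
  have r2 := mul_le_mul_of_nonneg_left r1 (Nat.cast_nonneg (α := ℝ) G.d)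
  have r3 : (0 : ℝ) ≤ G.d * (a.2 : ℕ) := by positivity
  have q0 := H.dev_ge (G.ol_mem_hub a.1.2) (a := 0 - s) (b := 1 / 2 - s) (c := c) (d := d)
    (fun x hx => (G.ol_rect_hub _ _ _).2 ⟨abs_le.2 ⟨by linarith [hx.1.1], by linarith [hx.1.2]⟩, by
      have b1 := hx.2.1.1
      have b2 := hx.2.1.2
      rw [hc, hr] at b1
      rw [hd, hr] at b2
      exact abs_le.2 ⟨by linarith, by linarith⟩⟩) cg β
  have qR := H.low_Q (G.ol_mem_link (ol_row_lt a)) (a := 0 - s) (b := 1 / 2) (c := c) (d := d)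
    (lam := G.w * (1 - 2 / 2 ^ G.n)) (fun x hx => by
      have : x ∈ rect (G.link (row a)) (-G.ξ) := (G.ol_rect_link _ _ _).2
        ⟨abs_le.2 ⟨by linarith [hx.1.1], by linarith [hx.1.2]⟩,
          abs_le.2 ⟨by linarith [hx.2.1.1], by linarith [hx.2.1.2]⟩⟩
      exact ⟨Geo.ol_rect_mono (by linarith) this,
        (H.fv (G.ol_mem_link (ol_row_lt a)) x).2.2.2.1 this⟩) (ol_cont_gsq hg) (ol_gsq_nonneg g)
  have ql := ol_line hg c1 (fun z => (G.ol_ρ_pos z).le) (a := 0) (b := 1 / 2) (s := s)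
    (by linarith) (by norm_num) c d
  have qs := ol_shift (fun x => G.olρ (x 2) * (g x - β) ^ 2) 0 (1 / 2) c d s
  have e2 : ∀ x : Pt, (x - s • ek 0) 2 = x 2 := fun x => by simp [ek]
  simp only [e2] at qs
  have key : (α - β) ^ 2 * ((1 - G.ξ) * G.Iz) ≤
      (1 + G.olE (-4)) * (∫ x in olQ 0 (1 / 2) c d, G.olρ (x 2) * (g x - g (x - s • ek 0)) ^ 2) +
        (1 + 1 / G.olE (-4)) * (2 * ((∫ x in olQ 0 (1 / 2) c d, G.olρ (x 2) * (g x - α) ^ 2) +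
          ∫ x in olQ 0 (1 / 2) c d, G.olρ (x 2) * (g (x - s • ek 0) - β) ^ 2)) := by
    have e : (1 - G.ξ) * G.Iz = ∫ x in olQ 0 (1 / 2) c d, G.olρ (x 2) := by
      rw [integral_olQ G.olρ (by norm_num) (by linarith), hc, hd]
      simp only [Geo.Iz, Geo.olρ]
      ring
    rw [e, ← integral_add (ol_intQ (by fun_prop) _ _ _ _) (ol_intQ (by fun_prop) _ _ _ _),
      ← integral_const_mul, ← integral_const_mul, ← integral_const_mul, ← integral_const_mul,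
      ← integral_add (ol_intQ (by fun_prop) _ _ _ _) (ol_intQ (by fun_prop) _ _ _ _)]
    refine setIntegral_mono_on (ol_intQ (by fun_prop) _ _ _ _) (ol_intQ (by fun_prop) _ _ _ _)
      (measurableSet_olQ _ _ _ _) fun x _ => ?_
    have b1 := ol_sq_add (g x - g (x - s • ek 0)) (α - g x + (g (x - s • ek 0) - β)) hκ
    have b2 : (α - g x + (g (x - s • ek 0) - β)) ^ 2 ≤
        2 * ((g x - α) ^ 2 + (g (x - s • ek 0) - β) ^ 2) := by
      nlinarith [sq_nonneg (α - g x - (g (x - s • ek 0) - β))]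
    have b3 := mul_le_mul_of_nonneg_left b2 (show 0 ≤ 1 + 1 / G.olE (-4) by positivity)
    have b4 : g x - g (x - s • ek 0) + (α - g x + (g (x - s • ek 0) - β)) = α - β := by ring
    rw [b4] at b1
    have b5 := mul_le_mul_of_nonneg_left (b1.trans (add_le_add le_rfl b3)) (G.ol_ρ_pos (x 2)).le
    linarith
  rw [qs] at key
  have t1 : 2 / (2 : ℝ) ^ G.n ≤ G.olE (-4) / 100 := by
    have b1 := H.two_le'
    have b2 := H.E_cc (C := 200) (a := -120) (b := -4) (by norm_num) (by norm_num)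
    have b3 : 2 / (2 : ℝ) ^ G.n = 2 * (1 / 2 ^ G.n) := by ring
    linarith
  refine ol_hop_arith hκ (H.E_small (by norm_num)) ?_ ξ0.le ?_ (by positivity) t1 hw
    (integral_nonneg fun x => mul_nonneg (G.ol_ρ_pos _).le (ol_gsq_nonneg g x))
    (mul_nonneg (H.E_pos _).le hD) qR ?_
    (key.trans (add_le_add (mul_le_mul_of_nonneg_left (by rwa [sub_zero] at ql) (by linarith)) le_rfl))
  · rw [G.ol_Lk, H.E_mul]
    exact H.E_ge (by norm_num)
  · have := H.E_c (C := 100) (a := -20) (b := -4) le_rfl (by norm_num)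
    rw [G.ol_ξ]
    linarith
  · have w1 : ((G.wire (row a)).1 : ℝ) = G.olE (-50) := by
      simp only [Geo.wire]
      push_cast
      rw [G.olE_inv]
      rfl
    have w2 : ((G.hub a.1).1 : ℝ) = G.w * G.olE 60 := by
      simp only [Geo.hub]
      push_cast
      rw [G.olE_nat]
      rfl
    rw [w1] at q1
    rw [w2] at q0
    generalize ∫ x in olQ 0 (1 / 2) c d, G.olρ (x 2) * (g x - α) ^ 2 = I1 at q1 ⊢
    generalize ∫ x in olQ (0 - s) (1 / 2 - s) c d, G.olρ (x 2) * (g x - β) ^ 2 = I0 at q0 ⊢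
    have b1 := mul_le_mul_of_nonneg_left (q1.trans h1) (mul_pos hw (H.E_pos 50)).le
    have b2 := mul_le_mul_of_nonneg_left (q0.trans h2) (H.E_pos (-60)).le
    have b3 : G.olE 50 * G.olE (-50) = 1 := by rw [H.E_mul]; simp [Geo.olE]
    have b4 : G.olE (-60) * G.olE 60 = 1 := by rw [H.E_mul]; simp [Geo.olE]
    have b5 : G.w * G.olE 50 * G.olE 53 ≤ G.olE (-7) := by
      refine (mul_le_mul_of_nonneg_right (mul_le_mul_of_nonneg_right H.w_le (H.E_pos _).le)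
        (H.E_pos _).le).trans ?_
      rw [H.E_mul, H.E_mul]
      exact H.E_le (by norm_num)
    have b6 : G.olE (-60) * G.olE 53 = G.olE (-7) := by rw [H.E_mul]; rfl
    have b7 := H.E_c (C := 8) (a := -7) (b := -6) (by norm_num) (by norm_num)
    have b8 := mul_le_mul_of_nonneg_right b5 hD
    have b9 := mul_le_mul_of_nonneg_right b7 hD
    have e1 : G.w * G.olE 50 * (G.olE (-50) / 4 * I1) = G.w * I1 / 4 := by
      linear_combination G.w * I1 / 4 * b3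
    have e0 : G.olE (-60) * (G.w * G.olE 60 / 4 * I0) = G.w * I0 / 4 := by
      linear_combination G.w * I0 / 4 * b4
    rw [e1] at b1
    rw [e0, ← mul_assoc, b6] at b2
    linarith

end Vale.Agent.P370
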