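import Vale.Agent.P370.OneLowB

/-!
The distance to the span of the sharp orbitals.
-/

namespace Vale.Agent.P370

open MeasureTheory Set
open scoped ContDiff

namespace Geo

variable (G : Geo)

/-- The step function with prescribed values on the rows. -/
noncomputable def olX (xs : Arm G.M → ℝ) (x : Pt) : ℝ :=
  ∑ a, (G.A (row a)).indicator (fun _ => xs a) x

/-- The Dirichlet energy in the core. -/
noncomputable def olD (g : Pt → ℝ) : ℝ := ∫ x in G.olB, G.φ0 x ^ 2 * gsq g x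

/-- The contribution of a feature to the distance. -/
noncomputable def olI (f : Feat) (g : Pt → ℝ) (xs : Arm G.M → ℝ) : ℝ :=
  ∫ x in G.olB, G.olW f x * (g x - G.olX xs x) ^ 2

/-- More facts. -/
structure OLG (V : ℕ → ℕ → ℕ) : Prop extends G.OLF V where
  smooth : ContDiff ℝ ∞ G.φ0
  pos : ∀ x, 0 < G.φ0 x
  sq : ∀ x, |x 2| ≤ 8 → G.φ0 x ^ 2 = G.m x * Real.exp (-(G.Ω * x 2 ^ 2))

lemma ol_meas_A (r : ℕ) : MeasurableSet (G.A r) := by
  refine IsClosed.measurableSet ?_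
  simp only [A, ofPred_and]
  refine IsClosed.inter ?_ (IsClosed.inter ?_ (IsClosed.inter ?_ ?_))
  all_goals exact isClosed_le (by fun_prop) (by fun_prop)

lemma ol_meas_X (xs : Arm G.M → ℝ) : Measurable (G.olX xs) :=
  Finset.measurable_sum _ fun a _ => measurable_const.indicator (G.ol_meas_A (row a))

variable {G} {V : ℕ → ℕ → ℕ}

lemma OLF.X_eq (H : G.OLF V) (xs : Arm G.M → ℝ) {a : Arm G.M} {x : Pt} (h : x ∈ G.A (row a)) :
    G.olX xs x = xs a := by
  rw [olX, Finset.sum_eq_single a (fun b _ hb => indicator_of_notMem (fun h' => hb ?_) _)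
    (by simp), indicator_of_mem h]
  have hd : (0 : ℝ) < G.d := by rw [ol_d]; exact H.E_pos _
  have h1 := abs_le.1 h.2.2.1
  have h2 := abs_le.1 h'.2.2.1
  have h3 : (row b : ℝ) < row a + 1 := lt_of_mul_lt_mul_left (by linarith [h1.2, h2.1]) hd.le
  have h4 : (row a : ℝ) < row b + 1 := lt_of_mul_lt_mul_left (by linarith [h1.1, h2.2]) hd.le
  have h5 : row b < row a + 1 := by exact_mod_cast h3
  have h6 : row a < row b + 1 := by exact_mod_cast h4
  exact ol_row_inj (by omega)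

lemma OLF.X_sq (H : G.OLF V) (xs : Arm G.M → ℝ) (x : Pt) : G.olX xs x ^ 2 ≤ ∑ a, xs a ^ 2 := by
  by_cases h : ∃ a : Arm G.M, x ∈ G.A (row a)
  · obtain ⟨a, h⟩ := h
    rw [H.X_eq xs h]
    exact Finset.single_le_sum (f := fun a => xs a ^ 2) (fun _ _ => sq_nonneg _) (Finset.mem_univ a)
  · rw [olX, Finset.sum_eq_zero fun a _ => indicator_of_notMem (fun h' => h ⟨a, h'⟩) _]
    rw [zero_pow two_ne_zero]
    positivity

lemma OLF.M_le (H : G.OLF V) : (G.M : ℝ) ≤ G.olE 1 := by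
  rw [olE, zpow_one]
  exact_mod_cast H.ok.M_le

lemma OLF.A_sub (H : G.OLF V) (a : Arm G.M) : G.A (row a) ⊆ G.olB := by
  intro x ⟨h0, h1, h2, h3⟩
  have hl : (100 : ℝ) ≤ G.l := by rw [ol_l]; exact H.E_ge (by norm_num)
  refine ⟨abs_le.2 ⟨by linarith, by linarith⟩, ?_, by linarith⟩
  have hd : (0 : ℝ) < G.d := by rw [ol_d]; exact H.E_pos _
  have r1 : (row a : ℝ) + 1 ≤ 3 * G.M := by exact_mod_cast ol_row_lt a
  have r2 := mul_le_mul_of_nonneg_left (r1.trans (mul_le_mul_of_nonneg_left H.M_le (by norm_num)))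
    hd.le
  have r3 : (G.d : ℝ) * (3 * G.olE 1) ≤ G.l := by
    rw [ol_d, ol_l, mul_left_comm, H.E_mul]
    exact H.E_c (by norm_num) (by norm_num)
  have r4 : (0 : ℝ) ≤ G.d * row a := by positivity
  rw [abs_le] at h2 ⊢
  exact ⟨by linarith [h2.1], by linarith [h2.2]⟩

lemma OLF.X_out (H : G.OLF V) (xs : Arm G.M → ℝ) {x : Pt} (h : x ∉ G.olB) : G.olX xs x = 0 :=
  Finset.sum_eq_zero fun a _ => indicator_of_notMem (fun h' => h (H.A_sub a h')) _

lemma OLF.int_I (H : G.OLF V) (f : Feat) {g : Pt → ℝ} (hg : Continuous g) (xs : Arm G.M → ℝ) :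
    IntegrableOn (fun x => G.olW f x * (g x - G.olX xs x) ^ 2) G.olB := by
  have c := G.ol_cont_W f
  refine Integrable.mono' (G.ol_intB (F := fun x => |G.olW f x| * (2 * g x ^ 2 + 2 * ∑ a, xs a ^ 2))
    (by fun_prop)) (Measurable.aestronglyMeasurable
      (c.measurable.mul ((hg.measurable.sub (G.ol_meas_X xs)).pow_const 2)))
    (Filter.Eventually.of_forall fun x => ?_)
  rw [Real.norm_eq_abs, abs_mul, abs_sq]
  refine mul_le_mul_of_nonneg_left ?_ (abs_nonneg _)
  nlinarith [H.X_sq xs x, sq_nonneg (g x + G.olX xs x)]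

lemma OLF.X_dev (H : G.OLF V) (xs : Arm G.M → ℝ) (a : Arm G.M) (α : ℝ) (x : Pt) :
    (α - G.olX xs x) ^ 2 ≤ 4 * (α - xs a) ^ 2 + 6 * ∑ a, xs a ^ 2 := by
  have h1 := H.X_sq xs x
  have h2 := Finset.single_le_sum (f := fun a => xs a ^ 2) (fun _ _ => sq_nonneg _)
    (Finset.mem_univ a)
  nlinarith [sq_nonneg (α + G.olX xs x), sq_nonneg (α - 2 * xs a)]

lemma OLF.I_le (H : G.OLF V) {f : Feat} (hf : f ∈ G.feats) {g : Pt → ℝ} (hg : Continuous g)
    (xs : Arm G.M → ℝ) (α : ℝ) {P R : ℝ} (hP : 0 ≤ P)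
    (h : ∀ x, G.olW f x * (α - G.olX xs x) ^ 2 ≤ G.olW f x * P + R) :
    G.olI f g xs ≤ 2 * G.dev f g α + 2 * (17 * f.1 * (f.2.2.1 * f.2.2.2.2) * G.Iz * P)
      + 2 * (volume.real G.olB * R) := by
  have c := G.ol_cont_W f
  have h1 : G.olI f g xs ≤
      ∫ x in G.olB, (2 * (G.olW f x * (g x - α) ^ 2) + 2 * P * G.olW f x + 2 * R) := by
    refine setIntegral_mono_on (H.int_I f hg xs) (G.ol_intB (by fun_prop)) (measurableSet_box _ _ _)
      fun x _ => ?_
    have h2 : (g x - G.olX xs x) ^ 2 ≤ 2 * (g x - α) ^ 2 + 2 * (α - G.olX xs x) ^ 2 := by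
      nlinarith [sq_nonneg (g x - 2 * α + G.olX xs x)]
    have h3 := mul_le_mul_of_nonneg_left h2 (H.W_nonneg hf x)
    linarith [h x]
  rw [integral_add (G.ol_intB (by fun_prop)) (G.ol_intB (by fun_prop)),
    integral_add (G.ol_intB (by fun_prop)) (G.ol_intB (by fun_prop)), integral_const_mul,
    integral_const_mul, setIntegral_const, smul_eq_mul] at h1
  have h2 := mul_le_mul_of_nonneg_left (H.mass_le hf) hP
  have h3 : G.dev f g α = ∫ x in G.olB, G.olW f x * (g x - α) ^ 2 := rfl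
  linarith

/-- Features that live in a row. -/
lemma OLF.I_core (H : G.OLF V) {f : Feat} (hf : f ∈ G.feats) {g : Pt → ℝ} (hg : Continuous g)
    (xs : Arm G.M → ℝ) (α : ℝ) (a : Arm G.M)
    (h : ∀ x ∈ rect f 1, -1 ≤ x 0 ∧ |x 1 - G.d * row a| ≤ 2) :
    G.olI f g xs ≤ 2 * G.dev f g α + 34 * f.1 * (f.2.2.1 * f.2.2.2.2) * (G.Iz * (α - xs a) ^ 2)
      + 8 * (G.Iz * (α - xs a) ^ 2) + 12 * (G.w * G.Iz * ∑ a, xs a ^ 2) := by
  have hS : 0 ≤ ∑ a, xs a ^ 2 := by positivity
  have h1 := H.I_le hf hg xs α (P := (α - xs a) ^ 2)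
    (R := 2 / 2 ^ G.n * (4 * (α - xs a) ^ 2 + 6 * ∑ a, xs a ^ 2)) (sq_nonneg _) fun x => by
      by_cases hx : x ∈ rect f 1 ∧ |x 2| ≤ 1
      · have hd : (100 : ℝ) ≤ G.d := by rw [ol_d]; exact H.E_ge (by norm_num)
        have h3 := (abs_le.1 ((H.shape f hf).2.2.2.2.2.2 hx.1).1).2
        have h4 : (0 : ℝ) ≤ G.l := Nat.cast_nonneg _
        rw [H.X_eq xs (a := a) ⟨(h x hx.1).1, by linarith, by linarith [(h x hx.1).2], hx.2⟩]
        exact le_add_of_nonneg_right (by positivity)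
      · have h3 : (f.1 : ℝ) ≤ 1 := by exact_mod_cast (H.shape f hf).2.1
        have h4 := (H.W_tail hf hx).trans (mul_le_of_le_one_left (by positivity) h3)
        have h5 := mul_le_mul h4 (H.X_dev xs a α x) (sq_nonneg _) (by positivity)
        have h6 := mul_nonneg (H.W_nonneg hf x) (sq_nonneg (α - xs a))
        linarith
  have h2 := mul_le_mul_of_nonneg_right H.vol_tail
    (show 0 ≤ 4 * (α - xs a) ^ 2 + 6 * ∑ a, xs a ^ 2 by positivity)
  have h3 := mul_le_of_le_one_left (mul_nonneg H.Iz_pos.le (sq_nonneg (α - xs a)))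
    (H.w_one.trans (by norm_num : (1 / 100 : ℝ) ≤ 1))
  linarith

/-- Light features. -/
lemma OLF.I_light (H : G.OLF V) {f : Feat} (hf : f ∈ G.feats) {g : Pt → ℝ} (hg : Continuous g)
    (xs : Arm G.M → ℝ) (α : ℝ) (a : Arm G.M) {C : ℝ}
    (h : (f.1 : ℝ) * (f.2.2.1 * f.2.2.2.2) ≤ C * G.w) :
    G.olI f g xs ≤ 2 * G.dev f g α + 136 * C * (G.w * G.Iz * (α - xs a) ^ 2)
      + 204 * C * (G.w * G.Iz * ∑ a, xs a ^ 2) := by
  have hP : 0 ≤ 4 * (α - xs a) ^ 2 + 6 * ∑ a, xs a ^ 2 := by positivity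
  have h1 := H.I_le hf hg xs α (R := 0) hP fun x => by
    rw [add_zero]
    exact mul_le_mul_of_nonneg_left (H.X_dev xs a α x) (H.W_nonneg hf x)
  have h2 := mul_le_mul_of_nonneg_right h (mul_nonneg H.Iz_pos.le hP)
  linarith

lemma OLG.φ0_sq (H : G.OLG V) {x : Pt} (hx : x ∈ G.olB) : G.φ0 x ^ 2 =
    (∑ a : Arm G.M, ((∑ s ∈ G.sts (row a), G.olW (G.well s (row a)) x) +
      G.olW (G.wire (row a)) x + G.olW (G.link (row a)) x)) + ∑ m : Fin G.M, G.olW (G.hub m) x := by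
  rw [H.sq x (hx.2.2.trans (by norm_num)), H.ok.m_eq, ol_sum_row, Finset.sum_range]
  simp only [olW, add_mul, Finset.sum_mul]

lemma OLG.dir_le (H : G.OLG V) {f : Feat} (hf : f ∈ G.feats) {g : Pt → ℝ} (hg : ContDiff ℝ 1 g) :
    G.dir f g ≤ G.olD g := by
  have c1 := G.ol_cont_W f
  have c2 := ol_cont_gsq hg
  have c3 := H.smooth.continuous
  refine setIntegral_mono_on (G.ol_intB (F := fun x => G.olW f x * gsq g x) (by fun_prop))
    (G.ol_intB (by fun_prop)) (measurableSet_box _ _ _) fun x hx => ?_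
  rw [H.sq x (hx.2.2.trans (by norm_num)), m_eq_list]
  refine mul_le_mul_of_nonneg_right (mul_le_mul_of_nonneg_right ?_ (Real.exp_pos _).le)
    (ol_gsq_nonneg _ _)
  refine List.single_le_sum (fun y hy => ?_) _ (List.mem_map.2 ⟨f, hf, rfl⟩)
  obtain ⟨f', hf', rfl⟩ := List.mem_map.1 hy
  exact (H.toOLF.fv hf' x).1

lemma OLG.links_le (H : G.OLG V) {g : Pt → ℝ} (hg : ContDiff ℝ 1 g) :
    ∑ a : Arm G.M, G.dir (G.link (row a)) g ≤ G.olD g := by
  have c1 := G.ol_cont_W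
  have c2 := ol_cont_gsq hg
  have c3 := H.smooth.continuous
  have e : ∑ a : Arm G.M, G.dir (G.link (row a)) g =
      ∫ x in G.olB, ∑ a : Arm G.M, G.olW (G.link (row a)) x * gsq g x :=
    (integral_finsetSum _ fun a _ => G.ol_intB ((c1 _).mul c2)).symm
  rw [e]
  refine setIntegral_mono_on (G.ol_intB (continuous_finsetSum _ fun a _ => (c1 _).mul c2))
    (G.ol_intB (by fun_prop)) (measurableSet_box _ _ _) fun x hx => ?_
  rw [H.φ0_sq hx, ← Finset.sum_mul]
  refine mul_le_mul_of_nonneg_right (le_add_of_le_of_nonneg (Finset.sum_le_sum fun a _ => ?_)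
    (Finset.sum_nonneg fun m _ => H.toOLF.W_nonneg (G.ol_mem_hub m.2) x)) (ol_gsq_nonneg _ _)
  exact le_add_of_nonneg_left (add_nonneg
    (Finset.sum_nonneg fun s hs => H.toOLF.W_nonneg (G.ol_mem_well hs) x)
    (H.toOLF.W_nonneg (G.ol_mem_wire (ol_row_lt a)) x))

lemma OLG.tot_le (H : G.OLG V) {g : Pt → ℝ} (hg : Continuous g) (xs : Arm G.M → ℝ) {Z : ℝ}
    (hZ : 0 ≤ Z) (h1 : ∀ a : Arm G.M, ∀ s ∈ G.sts (row a), G.olI (G.well s (row a)) g xs ≤ Z)
    (h2 : ∀ a : Arm G.M, G.olI (G.wire (row a)) g xs ≤ Z)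
    (h3 : ∀ a : Arm G.M, G.olI (G.link (row a)) g xs ≤ Z)
    (h4 : ∀ m : Fin G.M, G.olI (G.hub m) g xs ≤ Z) :
    ∫ x in G.olB, G.φ0 x ^ 2 * (g x - G.olX xs x) ^ 2 ≤ G.olE 6 * Z := by
  have i := fun f => H.toOLF.int_I f hg xs
  have i1 : ∀ a : Arm G.M, IntegrableOn (fun x => ∑ s ∈ G.sts (row a),
      G.olW (G.well s (row a)) x * (g x - G.olX xs x) ^ 2) G.olB :=
    fun a => integrable_finsetSum _ fun s _ => i _
  have i2 : ∀ a : Arm G.M, IntegrableOn (fun x => (∑ s ∈ G.sts (row a),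
      G.olW (G.well s (row a)) x * (g x - G.olX xs x) ^ 2) +
      G.olW (G.wire (row a)) x * (g x - G.olX xs x) ^ 2) G.olB := fun a => (i1 a).add (i _)
  have i3 : ∀ a : Arm G.M, IntegrableOn (fun x => (∑ s ∈ G.sts (row a),
      G.olW (G.well s (row a)) x * (g x - G.olX xs x) ^ 2) +
      G.olW (G.wire (row a)) x * (g x - G.olX xs x) ^ 2 +
      G.olW (G.link (row a)) x * (g x - G.olX xs x) ^ 2) G.olB := fun a => (i2 a).add (i _)
  rw [setIntegral_congr_fun (s := G.olB) (measurableSet_box _ _ _) fun x hx =>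
    congrArg (· * (g x - G.olX xs x) ^ 2) (H.φ0_sq hx)]
  simp only [add_mul, Finset.sum_mul]
  rw [integral_add (integrable_finsetSum _ fun a _ => i3 a) (integrable_finsetSum _ fun m _ => i _),
    integral_finsetSum _ fun a _ => i3 a, integral_finsetSum _ fun m _ => i _]
  have k1 : ∀ a : Arm G.M, ∫ x in G.olB, ((∑ s ∈ G.sts (row a),
      G.olW (G.well s (row a)) x * (g x - G.olX xs x) ^ 2) +
      G.olW (G.wire (row a)) x * (g x - G.olX xs x) ^ 2 +
      G.olW (G.link (row a)) x * (g x - G.olX xs x) ^ 2) ≤ (G.J + 2) * Z := fun a => by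
    rw [integral_add (i2 a) (i _), integral_add (i1 a) (i _), integral_finsetSum _ fun s _ => i _]
    have k := Finset.sum_le_card_nsmul _ _ _ (h1 a)
    rw [H.ok.card_sts (ol_row_lt a), nsmul_eq_mul] at k
    have k2 := h2 a
    have k3 := h3 a
    simp only [olI] at k k2 k3
    linarith
  have k2 := Finset.sum_le_card_nsmul Finset.univ _ _ fun a _ => k1 a
  have k3 := Finset.sum_le_card_nsmul Finset.univ _ _ fun m _ => h4 m
  simp only [olI, Finset.card_univ, Fintype.card_prod, Fintype.card_fin, nsmul_eq_mul] at k2 k3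
  push_cast at k2
  have k4 : (G.M : ℝ) * 3 * (G.J + 2) + G.M ≤ G.olE 6 := by
    have a1 : (100 : ℝ) ≤ G.J := by rw [ol_J]; exact H.toOLF.E_ge (by norm_num)
    have a2 := mul_le_mul_of_nonneg_right H.toOLF.M_le (show (0 : ℝ) ≤ G.J by linarith)
    have a3 : 4 * (G.olE 1 * G.J) ≤ G.olE 6 := by
      rw [ol_J, H.toOLF.E_mul]
      exact H.toOLF.E_c (by norm_num) (by norm_num)
    have a4 := mul_le_mul_of_nonneg_left a1 (Nat.cast_nonneg (α := ℝ) G.M)
    have a5 : (0 : ℝ) ≤ G.M := Nat.cast_nonneg _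
    linarith
  have k5 := mul_le_mul_of_nonneg_right k4 hZ
  refine le_trans (add_le_add k2 k3) ?_
  linarith

/-- The distance in the core. -/
lemma OLG.dist_le (H : G.OLG V) {g : Pt → ℝ} (hg : ContDiff ℝ 1 g) {α : Feat → ℝ}
    (hα : ∀ f ∈ G.feats, G.dev f g (α f) ≤ G.olE 53 * G.olD g) (hD : 0 ≤ G.olD g) :
    ∫ x in G.olB, G.φ0 x ^ 2 * (g x - G.olX (fun a => α (G.wire (row a))) x) ^ 2 ≤
      G.olE 112 * G.olD g + G.olE 75 * (G.w * G.Iz * ∑ a : Arm G.M, α (G.wire (row a)) ^ 2) := by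
  have F := H.toOLF
  have cg := hg.continuous
  have hw := F.w_pos
  have hI := F.Iz_pos
  have hX := F.X_ge
  have hL : (100 : ℝ) ≤ G.Lk := by rw [G.ol_Lk]; exact F.E_ge (by norm_num)
  have hS : 0 ≤ G.w * G.Iz * ∑ a : Arm G.M, α (G.wire (row a)) ^ 2 := by positivity
  have w1 : ∀ r, ((G.wire r).1 : ℝ) = G.olE (-50) := fun r => by
    simp only [wire]
    push_cast
    rw [G.olE_inv]
    rfl
  have w2 : ∀ a : Arm G.M, G.dev (G.wire (row a)) g (α (G.wire (row a))) / (G.wire (row a)).1 ≤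
      G.olE 103 * G.olD g := fun a => by
    rw [w1, div_le_iff₀ (F.E_pos _), mul_right_comm, F.E_mul]
    exact hα _ (G.ol_mem_wire (ol_row_lt a))
  have m1 : ∀ {C : ℝ} {a : ℤ}, C ≤ 10000 → a + 2 ≤ 105 → C * (G.olE a * G.olD g) ≤
      G.olE 105 * G.olD g := fun hC ha => by
    rw [← mul_assoc]
    exact mul_le_mul_of_nonneg_right (F.E_cc hC ha) hD
  have m2 : 2 * (G.olE 105 * G.olD g) ≤ G.olE 106 * G.olD g := by
    rw [← mul_assoc]
    exact mul_le_mul_of_nonneg_right (F.E_c (by norm_num) (by norm_num)) hD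
  have m3 := mul_le_mul_of_nonneg_right (F.E_ge (b := 69) (by norm_num)) hS
  have m4 := m1 (C := 2) (a := 53) (by norm_num) (by norm_num)
  have m5 := mul_nonneg (F.E_pos 105).le hD
  refine (H.tot_le cg _ (Z := G.olE 106 * G.olD g +
    G.olE 69 * (G.w * G.Iz * ∑ a : Arm G.M, α (G.wire (row a)) ^ 2))
    (add_nonneg (mul_nonneg (F.E_pos _).le hD) (mul_nonneg (F.E_pos _).le hS))
    (fun a s hs => ?_) (fun a => ?_) (fun a => ?_) fun m => ?_).trans (le_of_eq ?_)
  · have hf := G.ol_mem_well hs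
    have hD1 : (100 : ℝ) ≤ G.D := by
      rw [D, Nat.cast_pow, G.olE_nat]
      exact F.E_ge (by norm_num)
    have s0 : (0 : ℝ) ≤ G.D * s := by positivity
    have s1 : (G.D : ℝ) * (s + 1) + G.D ≤ G.X := by
      have : s + 1 ≤ G.st.length := Finset.mem_range.1 (Finset.mem_filter.1 hs).1
      have h : (s : ℝ) + 1 ≤ G.st.length := by exact_mod_cast this
      rw [X]
      push_cast
      nlinarith
    have h1 := F.I_core hf cg (fun a => α (G.wire (row a))) (α (G.well s (row a))) a fun x hx => by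
      obtain ⟨b1, b2⟩ := (G.ol_rect_well _ _ _ _).1 hx
      exact ⟨by linarith [(abs_le.1 b1).1], by linarith⟩
    have h2 := F.overlap hf (G.ol_mem_wire (ol_row_lt a)) (a := G.D * (s + 1) - 1)
      (b := G.D * (s + 1) + 1) (c := G.d * row a - 1) (d := G.d * row a + 1) (by linarith)
      (by linarith)
      (fun x hx => (G.ol_rect_well _ _ _ _).2 ⟨abs_le.2 ⟨by linarith [hx.1.1], by linarith [hx.1.2]⟩,
        abs_le.2 ⟨by linarith [hx.2.1.1], by linarith [hx.2.1.2]⟩⟩)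
      (fun x hx => (G.ol_rect_wire _ _ _).2 ⟨abs_le.2 ⟨by linarith [hx.1.1], by linarith [hx.1.2]⟩,
        abs_le.2 ⟨by linarith [hx.2.1.1], by linarith [hx.2.1.2]⟩⟩) cg
      (α (G.well s (row a))) (α (G.wire (row a)))
    have e1 : ((G.well s (row a)).1 : ℝ) = 1 := by simp [well]
    have e2 : ((G.well s (row a)).2.2.1 : ℝ) = 1 := by simp [well]
    have e3 : ((G.well s (row a)).2.2.2.2 : ℝ) = 1 := by simp [well]
    rw [e1, e2, e3] at h1
    rw [e1, div_one] at h2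
    have h3 := hα _ hf
    have h4 := mul_le_mul_of_nonneg_right (F.E_le (a := 53) (b := 103) (by norm_num)) hD
    have h5 := m1 (C := 168) (a := 103) (by norm_num) (by norm_num)
    linarith [w2 a]
  · have h1 := F.I_core (G.ol_mem_wire (ol_row_lt a)) cg (fun a => α (G.wire (row a)))
      (α (G.wire (row a))) a fun x hx => by
        obtain ⟨b1, b2⟩ := (G.ol_rect_wire _ _ _).1 hx
        exact ⟨by linarith [(abs_le.1 b1).1], by linarith⟩
    simp only [sub_self, zero_pow two_ne_zero, mul_zero, add_zero] at h1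
    linarith [hα _ (G.ol_mem_wire (ol_row_lt a))]
  · have hf := G.ol_mem_link (ol_row_lt a)
    have e1 : ((G.link (row a)).1 : ℝ) = G.w := rfl
    have h1 := F.I_light hf cg (fun a => α (G.wire (row a))) (α (G.link (row a))) a
      (C := G.olE 5) (by
        rw [e1, ← G.ol_Lk]
        simp only [link]
        push_cast
        nlinarith)
    have h2 := F.overlap hf (G.ol_mem_wire (ol_row_lt a)) (a := 0) (b := 1)
      (c := G.d * row a - 1) (d := G.d * row a + 1) (by linarith) (by linarith)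
      (fun x hx => (G.ol_rect_link _ _ _).2 ⟨abs_le.2 ⟨by linarith [hx.1.1], by linarith [hx.1.2]⟩,
        abs_le.2 ⟨by linarith [hx.2.1.1], by linarith [hx.2.1.2]⟩⟩)
      (fun x hx => (G.ol_rect_wire _ _ _).2 ⟨abs_le.2 ⟨by linarith [hx.1.1], by linarith [hx.1.2]⟩,
        abs_le.2 ⟨by linarith [hx.2.1.1], by linarith [hx.2.1.2]⟩⟩) cg
      (α (G.link (row a))) (α (G.wire (row a)))
    rw [e1] at h2
    have h3 := hα _ hf
    have h4 := mul_le_mul_of_nonneg_left
      (h2.trans (add_le_add le_rfl (mul_le_mul_of_nonneg_left (w2 a) (by norm_num)))) hw.le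
    have h5 : G.w * (G.dev (G.link (row a)) g (α (G.link (row a))) / G.w) =
      G.dev (G.link (row a)) g (α (G.link (row a))) := mul_div_cancel₀ _ hw.ne'
    have h6 : G.w * G.olE 103 ≤ G.olE 53 := by
      refine (mul_le_mul_of_nonneg_right F.w_le (F.E_pos _).le).trans ?_
      rw [F.E_mul]
      exact F.E_le (by norm_num)
    have h7 := mul_le_mul_of_nonneg_right h6 hD
    have h8 : G.w * G.Iz * (α (G.link (row a)) - α (G.wire (row a))) ^ 2 ≤
        8 * (G.olE 53 * G.olD g) := by linarith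
    have h9 := mul_le_mul_of_nonneg_left h8 (F.E_pos 5).le
    have h10 := m1 (C := 1088) (a := 5 + 53) (by norm_num) (by norm_num)
    rw [← F.E_mul] at h10
    have h11 := mul_le_mul_of_nonneg_right (F.E_cc (C := 204) (a := 5) (b := 69) (by norm_num)
      (by norm_num)) hS
    linarith
  · have hf := G.ol_mem_hub m.2
    have hd : (100 : ℝ) ≤ G.d := by rw [ol_d]; exact F.E_ge (by norm_num)
    have h1 := F.I_light hf cg (fun a => α (G.wire (row a))) (α (G.hub m)) (m, 0)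
      (C := 2 * G.olE 66) (by
        rw [show (66 : ℤ) = 60 + 6 from rfl, ← F.E_mul, ← G.ol_d]
        simp only [hub]
        push_cast
        rw [G.olE_nat]
        have := mul_le_mul_of_nonneg_left hd (mul_pos hw (F.E_pos 60)).le
        have := mul_pos hw (F.E_pos 60)
        push_cast
        linarith)
    have h2 := F.hopping (m, 0) hg hD (hα _ (G.ol_mem_wire (ol_row_lt (m, 0)))) (hα _ hf)
    have h3 := H.dir_le (G.ol_mem_link (ol_row_lt (m, 0))) hg
    have h4 := F.dir_nonneg (G.ol_mem_link (ol_row_lt (m, 0))) g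
    have h5 := mul_le_mul_of_nonneg_right (F.E_small (a := -4) (by norm_num)) h4
    have h6 := mul_le_mul_of_nonneg_right (F.E_small (a := -6) (by norm_num)) hD
    have h7 : G.w * G.Iz * (α (G.hub m) - α (G.wire (row (m, 0)))) ^ 2 ≤ G.olE 5 * G.olD g := by
      rw [← G.ol_Lk, mul_comm (G.Lk : ℝ), ← div_le_iff₀ (by linarith), mul_div_right_comm,
        sub_sq_comm]
      linarith
    have h8 := mul_le_mul_of_nonneg_left h7 (F.E_pos 66).le
    have h9 := m1 (C := 272) (a := 66 + 5) (by norm_num) (by norm_num)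
    rw [← F.E_mul] at h9
    have h10 := mul_le_mul_of_nonneg_right (F.E_cc (C := 408) (a := 66) (b := 69) (by norm_num)
      (by norm_num)) hS
    linarith [hα _ hf]
  · rw [mul_add, ← mul_assoc, ← mul_assoc (G.olE 6), F.E_mul, F.E_mul]
    rfl

end Geo

end Vale.Agent.P370
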