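import Vale.Agent.P370.Mass

/-!
A bundle of facts for large designs, and the position of the features.
-/

namespace Vale.Agent.P370

open MeasureTheory Set
open scoped ContDiff

/-- Facts that hold for large admissible designs. -/
structure Geo.UF (G : Geo) : Prop where
  n_ge : (1000 : ℝ) ≤ G.n
  len : G.feats.length ≤ G.n ^ 7
  shape : ∀ f ∈ G.feats, 0 < f.1 ∧ f.1 ≤ 1 ∧ 1 ≤ f.2.2.1 ∧ f.2.2.1 ≤ (G.n : ℚ) ^ 25 ∧
    1 ≤ f.2.2.2.2 ∧ f.2.2.2.2 ≤ (G.n : ℚ) ^ 25 ∧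
    rect f 1 ⊆ {x | |x 0| ≤ G.l / 8 ∧ |x 1| ≤ G.l / 8}
  val : ∀ f ∈ G.feats, ∀ x : Pt, 0 ≤ fv G.k f x ∧ fv G.k f x ≤ f.1 ∧
    (x ∈ rect f (-G.ξ) → f.1 * (1 - 2 / 2 ^ G.n) ≤ fv G.k f x) ∧
    (x ∉ rect f G.ξ → fv G.k f x ≤ 1 / 2 ^ G.n)
  m_smooth : ContDiff ℝ ∞ G.m
  m_pos : ∀ x, 0 < G.m x ∧ G.m x ≤ 2
  φ0_smooth : ContDiff ℝ ∞ G.φ0
  φ0_pos : ∀ x, 0 < G.φ0 x
  φ0_le : ∀ x, G.φ0 x ^ 2 ≤ 2
  φ0_sq : ∀ x, |x 2| ≤ 8 → G.φ0 x ^ 2 = G.m x * Real.exp (-(G.Ω * x 2 ^ 2))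
  Iz_ge : 1 / (G.n : ℝ) ^ 56 ≤ G.Iz
  Iz_le : G.Iz ≤ 2
  Iz_out : ∀ z : ℝ, 1 ≤ |z| → Real.exp (-(G.Ω * z ^ 2)) ≤ G.Iz / 2 ^ G.n
  Iz_in : (1 - G.ξ) * G.Iz ≤ ∫ z in Icc (-G.ξ) G.ξ, Real.exp (-(G.Ω * z ^ 2))
  mass : ∀ r < 3 * G.M, |G.mass r - 4 * G.J * G.Iz| ≤ G.J * G.Iz / (G.n : ℝ) ^ 18
  ramp_smooth : ContDiff ℝ ∞ G.ramp
  ramp_mem : ∀ t, 0 ≤ G.ramp t ∧ G.ramp t ≤ 1
  ramp_zero : ∀ t : ℝ, t ≤ 1 - G.Lk → G.ramp t = 0
  ramp_der : ∀ t, |deriv G.ramp t| ≤ 1 / ((G.Lk : ℝ) - 4)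
  ramp_der0 : ∀ t : ℝ, -1 ≤ t ∨ t ≤ 1 - G.Lk → deriv G.ramp t = 0
  supp : ∀ a, tsupport (G.η a) ⊆ box (G.l / 2) (G.l / 2) 2
  sharp : Sharp G.φ
  soft : Soft G.φ G.η ((G.n : ℝ) ^ 80 * G.w)

theorem ev_UF : Ev fun G _ => G.UF := by
  refine ((Ev.const 1000).and (feat_shape.and (feat_val.and (m_pos.and (φ0_pos.and (Iz_bounds.and
    (mass_bounds.and (ramp_facts.and (η_supp.and (sharp.and soft)))))))))).mono ?_
  rintro G V - ⟨h0, ⟨-, h1, h1'⟩, h2, h3, h4, h5, h6, h7, h8, h9, h10⟩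
  refine ⟨h0, h1, h1', fun f hf x => ?_, h3.1, h3.2, h4.1, h4.2.1, h4.2.2.1, h4.2.2.2, h5.1, h5.2.1,
    h5.2.2.1, h5.2.2.2, h6, h7.1, h7.2.1, h7.2.2.2.1, h7.2.2.2.2.1, h7.2.2.2.2.2.1, h8, h9, h10⟩
  obtain ⟨a1, a2, a3, a4, a5, a6, -⟩ := h1' f hf
  obtain ⟨b1, b2, -, b4, b5⟩ := h2 f x a1.le a3 a4 a5 a6
  refine ⟨b1, b2, b4, fun hx => (b5 hx).trans ?_⟩
  have : (f.1 : ℝ) ≤ 1 := by exact_mod_cast a2
  gcongr

lemma row_lt {M : ℕ} (a : Arm M) : row a < 3 * M := by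
  have := a.1.2
  have := a.2.2
  unfold row
  omega

lemma row_inj {M : ℕ} {a b : Arm M} (h : row a = row b) : a = b := by
  have := a.2.2
  have := b.2.2
  unfold row at h
  exact Prod.ext (Fin.ext (by omega)) (Fin.ext (by omega))

lemma nat_far {r r' : ℕ} (h : r ≠ r') : (1 : ℝ) ≤ |(r : ℝ) - r'| := by
  have : (1 : ℤ) ≤ |(r : ℤ) - r'| := Int.one_le_abs (by omega)
  exact_mod_cast this

namespace Geo

variable {G : Geo} {V : ℕ → ℕ → ℕ}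

lemma well_mem {s r : ℕ} (hs : s ∈ G.sts r) : G.well s r ∈ G.feats := by
  simp only [sts, Finset.mem_filter, Finset.mem_range] at hs
  simp only [feats, wells, List.mem_append, List.mem_flatMap, List.mem_range]
  refine Or.inl (Or.inl (Or.inl ⟨s, hs.1, ?_⟩))
  have h2 := hs.2
  generalize G.st.getD s (0, 0) = p at h2 ⊢
  cases hb : (p.1 == p.2)
  · rcases h2 with k | k <;> simp [k]
  · rw [beq_iff_eq] at hb
    rcases h2 with k | k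
    · simp [k]
    · simp [hb, k]

lemma wire_mem {r : ℕ} (hr : r < 3 * G.M) : G.wire r ∈ G.feats := by
  simp only [feats, List.mem_append, List.mem_map, List.mem_range]
  exact Or.inl (Or.inl (Or.inr ⟨r, hr, rfl⟩))

lemma link_mem {r : ℕ} (hr : r < 3 * G.M) : G.link r ∈ G.feats := by
  simp only [feats, List.mem_append, List.mem_map, List.mem_range]
  exact Or.inl (Or.inr ⟨r, hr, rfl⟩)

lemma hub_mem {m : ℕ} (hm : m < G.M) : G.hub m ∈ G.feats := by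
  simp only [feats, List.mem_append, List.mem_map, List.mem_range]
  exact Or.inr ⟨m, hm, rfl⟩

lemma OK.feat_cases (h : G.OK V) {f : Feat} (hf : f ∈ G.feats) :
    (∃ r < 3 * G.M, (∃ s, f = G.well s r) ∨ f = G.wire r ∨ f = G.link r) ∨
      ∃ m < G.M, f = G.hub m := by
  simp only [feats, wells, List.mem_append, List.mem_flatMap, List.mem_range, List.mem_map] at hf
  rcases hf with ((⟨s, hs, hf⟩ | ⟨r, hr, hf⟩) | ⟨r, hr, hf⟩) | ⟨m, hm, hf⟩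
  · have hmem := h.mem (G.st.getD s (0, 0)) (by
      rw [List.getD_eq_getElem _ _ hs]
      exact List.getElem_mem hs)
    generalize G.st.getD s (0, 0) = p at hf hmem
    have : f = G.well s p.1 ∨ f = G.well s p.2 := by
      cases hb : (p.1 == p.2)
      · simpa [hb] using hf
      · left
        simpa [hb] using hf
    rcases this with k | k
    · exact Or.inl ⟨_, by omega, Or.inl ⟨s, k⟩⟩
    · exact Or.inl ⟨_, hmem.2, Or.inl ⟨s, k⟩⟩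
  · exact Or.inl ⟨r, hr, Or.inr (Or.inl hf.symm)⟩
  · exact Or.inl ⟨r, hr, Or.inr (Or.inr hf.symm)⟩
  · exact Or.inr ⟨m, hm, hf.symm⟩

lemma mem_well {s r : ℕ} {e : ℝ} {x : Pt} : x ∈ rect (G.well s r) e ↔
    |x 0 - G.D * (s + 1)| ≤ 1 + e ∧ |x 1 - G.d * r| ≤ 1 + e := by
  simp [rect, well]

lemma mem_wire {r : ℕ} {e : ℝ} {x : Pt} : x ∈ rect (G.wire r) e ↔
    |x 0 - G.X / 2| ≤ G.X / 2 + e ∧ |x 1 - G.d * r| ≤ 1 + e := by
  simp [rect, wire]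

lemma mem_link {r : ℕ} {e : ℝ} {x : Pt} : x ∈ rect (G.link r) e ↔
    |x 0 + G.Lk / 2| ≤ G.Lk / 2 + 1 + e ∧ |x 1 - G.d * r| ≤ 1 + e := by
  simp [rect, link]

lemma mem_hub {m : ℕ} {e : ℝ} {x : Pt} : x ∈ rect (G.hub m) e ↔
    |x 0 + (G.Lk + 1)| ≤ 1 + e ∧ |x 1 - G.d * (3 * m + 1)| ≤ G.d + 1 + e := by
  simp only [rect, hub, mem_ofPred_eq]
  push_cast
  rw [sub_neg_eq_add]

lemma UF.n_pos (u : G.UF) : (0 : ℝ) < G.n := by linarith [u.n_ge]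

lemma UF.one_le (u : G.UF) : (1 : ℝ) ≤ G.n := by linarith [u.n_ge]

lemma UF.pow_ge (u : G.UF) {j : ℕ} (hj : j ≠ 0) : (1000 : ℝ) ≤ (G.n : ℝ) ^ j :=
  u.n_ge.trans (le_self_pow₀ u.one_le hj)

lemma UF.pow_le (u : G.UF) {i j : ℕ} (h : i ≤ j) : (G.n : ℝ) ^ i ≤ (G.n : ℝ) ^ j :=
  pow_le_pow_right₀ u.one_le h

lemma UF.mul_pow_le (u : G.UF) {i j : ℕ} (h : i < j) :
    1000 * (G.n : ℝ) ^ i ≤ (G.n : ℝ) ^ j := by
  calc 1000 * (G.n : ℝ) ^ i ≤ G.n * (G.n : ℝ) ^ i := by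
        have := u.n_ge
        have := u.n_pos
        gcongr
    _ = (G.n : ℝ) ^ (i + 1) := by ring
    _ ≤ _ := u.pow_le h

lemma UF.J_ge (u : G.UF) : (1000 : ℝ) ≤ G.J := by
  rw [J]; push_cast; exact u.pow_ge (by norm_num)

lemma UF.d_ge (u : G.UF) : (1000 : ℝ) ≤ G.d := by
  rw [d]; push_cast; exact u.pow_ge (by norm_num)

lemma UF.D_ge (u : G.UF) : (1000 : ℝ) ≤ G.D := by
  rw [D]; push_cast; exact u.pow_ge (by norm_num)

lemma UF.Lk_ge (u : G.UF) : (1000 : ℝ) ≤ G.Lk := by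
  rw [Lk]; push_cast; exact u.pow_ge (by norm_num)

lemma UF.l_ge (u : G.UF) : (1000 : ℝ) ≤ G.l := by
  rw [l]; push_cast; exact u.pow_ge (by norm_num)

lemma UF.ξ_pos (u : G.UF) : 0 < G.ξ := by
  have := u.n_pos
  unfold ξ
  positivity

lemma UF.inv_le (u : G.UF) {i j : ℕ} (h : i < j) :
    1 / (G.n : ℝ) ^ j ≤ 1 / (G.n : ℝ) ^ i / 1000 := by
  have := u.n_pos
  rw [div_div]
  exact one_div_le_one_div_of_le (by positivity) (by linarith [u.mul_pow_le h])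

lemma UF.ξ_le (u : G.UF) : G.ξ ≤ 1 / 1000 := by
  have := u.inv_le (i := 0) (j := 20) (by norm_num)
  simpa [ξ] using this

lemma UF.Iz_pos (u : G.UF) : 0 < G.Iz := by
  have := u.n_pos
  exact lt_of_lt_of_le (by positivity) u.Iz_ge

lemma UF.mass_ge (u : G.UF) {r : ℕ} (hr : r < 3 * G.M) : 3 * G.J * G.Iz ≤ G.mass r := by
  have h1 := (abs_le.1 (u.mass r hr)).1
  have h2 : (G.J : ℝ) * G.Iz / (G.n : ℝ) ^ 18 ≤ G.J * G.Iz :=
    div_le_self (mul_nonneg (Nat.cast_nonneg _) u.Iz_pos.le) (one_le_pow₀ u.one_le)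
  linarith

lemma UF.mass_pos (u : G.UF) {r : ℕ} (hr : r < 3 * G.M) : 0 < G.mass r := by
  have := u.mass_ge hr
  have := u.J_ge
  have := u.Iz_pos
  nlinarith

lemma UF.inv_mass_le (u : G.UF) {r : ℕ} (hr : r < 3 * G.M) : 1 / G.mass r ≤ (G.n : ℝ) ^ 52 := by
  have h0 := u.n_pos
  have h1 := u.mass_ge hr
  have h2 : (G.J : ℝ) * (1 / (G.n : ℝ) ^ 56) ≤ G.J * G.Iz :=
    mul_le_mul_of_nonneg_left u.Iz_ge (Nat.cast_nonneg _)
  have h3 : (G.J : ℝ) * (1 / (G.n : ℝ) ^ 56) = 1 / (G.n : ℝ) ^ 52 := by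
    rw [J]; push_cast; field_simp
  have h4 : 0 < 1 / (G.n : ℝ) ^ 52 := by positivity
  rw [one_div_le (u.mass_pos hr) (by positivity)]
  linarith

lemma OK.w_pos (h : G.OK V) (u : G.UF) : (0 : ℝ) < G.w := by
  have h1 : ((G.n : ℚ) ^ 300 / 2 ^ G.n : ℚ) ≤ G.w := h.w_ge
  have h2 : (((G.n : ℚ) ^ 300 / 2 ^ G.n : ℚ) : ℝ) ≤ G.w := by exact_mod_cast h1
  push_cast at h2
  have := u.n_pos
  exact lt_of_lt_of_le (by positivity) h2

lemma OK.w_le' (h : G.OK V) : (G.w : ℝ) ≤ 1 / (G.n : ℝ) ^ 300 := by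
  have h2 : (G.w : ℝ) ≤ ((1 / (G.n : ℚ) ^ 300 : ℚ) : ℝ) := by exact_mod_cast h.w_le
  push_cast at h2
  exact h2

lemma OK.two_le (h : G.OK V) (u : G.UF) : 1 / (2 : ℝ) ^ G.n ≤ G.w / (G.n : ℝ) ^ 300 := by
  have h1 : ((G.n : ℚ) ^ 300 / 2 ^ G.n : ℚ) ≤ G.w := h.w_ge
  have h2 : (((G.n : ℚ) ^ 300 / 2 ^ G.n : ℚ) : ℝ) ≤ G.w := by exact_mod_cast h1
  push_cast at h2
  have := u.n_pos
  rw [le_div_iff₀ (by positivity)]
  rwa [div_eq_mul_one_div, mul_comm] at h2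

lemma OK.two_le' (h : G.OK V) (u : G.UF) : 1 / (2 : ℝ) ^ G.n ≤ 1 / (G.n : ℝ) ^ 300 := by
  refine (h.two_le u).trans ?_
  have := u.n_pos
  have h2 : 1 / (G.n : ℝ) ^ 300 ≤ 1 := by
    rw [div_le_one (by positivity)]
    exact one_le_pow₀ u.one_le
  have := h.w_le'
  gcongr
  linarith

lemma OK.M_le' (h : G.OK V) : (G.M : ℝ) ≤ G.n := by exact_mod_cast h.M_le

/-- Away from all features the weight is tiny. -/
lemma UF.m_far (u : G.UF) {x : Pt} (hx : ∀ f ∈ G.feats, x ∉ rect f G.ξ) :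
    G.m x ≤ (G.n : ℝ) ^ 7 * (1 / 2 ^ G.n) := by
  rw [m_eq_list]
  refine (List.sum_le_card_nsmul _ (1 / 2 ^ G.n) fun y hy => ?_).trans ?_
  · obtain ⟨f, hf, rfl⟩ := List.mem_map.1 hy
    exact (u.val f hf x).2.2.2 (hx f hf)
  · rw [List.length_map, nsmul_eq_mul]
    have : (G.feats.length : ℝ) ≤ (G.n : ℝ) ^ 7 := by exact_mod_cast u.len
    gcongr

/-- The weight in the middle part of a link. -/
lemma OK.m_link (h : G.OK V) (u : G.UF) {r : ℕ} (hr : r < 3 * G.M) {x : Pt}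
    (h0 : 1 - G.Lk ≤ x 0) (h1 : x 0 ≤ -1) (h2 : |x 1 - G.d * r| ≤ 2) :
    G.m x ≤ G.w + (G.n : ℝ) ^ 7 * (1 / 2 ^ G.n) := by
  have hξ := u.ξ_le
  have hD := u.D_ge
  have hd := u.d_ge
  have hn := u.n_pos
  have ht : (0 : ℝ) ≤ 1 / 2 ^ G.n := by positivity
  have a1 : ∀ r' ∈ Finset.range (3 * G.M), (∑ s ∈ G.sts r', fv G.k (G.well s r') x) +
      fv G.k (G.wire r') x + fv G.k (G.link r') x ≤
      (G.J + 2) * (1 / 2 ^ G.n) + if r' = r then (G.w : ℝ) else 0 := by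
    intro r' hr'
    rw [Finset.mem_range] at hr'
    have b1 : ∑ s ∈ G.sts r', fv G.k (G.well s r') x ≤ G.J * (1 / 2 ^ G.n) := by
      refine (Finset.sum_le_card_nsmul _ _ (1 / 2 ^ G.n) fun s hs => ?_).trans ?_
      · refine (u.val _ (well_mem hs) x).2.2.2 fun k => ?_
        have k1 := (abs_le.1 (mem_well.1 k).1).1
        have : (0 : ℝ) ≤ G.D * s := by positivity
        linarith
      · rw [h.card_sts hr', nsmul_eq_mul]
    have b2 : fv G.k (G.wire r') x ≤ 1 / 2 ^ G.n := by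
      refine (u.val _ (wire_mem hr') x).2.2.2 fun k => ?_
      have k1 := (abs_le.1 (mem_wire.1 k).1).1
      linarith
    have b3 : fv G.k (G.link r') x ≤ 1 / 2 ^ G.n + if r' = r then (G.w : ℝ) else 0 := by
      by_cases k : r' = r
      · rw [if_pos k]
        have := (u.val _ (link_mem hr') x).2.1
        simp only [link] at this ⊢
        linarith
      · rw [if_neg k, add_zero]
        refine (u.val _ (link_mem hr') x).2.2.2 fun k' => ?_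
        have k1 := (mem_link.1 k').2
        have k2 : (G.d : ℝ) * 1 ≤ G.d * |(r' : ℝ) - r| := by gcongr; exact nat_far k
        have k3 : |(G.d : ℝ) * (r' - r)| ≤ |x 1 - G.d * r| + |x 1 - G.d * r'| := by
          rw [show (G.d : ℝ) * (r' - r) = (x 1 - G.d * r) - (x 1 - G.d * r') by ring]
          exact abs_sub _ _
        rw [abs_mul, abs_of_nonneg (Nat.cast_nonneg _)] at k3
        linarith
    linarith
  have a2 : ∑ m ∈ Finset.range G.M, fv G.k (G.hub m) x ≤ G.M * (1 / 2 ^ G.n) := by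
    refine (Finset.sum_le_card_nsmul _ _ (1 / 2 ^ G.n) fun m hm => ?_).trans (by simp)
    refine (u.val _ (hub_mem (Finset.mem_range.1 hm)) x).2.2.2 fun k => ?_
    have k1 := (abs_le.1 (mem_hub.1 k).1).2
    linarith
  have a3 := Finset.sum_le_sum a1
  rw [Finset.sum_add_distrib (f := fun _ => (G.J + 2 : ℝ) * (1 / 2 ^ G.n)), Finset.sum_const,
    Finset.sum_ite_eq', if_pos (Finset.mem_range.2 hr), Finset.card_range, nsmul_eq_mul] at a3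
  have a4 : ((3 * G.M : ℕ) : ℝ) * (G.J + 2) + G.M ≤ (G.n : ℝ) ^ 7 := by
    have c1 := h.M_le'
    have c2 := u.J_ge
    have c3 : (G.n : ℝ) * G.J = (G.n : ℝ) ^ 5 := by rw [J]; push_cast; ring
    have c4 := u.mul_pow_le (i := 5) (j := 7) (by norm_num)
    have c5 : (0 : ℝ) ≤ G.M := Nat.cast_nonneg _
    push_cast
    nlinarith
  have a5 := mul_le_mul_of_nonneg_right a4 ht
  rw [h.m_eq]
  linarith

/-- The weight dominates the wells of a row. -/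
lemma OK.wells_le_m (h : G.OK V) (u : G.UF) {r : ℕ} (hr : r < 3 * G.M) (x : Pt) :
    ∑ s ∈ G.sts r, fv G.k (G.well s r) x ≤ G.m x := by
  rw [h.m_eq]
  have a1 : ∀ r' ∈ Finset.range (3 * G.M), 0 ≤ (∑ s ∈ G.sts r', fv G.k (G.well s r') x) +
      fv G.k (G.wire r') x + fv G.k (G.link r') x := fun r' hr' =>
    add_nonneg (add_nonneg (Finset.sum_nonneg fun s hs => (u.val _ (well_mem hs) x).1)
      (u.val _ (wire_mem (Finset.mem_range.1 hr')) x).1)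
      (u.val _ (link_mem (Finset.mem_range.1 hr')) x).1
  have a2 := Finset.single_le_sum a1 (Finset.mem_range.2 hr)
  have a3 : 0 ≤ ∑ m ∈ Finset.range G.M, fv G.k (G.hub m) x :=
    Finset.sum_nonneg fun m hm => (u.val _ (hub_mem (Finset.mem_range.1 hm)) x).1
  have a4 := (u.val _ (wire_mem hr) x).1
  have a5 := (u.val _ (link_mem hr) x).1
  linarith

lemma UF.θ_mem (u : G.UF) (a : Arm G.M) (x : Pt) : 0 ≤ G.θ a x ∧ G.θ a x ≤ 1 := by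
  obtain ⟨r0, r1⟩ := u.ramp_mem (x 0)
  have a0 := bmp_nonneg (G.d / 4) (x 1 - G.d * row a)
  have a1 := bmp_le_one (G.d / 4) (x 1 - G.d * row a)
  have b0 := bmp_nonneg (5 * G.d / 4) (x 1 - G.d * (3 * a.1.val + 1))
  have b1 := bmp_le_one (5 * G.d / 4) (x 1 - G.d * (3 * a.1.val + 1))
  have c0 : 0 ≤ G.ramp (x 0) * bmp (G.d / 4) (x 1 - G.d * row a) +
      (1 - G.ramp (x 0)) / 3 * bmp (5 * G.d / 4) (x 1 - G.d * (3 * a.1.val + 1)) :=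
    add_nonneg (mul_nonneg r0 a0) (mul_nonneg (by linarith) b0)
  have c1 : G.ramp (x 0) * bmp (G.d / 4) (x 1 - G.d * row a) +
      (1 - G.ramp (x 0)) / 3 * bmp (5 * G.d / 4) (x 1 - G.d * (3 * a.1.val + 1)) ≤ 1 := by
    nlinarith
  unfold θ
  exact ⟨mul_nonneg (mul_nonneg (bmp_nonneg _ _) (bmp_nonneg _ _)) c0,
    mul_le_one₀ (mul_le_one₀ (bmp_le_one _ _) (bmp_nonneg _ _) (bmp_le_one _ _)) c0 c1⟩

end Geo

end Vale.Agent.P370
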