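import Vale.Agent.P370.First

/-!
Lattice sums away from a point and the midpoint rule on far cells.
-/

namespace Vale.Agent.P370

open MeasureTheory Set

lemma pa_cmp {x c y : Pt} {s : ℝ} (hs : 0 < s) (hy : ‖y - c‖ ≤ s / 2) (h : 2 * s ≤ ‖x - c‖) :
    nrm (x - y) ≤ 3 * ‖x - c‖ ∧ s ≤ nrm (x - y) ∧ ‖x - c‖ / 2 ≤ nrm (x - y) ∧ y ≠ x := by
  have h1 : ‖x - y‖ ≤ ‖x - c‖ + ‖y - c‖ := by
    have : x - y = (x - c) - (y - c) := by abel
    rw [this]; exact norm_sub_le _ _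
  have h2 : ‖x - c‖ ≤ ‖x - y‖ + ‖y - c‖ := by
    have : x - c = (x - y) + (y - c) := by abel
    rw [this]; exact norm_add_le _ _
  have h3 := norm_le_nrm (x - y)
  have h4 := nrm_le_norm (x - y)
  refine ⟨by linarith, by linarith, by linarith, ?_⟩
  rintro rfl
  simp only [sub_self, norm_zero] at h2
  linarith

lemma pa_rpow_neg {r : ℝ} (hr : 0 < r) (k : ℕ) : r ^ (-(k : ℝ)) = 1 / r ^ k := by
  rw [Real.rpow_neg hr.le, Real.rpow_natCast, one_div]

lemma pa_meas_in (x : Pt) (b : ℝ) : MeasurableSet {y | nrm (x - y) ≤ b} :=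
  (isClosed_le (continuous_nrm.comp (continuous_const.sub continuous_id))
    continuous_const).measurableSet

lemma pa_meas_out (x : Pt) (b : ℝ) : MeasurableSet {y | b ≤ nrm (x - y)} :=
  (isClosed_le continuous_const
    (continuous_nrm.comp (continuous_const.sub continuous_id))).measurableSet

/-- Fifth powers. -/
lemma pa_sum5 {σ : ℕ} (hσ : 0 < σ) (R : ℕ) (S : Finset (ℕ × ℕ × ℕ)) (x : Pt)
    (h : ∀ n ∈ S, 2 * (1 / (σ : ℝ)) ≤ ‖x - site σ R n‖) :
    (1 / (σ : ℝ)) ^ 3 * ∑ n ∈ S, 1 / ‖x - site σ R n‖ ^ 5 ≤ 2000 / (1 / (σ : ℝ)) ^ 2 := by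
  have hs : (0 : ℝ) < 1 / (σ : ℝ) := by positivity
  obtain ⟨hi, he⟩ := rpow_out (a := 5) (by norm_num) hs x
  have key := sum_le_integral hσ R S (a := fun n => 1 / ‖x - site σ R n‖ ^ 5)
    (g := fun y => 243 * nrm (x - y) ^ (-(5 : ℝ))) (pa_meas_out x (1 / σ)) (hi.const_mul 243)
    (fun y _ => by have := nrm_nonneg (x - y); positivity)
    (fun n hn y hy => (pa_cmp hs (norm_sub_le_of_mem_cell hy) (h n hn)).2.1)
    (fun n hn y hy => by
      obtain ⟨h1, h2, -, -⟩ := pa_cmp hs (norm_sub_le_of_mem_cell hy) (h n hn)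
      have h0 : 0 < nrm (x - y) := hs.trans_le h2
      have hd : 0 < ‖x - site σ R n‖ := by linarith [h n hn]
      have := pa_rpow_neg h0 5
      push_cast at this
      rw [this, mul_one_div, div_le_div_iff₀ (by positivity) (by positivity)]
      have := pow_le_pow_left₀ h0.le h1 5
      nlinarith)
  refine key.trans ?_
  rw [integral_const_mul, he]
  have : (1 / (σ : ℝ)) ^ ((3 : ℝ) - 5) = 1 / (1 / (σ : ℝ)) ^ 2 := by
    have := pa_rpow_neg hs 2
    push_cast at this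
    rw [← this]; norm_num
  rw [this]
  have hp := Real.pi_lt_four
  have : (0 : ℝ) < 1 / (1 / (σ : ℝ)) ^ 2 := by positivity
  rw [div_eq_mul_one_div 2000]
  nlinarith

/-- First powers. -/
lemma pa_sum1 {σ : ℕ} (hσ : 0 < σ) (R : ℕ) (S : Finset (ℕ × ℕ × ℕ)) (x : Pt) {E : Set Pt}
    (hE : MeasurableSet E) (hv : volume E ≠ ⊤) (hS : ∀ n ∈ S, cell (site σ R n) (1 / σ) ⊆ E)
    (h : ∀ n ∈ S, 2 * (1 / (σ : ℝ)) ≤ ‖x - site σ R n‖) :
    (1 / (σ : ℝ)) ^ 3 * ∑ n ∈ S, 1 / ‖x - site σ R n‖ ≤ 3 * ∫ y in E, ker (x - y) := by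
  have hs : (0 : ℝ) < 1 / (σ : ℝ) := by positivity
  have key := sum_le_integral hσ R S (a := fun n => 1 / ‖x - site σ R n‖)
    (g := fun y => 3 * ker (x - y)) hE ((integrableOn_ker hv x).const_mul 3)
    (fun y _ => by have := ker_nonneg (x - y); positivity) hS
    (fun n hn y hy => by
      obtain ⟨h1, h2, -, -⟩ := pa_cmp hs (norm_sub_le_of_mem_cell hy) (h n hn)
      have h0 : 0 < nrm (x - y) := hs.trans_le h2
      have hd : 0 < ‖x - site σ R n‖ := by linarith [h n hn]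
      rw [ker, ← div_eq_mul_inv, div_le_div_iff₀ (by positivity) (by positivity)]
      linarith)
  rwa [integral_const_mul] at key

/-- Counting cells. -/
lemma pa_card {σ : ℕ} (hσ : 0 < σ) (R : ℕ) (S : Finset (ℕ × ℕ × ℕ)) {E : Set Pt}
    (hE : MeasurableSet E) (hv : volume E ≠ ⊤) (hS : ∀ n ∈ S, cell (site σ R n) (1 / σ) ⊆ E) :
    (1 / (σ : ℝ)) ^ 3 * S.card ≤ volume.real E := by
  have key := sum_le_integral hσ R S (a := fun _ => (1 : ℝ)) (g := fun _ => (1 : ℝ)) hE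
    (integrableOn_const hv) (fun _ _ => zero_le_one) hS (fun _ _ _ _ => le_rfl)
  simpa using key

/-- Third powers. -/
lemma pa_sum3 {τ : ℕ} (hτ : 2 ≤ τ) (R : ℕ) (S : Finset (ℕ × ℕ × ℕ)) (x : Pt) {E : Set Pt}
    (hE : MeasurableSet E) (hv : volume E ≠ ⊤)
    (hS : ∀ n ∈ S, cell (site (τ ^ 4) R n) (1 / (τ ^ 4 : ℕ)) ⊆ E)
    (h : ∀ n ∈ S, 2 * (1 / ((τ ^ 4 : ℕ) : ℝ)) ≤ ‖x - site (τ ^ 4) R n‖) :
    (1 / ((τ ^ 4 : ℕ) : ℝ)) ^ 3 * ∑ n ∈ S, 1 / ‖x - site (τ ^ 4) R n‖ ^ 3 ≤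
      volume.real E + 6000 * τ := by
  classical
  have hτ0 : (0 : ℝ) < τ := by exact_mod_cast (by omega : 0 < τ)
  have hσ : 0 < τ ^ 4 := by positivity
  have hs : (0 : ℝ) < 1 / ((τ ^ 4 : ℕ) : ℝ) := by positivity
  rw [← Finset.sum_filter_add_sum_filter_not S (fun n => 1 ≤ ‖x - site (τ ^ 4) R n‖), mul_add]
  refine add_le_add ?_ ?_
  · refine le_trans ?_ (pa_card hσ R (S.filter fun n => 1 ≤ ‖x - site (τ ^ 4) R n‖) hE hv
      (fun n hn => hS n (Finset.mem_filter.1 hn).1))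
    refine mul_le_mul_of_nonneg_left ?_ (by positivity)
    rw [Finset.card_eq_sum_ones, Nat.cast_sum]
    refine Finset.sum_le_sum fun n hn => ?_
    have := (Finset.mem_filter.1 hn).2
    rw [Nat.cast_one, div_le_one (by positivity)]
    exact one_le_pow₀ this
  · obtain ⟨hi, he⟩ := rpow_in (a := 11 / 4) (b := 3) (by norm_num) (by norm_num) x
    have key := sum_le_integral hσ R (S.filter fun n => ¬ 1 ≤ ‖x - site (τ ^ 4) R n‖)
      (a := fun n => 1 / ‖x - site (τ ^ 4) R n‖ ^ 3)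
      (g := fun y => 27 * τ * nrm (x - y) ^ (-(11 / 4 : ℝ))) (pa_meas_in x 3)
      (hi.const_mul (27 * τ)) (fun y _ => by have := nrm_nonneg (x - y); positivity)
      (fun n hn y hy => by
        obtain ⟨hn1, hn2⟩ := Finset.mem_filter.1 hn
        have := (pa_cmp hs (norm_sub_le_of_mem_cell hy) (h n hn1)).1
        show nrm (x - y) ≤ 3
        linarith [not_le.1 hn2])
      (fun n hn y hy => by
        obtain ⟨hn1, -⟩ := Finset.mem_filter.1 hn
        obtain ⟨h1, h2, -, -⟩ := pa_cmp hs (norm_sub_le_of_mem_cell hy) (h n hn1)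
        have h0 : 0 < nrm (x - y) := hs.trans_le h2
        have hd : 0 < ‖x - site (τ ^ 4) R n‖ := by linarith [h n hn1]
        set r := nrm (x - y)
        have e1 : 1 / ‖x - site (τ ^ 4) R n‖ ^ 3 ≤ 27 / r ^ 3 := by
          rw [div_le_div_iff₀ (by positivity) (by positivity)]
          have := pow_le_pow_left₀ h0.le h1 3
          nlinarith
        have e2 : 1 / r ^ 3 = r ^ (-(1 / 4 : ℝ)) * r ^ (-(11 / 4 : ℝ)) := by
          rw [← Real.rpow_add h0, ← pa_rpow_neg h0 3]; norm_num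
        have e3 : r ^ (-(1 / 4 : ℝ)) ≤ τ := by
          have e4 : r ^ (-(1 / 4 : ℝ)) ≤ (1 / ((τ ^ 4 : ℕ) : ℝ)) ^ (-(1 / 4 : ℝ)) :=
            Real.rpow_le_rpow_of_nonpos hs h2 (by norm_num)
          refine e4.trans (le_of_eq ?_)
          push_cast
          rw [one_div, Real.inv_rpow (by positivity), Real.rpow_neg (by positivity), inv_inv,
            ← Real.rpow_natCast, ← Real.rpow_mul hτ0.le]
          norm_num
        have e5 : 0 ≤ r ^ (-(11 / 4 : ℝ)) := by positivity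
        calc _ ≤ 27 / r ^ 3 := e1
          _ = 27 * (r ^ (-(1 / 4 : ℝ)) * r ^ (-(11 / 4 : ℝ))) := by rw [← e2]; ring
          _ ≤ 27 * (τ * r ^ (-(11 / 4 : ℝ))) := by gcongr
          _ = _ := by ring)
    refine key.trans ?_
    rw [integral_const_mul, he]
    have e6 : (3 : ℝ) ^ ((3 : ℝ) - 11 / 4) ≤ 3 := by
      calc (3 : ℝ) ^ ((3 : ℝ) - 11 / 4) ≤ 3 ^ (1 : ℝ) :=
            Real.rpow_le_rpow_of_exponent_le (by norm_num) (by norm_num)
        _ = 3 := Real.rpow_one 3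
    have e7 : (0 : ℝ) ≤ (3 : ℝ) ^ ((3 : ℝ) - 11 / 4) := by positivity
    have hp := Real.pi_lt_four
    have hp0 := Real.pi_pos
    have e8 : 4 * Real.pi * (3 : ℝ) ^ ((3 : ℝ) - 11 / 4) / (3 - 11 / 4) ≤ 200 := by
      rw [div_le_iff₀ (by norm_num)]; nlinarith
    nlinarith

lemma pa_vol_cell (c : Pt) {s : ℝ} (hs : 0 < s) : volume (cell c s) ≠ ⊤ := by
  intro h
  have := volume_cell c hs.le
  rw [Measure.real, h] at this
  simp only [ENNReal.toReal_top] at this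
  have : 0 < s ^ 3 := by positivity
  linarith

/-- The potential of a cell. -/
lemma pa_cell_pot (c x : Pt) {s : ℝ} (hs : 0 < s) : ∫ y in cell c s, ker (x - y) ≤ 8 * s ^ 2 := by
  have := coulomb_le (measurableSet_cell c s) (pa_vol_cell c hs) x hs
  rw [volume_cell c hs.le] at this
  refine this.trans (le_of_eq ?_)
  field_simp
  ring

lemma pa_ker_le {x c : Pt} (h : 0 < ‖x - c‖) : ker (x - c) ≤ 1 / ‖x - c‖ := by
  rw [ker, one_div]
  exact inv_anti₀ h (norm_le_nrm _)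

/-- The midpoint rule for the kernel on a far cell. -/
lemma pa_cub_ker : ∃ C : ℝ, 0 ≤ C ∧ ∀ (x c : Pt) (s : ℝ), 0 < s → 2 * s ≤ ‖x - c‖ →
    |s ^ 3 * ker (x - c) - ∫ y in cell c s, ker (x - y)| ≤ C * s ^ 7 * (1 / ‖x - c‖ ^ 5) := by
  obtain ⟨C, hC1, hC⟩ := ker_deriv
  refine ⟨32 * C, by positivity, fun x c s hs h => ?_⟩
  have hd : 0 < ‖x - c‖ := by linarith
  have hc : c ≠ x := (pa_cmp (y := c) hs (by simp; positivity) h).2.2.2
  have := cub4 (f := fun y => ker (x - y)) (c := c) (M := 32 * C * (1 / ‖x - c‖ ^ 5)) hs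
    (fun y hy => by
      obtain ⟨-, -, h3, h4⟩ := pa_cmp hs hy h
      refine ⟨by exact_mod_cast contDiffAt_ker h4 4, (hC 4 le_rfl x y h4).trans ?_⟩
      have := pow_le_pow_left₀ (by positivity) h3 5
      calc C / nrm (x - y) ^ (4 + 1) ≤ C / (‖x - c‖ / 2) ^ 5 := by gcongr
        _ = _ := by field_simp; ring)
  rw [lap_ker hc] at this
  simp only [mul_zero, add_zero] at this
  linarith

lemma pa_inv_le {r : ℝ} (hr : 0 < r) {j : ℕ} (hj : j ≤ 3) : 1 / r ^ j ≤ 1 + 1 / r ^ 3 := by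
  have h3 : 0 < 1 / r ^ 3 := by positivity
  rcases le_total 1 r with h | h
  · have : 1 / r ^ j ≤ 1 := by
      rw [div_le_one (by positivity)]; exact one_le_pow₀ h
    linarith
  · have : 1 / r ^ j ≤ 1 / r ^ 3 :=
      one_div_le_one_div_of_le (by positivity) (pow_le_pow_of_le_one hr.le h hj)
    linarith

/-- The midpoint rule for the kernel times a smooth density on a far cell. -/
lemma pa_cub_mul : ∃ C : ℝ, 0 ≤ C ∧ ∀ (g : Pt → ℝ) (A : ℝ), DB 2 g A → ∀ (x c : Pt) (s : ℝ),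
    0 < s → 2 * s ≤ ‖x - c‖ →
    |s ^ 3 * (ker (x - c) * g c) - ∫ y in cell c s, ker (x - y) * g y| ≤
      C * A * s ^ 5 * (1 + 1 / ‖x - c‖ ^ 3) := by
  obtain ⟨C, hC1, hC⟩ := ker_deriv
  refine ⟨32 * C, by positivity, fun g A hg x c s hs h => ?_⟩
  have hd : 0 < ‖x - c‖ := by linarith
  have hA : 0 ≤ A := (norm_nonneg _).trans (hg.2 0 (by norm_num) x)
  have hg2 : ContDiff ℝ 2 g := hg.1.of_le (by
    have := ENat.natCast_le_of_coe_top_le_withTop (le_refl _) 2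
    exact_mod_cast this)
  have := cub2 (f := fun y => ker (x - y) * g y) (c := c)
    (M := 32 * C * A * (1 + 1 / ‖x - c‖ ^ 3)) hs
    (fun y hy => by
      obtain ⟨-, -, h3, h4⟩ := pa_cmp hs hy h
      have hk : ∀ z, z ≠ x → ContDiffAt ℝ 2 (fun y => ker (x - y)) z := fun z hz => by
        exact_mod_cast contDiffAt_ker hz 2
      refine ⟨(hk y h4).mul hg2.contDiffAt, ?_⟩
      have hU : IsOpen ({x}ᶜ : Set Pt) := isOpen_compl_singleton
      have hy' : y ∈ ({x}ᶜ : Set Pt) := h4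
      have b := norm_iteratedFDerivWithin_mul_le (𝕜 := ℝ) (s := ({x}ᶜ : Set Pt))
        (f := fun y => ker (x - y)) (g := g) (N := 2)
        (fun z hz => (hk z hz).contDiffWithinAt) hg2.contDiffOn hU.uniqueDiffOn hy' (n := 2)
        (by norm_num)
      simp only [iteratedFDerivWithin_of_isOpen _ hU hy'] at b
      refine b.trans ?_
      have hb : ∀ i ≤ 2, ‖iteratedFDeriv ℝ i (fun y => ker (x - y)) y‖ ≤
          8 * C * (1 + 1 / ‖x - c‖ ^ 3) := fun i hi => by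
        refine (hC i (by omega) x y h4).trans ?_
        have e1 : C / nrm (x - y) ^ (i + 1) ≤ C / (‖x - c‖ / 2) ^ (i + 1) := by gcongr
        have e2 : C / (‖x - c‖ / 2) ^ (i + 1) = C * 2 ^ (i + 1) * (1 / ‖x - c‖ ^ (i + 1)) := by
          rw [div_pow]; field_simp
        have e3 : (2 : ℝ) ^ (i + 1) ≤ 2 ^ 3 := pow_le_pow_right₀ (by norm_num) (by omega)
        have e4 := pa_inv_le hd (j := i + 1) (by omega)
        calc _ ≤ _ := e1
          _ = _ := e2
          _ ≤ C * 2 ^ 3 * (1 + 1 / ‖x - c‖ ^ 3) := by gcongr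
          _ = _ := by ring
      have hT : 0 ≤ 8 * C * (1 + 1 / ‖x - c‖ ^ 3) := by positivity
      have b0 := mul_le_mul (hb 0 (by norm_num)) (hg.2 2 le_rfl y) (norm_nonneg _) hT
      have b1 := mul_le_mul (hb 1 (by norm_num)) (hg.2 1 (by norm_num) y) (norm_nonneg _) hT
      have b2 := mul_le_mul (hb 2 (by norm_num)) (hg.2 0 (by norm_num) y) (norm_nonneg _) hT
      simp only [Finset.sum_range_succ, Finset.sum_range_zero]
      norm_num only [Nat.choose, Nat.cast_one, Nat.cast_ofNat, Nat.sub_zero, Nat.sub_self,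
        Nat.add_one_sub_one]
      nlinarith)
  linarith

/-- Fourth differences of the kernel. -/
lemma pa_diff4 : ∃ C : ℝ, 0 ≤ C ∧ ∀ (x c : Pt) (s : ℝ), 0 < s → 8 * s ≤ ‖x - c‖ →
    |ker (x - (c + (4 * s) • ek 0)) - 4 * ker (x - (c + (3 * s) • ek 0)) +
      6 * ker (x - (c + (2 * s) • ek 0)) - 4 * ker (x - (c + s • ek 0)) + ker (x - c)| ≤
      C * s ^ 4 * (1 / ‖x - c‖ ^ 5) := by
  obtain ⟨C, hC1, hC⟩ := ker_deriv
  refine ⟨30 * 32 * C, by positivity, fun x c s hs h => ?_⟩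
  have hd : 0 < ‖x - c‖ := by linarith
  have := diff4 (f := fun y => ker (x - y)) (c := c) (M := 32 * C * (1 / ‖x - c‖ ^ 5)) hs
    (fun t ht => by
      have e1 : ‖t • ek 0‖ = t := by
        rw [norm_smul, ek, Pi.norm_single, norm_one, mul_one, Real.norm_of_nonneg ht.1]
      have e2 : ‖x - c‖ ≤ ‖x - (c + t • ek 0)‖ + ‖t • ek 0‖ := by
        have : x - c = (x - (c + t • ek 0)) + t • ek 0 := by abel
        rw [this]; exact norm_add_le _ _
      have e3 := norm_le_nrm (x - (c + t • ek 0))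
      have h3 : ‖x - c‖ / 2 ≤ nrm (x - (c + t • ek 0)) := by linarith [ht.2]
      have h4 : c + t • ek 0 ≠ x := by
        intro h5
        rw [h5, sub_self, norm_zero] at e2
        linarith [ht.2]
      refine ⟨by exact_mod_cast contDiffAt_ker h4 4, (hC 4 le_rfl x _ h4).trans ?_⟩
      calc C / nrm (x - (c + t • ek 0)) ^ (4 + 1) ≤ C / (‖x - c‖ / 2) ^ 5 := by gcongr
        _ = _ := by field_simp; ring)
  linarith

end Vale.Agent.P370
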