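import Vale.Agent.P370.PointA

/-!
The cell by cell comparison of the smooth density with the sampled charges.
-/

namespace Vale.Agent.P370

open MeasureTheory Set

variable {L : Lat} {B : ℝ}

lemma Lat.OK.pbB (h : L.OK B) : 20 ≤ B := le_trans (by exact_mod_cast h.ρ_ge) h.ρ_le

lemma Lat.OK.pbτ (h : L.OK B) : (20 : ℝ) ≤ L.τ := h.pbB.trans h.τ_ge

lemma Lat.OK.pbτ' (h : L.OK B) : 20 ≤ L.τ := by exact_mod_cast h.pbτ

lemma Lat.OK.pbσ (h : L.OK B) : 0 < L.σ := by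
  have := h.pbτ'
  unfold Lat.σ
  exact pow_pos (by omega) 4

lemma Lat.pbs (L : Lat) : 1 / (L.σ : ℝ) = 1 / (L.τ : ℝ) ^ 4 := by simp [Lat.σ]

lemma Lat.OK.pbs_pos (h : L.OK B) : 0 < 1 / (L.σ : ℝ) := by
  have : (0 : ℝ) < L.σ := by exact_mod_cast h.pbσ
  positivity

lemma Lat.OK.pbs_le (h : L.OK B) : 1 / (L.σ : ℝ) ≤ 1 / 100 := by
  rw [L.pbs]
  have := h.pbτ
  refine one_div_le_one_div_of_le (by norm_num) ?_
  have := pow_le_pow_left₀ (by norm_num) this 4
  linarith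

lemma Lat.OK.pbl (h : L.OK B) : (10 : ℝ) ≤ L.l := by exact_mod_cast h.l_ge

lemma Lat.OK.pb_lapdb (h : L.OK B) : DB 2 (lap L.F) (3 * B) :=
  ⟨(DB.lap (r := 4) h.F_db).1, fun j hj => (DB.lap (r := 4) h.F_db).2 j (by omega)⟩

lemma Lat.OK.pb_lap_le (h : L.OK B) (y : Pt) : |lap L.F y / (4 * Real.pi)| ≤ L.ρ / 2 := by
  have hp := Real.pi_pos
  rw [abs_div, abs_of_pos (by positivity : 0 < 4 * Real.pi), div_le_iff₀ (by positivity)]
  have := h.lap_le y
  linarith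

lemma Lat.OK.pb_q_le (h : L.OK B) (y : Pt) : |L.ρ + lap L.F y / (4 * Real.pi)| ≤ 2 * B := by
  have h1 := h.pb_lap_le y
  have h2 := h.ρ_le
  have h3 : (0 : ℝ) ≤ L.ρ := Nat.cast_nonneg _
  rw [abs_le] at h1 ⊢
  constructor <;> linarith [h1.1, h1.2]

lemma Lat.OK.pb_eps (h : L.OK B) : 1 / (L.τ : ℝ) ^ 16 ≤ (1 / (L.σ : ℝ)) ^ 2 := by
  rw [L.pbs, div_pow, one_pow, ← pow_mul]
  have := h.pbτ
  exact one_div_le_one_div_of_le (by positivity) (pow_le_pow_right₀ (by linarith) (by norm_num))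

lemma Lat.OK.pb_K_le (h : L.OK B) (n : ℕ × ℕ × ℕ) : |L.ρ + L.K n| ≤ 2 * B := by
  have h1 := h.pb_lap_le (site L.σ L.R n)
  have h2 := h.ρ_le
  have h3 : (20 : ℝ) ≤ L.ρ := by exact_mod_cast h.ρ_ge
  have h4 := h.K_err n
  have h5 := h.pb_eps
  have h6 : (1 / (L.σ : ℝ)) ^ 2 ≤ 1 := pow_le_one₀ h.pbs_pos.le (by linarith [h.pbs_le])
  rw [abs_le] at h1 h4 ⊢
  constructor <;> linarith [h1.1, h1.2, h4.1, h4.2]

lemma Lat.OK.pb_lap_zero (h : L.OK B) {y : Pt} (hy : y ∉ box (3 * L.l) (3 * L.l) 9) :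
    lap L.F y = 0 :=
  image_eq_zero_of_notMem_tsupport fun h' => hy (h.F_supp (tsupport_lap _ h'))

lemma Lat.OK.pb_int (h : L.OK B) {E : Set Pt} (hE : volume E ≠ ⊤) (x : Pt) :
    IntegrableOn (fun y => ker (x - y) * lap L.F y) E :=
  Integrable.mul_bdd (c := 3 * B) (integrableOn_ker hE x)
    h.pb_lapdb.1.continuous.aestronglyMeasurable
    (Filter.Eventually.of_forall fun y => by simpa using h.pb_lapdb.2 0 (by norm_num) y)

lemma Lat.OK.pb_int' (h : L.OK B) {E : Set Pt} (hE : volume E ≠ ⊤) (x : Pt) :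
    IntegrableOn (fun y => ker (x - y) * (L.ρ + lap L.F y / (4 * Real.pi))) E :=
  Integrable.mul_bdd (c := 2 * B) (integrableOn_ker hE x)
    (continuous_const.add (h.pb_lapdb.1.continuous.div_const _)).aestronglyMeasurable
    (Filter.Eventually.of_forall fun y => h.pb_q_le y)

lemma pb_box_near {a b c a' b' c' e : ℝ} {y z : Pt} (hz : z ∈ box a b c) (h : ‖y - z‖ ≤ e)
    (ha : a + e ≤ a') (hb : b + e ≤ b') (hc : c + e ≤ c') : y ∈ box a' b' c' := by
  have key : ∀ k, |y k| ≤ |z k| + e := fun k => by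
    have h1 : |y k - z k| ≤ e := (norm_le_pi_norm (y - z) k).trans h
    have h2 := abs_add_le (z k) (y k - z k)
    rw [add_sub_cancel] at h2
    linarith
  exact ⟨by linarith [key 0, hz.1], by linarith [key 1, hz.2.1], by linarith [key 2, hz.2.2]⟩

/-- Error of one cell. -/
noncomputable def Lat.cellErr (L : Lat) (x : Pt) (n : ℕ × ℕ × ℕ) : ℝ :=
  (∫ y in cell (site L.σ L.R n) (1 / L.σ), ker (x - y) * (L.ρ + lap L.F y / (4 * Real.pi))) -
    (1 / (L.σ : ℝ)) ^ 3 * ker (x - site L.σ L.R n) * (L.ρ + L.K n)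

lemma Lat.OK.pb_dV_eq (h : L.OK B) (x : Pt) :
    L.dV x = ∑ n ∈ sites L.σ L.R, L.cellErr x n -
      (1 / (L.σ : ℝ)) ^ 3 * ∑ n ∈ sites L.σ L.R, d4 L.u n * ker (x - site L.σ L.R n) := by
  have hae := cells_ae_eq h.pbσ L.R
  have hi := (h.pb_int' (isCompact_box L.R L.R 10).measure_lt_top.ne x).congr_set_ae hae
  have := sum_cells h.pbσ L.R (sites L.σ L.R) hi
  rw [setIntegral_congr_set hae] at this
  rw [Lat.dV, L.Vs_eq h, ← this, Lat.Vn, Finset.mul_sum, ← Finset.sum_sub_distrib, sub_neg_eq_add,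
    ← Finset.sum_neg_distrib, ← Finset.sum_add_distrib]
  refine Finset.sum_congr rfl fun n _ => ?_
  rw [Lat.cellErr, Lat.Z]
  ring

lemma Lat.OK.pb_near (h : L.OK B) (x : Pt) (n : ℕ × ℕ × ℕ) :
    |L.cellErr x n| ≤ 2 * B * (8 * (1 / (L.σ : ℝ)) ^ 2) +
      2 * B * ((1 / (L.σ : ℝ)) ^ 3 * ker (x - site L.σ L.R n)) := by
  have hs := h.pbs_pos
  have hB := h.pbB
  refine (abs_sub _ _).trans (add_le_add ?_ ?_)
  · have := norm_integral_le_of_norm_le (μ := volume.restrict (cell (site L.σ L.R n) (1 / L.σ)))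
      (f := fun y => ker (x - y) * (L.ρ + lap L.F y / (4 * Real.pi)))
      (g := fun y => 2 * B * ker (x - y))
      ((integrableOn_ker (pa_vol_cell _ hs) x).const_mul _)
      (Filter.Eventually.of_forall fun y => by
        rw [Real.norm_eq_abs, abs_mul, abs_of_nonneg (ker_nonneg _), mul_comm]
        exact mul_le_mul_of_nonneg_right (h.pb_q_le y) (ker_nonneg _))
    rw [integral_const_mul] at this
    refine le_trans this ?_
    exact mul_le_mul_of_nonneg_left (pa_cell_pot _ x hs) (by positivity)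
  · have hk := ker_nonneg (x - site L.σ L.R n)
    rw [abs_mul, abs_of_nonneg (by positivity), mul_comm]
    exact mul_le_mul_of_nonneg_right (h.pb_K_le n) (by positivity)

open Classical in
lemma pb_far : ∃ C : ℝ, 0 ≤ C ∧ ∀ (L : Lat) (B : ℝ), L.OK B → ∀ x n,
    2 * (1 / (L.σ : ℝ)) ≤ ‖x - site L.σ L.R n‖ →
    |L.cellErr x n| ≤ C * B * (1 / (L.σ : ℝ)) ^ 7 * (1 / ‖x - site L.σ L.R n‖ ^ 5) +
      if site L.σ L.R n ∈ box (3 * L.l + 1) (3 * L.l + 1) 10 then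
        C * B * (1 / (L.σ : ℝ)) ^ 5 * (1 + 1 / ‖x - site L.σ L.R n‖ ^ 3) else 0 := by
  obtain ⟨C1, hC1, h1⟩ := pa_cub_ker
  obtain ⟨C2, hC2, h2⟩ := pa_cub_mul
  refine ⟨C1 + C2 + 1, by positivity, fun L B h x n hn => ?_⟩
  have hs := h.pbs_pos
  have hB := h.pbB
  have hp := Real.pi_gt_three
  set s := 1 / (L.σ : ℝ) with hsdef
  set c := site L.σ L.R n with hc
  have hd : 0 < ‖x - c‖ := by linarith
  have hv := pa_vol_cell c hs
  have e : L.cellErr x n = -(L.ρ * (s ^ 3 * ker (x - c) - ∫ y in cell c s, ker (x - y))) -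
      ((s ^ 3 * (ker (x - c) * lap L.F c) - ∫ y in cell c s, ker (x - y) * lap L.F y) /
        (4 * Real.pi) + s ^ 3 * ker (x - c) * (L.K n - lap L.F c / (4 * Real.pi))) := by
    have : ∫ y in cell c s, ker (x - y) * (L.ρ + lap L.F y / (4 * Real.pi)) =
        L.ρ * (∫ y in cell c s, ker (x - y)) +
          (∫ y in cell c s, ker (x - y) * lap L.F y) / (4 * Real.pi) := by
      rw [← integral_const_mul, ← integral_div, ← integral_add
        ((integrableOn_ker hv x).const_mul _) ((h.pb_int hv x).div_const _)]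
      congr 1
      funext y
      ring
    rw [Lat.cellErr, this]
    ring
  rw [e]
  refine (abs_sub _ _).trans (add_le_add ?_ ?_)
  · rw [abs_neg, abs_mul, Nat.abs_cast]
    have := mul_le_mul h.ρ_le (h1 x c s hs hn) (abs_nonneg _) (by linarith)
    refine this.trans ?_
    have : 0 ≤ B * (s ^ 7 * (1 / ‖x - c‖ ^ 5)) := by positivity
    nlinarith
  · split_ifs with hb
    · refine (abs_add_le _ _).trans ?_
      have a1 := h2 (lap L.F) (3 * B) h.pb_lapdb x c s hs hn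
      have hT : 0 ≤ B * s ^ 5 * (1 + 1 / ‖x - c‖ ^ 3) := by positivity
      have a2 : |(s ^ 3 * (ker (x - c) * lap L.F c) -
          ∫ y in cell c s, ker (x - y) * lap L.F y) / (4 * Real.pi)| ≤
          C2 * (B * s ^ 5 * (1 + 1 / ‖x - c‖ ^ 3)) := by
        rw [abs_div, abs_of_pos (by positivity : 0 < 4 * Real.pi), div_le_iff₀ (by positivity)]
        refine a1.trans ?_
        have : 0 ≤ C2 * (B * s ^ 5 * (1 + 1 / ‖x - c‖ ^ 3)) := by positivity
        nlinarith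
      have a3 : |s ^ 3 * ker (x - c) * (L.K n - lap L.F c / (4 * Real.pi))| ≤
          B * s ^ 5 * (1 + 1 / ‖x - c‖ ^ 3) := by
        have hk := ker_nonneg (x - c)
        have b1 : ker (x - c) ≤ 1 + 1 / ‖x - c‖ ^ 3 := by
          have := pa_inv_le hd (j := 1) (by norm_num)
          rw [pow_one] at this
          exact (pa_ker_le hd).trans this
        have b2 := (h.K_err n).trans h.pb_eps
        rw [abs_mul, abs_of_nonneg (by positivity)]
        calc _ ≤ s ^ 3 * (1 + 1 / ‖x - c‖ ^ 3) * s ^ 2 := by gcongr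
          _ = 1 * s ^ 5 * (1 + 1 / ‖x - c‖ ^ 3) := by ring
          _ ≤ _ := by gcongr; linarith
      nlinarith
    · have hs1 := h.pbs_le
      have hc0 : c ∉ box (3 * L.l) (3 * L.l) 9 := fun hc' =>
        hb (pb_box_near (e := 1) hc' (by simp) le_rfl le_rfl (by norm_num))
      have hz : ∫ y in cell c s, ker (x - y) * lap L.F y = 0 := by
        refine setIntegral_eq_zero_of_forall_eq_zero fun y hy => ?_
        have : y ∉ box (3 * L.l) (3 * L.l) 9 := fun hy' =>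
          hb (pb_box_near (e := 1) hy' (by
            rw [norm_sub_rev]; linarith [norm_sub_le_of_mem_cell hy]) le_rfl le_rfl (by norm_num))
        rw [h.pb_lap_zero this, mul_zero]
      rw [hz, h.pb_lap_zero hc0, h.K_out n hc0]
      simp

lemma Lat.OK.pb_s2 (h : L.OK B) : (1 / (L.σ : ℝ)) ^ 2 * L.τ = 1 / (L.τ : ℝ) ^ 7 := by
  have := h.pbτ
  rw [L.pbs]
  field_simp

lemma Lat.OK.pb_s2' (h : L.OK B) : (1 / (L.σ : ℝ)) ^ 2 ≤ 1 / (L.τ : ℝ) ^ 7 := by
  rw [← h.pb_s2]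
  have := h.pbτ
  have := h.pbs_pos
  nlinarith

/-- Sum of the cell errors. -/
theorem pb_cells : ∃ C : ℝ, 0 ≤ C ∧ ∀ (L : Lat) (B : ℝ), L.OK B → ∀ (x : Pt) (Sg : ℝ), 0 ≤ Sg →
    (∀ m ∈ sites L.σ L.R, ‖x - site L.σ L.R m‖ ≤ 20 * (1 / (L.σ : ℝ)) →
      (1 / (L.σ : ℝ)) ^ 3 * ker (x - site L.σ L.R m) ≤ Sg) →
    |∑ n ∈ sites L.σ L.R, L.cellErr x n| ≤ C * B * Sg + C * B ^ 4 / (L.τ : ℝ) ^ 7 := by
  classical
  obtain ⟨C, hC, hfar⟩ := pb_far
  refine ⟨16 * 31 ^ 3 + 11000 * C, by positivity, fun L B h x Sg hSg hS => ?_⟩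
  have hs := h.pbs_pos
  have hs1 := h.pbs_le
  have hB := h.pbB
  have hl := h.pbl
  have hlB := h.l_le
  have hτ := h.pbτ
  have hs2 := h.pb_s2
  have hs2' := h.pb_s2'
  have hfar' := hfar L B h x
  have hnear := h.pb_near x
  have hsum5 := fun S hS => pa_sum5 h.pbσ L.R S x hS
  have hbm := measurableSet_box (4 * L.l) (4 * L.l) 11
  have hbv := (isCompact_box (4 * L.l) (4 * L.l) 11).measure_lt_top (μ := volume).ne
  have hsum3 := fun S hS hS' => pa_sum3 (τ := L.τ) (by linarith [h.pbτ']) L.R S x hbm hbv hS hS'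
  have hcard := fun S hS => pa_card h.pbσ L.R S hbm hbv hS
  have hcn := fun S hS => card_near h.pbσ L.R 15 S x hS
  rw [volume_box (by positivity) (by positivity) (by norm_num)] at hsum3 hcard
  change ∀ S : Finset _, (∀ n ∈ S, cell (site L.σ L.R n) (1 / (L.σ : ℝ)) ⊆ _) →
    (∀ n ∈ S, 2 * (1 / (L.σ : ℝ)) ≤ ‖x - site L.σ L.R n‖) →
    (1 / (L.σ : ℝ)) ^ 3 * ∑ n ∈ S, 1 / ‖x - site L.σ L.R n‖ ^ 3 ≤ _ at hsum3
  set s := 1 / (L.σ : ℝ) with hsdef
  set e := 1 / (L.τ : ℝ) ^ 7 with he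
  have he0 : 0 ≤ e := by positivity
  refine (Finset.abs_sum_le_sum_abs _ _).trans ?_
  rw [← Finset.sum_filter_add_sum_filter_not _ (fun n => ‖x - site L.σ L.R n‖ ≤ 15 * s)]
  set N := (sites L.σ L.R).filter (fun n => ‖x - site L.σ L.R n‖ ≤ 15 * s) with hN
  set Fa := (sites L.σ L.R).filter (fun n => ¬ ‖x - site L.σ L.R n‖ ≤ 15 * s) with hFa
  have hB4 : B ≤ B ^ 4 := by
    calc B = B ^ 1 := (pow_one B).symm
      _ ≤ B ^ 4 := pow_le_pow_right₀ (by linarith) (by norm_num)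
  have hB3 : B ^ 3 ≤ B ^ 4 := pow_le_pow_right₀ (by linarith) (by norm_num)
  have a1 : ∑ n ∈ N, |L.cellErr x n| ≤ 31 ^ 3 * (16 * (B ^ 4 * e) + 2 * B * Sg) := by
    have b1 : (N.card : ℝ) ≤ 31 ^ 3 := by
      have := hcn N (fun n hn => by exact_mod_cast (Finset.mem_filter.1 hn).2)
      exact_mod_cast this
    have b2 := Finset.sum_le_card_nsmul N (fun n => |L.cellErr x n|)
      (16 * (B ^ 4 * e) + 2 * B * Sg) (fun n hn => by
        obtain ⟨hn1, hn2⟩ := Finset.mem_filter.1 hn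
        refine (hnear n).trans (add_le_add ?_ ?_)
        · have : B * s ^ 2 ≤ B ^ 4 * e := by gcongr
          linarith
        · exact mul_le_mul_of_nonneg_left (hS n hn1 (by linarith)) (by positivity))
    rw [nsmul_eq_mul] at b2
    exact b2.trans (mul_le_mul_of_nonneg_right b1 (by positivity))
  have hFa2 : ∀ n ∈ Fa, 2 * s ≤ ‖x - site L.σ L.R n‖ := fun n hn => by
    linarith [not_le.1 (Finset.mem_filter.1 hn).2]
  have a2 : ∑ n ∈ Fa, |L.cellErr x n| ≤ 11000 * C * (B ^ 4 * e) := by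
    refine (Finset.sum_le_sum fun n hn => hfar' n (hFa2 n hn)).trans ?_
    rw [Finset.sum_add_distrib, ← Finset.sum_filter, ← Finset.mul_sum, ← Finset.mul_sum,
      Finset.sum_add_distrib]
    set Fb := Fa.filter (fun n => site L.σ L.R n ∈ box (3 * L.l + 1) (3 * L.l + 1) 10) with hFb
    have hsub : ∀ n ∈ Fb, cell (site L.σ L.R n) s ⊆ box (4 * L.l) (4 * L.l) 11 :=
      fun n hn y hy => pb_box_near (Finset.mem_filter.1 hn).2 (norm_sub_le_of_mem_cell hy)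
        (by linarith) (by linarith) (by linarith)
    have b1 := hsum5 Fa hFa2
    have b2 := hsum3 Fb hsub (fun n hn => hFa2 n (Finset.mem_filter.1 hn).1)
    have b3 := hcard Fb hsub
    have b4 : C * B * s ^ 7 * ∑ n ∈ Fa, 1 / ‖x - site L.σ L.R n‖ ^ 5 ≤ 2000 * C * (B ^ 4 * e) := by
      calc _ = C * B * s ^ 4 * (s ^ 3 * ∑ n ∈ Fa, 1 / ‖x - site L.σ L.R n‖ ^ 5) := by ring
        _ ≤ C * B * s ^ 4 * (2000 / s ^ 2) := by gcongr
        _ = 2000 * C * (B * s ^ 2) := by field_simp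
        _ ≤ _ := by gcongr
    have b5 : C * B * s ^ 5 * (∑ n ∈ Fb, (1 : ℝ) + ∑ n ∈ Fb, 1 / ‖x - site L.σ L.R n‖ ^ 3) ≤
        9000 * C * (B ^ 4 * e) := by
      have hl2 : (L.l : ℝ) * L.l ≤ B ^ 2 := by nlinarith
      calc _ = C * B * s ^ 2 * (s ^ 3 * Fb.card +
            s ^ 3 * ∑ n ∈ Fb, 1 / ‖x - site L.σ L.R n‖ ^ 3) := by simp; ring
        _ ≤ C * B * s ^ 2 * (1408 * B ^ 2 + (1408 * B ^ 2 + 6000 * L.τ)) := by
          refine mul_le_mul_of_nonneg_left (add_le_add ?_ ?_) (by positivity) <;> linarith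
        _ = C * (2816 * (B ^ 3 * s ^ 2) + 6000 * (B * (s ^ 2 * L.τ))) := by ring
        _ ≤ C * (2816 * (B ^ 4 * e) + 6000 * (B ^ 4 * e)) := by rw [hs2]; gcongr
        _ ≤ _ := by
          have : 0 ≤ C * (B ^ 4 * e) := by positivity
          nlinarith
    linarith
  have : (16 * 31 ^ 3 + 11000 * C) * B ^ 4 / (L.τ : ℝ) ^ 7 =
      (16 * 31 ^ 3 + 11000 * C) * (B ^ 4 * e) := by rw [he]; ring
  rw [this]
  have : 0 ≤ B * Sg := by positivity
  have : 0 ≤ C * (B * Sg) := by positivity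
  nlinarith

end Vale.Agent.P370
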