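import Vale.Agent.P370.PointB

/-!
The contribution of the rounding errors.
-/

namespace Vale.Agent.P370

open MeasureTheory Set

variable {L : Lat} {B : ℝ}

/-- The thin set at the far end of the rows that carry rounding errors. -/
def Lat.edge (L : Lat) : Set Pt :=
  (fun y => y + (-((L.R : ℝ) • ek 0))) ⁻¹' box (5 * (1 / (L.σ : ℝ))) (4 * L.l) 11

lemma Lat.meas_edge (L : Lat) : MeasurableSet L.edge :=
  (measurableSet_box _ _ _).preimage (measurable_id.add_const _)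

lemma Lat.vol_edge (L : Lat) : volume L.edge = volume (box (5 * (1 / (L.σ : ℝ))) (4 * L.l) 11) :=
  measure_preimage_add_right _ _ _

lemma Lat.vol_edge_ne (L : Lat) : volume L.edge ≠ ⊤ := by
  rw [L.vol_edge]; exact (isCompact_box _ _ _).measure_lt_top.ne

lemma Lat.vol_edge_real (L : Lat) : volume.real L.edge = 1760 * (1 / (L.σ : ℝ)) * L.l := by
  have := volume_box (a := 5 * (1 / (L.σ : ℝ))) (b := 4 * L.l) (c := 11) (by positivity)
    (by positivity) (by norm_num)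
  rw [Measure.real, L.vol_edge, ← Measure.real, this]
  ring

lemma Lat.mem_edge (L : Lat) (y : Pt) :
    y ∈ L.edge ↔ |y 0 - L.R| ≤ 5 * (1 / (L.σ : ℝ)) ∧ |y 1| ≤ 4 * L.l ∧ |y 2| ≤ 11 := by
  simp [Lat.edge, box, ek, sub_eq_add_neg]

lemma Lat.OK.pc_cell (h : L.OK B) {n : ℕ × ℕ × ℕ} (hn : n ∈ sites L.σ L.R)
    (h1 : ¬ n.1 + 4 < 2 * L.R * L.σ) (h2 : |site L.σ L.R n 1| ≤ 3 * L.l) :
    cell (site L.σ L.R n) (1 / L.σ) ⊆ L.edge := by
  intro y hy
  have hs := h.pbs_pos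
  have hs1 := h.pbs_le
  have hl := h.pbl
  have hσ : (0 : ℝ) < L.σ := by exact_mod_cast h.pbσ
  have hd := norm_sub_le_of_mem_cell hy
  have key : ∀ k, |y k - site L.σ L.R n k| ≤ 1 / (L.σ : ℝ) / 2 := fun k =>
    (norm_le_pi_norm (y - site L.σ L.R n) k).trans hd
  simp only [sites, Finset.mem_product, Finset.mem_range] at hn
  obtain ⟨a1, -, a3⟩ := hn
  have a1' : (n.1 : ℝ) + 1 ≤ 2 * L.R * L.σ := by exact_mod_cast a1
  have a2' : 2 * (L.R : ℝ) * L.σ ≤ n.1 + 4 := by exact_mod_cast not_lt.1 h1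
  have a3' : (n.2.2 : ℝ) + 1 ≤ 20 * L.σ := by exact_mod_cast a3
  have a4 : (0 : ℝ) ≤ n.2.2 := Nat.cast_nonneg _
  have e0 : site L.σ L.R n 0 = (n.1 + 1 / 2) * (1 / (L.σ : ℝ)) - L.R := by
    simp [site, div_eq_mul_inv]
  have e2 : site L.σ L.R n 2 = (n.2.2 + 1 / 2) * (1 / (L.σ : ℝ)) - 10 := by
    simp [site, div_eq_mul_inv]
  have e3 : (L.σ : ℝ) * (1 / (L.σ : ℝ)) = 1 := by field_simp
  set s := 1 / (L.σ : ℝ)
  have b1 := mul_le_mul_of_nonneg_right a1' hs.le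
  have b2 := mul_le_mul_of_nonneg_right a2' hs.le
  have b3 := mul_le_mul_of_nonneg_right a3' hs.le
  have b4 := mul_nonneg a4 hs.le
  rw [mul_assoc, e3] at b1 b2 b3
  have k0 := abs_le.1 (key 0)
  have k1 := abs_le.1 (key 1)
  have k2 := abs_le.1 (key 2)
  have k3 := abs_le.1 h2
  rw [e0] at k0
  rw [e2] at k2
  rw [L.mem_edge]
  refine ⟨abs_le.2 ⟨?_, ?_⟩, abs_le.2 ⟨?_, ?_⟩, abs_le.2 ⟨?_, ?_⟩⟩ <;>
    linarith [k0.1, k0.2, k1.1, k1.2, k2.1, k2.2, k3.1, k3.2]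

lemma pc_d4_le {G : ℕ × ℕ × ℕ → ℝ} {n : ℕ × ℕ × ℕ} {M : ℝ}
    (h : ∀ i ≤ 4, 0 ≤ G (n.1 + i, n.2) ∧ G (n.1 + i, n.2) ≤ M) : |d4 G n| ≤ 8 * M := by
  have h0 := h 0 (by norm_num)
  have h1 := h 1 (by norm_num)
  have h2 := h 2 (by norm_num)
  have h3 := h 3 (by norm_num)
  have h4 := h 4 (by norm_num)
  simp only [Nat.add_zero, Prod.mk.eta] at h0
  rw [d4, abs_le]
  constructor <;> linarith [h0.1, h0.2, h1.1, h1.2, h2.1, h2.2, h3.1, h3.2, h4.1, h4.2]

lemma pc_shift {σ : ℕ} (hσ : 0 < σ) (R : ℕ) (n : ℕ × ℕ × ℕ) {i : ℕ} (hi : i ≤ 4) (x : Pt) :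
    ‖x - site σ R (n.1 + i, n.2)‖ ≤ ‖x - site σ R n‖ + 4 * (1 / (σ : ℝ)) ∧
      ‖x - site σ R n‖ ≤ ‖x - site σ R (n.1 + i, n.2)‖ + 4 * (1 / (σ : ℝ)) := by
  rw [site_succ hσ]
  have hs : (0 : ℝ) < 1 / (σ : ℝ) := by positivity
  have hi' : (i : ℝ) ≤ 4 := by exact_mod_cast hi
  have e1 : ‖((i : ℝ) * (1 / σ)) • ek 0‖ ≤ 4 * (1 / (σ : ℝ)) := by
    rw [norm_smul, ek, Pi.norm_single, norm_one, mul_one, Real.norm_of_nonneg (by positivity)]
    gcongr
  set v := ((i : ℝ) * (1 / σ)) • ek 0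
  constructor
  · have : x - (site σ R n + v) = (x - site σ R n) - v := by abel
    rw [this]
    linarith [norm_sub_le (x - site σ R n) v]
  · have : x - site σ R n = (x - (site σ R n + v)) + v := by abel
    have h2 := norm_add_le (x - (site σ R n + v)) v
    rw [← this] at h2
    linarith

/-- The rounding errors. -/
theorem pc_round : ∃ C : ℝ, 0 ≤ C ∧ ∀ (L : Lat) (B : ℝ), L.OK B → ∀ (x : Pt) (Sg : ℝ), 0 ≤ Sg →
    (∀ m ∈ sites L.σ L.R, ‖x - site L.σ L.R m‖ ≤ 20 * (1 / (L.σ : ℝ)) →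
      (1 / (L.σ : ℝ)) ^ 3 * ker (x - site L.σ L.R m) ≤ Sg) →
    |(1 / (L.σ : ℝ)) ^ 3 * ∑ n ∈ sites L.σ L.R, d4 L.u n * ker (x - site L.σ L.R n)| ≤
      C * Sg + C / (L.τ : ℝ) ^ 7 + C * ∫ y in L.edge, ker (x - y) := by
  classical
  obtain ⟨C, hC, hdiff⟩ := pa_diff4
  refine ⟨8 * 31 ^ 3 + 2000 * C, by positivity, fun L B h x Sg hSg hS => ?_⟩
  have hs := h.pbs_pos
  have hσ := h.pbσ
  have hs2' := h.pb_s2'
  have hsum5 := fun S hS => pa_sum5 hσ L.R S x hS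
  have hsum1 := fun S hS hS' => pa_sum1 hσ L.R S x L.meas_edge L.vol_edge_ne hS hS'
  have hcn := fun S hS => card_near hσ L.R 15 S x hS
  have hsh := fun n i hi => pc_shift hσ L.R n (i := i) hi x
  have hsucc := site_succ hσ L.R
  have hcell := fun n hn h1 h2 => h.pc_cell (n := n) hn h1 h2
  have hE0 : 0 ≤ ∫ y in L.edge, ker (x - y) := integral_nonneg fun y => ker_nonneg _
  set s := 1 / (L.σ : ℝ) with hsdef
  set A := 2 * L.R * L.σ with hA
  set G : ℕ × ℕ × ℕ → ℝ := fun m => if m.1 < A then ker (x - site L.σ L.R m) else 0 with hG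
  have hG0 : ∀ m, 0 ≤ G m := fun m => by
    simp only [hG]; split_ifs; exacts [ker_nonneg _, le_rfl]
  have hd : ∑ n ∈ sites L.σ L.R, d4 L.u n * ker (x - site L.σ L.R n) =
      ∑ n ∈ sites L.σ L.R, L.u (n.1 + 4, n.2) * d4 G n :=
    sum_d4 A _ L.u (fun n => ker (x - site L.σ L.R n)) h.u_start
  rw [hd, abs_mul, abs_of_pos (by positivity : 0 < s ^ 3)]
  refine (mul_le_mul_of_nonneg_left (Finset.abs_sum_le_sum_abs _ _) (by positivity)).trans ?_
  rw [← Finset.sum_filter_add_sum_filter_not _ (fun n => ‖x - site L.σ L.R n‖ ≤ 15 * s)]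
  set N := (sites L.σ L.R).filter (fun n => ‖x - site L.σ L.R n‖ ≤ 15 * s) with hN
  set Fa := (sites L.σ L.R).filter (fun n => ¬ ‖x - site L.σ L.R n‖ ≤ 15 * s) with hFa
  have hu : ∀ n : ℕ × ℕ × ℕ, |L.u (n.1 + 4, n.2) * d4 G n| ≤ |d4 G n| := fun n => by
    rw [abs_mul]
    exact mul_le_of_le_one_left (abs_nonneg _) (h.u_le _)
  have a1 : s ^ 3 * ∑ n ∈ N, |L.u (n.1 + 4, n.2) * d4 G n| ≤ 31 ^ 3 * (8 * Sg) := by
    have b1 : (N.card : ℝ) ≤ 31 ^ 3 := by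
      have := hcn N (fun n hn => by exact_mod_cast (Finset.mem_filter.1 hn).2)
      exact_mod_cast this
    rw [Finset.mul_sum]
    have b2 := Finset.sum_le_card_nsmul N (fun n => s ^ 3 * |L.u (n.1 + 4, n.2) * d4 G n|)
      (8 * Sg) (fun n hn => by
        obtain ⟨hn1, hn2⟩ := Finset.mem_filter.1 hn
        have c1 : |d4 G n| ≤ 8 * (Sg / s ^ 3) := pc_d4_le fun i hi => ⟨hG0 _, by
          simp only [hG]
          split_ifs with hlt
          · rw [le_div_iff₀ (by positivity), mul_comm]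
            refine hS _ ?_ (by linarith [(hsh n i hi).1])
            simp only [sites, Finset.mem_product, Finset.mem_range] at hn1 ⊢
            exact ⟨hlt, hn1.2⟩
          · positivity⟩
        calc _ ≤ s ^ 3 * (8 * (Sg / s ^ 3)) := by gcongr; exact (hu n).trans c1
          _ = _ := by field_simp)
    rw [nsmul_eq_mul] at b2
    exact b2.trans (mul_le_mul_of_nonneg_right b1 (by positivity))
  have hFa2 : ∀ n ∈ Fa, 15 * s ≤ ‖x - site L.σ L.R n‖ := fun n hn =>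
    (not_le.1 (Finset.mem_filter.1 hn).2).le
  have hfar : ∀ n ∈ Fa, |L.u (n.1 + 4, n.2) * d4 G n| ≤
      C * s ^ 4 * (1 / ‖x - site L.σ L.R n‖ ^ 5) +
        if ¬ n.1 + 4 < A ∧ |site L.σ L.R n 1| ≤ 3 * L.l then 16 * (1 / ‖x - site L.σ L.R n‖)
        else 0 := fun n hn => by
    have hdist := hFa2 n hn
    have hd0 : 0 < ‖x - site L.σ L.R n‖ := by linarith
    have hT : 0 ≤ C * s ^ 4 * (1 / ‖x - site L.σ L.R n‖ ^ 5) := by positivity
    by_cases hlt : n.1 + 4 < A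
    · have c1 := hdiff x (site L.σ L.R n) s hs (by linarith)
      have c2 : d4 G n = ker (x - (site L.σ L.R n + (4 * s) • ek 0)) -
          4 * ker (x - (site L.σ L.R n + (3 * s) • ek 0)) +
          6 * ker (x - (site L.σ L.R n + (2 * s) • ek 0)) -
          4 * ker (x - (site L.σ L.R n + s • ek 0)) + ker (x - site L.σ L.R n) := by
        simp only [d4, hG]
        rw [if_pos hlt, if_pos (by omega), if_pos (by omega), if_pos (by omega), if_pos (by omega),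
          hsucc 4, hsucc 3, hsucc 2, hsucc 1]
        simp only [Nat.cast_ofNat, Nat.cast_one, one_mul]
      rw [if_neg (fun hh => hh.1 hlt), add_zero]
      exact (hu n).trans (c2 ▸ c1)
    · by_cases hrow : |site L.σ L.R n 1| ≤ 3 * L.l
      · rw [if_pos ⟨hlt, hrow⟩]
        have c1 : |d4 G n| ≤ 8 * (2 * (1 / ‖x - site L.σ L.R n‖)) := pc_d4_le fun i hi =>
          ⟨hG0 _, by
            simp only [hG]
            split_ifs
            · have c2 := (hsh n i hi).2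
              have c3 : 0 < ‖x - site L.σ L.R (n.1 + i, n.2)‖ := by linarith
              refine (pa_ker_le c3).trans ?_
              rw [mul_one_div, div_le_div_iff₀ c3 hd0]
              linarith
            · positivity⟩
        linarith [hu n]
      · have : L.u (n.1 + 4, n.2) = 0 := h.u_out _ (by
          have : site L.σ L.R (n.1 + 4, n.2) 1 = site L.σ L.R n 1 := by simp [site]
          rw [this]; exact not_le.1 hrow)
        rw [this, if_neg (fun hh => hrow hh.2)]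
        simpa using hT
  have a2 : s ^ 3 * ∑ n ∈ Fa, |L.u (n.1 + 4, n.2) * d4 G n| ≤
      2000 * C * (1 / (L.τ : ℝ) ^ 7) + 48 * ∫ y in L.edge, ker (x - y) := by
    refine (mul_le_mul_of_nonneg_left (Finset.sum_le_sum hfar) (by positivity)).trans ?_
    rw [Finset.sum_add_distrib, ← Finset.sum_filter, ← Finset.mul_sum, ← Finset.mul_sum, mul_add]
    set Fb := Fa.filter (fun n => ¬ n.1 + 4 < A ∧ |site L.σ L.R n 1| ≤ 3 * L.l) with hFb
    have b1 := hsum5 Fa (fun n hn => by linarith [hFa2 n hn])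
    have b2 := hsum1 Fb (fun n hn => by
      obtain ⟨c1, c2, c3⟩ := Finset.mem_filter.1 hn
      exact hcell n (Finset.mem_filter.1 c1).1 c2 c3)
      (fun n hn => by linarith [hFa2 n (Finset.mem_filter.1 hn).1])
    refine add_le_add ?_ (by linarith)
    calc _ = C * s ^ 4 * (s ^ 3 * ∑ n ∈ Fa, 1 / ‖x - site L.σ L.R n‖ ^ 5) := by ring
      _ ≤ C * s ^ 4 * (2000 / s ^ 2) := by gcongr
      _ = 2000 * C * s ^ 2 := by field_simp
      _ ≤ _ := by gcongr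
  rw [mul_add, div_eq_mul_one_div (8 * 31 ^ 3 + 2000 * C)]
  have hτ := h.pbτ
  have : 0 ≤ 1 / (L.τ : ℝ) ^ 7 := by positivity
  have : 0 ≤ C * Sg := by positivity
  have : 0 ≤ C * ∫ y in L.edge, ker (x - y) := by positivity
  nlinarith

lemma Lat.OK.pc_edge_all (h : L.OK B) (x : Pt) :
    ∫ y in L.edge, ker (x - y) ≤ 2000 / (L.τ : ℝ) ^ 2 := by
  have hτ := h.pbτ
  have hl : (L.l : ℝ) ≤ L.τ := h.l_le.trans h.τ_ge
  have := coulomb_le L.meas_edge L.vol_edge_ne x (r := 1 / (L.τ : ℝ)) (by positivity)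
  rw [L.vol_edge_real, L.pbs] at this
  refine this.trans ?_
  have e : 7 * (1 / (L.τ : ℝ)) ^ 2 + 1760 * (1 / (L.τ : ℝ) ^ 4) * L.l / (1 / (L.τ : ℝ)) =
      (7 + 1760 * (L.l / L.τ)) / (L.τ : ℝ) ^ 2 := by field_simp
  rw [e]
  have : (L.l : ℝ) / L.τ ≤ 1 := (div_le_one (by positivity)).2 hl
  gcongr
  linarith

lemma Lat.OK.pc_edge_core (h : L.OK B) {x : Pt} (hx : x ∈ box L.l L.l 4) :
    ∫ y in L.edge, ker (x - y) ≤ 2000 / (L.τ : ℝ) ^ 7 := by
  have hτ := h.pbτ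
  have hl : (L.l : ℝ) ≤ L.τ := h.l_le.trans h.τ_ge
  have hs := h.pbs_pos
  have hs1 := h.pbs_le
  have hR : (L.τ : ℝ) ^ 24 ≤ L.R := by exact_mod_cast h.R_ge
  have h7 : (L.τ : ℝ) ≤ (L.τ : ℝ) ^ 7 := by
    calc (L.τ : ℝ) = (L.τ : ℝ) ^ 1 := (pow_one _).symm
      _ ≤ _ := pow_le_pow_right₀ (by linarith) (by norm_num)
  have h8 : (L.τ : ℝ) ^ 7 * L.τ ≤ (L.τ : ℝ) ^ 24 := by
    rw [← pow_succ]; exact pow_le_pow_right₀ (by linarith) (by norm_num)
  have h9 : (L.τ : ℝ) ^ 7 * 20 ≤ (L.τ : ℝ) ^ 7 * L.τ := by gcongr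
  have b := setIntegral_mono_on (integrableOn_ker L.vol_edge_ne x)
    (integrableOn_const (C := 1 / (L.τ : ℝ) ^ 7) L.vol_edge_ne) L.meas_edge (fun y hy => by
      rw [L.mem_edge] at hy
      have c1 := abs_le_nrm (x - y) 0
      have c2 := abs_le.1 hy.1
      have c3 := abs_le.1 hx.1
      have c4 := neg_abs_le ((x - y) 0)
      have c5 : (x - y) 0 = x 0 - y 0 := rfl
      have c6 := neg_le_abs ((x - y) 0)
      rw [ker, one_div]
      refine inv_anti₀ (by positivity) ?_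
      linarith [c2.1, c3.2])
  refine b.trans ?_
  rw [setIntegral_const, L.vol_edge_real, smul_eq_mul, mul_one_div]
  have c1 : 1 / (L.σ : ℝ) * L.l ≤ 1 := by
    rw [L.pbs, one_div_mul_eq_div, div_le_one (by positivity)]
    refine hl.trans ?_
    calc (L.τ : ℝ) = (L.τ : ℝ) ^ 1 := (pow_one _).symm
      _ ≤ _ := pow_le_pow_right₀ (by linarith) (by norm_num)
  gcongr
  linarith

end Vale.Agent.P370
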