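import Mathlib

/-!
Tensor products of real matrices and a variance inequality for product projections.
-/

namespace Vale.Agent.P370

open Matrix Function

variable {ι A B C : Type} [Fintype ι] [DecidableEq ι] [Fintype A] [Fintype B] [Fintype C]

/-- Tensor product of a family of matrices. -/
def tens {ι A B : Type} [Fintype ι] (K : ι → Matrix A B ℝ) : Matrix (ι → A) (ι → B) ℝ :=
  fun x y => ∏ m, K m (x m) (y m)

omit [Fintype A] [Fintype C] in
lemma tens_mul (K : ι → Matrix A B ℝ) (K' : ι → Matrix B C ℝ) :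
    tens K * tens K' = tens fun m => K m * K' m := by
  ext x z
  simp only [tens, Matrix.mul_apply, ← Finset.prod_mul_distrib]
  rw [Finset.prod_univ_sum, Fintype.piFinset_univ]

omit [DecidableEq ι] [Fintype A] [Fintype B] in
lemma tens_transpose (K : ι → Matrix A B ℝ) : (tens K)ᵀ = tens fun m => (K m)ᵀ := rfl

omit [Fintype A] [DecidableEq ι] in
lemma tens_diag [DecidableEq A] (d : ι → A → ℝ) :
    tens (fun m => diagonal (d m)) = diagonal fun h : ι → A => ∏ m, d m (h m) := by
  ext x y
  by_cases h : x = y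
  · subst h
    simp [tens]
  · obtain ⟨m, hm⟩ := Function.ne_iff.1 h
    rw [diagonal_apply_ne _ h]
    exact Finset.prod_eq_zero (Finset.mem_univ m) (diagonal_apply_ne _ hm)

omit [Fintype A] [DecidableEq ι] in
lemma tens_one [DecidableEq A] : tens (fun _ : ι => (1 : Matrix A A ℝ)) = 1 := by
  simpa using tens_diag (ι := ι) (A := A) fun _ _ => 1

/-- A matrix acting on one factor. -/
def onAt [DecidableEq A] (i : ι) (K : Matrix A A ℝ) : Matrix (ι → A) (ι → A) ℝ :=
  tens fun m => if m = i then K else 1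

lemma onAt_mulVec [DecidableEq A] (i : ι) (K : Matrix A A ℝ) (ψ : (ι → A) → ℝ) (x : ι → A) :
    (onAt i K *ᵥ ψ) x = ∑ b, K (x i) b * ψ (update x i b) := by
  have h1 : ∀ y : ι → A, onAt i K x y = ∑ b, if y = update x i b then K (x i) b else 0 := by
    intro y
    rw [Finset.sum_eq_single (y i)]
    · rw [onAt, tens, ← Finset.mul_prod_erase _ _ (Finset.mem_univ i), if_pos rfl]
      split_ifs with h
      · rw [Finset.prod_eq_one, mul_one]
        intro m hm
        have hm' := Finset.ne_of_mem_erase hm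
        rw [if_neg hm', h, update_of_ne hm', one_apply_eq]
      · obtain ⟨m, hm⟩ := Function.ne_iff.1 h
        have hm' : m ≠ i := by
          rintro rfl
          simp at hm
        rw [update_of_ne hm'] at hm
        rw [Finset.prod_eq_zero (Finset.mem_erase.2 ⟨hm', Finset.mem_univ m⟩), mul_zero]
        rw [if_neg hm', one_apply_ne hm.symm]
    · intro b _ hb
      rw [if_neg]
      rintro rfl
      simp at hb
    · simp
  simp only [mulVec, dotProduct, h1, Finset.sum_mul]
  rw [Finset.sum_comm]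
  refine Finset.sum_congr rfl fun b _ => ?_
  simp [ite_mul]

omit [Fintype B] [Fintype C] in
lemma proj_sq_add {P : Matrix A A ℝ} (hs : Pᵀ = P) (hp : P * P = P) (χ : A → ℝ) :
    χ ⬝ᵥ χ = (P *ᵥ χ) ⬝ᵥ (P *ᵥ χ) + (χ - P *ᵥ χ) ⬝ᵥ (χ - P *ᵥ χ) := by
  have h1 : (P *ᵥ χ) ⬝ᵥ (P *ᵥ χ) = χ ⬝ᵥ (P *ᵥ χ) := by
    rw [dotProduct_comm, dotProduct_mulVec, ← mulVec_transpose, hs, mulVec_mulVec, hp,
      dotProduct_comm]
  rw [sub_dotProduct, dotProduct_sub, dotProduct_sub, h1, dotProduct_comm (P *ᵥ χ) χ]
  ring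

omit [Fintype B] [Fintype C] in
lemma dot_self_nonneg (χ : A → ℝ) : 0 ≤ χ ⬝ᵥ χ :=
  Finset.sum_nonneg fun _ _ => mul_self_nonneg _

/-- The product of the projections `1 - J` over a set of factors. -/
def projOn [DecidableEq A] (S : Finset ι) (J : Matrix A A ℝ) : Matrix (ι → A) (ι → A) ℝ :=
  tens fun m => if m ∈ S then 1 - J else 1

lemma variance_le [DecidableEq A] {J : Matrix A A ℝ} (hs : Jᵀ = J) (hp : J * J = J)
    (χ : (ι → A) → ℝ) (S : Finset ι) :
    χ ⬝ᵥ χ ≤ (projOn S J *ᵥ χ) ⬝ᵥ (projOn S J *ᵥ χ) +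
      ∑ m ∈ S, (onAt m J *ᵥ χ) ⬝ᵥ (onAt m J *ᵥ χ) := by
  have hQ : (1 - J) * (1 - J) = 1 - J := by
    rw [sub_mul, mul_sub, mul_sub, hp]; simp
  induction S using Finset.induction_on with
  | empty => simp [projOn, tens_one]
  | insert i S hi ih =>
    rw [Finset.sum_insert hi]
    have h1 : projOn (insert i S) J = onAt i (1 - J) * projOn S J := by
      rw [projOn, onAt, projOn, tens_mul]
      congr 1
      funext m
      by_cases h : m = i
      · simp [h, hi]
      · simp [h]
    have h2 : onAt i J * projOn S J = projOn S J * onAt i J := by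
      rw [onAt, projOn, tens_mul, tens_mul]
      congr 1
      funext m
      by_cases h : m = i
      · simp [h, hi]
      · simp [h]
    have h3 : ∀ φ : (ι → A) → ℝ, onAt i (1 - J) *ᵥ φ = φ - onAt i J *ᵥ φ := by
      intro φ
      funext x
      simp [onAt_mulVec, sub_mul, Finset.sum_sub_distrib, one_apply]
    have h4 : (onAt i J)ᵀ = onAt i J := by
      rw [onAt, tens_transpose]
      congr 1
      funext m
      split_ifs <;> simp [hs]
    have h5 : onAt i J * onAt i J = onAt i J := by
      rw [onAt, tens_mul]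
      congr 1
      funext m
      split_ifs <;> simp [hp]
    have h6 : (projOn S J)ᵀ = projOn S J := by
      rw [projOn, tens_transpose]
      congr 1
      funext m
      split_ifs <;> simp [hs]
    have h7 : projOn S J * projOn S J = projOn S J := by
      rw [projOn, tens_mul]
      congr 1
      funext m
      split_ifs <;> simp [hQ]
    have h8 := proj_sq_add h4 h5 (projOn S J *ᵥ χ)
    have h9 := proj_sq_add h6 h7 (onAt i J *ᵥ χ)
    have h10 := dot_self_nonneg (onAt i J *ᵥ χ - projOn S J *ᵥ onAt i J *ᵥ χ)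
    rw [h1, ← mulVec_mulVec, h3]
    rw [mulVec_mulVec χ (onAt i J), h2, ← mulVec_mulVec] at h8 ⊢
    linarith

end Vale.Agent.P370
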