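import Vale.Agent.P370.KReal
import Vale.Agent.P370.Tensor
import Vale.Agent.P370.QutritA

/-!
From qubits to qutrits with a penalty on the uniform state.
-/

namespace Vale.Agent.P370

open Matrix Function

/-- Diagonal qutrit operators whose compressions are the one-qubit operators. -/
noncomputable def dg : ℕ → Fin 3 → ℝ
  | 0 => ![1, 1, 1]
  | 1 => ![0, 0, 3 / 2]
  | 2 => ![√3, -√3, 0]
  | 3 => ![1, 1, -2]
  | _ => ![(√3 + 1) / √2, (-√3 + 1) / √2, -2 / √2]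

/-- The value at a position given as a natural number. -/
def hat {M : ℕ} (h : Fin M → Fin 3) (i : ℕ) : Fin 3 := if hi : i < M then h ⟨i, hi⟩ else 0

/-- The diagonal interaction of a list of terms. -/
noncomputable def qW {M : ℕ} (H : List Term) (h : Fin M → Fin 3) : ℝ :=
  (H.map fun t => (t.1 : ℝ) * (dg t.2.1.2 (hat h t.2.1.1) * dg t.2.2.2 (hat h t.2.2.1))).sum

lemma abs_dg_le (P : ℕ) (a : Fin 3) : |dg P a| ≤ 2 := by
  have h2 : (1.4 : ℝ) ≤ √2 := Real.le_sqrt_of_sq_le (by norm_num)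
  have h3 : √3 ≤ (1.8 : ℝ) := Real.sqrt_le_iff.2 ⟨by norm_num, by norm_num⟩
  have h3' : (0 : ℝ) ≤ √3 := Real.sqrt_nonneg _
  have h0 : (0 : ℝ) < √2 := by linarith
  rw [abs_le]
  match P with
  | 0 => fin_cases a <;> simp [dg] <;> norm_num
  | 1 => fin_cases a <;> simp [dg] <;> norm_num
  | 2 => fin_cases a <;> simp [dg] <;> constructor <;> linarith
  | 3 => fin_cases a <;> simp [dg] <;> norm_num
  | k + 4 =>
    fin_cases a <;> simp only [dg] <;> simp <;> rw [le_div_iff₀ h0, div_le_iff₀ h0] <;>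
      constructor <;> linarith

/-- The embedding of a qubit into a qutrit. -/
noncomputable def emb : Matrix (Fin 3) (Fin 2) ℝ :=
  !![1 / √2, 1 / (√2 * √3); -1 / √2, 1 / (√2 * √3); 0, -2 / (√2 * √3)]

/-- The projection on the uniform state. -/
noncomputable def unif : Matrix (Fin 3) (Fin 3) ℝ := fun _ _ => 1 / 3

lemma emb_dg (P : ℕ) : embᵀ * diagonal (dg P) * emb = of (pauli P) := by
  have h2 : (√2 : ℝ) ^ 2 = 2 := Real.sq_sqrt (by norm_num)
  have h3 : (√3 : ℝ) ^ 2 = 3 := Real.sq_sqrt (by norm_num)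
  have h2' : (√2 : ℝ) ≠ 0 := by positivity
  have h3' : (√3 : ℝ) ≠ 0 := by positivity
  ext a b
  rw [Matrix.mul_apply]
  simp only [mul_diagonal, transpose_apply, Fin.sum_univ_three]
  match P with
  | 0 => fin_cases a <;> fin_cases b <;> simp [dg, emb, pauli] <;> field_simp <;> grind
  | 1 => fin_cases a <;> fin_cases b <;> simp [dg, emb, pauli] <;> field_simp <;> grind
  | 2 => fin_cases a <;> fin_cases b <;> simp [dg, emb, pauli] <;> field_simp <;> grind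
  | 3 => fin_cases a <;> fin_cases b <;> simp [dg, emb, pauli] <;> field_simp <;> grind
  | k + 4 => fin_cases a <;> fin_cases b <;> simp [dg, emb, pauli] <;> field_simp <;> grind

lemma emb_emb : embᵀ * emb = 1 := by
  have h := emb_dg 0
  have h1 : diagonal (dg 0) = 1 := by
    ext a b
    fin_cases a <;> fin_cases b <;> simp [dg]
  rw [h1, Matrix.mul_one] at h
  rw [h]
  ext a b
  simp [pauli, one_apply]

lemma emb_emb' : emb * embᵀ = 1 - unif := by
  have h2 : (√2 : ℝ) ^ 2 = 2 := Real.sq_sqrt (by norm_num)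
  have h3 : (√3 : ℝ) ^ 2 = 3 := Real.sq_sqrt (by norm_num)
  have h2' : (√2 : ℝ) ≠ 0 := by positivity
  have h3' : (√3 : ℝ) ≠ 0 := by positivity
  ext a b
  rw [Matrix.mul_apply]
  simp only [transpose_apply, Fin.sum_univ_two]
  fin_cases a <;> fin_cases b <;> simp [emb, unif] <;> field_simp <;> grind

lemma unif_emb : unif * emb = 0 := by
  ext a b
  rw [Matrix.mul_apply]
  simp only [Fin.sum_univ_three]
  fin_cases b <;> simp [emb, unif] <;> ring

lemma unif_unif : unif * unif = unif := by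
  ext a b
  rw [Matrix.mul_apply]
  simp [unif]

variable {M : ℕ}

lemma ract_eq (i : Fin M) (P : ℕ) (ψ : RS M) : ract (i, P) ψ = onAt i (of (pauli P)) *ᵥ ψ := by
  funext x
  simp [ract, onAt_mulVec]

/-- The embedding of qubit states into qutrit states. -/
noncomputable def embM (M : ℕ) : Matrix (Fin M → Fin 3) (Fin M → Fin 2) ℝ := tens fun _ => emb

lemma embM_sq (ψ : RS M) : ∑ x, (embM M *ᵥ ψ) x ^ 2 = ip ψ ψ := by
  have h : (embM M *ᵥ ψ) ⬝ᵥ (embM M *ᵥ ψ) = ψ ⬝ᵥ ψ := by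
    rw [dotProduct_mulVec, ← mulVec_transpose, mulVec_mulVec, embM, tens_transpose, tens_mul]
    simp only [emb_emb, tens_one, one_mulVec]
  simpa only [dotProduct, ip, sq] using h

lemma unif_sq (χ : (Fin M → Fin 3) → ℝ) (m : Fin M) :
    ∑ h, ((∑ b, χ (update h m b)) / 3) ^ 2 = (onAt m unif *ᵥ χ) ⬝ᵥ (onAt m unif *ᵥ χ) := by
  refine Finset.sum_congr rfl fun h _ => ?_
  rw [onAt_mulVec, sq]
  simp only [unif, ← Finset.mul_sum]
  ring

lemma unif_embM (m : Fin M) : onAt m unif * embM M = 0 := by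
  rw [onAt, embM, tens_mul]
  ext x y
  exact Finset.prod_eq_zero (Finset.mem_univ m) (by simp [unif_emb])

lemma dot_mulVec_mulVec {A B : Type} [Fintype A] [Fintype B] (X Y : Matrix A B ℝ) (u v : B → ℝ) :
    (X *ᵥ u) ⬝ᵥ (Y *ᵥ v) = u ⬝ᵥ ((Xᵀ * Y) *ᵥ v) := by
  rw [← mulVec_mulVec, dotProduct_mulVec u, vecMul_transpose]

lemma embM_term {i j : Fin M} (hij : i ≠ j) (P P' : ℕ) (ψ : RS M) :
    ∑ h, dg P (h i) * dg P' (h j) * (embM M *ᵥ ψ) h ^ 2 = ip (ract (i, P) ψ) (ract (j, P') ψ) := by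
  have h1 : (embM M)ᵀ * (diagonal fun h : Fin M → Fin 3 => dg P (h i) * dg P' (h j)) * embM M =
      (onAt i (of (pauli P)))ᵀ * onAt j (of (pauli P')) := by
    have h2 : (fun h : Fin M → Fin 3 => dg P (h i) * dg P' (h j)) = fun h => ∏ m,
        (if m = i then dg P else if m = j then dg P' else 1) (h m) := by
      funext h
      rw [Finset.prod_eq_mul i j hij]
      · simp [hij.symm]
      · intro m _ hm
        simp [hm.1, hm.2]
      · simp
      · simp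
    have h3 : (of (pauli P))ᵀ = of (pauli P) := by
      rw [← emb_dg]
      simp [transpose_mul, Matrix.mul_assoc]
    rw [h2, ← tens_diag, embM, tens_transpose, tens_mul, tens_mul, onAt, onAt, tens_transpose,
      tens_mul]
    congr 1
    funext m
    by_cases hi : m = i
    · simp [hi, hij, emb_dg, h3]
    · by_cases hj : m = j
      · simp [hj, hij.symm, emb_dg]
      · have h4 : diagonal (1 : Fin 3 → ℝ) = 1 := diagonal_one
        simp [hi, hj, h4, emb_emb]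
  rw [ract_eq, ract_eq]
  have h5 : (onAt i (of (pauli P)) *ᵥ ψ) ⬝ᵥ (onAt j (of (pauli P')) *ᵥ ψ) =
      (embM M *ᵥ ψ) ⬝ᵥ ((diagonal fun h : Fin M → Fin 3 => dg P (h i) * dg P' (h j)) *ᵥ
        (embM M *ᵥ ψ)) := by
    rw [mulVec_mulVec, dot_mulVec_mulVec, dot_mulVec_mulVec, ← h1, Matrix.mul_assoc]
  refine Eq.trans ?_ h5.symm
  refine Finset.sum_congr rfl fun h _ => ?_
  rw [mulVec_diagonal]
  ring

lemma embM_qW (H : List Term) (hH : ∀ t ∈ H, t.2.1.1 < M ∧ t.2.2.1 < M ∧ t.2.1.1 ≠ t.2.2.1)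
    (ψ : RS M) : ∑ h, qW H h * (embM M *ᵥ ψ) h ^ 2 = lhE H ψ := by
  induction H with
  | nil => simp [qW, lhE]
  | cons t H ih =>
    obtain ⟨h1, h2, h3⟩ := hH t (by simp)
    have h4 := embM_term (i := ⟨_, h1⟩) (j := ⟨_, h2⟩) (by simpa using h3) t.2.1.2 t.2.2.2 ψ
    have h5 := ih fun t ht => hH t (by simp [ht])
    simp only [qW, lhE, List.map_cons, List.sum_cons, add_mul, Finset.sum_add_distrib] at h5 ⊢
    rw [h5]
    congr 1
    simp only [hat, h1, h2, dite_true, mul_assoc (t.1 : ℝ), ← Finset.mul_sum]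
    rw [h4]

lemma abs_qW_le (H : List Term) (h : Fin M → Fin 3) :
    |qW H h| ≤ 4 * ((H.map fun t => t.1.natAbs).sum : ℕ) := by
  induction H with
  | nil => simp [qW]
  | cons t H ih =>
    simp only [qW, List.map_cons, List.sum_cons] at ih ⊢
    refine (abs_add_le _ _).trans ?_
    have h1 : |dg t.2.1.2 (hat h t.2.1.1) * dg t.2.2.2 (hat h t.2.2.1)| ≤ 4 := by
      rw [abs_mul]
      exact (mul_le_mul (abs_dg_le _ _) (abs_dg_le _ _) (abs_nonneg _) (by norm_num)).trans_eq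
        (by norm_num)
    rw [abs_mul, Nat.cast_add, Nat.cast_natAbs, Int.cast_abs]
    have h2 := mul_le_mul_of_nonneg_left h1 (abs_nonneg (t.1 : ℝ))
    linarith

theorem qutrit_yes {I : LH} (h : I.WF) (hy : I.Yes) (T : ℝ) :
    ∃ χ : (Fin I.2.1 → Fin 3) → ℝ, 0 < ∑ x, χ x ^ 2 ∧ qtE T (qW I.2.2) χ ≤ 2 * ∑ x, χ x ^ 2 := by
  obtain ⟨ψ, h0, h1⟩ := hy
  refine ⟨embM _ *ᵥ ψ, by rwa [embM_sq], ?_⟩
  rw [qtE, embM_qW _ h.2.2.2, embM_sq]
  simp only [unif_sq, mulVec_mulVec, unif_embM]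
  simpa using h1

lemma split_sq {W w a b : ℝ} (h : |W| ≤ w) :
    W * a ^ 2 - a ^ 2 / 10 - (10 * w ^ 2 + w) * b ^ 2 ≤ W * (a + b) ^ 2 := by
  have h1 : W ^ 2 ≤ w ^ 2 := sq_le_sq' (abs_le.1 h).1 (abs_le.1 h).2
  have h2 := mul_le_mul_of_nonneg_right h1 (sq_nonneg b)
  have h3 := mul_le_mul_of_nonneg_right (abs_le.1 h).1 (sq_nonneg b)
  nlinarith [sq_nonneg (a + 10 * W * b)]

theorem qutrit_no {I : LH} (h : I.WF) (hn : I.No) {T : ℝ} (hT : 200 * (I.1.length : ℝ) ^ 2 ≤ T)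
    (χ : (Fin I.2.1 → Fin 3) → ℝ) : 29 / 10 * ∑ x, χ x ^ 2 ≤ qtE T (qW I.2.2) χ := by
  obtain ⟨h1, h2, h3, h4⟩ := h
  have hP : projOn Finset.univ unif = embM I.2.1 * (embM I.2.1)ᵀ := by
    rw [embM, tens_transpose, tens_mul, projOn]
    simp [emb_emb']
  have hs : (embM I.2.1 * (embM I.2.1)ᵀ)ᵀ = embM I.2.1 * (embM I.2.1)ᵀ := by
    rw [transpose_mul, transpose_transpose]
  have hp : embM I.2.1 * (embM I.2.1)ᵀ * (embM I.2.1 * (embM I.2.1)ᵀ) =
      embM I.2.1 * (embM I.2.1)ᵀ := by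
    rw [embM, tens_transpose, tens_mul, tens_mul]
    simp only [Matrix.mul_assoc, ← Matrix.mul_assoc embᵀ, emb_emb, Matrix.one_mul]
  have k1 := variance_le (J := unif) rfl unif_unif χ Finset.univ
  have k2 := proj_sq_add hs hp χ
  rw [hP] at k1
  rw [← mulVec_mulVec] at k1 k2
  have k3 := hn ((embM I.2.1)ᵀ *ᵥ χ)
  rw [← embM_qW _ h4, ← embM_sq] at k3
  set χ₀ := embM I.2.1 *ᵥ (embM I.2.1)ᵀ *ᵥ χ
  have hn1 : (1 : ℝ) ≤ I.1.length := by exact_mod_cast h1.trans h2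
  have k4 : ∀ x : Fin I.2.1 → Fin 3, |qW I.2.2 x| ≤ 4 * (I.1.length : ℝ) := fun x =>
    (abs_qW_le _ _).trans (mul_le_mul_of_nonneg_left (by exact_mod_cast h3) (by norm_num))
  have k5 : ∑ x, (qW I.2.2 x * χ₀ x ^ 2 - χ₀ x ^ 2 / 10 -
      (10 * (4 * (I.1.length : ℝ)) ^ 2 + 4 * I.1.length) * (χ - χ₀) x ^ 2) ≤
      ∑ x, qW I.2.2 x * χ x ^ 2 := by
    refine Finset.sum_le_sum fun x _ => (split_sq (k4 x)).trans_eq ?_
    simp
  rw [Finset.sum_sub_distrib, Finset.sum_sub_distrib, ← Finset.mul_sum, ← Finset.sum_div] at k5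
  have k6 := dot_self_nonneg (χ - χ₀)
  rw [qtE]
  simp only [unif_sq]
  simp only [dotProduct, ← sq] at k1 k2 k6 ⊢
  generalize ∑ m, ∑ x, (onAt m unif *ᵥ χ) x ^ 2 = S at *
  generalize ∑ x, (χ - χ₀) x ^ 2 = b at *
  have k7 : T * b ≤ T * S := mul_le_mul_of_nonneg_left (by linarith) (by nlinarith)
  have k8 : (10 * (4 * (I.1.length : ℝ)) ^ 2 + 4 * I.1.length + 29 / 10) * b ≤ T * b :=
    mul_le_mul_of_nonneg_right (by nlinarith) k6
  linarith

end Vale.Agent.P370
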