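import Vale.Agent.P370.Mass
import Vale.Agent.P370.Newton

/-!
A calculus of derivative bounds.
-/

namespace Vale.Agent.P370

open MeasureTheory Set
open scoped ContDiff

/-- Smooth, with derivatives up to order `r` dominated by `M ^ j * g` (general spaces). -/
def LG {D E : Type} [NormedAddCommGroup D] [NormedSpace ℝ D] [NormedAddCommGroup E]
    [NormedSpace ℝ E] (r : ℕ) (M : ℝ) (f : D → E) (g : D → ℝ) : Prop :=
  ContDiff ℝ ∞ f ∧ ∀ j ≤ r, ∀ x, ‖iteratedFDeriv ℝ j f x‖ ≤ M ^ j * g x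

theorem rg_le (j : ℕ) : (j : WithTop ℕ∞) ≤ ∞ := by exact_mod_cast le_top

section General

variable {D E : Type} [NormedAddCommGroup D] [NormedSpace ℝ D] [NormedAddCommGroup E]
  [NormedSpace ℝ E] {r : ℕ} {M M' : ℝ} {f f' : D → E} {g g' : D → ℝ}

theorem LG.norm_le (h : LG r M f g) (x : D) : ‖f x‖ ≤ g x := by
  have := h.2 0 (Nat.zero_le _) x
  rwa [norm_iteratedFDeriv_zero, pow_zero, one_mul] at this

theorem LG.nonneg (h : LG r M f g) (x : D) : 0 ≤ g x := (norm_nonneg _).trans (h.norm_le x)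

theorem LG.mono (h : LG r M f g) {r' : ℕ} (hr : r' ≤ r) (h0 : 0 ≤ M) (hM : M ≤ M')
    (hg : ∀ x, g x ≤ g' x) : LG r' M' f g' :=
  ⟨h.1, fun j hj x => (h.2 j (hj.trans hr) x).trans
    (mul_le_mul (pow_le_pow_left₀ h0 hM j) (hg x) (h.nonneg x) (pow_nonneg (h0.trans hM) j))⟩

theorem LG.congr (h : LG r M f g) (hf : ∀ x, f' x = f x) : LG r M f' g := by
  rwa [show f' = f from funext hf]

theorem LG.add (h : LG r M f g) (h' : LG r M f' g') :
    LG r M (fun x => f x + f' x) (fun x => g x + g' x) := by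
  refine ⟨h.1.add h'.1, fun j hj x => ?_⟩
  rw [fun_iteratedFDeriv_add_apply (h.1.of_le (rg_le j)).contDiffAt (h'.1.of_le (rg_le j)).contDiffAt,
    mul_add]
  exact (norm_add_le _ _).trans (add_le_add (h.2 j hj x) (h'.2 j hj x))

theorem LG.smul {u : D → ℝ} (h : LG r M u g) (h' : LG r M' f g') :
    LG r (M + M') (fun x => u x • f x) (fun x => g x * g' x) := by
  refine ⟨h.1.smul h'.1, fun j hj x => ?_⟩
  refine (norm_iteratedFDeriv_smul_le h.1 h'.1 x (rg_le j)).trans ?_
  rw [add_pow, Finset.sum_mul]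
  refine Finset.sum_le_sum fun i hi => ?_
  have hi' : i ≤ j := Nat.lt_succ_iff.1 (Finset.mem_range.1 hi)
  have a1 := h.2 i (hi'.trans hj) x
  have a2 := h'.2 (j - i) ((Nat.sub_le _ _).trans hj) x
  calc (j.choose i : ℝ) * ‖iteratedFDeriv ℝ i u x‖ * ‖iteratedFDeriv ℝ (j - i) f x‖
      ≤ (j.choose i : ℝ) * (M ^ i * g x) * (M' ^ (j - i) * g' x) :=
        mul_le_mul (mul_le_mul_of_nonneg_left a1 (Nat.cast_nonneg _)) a2 (norm_nonneg _)
          (mul_nonneg (Nat.cast_nonneg _) ((norm_nonneg _).trans a1))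
    _ = _ := by ring

theorem LG.mul {u v : D → ℝ} (h : LG r M u g) (h' : LG r M' v g') :
    LG r (M + M') (fun x => u x * v x) (fun x => g x * g' x) := h.smul h'

theorem lg_const (r : ℕ) (hM : 0 ≤ M) (c : E) : LG r M (fun _ : D => c) (fun _ => ‖c‖) := by
  refine ⟨contDiff_const, fun j _ x => ?_⟩
  rcases Nat.eq_zero_or_pos j with rfl | hj
  · simp
  · rw [iteratedFDeriv_const_of_ne hj.ne']
    simp only [Pi.zero_apply, norm_zero]
    positivity

theorem LG.const_mul {u : D → ℝ} (h : LG r M u g) (c : ℝ) :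
    LG r M (fun x => c * u x) (fun x => |c| * g x) := by
  simpa using (lg_const r le_rfl c).mul h

theorem LG.sub {u v : D → ℝ} (h : LG r M u g) (h' : LG r M v g') :
    LG r M (fun x => u x - v x) (fun x => g x + g' x) := by
  have := h.add (h'.const_mul (-1))
  simpa [sub_eq_add_neg] using this

theorem LG.fderiv (h : LG (r + 1) M f g) : LG r M (fderiv ℝ f) (fun x => M * g x) := by
  refine ⟨h.1.fderiv_right le_rfl, fun j hj x => ?_⟩
  rw [norm_iteratedFDeriv_fderiv, ← mul_assoc, ← pow_succ]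
  exact h.2 (j + 1) (Nat.succ_le_succ hj) x

theorem lg_zero (hf : ContDiff ℝ ∞ f) (h0 : ∀ x, ‖f x‖ ≤ g x) : LG 0 M f g := by
  refine ⟨hf, fun j hj x => ?_⟩
  obtain rfl := Nat.le_zero.1 hj
  simpa using h0 x

theorem lg_succ (hf : ContDiff ℝ ∞ f) (h0 : ∀ x, ‖f x‖ ≤ g x)
    (h : LG r M (fderiv ℝ f) (fun x => M * g x)) : LG (r + 1) M f g := by
  refine ⟨hf, fun j hj x => ?_⟩
  rcases j with _ | j
  · simpa using h0 x
  · rw [← norm_iteratedFDeriv_fderiv, pow_succ, mul_assoc]
    exact h.2 j (Nat.le_of_succ_le_succ hj) x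

theorem LG.inv {u : D → ℝ} (h : LG r M u u) (hM : 0 ≤ M) (hp : ∀ x, 0 < u x) :
    LG r (3 ^ r * M) (fun x => (u x)⁻¹) (fun x => (u x)⁻¹) := by
  have hs : ContDiff ℝ ∞ fun x => (u x)⁻¹ := h.1.inv fun x => (hp x).ne'
  have h0 : ∀ x, ‖(u x)⁻¹‖ ≤ (u x)⁻¹ := fun x => (Real.norm_of_nonneg (inv_pos.2 (hp x)).le).le
  induction r with
  | zero => exact lg_zero hs h0
  | succ r ih =>
    have a1 := ih (h.mono (Nat.le_succ r) hM le_rfl fun _ => le_rfl)
    have a2 := ((a1.mul a1).const_mul (-1)).smul h.fderiv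
    have h3 : (1 : ℝ) ≤ 3 ^ r := one_le_pow₀ (by norm_num)
    have hMM : 3 ^ r * M + 3 ^ r * M + M ≤ 3 ^ (r + 1) * M := by
      rw [pow_succ]; nlinarith
    refine lg_succ hs h0 ((a2.mono le_rfl (by positivity) hMM fun x => ?_).congr fun x => ?_)
    · have := hp x
      have e : |(-1 : ℝ)| * ((u x)⁻¹ * (u x)⁻¹) * (M * u x) = M * (u x)⁻¹ := by
        rw [abs_neg, abs_one]; field_simp
      rw [e]
      refine mul_le_mul_of_nonneg_right (le_trans ?_ hMM) (by positivity)
      nlinarith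
    · have hd := (h.1.differentiable (by simp) x).hasFDerivAt
      have := ((hasDerivAt_inv (hp x).ne').comp_hasFDerivAt x hd).fderiv
      refine this.trans ?_
      rw [sq, mul_inv, neg_one_mul]

theorem LG.comp_aff {D' : Type} [NormedAddCommGroup D'] [NormedSpace ℝ D'] (h : LG r M f g)
    (L : D' →L[ℝ] D) (hL : ‖L‖ ≤ 1) (c : D) :
    LG r M (fun x => f (L x - c)) (fun x => g (L x - c)) := by
  have h1 : ContDiff ℝ ∞ fun y => f (y - c) := h.1.comp (contDiff_id.sub contDiff_const)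
  refine ⟨h1.comp L.contDiff, fun j hj x => ?_⟩
  have := L.iteratedFDeriv_comp_right h1 x (rg_le j)
  rw [show (fun x => f (L x - c)) = (fun y => f (y - c)) ∘ L from rfl, this]
  refine (ContinuousMultilinearMap.norm_compContinuousLinearMap_le _ _).trans ?_
  rw [iteratedFDeriv_comp_sub]
  refine (mul_le_of_le_one_right (norm_nonneg _) ?_).trans (h.2 j hj _)
  exact Finset.prod_le_one (fun _ _ => norm_nonneg _) fun _ _ => hL

theorem LG.list_sum {ι : Type} (hM : 0 ≤ M) (l : List ι) {F : ι → D → ℝ}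
    (h : ∀ i ∈ l, LG r M (F i) (F i)) :
    LG r M (fun x => (l.map fun i => F i x).sum) (fun x => (l.map fun i => F i x).sum) := by
  induction l with
  | nil => simpa using lg_const (D := D) r hM (0 : ℝ)
  | cons a l ih =>
    simp only [List.map_cons, List.sum_cons]
    exact (h a List.mem_cons_self).add (ih fun i hi => h i (List.mem_cons_of_mem _ hi))

end General

section One

variable {r : ℕ} {M : ℝ} {f g : ℝ → ℝ}

theorem lg_one (hf : ContDiff ℝ ∞ f) (h : ∀ j ≤ r, ∀ t, |iteratedDeriv j f t| ≤ M ^ j * g t) :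
    LG r M f g :=
  ⟨hf, fun j hj t => by rw [norm_iteratedFDeriv_eq_norm_iteratedDeriv]; exact h j hj t⟩

theorem lg_succ1 {f' : ℝ → ℝ} (hf : ContDiff ℝ ∞ f) (hd : ∀ t, HasDerivAt f (f' t) t)
    (h0 : ∀ t, |f t| ≤ g t) (h : LG r M f' (fun t => M * g t)) : LG (r + 1) M f g := by
  refine lg_one hf fun j hj t => ?_
  rcases j with _ | j
  · simpa using h0 t
  · have := h.2 j (Nat.le_of_succ_le_succ hj) t
    rw [norm_iteratedFDeriv_eq_norm_iteratedDeriv] at this
    rw [iteratedDeriv_succ', show deriv f = f' from funext fun t => (hd t).deriv, pow_succ,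
      mul_assoc]
    exact this

theorem lg_exp {W : ℝ → ℝ} (hf : ContDiff ℝ ∞ f) (hd : ∀ t, HasDerivAt f (W t) t) (hM : 0 ≤ M)
    (h : LG r M W fun _ => M) :
    LG r (r * M) (fun t => Real.exp (f t)) (fun t => Real.exp (f t)) := by
  have hs : ContDiff ℝ ∞ fun t => Real.exp (f t) := hf.exp
  have h0 : ∀ t, |Real.exp (f t)| ≤ Real.exp (f t) := fun t => (abs_of_pos (Real.exp_pos _)).le
  induction r with
  | zero => exact lg_zero hs h0
  | succ r ih =>
    have h' := h.mono (Nat.le_succ r) hM le_rfl fun _ => le_rfl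
    have a1 := (ih h').mul h'
    have hr : (0 : ℝ) ≤ r := Nat.cast_nonneg r
    refine lg_succ1 hs (fun t => (hd t).exp) h0 (a1.mono le_rfl (by positivity) ?_ fun t => ?_)
    · push_cast; linarith
    · push_cast
      have := Real.exp_pos (f t)
      nlinarith [mul_nonneg (mul_nonneg hr hM) this.le]

theorem lg_pp (r k : ℕ) : LG r (3 ^ r * (2 * k)) (pp ℝ k) (pp ℝ k) := by
  have hM : (0 : ℝ) ≤ 2 * k := by positivity
  have he : ∀ t : ℝ, 0 ≤ t ^ (2 * k) := fun t => by rw [pow_mul]; positivity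
  have h1 : LG r (2 * k : ℝ) (fun t : ℝ => 1 + t ^ (2 * k)) (fun t : ℝ => 1 + t ^ (2 * k)) := by
    refine lg_one (by fun_prop) fun j _ t => ?_
    rcases Nat.eq_zero_or_pos j with rfl | hj
    · simp only [iteratedDeriv_zero, pow_zero, one_mul]
      exact (abs_of_nonneg (by linarith [he t])).le
    · rw [iteratedDeriv_const_add hj, iteratedDeriv_pow, abs_mul, Nat.abs_cast, abs_pow]
      refine mul_le_mul ?_ ?_ (by positivity) (by positivity)
      · exact_mod_cast Nat.descFactorial_le_pow (2 * k) j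
      · rcases le_total |t| 1 with ht | ht
        · exact (pow_le_one₀ (abs_nonneg t) ht).trans (by linarith [he t])
        · refine (pow_le_pow_right₀ ht (Nat.sub_le _ _)).trans ?_
          rw [pow_mul, sq_abs, ← pow_mul]
          linarith
  have := h1.inv hM fun t => by linarith [he t]
  have e : pp ℝ k = fun t : ℝ => (1 + t ^ (2 * k))⁻¹ := funext fun t => one_div _
  rw [e]
  exact this

theorem LG.coord (h : LG r M f g) (k : Fin 3) (c : ℝ) {s : ℝ} (hs : 1 ≤ s) :
    LG r M (fun x : Pt => f ((x k - c) / s)) (fun x => g ((x k - c) / s)) := by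
  have hL : ‖(s⁻¹ • ContinuousLinearMap.proj k : Pt →L[ℝ] ℝ)‖ ≤ 1 := by
    refine ContinuousLinearMap.opNorm_le_bound _ zero_le_one fun x => ?_
    rw [smul_apply, norm_smul, ContinuousLinearMap.proj_apply]
    refine mul_le_mul ?_ (norm_le_pi_norm x k) (norm_nonneg _) zero_le_one
    rw [norm_inv, Real.norm_of_nonneg (by linarith)]
    exact inv_le_one_of_one_le₀ hs
  have := h.comp_aff _ hL (c / s)
  have e : ∀ x : Pt, (s⁻¹ • ContinuousLinearMap.proj k : Pt →L[ℝ] ℝ) x - c / s = (x k - c) / s := by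
    intro x
    rw [smul_apply, ContinuousLinearMap.proj_apply, smul_eq_mul]
    ring
  simpa only [e] using this

theorem LG.coord1 (h : LG r M f g) (k : Fin 3) (c : ℝ) :
    LG r M (fun x : Pt => f (x k - c)) (fun x => g (x k - c)) := by
  simpa only [div_one] using h.coord k c le_rfl

theorem LG.coord0 (h : LG r M f g) (k : Fin 3) :
    LG r M (fun x : Pt => f (x k)) (fun x => g (x k)) := by
  simpa only [sub_zero] using h.coord1 k 0

end One

section Space

variable {r : ℕ} {M : ℝ} {f g : Pt → ℝ}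

theorem LG.pd (h : LG (r + 1) M f g) (k : Fin 3) : LG r M (pd k f) (fun x => M * g x) := by
  have h1 := h.fderiv
  refine ⟨h1.1.clm_apply contDiff_const, fun j hj x => ?_⟩
  refine (norm_iteratedFDeriv_clm_apply_const h1.1.contDiffAt (rg_le j)).trans ?_
  have : ‖ek k‖ = 1 := by simp [ek, Pi.norm_single]
  rw [this, one_mul]
  exact h1.2 j hj x

theorem LG.lap (h : LG (r + 2) M f g) : LG r M (lap f) (fun x => 3 * (M ^ 2 * g x)) := by
  have h1 := (((h.pd 0).pd 0).add ((h.pd 1).pd 1)).add ((h.pd 2).pd 2)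
  refine ⟨?_, fun j hj x => ?_⟩
  · refine (h1.congr fun x => ?_).1
    exact Fin.sum_univ_three _
  · have := (h1.congr (f' := P370.lap f) fun x => Fin.sum_univ_three _).2 j hj x
    refine this.trans (le_of_eq ?_)
    ring

theorem LG.gsq (h : LG (r + 1) M f g) :
    LG r (M + M) (gsq f) (fun x => 3 * (M ^ 2 * g x ^ 2)) := by
  have h1 := (((h.pd 0).mul (h.pd 0)).add ((h.pd 1).mul (h.pd 1))).add ((h.pd 2).mul (h.pd 2))
  have h2 := h1.congr (f' := P370.gsq f) fun x => by
    unfold P370.gsq; rw [Fin.sum_univ_three]; ring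
  refine ⟨h2.1, fun j hj x => (h2.2 j hj x).trans (le_of_eq ?_)⟩
  ring

theorem LG.db (h : LG r M f g) (hM : 1 ≤ M) {B : ℝ} (hg : ∀ x, M ^ r * g x ≤ B) : DB r f B :=
  ⟨h.1, fun j hj x => (h.2 j hj x).trans ((mul_le_mul_of_nonneg_right
    (pow_le_pow_right₀ hM hj) (h.nonneg x)).trans (hg x))⟩

end Space

end Vale.Agent.P370
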