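import Vale.Agent.P370.RegA

/-!
Derivatives of the weight and of the planar potential.
-/

namespace Vale.Agent.P370

open MeasureTheory Set
open scoped ContDiff

theorem rg_even (k : ℕ) (t : ℝ) : 0 < 1 + t ^ (2 * k) := by
  rw [pow_mul]; positivity

lemma hasDerivAt_pp (k : ℕ) (t : ℝ) : HasDerivAt (pp ℝ k) (pp1 ℝ k t) t := by
  have h := ((hasDerivAt_pow (2 * k) t).const_add 1).inv (rg_even k t).ne'
  have e : pp ℝ k = (fun t : ℝ => 1 + t ^ (2 * k))⁻¹ := funext fun t => one_div _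
  rw [e]
  refine h.congr_deriv ?_
  unfold pp1 pp
  push_cast
  rw [one_div, inv_pow, neg_div, div_eq_mul_inv]

lemma hasDerivAt_pp1 {k : ℕ} (hk : 1 ≤ k) (t : ℝ) : HasDerivAt (pp1 ℝ k) (pp2 ℝ k t) t := by
  have h := ((((hasDerivAt_pow (2 * k - 1) t).const_mul (2 * k : ℝ))).mul
    ((hasDerivAt_pp k t).pow 2)).neg
  refine h.congr_deriv ?_
  obtain ⟨j, rfl⟩ := Nat.exists_eq_add_of_le' hk
  unfold pp2 pp1
  simp only [show 2 * (j + 1) - 1 = 2 * j + 1 by omega, show 2 * (j + 1) - 2 = 2 * j by omega,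
    show 4 * (j + 1) - 2 = 4 * j + 2 by omega, Nat.add_sub_cancel, Pi.pow_apply]
  push_cast
  ring

theorem rg_fsum (fs : List Feat) {P Q P' Q' : ℝ → ℝ → ℝ}
    (hP : ∀ h t, HasDerivAt (fun t => P t h) (P' t h) t)
    (hQ : ∀ h t, HasDerivAt (fun t => Q t h) (Q' t h) t) (x : Pt) :
    HasFDerivAt (fun x : Pt => fsum ℝ fs P Q (x 0) (x 1))
      (fsum ℝ fs (fun t h => P' t h / h) Q (x 0) (x 1) • (ContinuousLinearMap.proj 0 : Pt →L[ℝ] ℝ) +
        fsum ℝ fs P (fun t h => Q' t h / h) (x 0) (x 1) • (ContinuousLinearMap.proj 1 : Pt →L[ℝ] ℝ))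
      x := by
  unfold fsum
  induction fs with
  | nil => simpa using hasFDerivAt_const (0 : ℝ) x
  | cons f fs ih =>
    simp only [List.map_cons, List.sum_cons]
    have c : ∀ (k : Fin 3) (a h : ℝ), HasFDerivAt (fun x : Pt => (x k - a) / h)
        (h⁻¹ • (ContinuousLinearMap.proj k : Pt →L[ℝ] ℝ)) x := fun k a h => by
      simpa only [div_eq_mul_inv] using ((hasFDerivAt_apply k x).sub_const a).mul_const h⁻¹
    have a1 := (hP f.2.2.1 _).comp_hasFDerivAt x (c 0 f.2.1 f.2.2.1)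
    have a2 := (hQ f.2.2.2.2 _).comp_hasFDerivAt x (c 1 f.2.2.2.1 f.2.2.2.2)
    refine (((a1.const_mul (f.1 : ℝ)).mul a2).add ih).congr_fderiv ?_
    ext v
    simp only [add_apply, smul_apply, smul_eq_mul, Function.comp_apply]
    ring

theorem rg_pd (fs : List Feat) {P Q P' Q' : ℝ → ℝ → ℝ}
    (hP : ∀ h t, HasDerivAt (fun t => P t h) (P' t h) t)
    (hQ : ∀ h t, HasDerivAt (fun t => Q t h) (Q' t h) t) :
    (pd 0 (fun x : Pt => fsum ℝ fs P Q (x 0) (x 1)) =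
      fun x => fsum ℝ fs (fun t h => P' t h / h) Q (x 0) (x 1)) ∧
    (pd 1 (fun x : Pt => fsum ℝ fs P Q (x 0) (x 1)) =
      fun x => fsum ℝ fs P (fun t h => Q' t h / h) (x 0) (x 1)) ∧
    (pd 2 (fun x : Pt => fsum ℝ fs P Q (x 0) (x 1)) = fun _ => 0) := by
  refine ⟨funext fun x => ?_, funext fun x => ?_, funext fun x => ?_⟩ <;>
    simp [pd, (rg_fsum fs hP hQ x).fderiv, ek]

theorem rg_one_le {G : Geo} (h : (1 : ℝ) ≤ G.n) : 1 ≤ G.n := by exact_mod_cast h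

/-- The planar potential in terms of the derivatives of the weight. -/
theorem v_eq : Ev fun G _ => ∀ x, pd 2 G.m x = 0 ∧
    G.v x = lap G.m x / (4 * G.m x) - gsq G.m x / (8 * G.m x ^ 2) := by
  refine (Ev.const 1).mono fun G _ _ hn x => ?_
  have hk : 1 ≤ G.k := Nat.one_le_pow _ _ (rg_one_le hn)
  have h0 : ∀ h t : ℝ, HasDerivAt (fun t => pp ℝ G.k t) (pp1 ℝ G.k t) t :=
    fun _ t => hasDerivAt_pp _ t
  have h1 : ∀ h t : ℝ, HasDerivAt (fun t => pp1 ℝ G.k t / h) (pp2 ℝ G.k t / h) t :=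
    fun h t => (hasDerivAt_pp1 hk t).div_const h
  obtain ⟨a0, a1, a2⟩ := rg_pd G.feats (P := fun t _ => pp ℝ G.k t) (Q := fun t _ => pp ℝ G.k t)
    h0 h0
  obtain ⟨b0, -, -⟩ := rg_pd G.feats (P := fun t h => pp1 ℝ G.k t / h)
    (Q := fun t _ => pp ℝ G.k t) h1 h0
  obtain ⟨-, c1, -⟩ := rg_pd G.feats (P := fun t _ => pp ℝ G.k t)
    (Q := fun t h => pp1 ℝ G.k t / h) h0 h1
  have hm : G.m = fun x : Pt => fsum ℝ G.feats (fun t _ => pp ℝ G.k t) (fun t _ => pp ℝ G.k t)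
    (x 0) (x 1) := rfl
  have e0 : pd 2 (fun _ : Pt => (0 : ℝ)) x = 0 := by simp [pd]
  refine ⟨by rw [hm, a2], ?_⟩
  unfold lap gsq
  rw [Fin.sum_univ_three, Fin.sum_univ_three]
  conv_rhs => rw [hm, a0, a1, a2, b0, c1, e0]
  simp only [div_div, ← sq, add_zero, ne_eq, OfNat.ofNat_ne_zero, not_false_eq_true, zero_pow]
  rfl

theorem rg_k (G : Geo) : (G.k : ℝ) = (G.n : ℝ) ^ 50 := by simp [Geo.k]

theorem rg_pp {G : Geo} (hn : (40000 : ℝ) ≤ G.n) :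
    LG 8 ((G.n : ℝ) ^ 51 / 3) (pp ℝ G.k) (pp ℝ G.k) := by
  refine (lg_pp 8 G.k).mono le_rfl (by positivity) ?_ fun _ => le_rfl
  rw [rg_k, pow_succ (G.n : ℝ) 50]
  have : 0 < (G.n : ℝ) ^ 50 := by positivity
  nlinarith

theorem m_lg : Ev fun G _ => LG 8 ((G.n : ℝ) ^ 51) G.m G.m := by
  refine ((Ev.const 40000).and feat_shape).mono fun G _ _ ⟨hn, _, _, hf⟩ => ?_
  have hp := rg_pp hn
  have h0 : 0 < (G.n : ℝ) ^ 51 := by positivity
  rw [show G.m = fun x => (G.feats.map fun f => fv G.k f x).sum from funext G.m_eq_list]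
  refine LG.list_sum h0.le _ fun f hf' => ?_
  obtain ⟨f1, -, f3, -, f5, -, -⟩ := hf f hf'
  have a := ((hp.coord 0 f.2.1 (s := f.2.2.1) (by exact_mod_cast f3)).const_mul (f.1 : ℝ)).mul
    (hp.coord 1 f.2.2.2.1 (s := f.2.2.2.2) (by exact_mod_cast f5))
  refine a.mono le_rfl (by positivity) (by linarith) fun x => le_of_eq ?_
  rw [abs_of_pos (by exact_mod_cast f1)]
  rfl

theorem v_lg : Ev fun G _ => LG 6 ((G.n : ℝ) ^ 52) G.v fun _ => 2 * (G.n : ℝ) ^ 102 := by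
  refine ((Ev.const 40000).and (m_lg.and (v_eq.and m_pos))).mono
    fun G _ _ ⟨hn, hm, hv, _, hp⟩ => ?_
  have h0 : 0 < (G.n : ℝ) ^ 51 := by positivity
  have e52 : (G.n : ℝ) ^ 52 = (G.n : ℝ) ^ 51 * G.n := pow_succ _ _
  have e102 : (G.n : ℝ) ^ 102 = ((G.n : ℝ) ^ 51) ^ 2 := by ring
  have hu := (hm.mono (r' := 6) (by norm_num) h0.le le_rfl fun _ => le_rfl).inv h0.le
    fun x => (hp x).1
  have a1 := ((hm.lap.mul hu).const_mul (1 / 4)).mono (M' := (G.n : ℝ) ^ 52) le_rfl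
    (by positivity) (by rw [e52]; nlinarith) fun _ => le_rfl
  have a2 := ((((hm.mono (r' := 7) (by norm_num) h0.le le_rfl fun _ => le_rfl).gsq.mul hu).mul
    hu).const_mul (1 / 8)).mono (M' := (G.n : ℝ) ^ 52) le_rfl
    (by positivity) (by rw [e52]; nlinarith) fun _ => le_rfl
  refine ((a1.sub a2).mono le_rfl (by positivity) le_rfl fun x => ?_).congr fun x => ?_
  · have := (hp x).1
    rw [e102, abs_of_pos (by norm_num), abs_of_pos (by norm_num)]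
    generalize (G.n : ℝ) ^ 51 = M
    field_simp
    nlinarith [sq_nonneg M]
  · have := (hp x).1
    rw [(hv x).2]
    field_simp

theorem v_db : Ev fun G _ => ContDiff ℝ ∞ G.v ∧ ∀ x, |G.v x| ≤ (G.n : ℝ) ^ 105 := by
  refine ((Ev.const 2).and v_lg).mono fun G _ _ ⟨hn, hv⟩ => ⟨hv.1, fun x => ?_⟩
  refine (hv.norm_le x).trans ?_
  calc 2 * (G.n : ℝ) ^ 102 ≤ G.n * (G.n : ℝ) ^ 102 := by gcongr
    _ = (G.n : ℝ) ^ 103 := by ring
    _ ≤ _ := pow_le_pow_right₀ (by linarith) (by norm_num)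

end Vale.Agent.P370
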